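import Mathlib

/-!
# Young's inequality with an exponentially small constant (row 225, S0347)

For all measurable `f h : (Fin m → ℝ) → ℝ≥0∞`, real `g ≥ 2` and `p = 2 g / (g + 1)`:
`∫ (f * h) ^ g ≤ κ ^ m (∫ f ^ p) ^ ((g + 1) / 2) (∫ h ^ p) ^ ((g + 1) / 2)`
with `κ = 55 / 56` and with `κ = 2 √(2 / (g + 1))`.
-/

set_option autoImplicit false

open MeasureTheory Set
open scoped ENNReal

namespace Crest.Agent.R225.Young

/-- **Minkowski's integral inequality** for `lintegral`. -/
theorem minkowski_lintegral {α β : Type*} [MeasurableSpace α] [MeasurableSpace β]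
    {μ : Measure α} {ν : Measure β} [SigmaFinite μ] [SFinite ν] {g : ℝ} (hg : 1 < g)
    {G : α → β → ℝ≥0∞} (hG : Measurable (Function.uncurry G)) :
    ∫⁻ x, (∫⁻ t, G x t ∂ν) ^ g ∂μ ≤ (∫⁻ t, (∫⁻ x, G x t ^ g ∂μ) ^ (1 / g) ∂ν) ^ g := by
  have g0 : 0 < g := by linarith
  set B := ∫⁻ t, (∫⁻ x, G x t ^ g ∂μ) ^ (1 / g) ∂ν with hB
  set Φ : α → ℝ≥0∞ := fun x => ∫⁻ t, G x t ∂ν with hΦ
  have hΦm : Measurable Φ := hG.lintegral_prod_right'
  set S := spanningSets μ with hS
  set Ψ : ℕ → α → ℝ≥0∞ := fun n => (S n).indicator (fun x => min (Φ x) n) with hΨ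
  have hΨm : ∀ n, Measurable (Ψ n) := fun n =>
    (hΦm.min measurable_const).indicator (measurableSet_spanningSets μ n)
  have hΨle : ∀ n x, Ψ n x ≤ Φ x := by
    intro n x
    simp only [hΨ, indicator]
    split_ifs
    · exact min_le_left _ _
    · exact zero_le
  have hconj : g.HolderConjugate (g / (g - 1)) := Real.HolderConjugate.conjExponent hg
  have hq0 : 0 < g / (g - 1) := hconj.symm.pos
  have key : ∀ n, ∫⁻ x, Ψ n x ^ g ∂μ ≤ B ^ g := by
    intro n
    set A := ∫⁻ x, Ψ n x ^ g ∂μ with hA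
    have hAtop : A ≠ ∞ := by
      have h1 : A ≤ ∫⁻ x, (S n).indicator (fun _ => (n : ℝ≥0∞) ^ g) x ∂μ := by
        refine lintegral_mono fun x => ?_
        simp only [hΨ, indicator]
        split_ifs
        · exact ENNReal.rpow_le_rpow (min_le_right _ _) g0.le
        · simp [g0]
      rw [lintegral_indicator (measurableSet_spanningSets μ n), lintegral_const,
        Measure.restrict_apply_univ] at h1
      refine ne_top_of_le_ne_top ?_ h1
      exact ENNReal.mul_ne_top (ENNReal.rpow_ne_top_of_nonneg g0.le (ENNReal.natCast_ne_top n))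
        (measure_spanningSets_lt_top μ n).ne
    have h2 : A ≤ B * A ^ (1 / (g / (g - 1))) := by
      calc A = ∫⁻ x, Ψ n x * Ψ n x ^ (g - 1) ∂μ := by
            refine lintegral_congr fun x => ?_
            have hx : Ψ n x ≠ ∞ := by
              simp only [hΨ, indicator]
              split_ifs
              · exact ne_top_of_le_ne_top (ENNReal.natCast_ne_top n) (min_le_right _ _)
              · simp
            by_cases h0 : Ψ n x = 0
            · rw [h0, zero_mul, ENNReal.zero_rpow_of_pos g0]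
            · have h1 : Ψ n x ^ g = Ψ n x ^ (1 + (g - 1)) := by congr 1; ring
              rw [h1, ENNReal.rpow_add _ _ h0 hx, ENNReal.rpow_one]
        _ ≤ ∫⁻ x, Φ x * Ψ n x ^ (g - 1) ∂μ := lintegral_mono fun x => by
            gcongr
            exact hΨle n x
        _ = ∫⁻ x, ∫⁻ t, G x t * Ψ n x ^ (g - 1) ∂ν ∂μ := by
            refine lintegral_congr fun x => ?_
            rw [lintegral_mul_const _ (by fun_prop)]
        _ = ∫⁻ t, ∫⁻ x, G x t * Ψ n x ^ (g - 1) ∂μ ∂ν := by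
            rw [lintegral_lintegral_swap]
            fun_prop
        _ ≤ ∫⁻ t, (∫⁻ x, G x t ^ g ∂μ) ^ (1 / g) * A ^ (1 / (g / (g - 1))) ∂ν := by
            refine lintegral_mono fun t => ?_
            have := ENNReal.lintegral_mul_le_Lp_mul_Lq μ hconj (f := fun x => G x t)
              (g := fun x => Ψ n x ^ (g - 1)) (by fun_prop) (by fun_prop)
            refine this.trans (le_of_eq ?_)
            congr 2
            refine lintegral_congr fun x => ?_
            rw [← ENNReal.rpow_mul]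
            congr 1
            have : g - 1 ≠ 0 := by linarith
            field_simp
        _ = B * A ^ (1 / (g / (g - 1))) := by
            rw [lintegral_mul_const _ (by fun_prop)]
    by_cases hA0 : A = 0
    · rw [hA0]; exact zero_le
    have h3 : A = A ^ (1 / g) * A ^ (1 / (g / (g - 1))) := by
      rw [← ENNReal.rpow_add _ _ hA0 hAtop]
      have : 1 / g + 1 / (g / (g - 1)) = 1 := by
        have := hconj.inv_add_inv_eq_one
        simpa [one_div] using this
      rw [this, ENNReal.rpow_one]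
    have h4 : A ^ (1 / g) ≤ B := by
      have hne0 : A ^ (1 / (g / (g - 1))) ≠ 0 := by
        simp [ENNReal.rpow_eq_zero_iff, hA0, hAtop]
      have hnetop : A ^ (1 / (g / (g - 1))) ≠ ∞ :=
        ENNReal.rpow_ne_top_of_nonneg (by positivity) hAtop
      have h5 : A ^ (1 / g) * A ^ (1 / (g / (g - 1))) ≤ B * A ^ (1 / (g / (g - 1))) := by
        rw [← h3]; exact h2
      exact (ENNReal.mul_le_mul_iff_left hne0 hnetop).mp h5
    calc A = (A ^ (1 / g)) ^ g := by rw [← ENNReal.rpow_mul]; simp [g0.ne']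
      _ ≤ B ^ g := ENNReal.rpow_le_rpow h4 g0.le
  have hmono : Monotone fun n => fun x => Ψ n x ^ g := by
    intro n m hnm x
    refine ENNReal.rpow_le_rpow ?_ g0.le
    simp only [hΨ, indicator]
    split_ifs with h1 h2 h2
    · exact min_le_min le_rfl (by exact_mod_cast hnm)
    · exact absurd (monotone_spanningSets μ hnm h1) h2
    · exact zero_le
    · exact le_rfl
  have hlim : ∀ x, Φ x ^ g ≤ ⨆ n, Ψ n x ^ g := by
    intro x
    obtain ⟨N, hN⟩ : ∃ N, x ∈ S N := by
      have : x ∈ ⋃ n, S n := by rw [hS, iUnion_spanningSets]; trivial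
      simpa using this
    have h1 : Φ x = ⨆ n : ℕ, min (Φ x) n := by
      rw [← inf_iSup_eq, ENNReal.iSup_natCast]; simp
    have h2 : Φ x ^ g = ⨆ n : ℕ, (min (Φ x) n) ^ g := by
      conv_lhs => rw [h1]
      exact (ENNReal.monotone_rpow_of_nonneg g0.le).map_iSup_of_continuousAt
        (ENNReal.continuous_rpow_const.continuousAt) (by simp [g0])
    rw [h2]
    refine iSup_le fun n => ?_
    refine le_trans ?_ (le_iSup _ (max n N))
    refine ENNReal.rpow_le_rpow ?_ g0.le
    have : x ∈ S (max n N) := monotone_spanningSets μ (le_max_right n N) hN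
    simp only [hΨ, indicator, this, if_true]
    exact min_le_min le_rfl (by exact_mod_cast le_max_left n N)
  calc ∫⁻ x, Φ x ^ g ∂μ ≤ ∫⁻ x, ⨆ n, Ψ n x ^ g ∂μ := lintegral_mono hlim
    _ = ⨆ n, ∫⁻ x, Ψ n x ^ g ∂μ := lintegral_iSup (fun n => (hΨm n).pow_const g) hmono
    _ ≤ B ^ g := iSup_le key

/-- Young's inequality with exponents `(p, p; g)`, `p = 2 g / (g + 1)`, and constant `κ`. -/
def YP (E : Type*) [AddCommGroup E] [MeasurableSpace E] (μ : Measure E) (g : ℝ) (κ : ℝ≥0∞) :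
    Prop :=
  ∀ f h : E → ℝ≥0∞, Measurable f → Measurable h →
    ∫⁻ x, (∫⁻ y, f y * h (x - y) ∂μ) ^ g ∂μ ≤
      κ * (∫⁻ x, f x ^ (2 * g / (g + 1)) ∂μ) ^ ((g + 1) / 2) *
        (∫⁻ x, h x ^ (2 * g / (g + 1)) ∂μ) ^ ((g + 1) / 2)

theorem YP.prod {E F : Type*} [AddCommGroup E] [MeasurableSpace E] [MeasurableSub₂ E]
    [AddCommGroup F] [MeasurableSpace F] [MeasurableSub₂ F] {μ : Measure E} {ν : Measure F}
    [SigmaFinite μ] [SigmaFinite ν] {g : ℝ} (hg : 1 < g) {κ₁ κ₂ : ℝ≥0∞}
    (hE : YP E μ g κ₁) (hF : YP F ν g κ₂) : YP (E × F) (μ.prod ν) g (κ₁ * κ₂) := by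
  intro f h hf hh
  have g0 : 0 < g := by linarith
  set p := 2 * g / (g + 1) with hp
  set φ : F → ℝ≥0∞ := fun t => (∫⁻ y, f (y, t) ^ p ∂μ) ^ (1 / p) with hφ
  set η : F → ℝ≥0∞ := fun t => (∫⁻ y, h (y, t) ^ p ∂μ) ^ (1 / p) with hη
  have hp0 : 0 < p := by positivity
  have hφm : Measurable φ := by
    have : Measurable fun z : F × E => f (z.2, z.1) ^ p := by fun_prop
    exact this.lintegral_prod_right'.pow_const _
  have hηm : Measurable η := by
    have : Measurable fun z : F × E => h (z.2, z.1) ^ p := by fun_prop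
    exact this.lintegral_prod_right'.pow_const _
  have hsub : Measurable fun z : (E × F) × (E × F) => z.1 - z.2 :=
    (measurable_fst.fst.sub measurable_snd.fst).prodMk
      (measurable_fst.snd.sub measurable_snd.snd)
  have hsub' : ∀ x : E × F, Measurable fun z : E × F => x - z := fun x =>
    hsub.comp measurable_prodMk_left
  calc ∫⁻ x, (∫⁻ y, f y * h (x - y) ∂(μ.prod ν)) ^ g ∂(μ.prod ν)
      = ∫⁻ s, ∫⁻ x, (∫⁻ t, ∫⁻ y, f (y, t) * h (x - y, s - t) ∂μ ∂ν) ^ g ∂μ ∂ν := by
        rw [lintegral_prod_symm']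
        · refine lintegral_congr fun s => lintegral_congr fun x => ?_
          have h2 : Measurable fun y : E × F => f y * h ((x, s) - y) :=
            hf.mul (hh.comp (hsub' (x, s)))
          rw [lintegral_prod_symm' _ h2]
          rfl
        · have h1 : Measurable fun z : (E × F) × (E × F) => f z.2 * h (z.1 - z.2) :=
            (hf.comp measurable_snd).mul (hh.comp hsub)
          exact h1.lintegral_prod_right'.pow_const g
    _ ≤ ∫⁻ s, (∫⁻ t, (∫⁻ x, (∫⁻ y, f (y, t) * h (x - y, s - t) ∂μ) ^ g ∂μ) ^ (1 / g) ∂ν) ^ g ∂ν := by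
        refine lintegral_mono fun s => ?_
        refine minkowski_lintegral hg (G := fun x t => ∫⁻ y, f (y, t) * h (x - y, s - t) ∂μ) ?_
        have h1 : Measurable fun z : (E × F) × E => f (z.2, z.1.2) * h (z.1.1 - z.2, s - z.1.2) :=
          (hf.comp (by fun_prop)).mul (hh.comp
            ((measurable_fst.fst.sub measurable_snd).prodMk
              (measurable_const.sub measurable_fst.snd)))
        exact h1.lintegral_prod_right'
    _ ≤ ∫⁻ s, (∫⁻ t, κ₁ ^ (1 / g) * (φ t * η (s - t)) ∂ν) ^ g ∂ν := by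
        refine lintegral_mono fun s => ENNReal.rpow_le_rpow (lintegral_mono fun t => ?_) g0.le
        have := hE (fun y => f (y, t)) (fun y => h (y, s - t)) (by fun_prop) (by fun_prop)
        refine (ENNReal.rpow_le_rpow this (by positivity)).trans (le_of_eq ?_)
        rw [ENNReal.mul_rpow_of_nonneg _ _ (by positivity),
          ENNReal.mul_rpow_of_nonneg _ _ (by positivity), ← ENNReal.rpow_mul, ← ENNReal.rpow_mul,
          mul_assoc]
        have : (g + 1) / 2 * (1 / g) = 1 / p := by rw [hp]; field_simp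
        rw [this]
    _ = κ₁ * ∫⁻ s, (∫⁻ t, φ t * η (s - t) ∂ν) ^ g ∂ν := by
        have h1 : Measurable fun z : F × F => φ z.2 * η (z.1 - z.2) :=
          (hφm.comp measurable_snd).mul (hηm.comp (measurable_fst.sub measurable_snd))
        rw [← lintegral_const_mul _ (h1.lintegral_prod_right'.pow_const g)]
        refine lintegral_congr fun s => ?_
        have h2 : Measurable fun t : F => φ t * η (s - t) :=
          hφm.mul (hηm.comp (measurable_const.sub measurable_id))
        rw [lintegral_const_mul _ h2, ENNReal.mul_rpow_of_nonneg _ _ g0.le, ← ENNReal.rpow_mul, one_div,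
          inv_mul_cancel₀ g0.ne', ENNReal.rpow_one]
    _ ≤ κ₁ * (κ₂ * (∫⁻ x, φ x ^ p ∂ν) ^ ((g + 1) / 2) * (∫⁻ x, η x ^ p ∂ν) ^ ((g + 1) / 2)) := by
        gcongr
        exact hF φ η hφm hηm
    _ = κ₁ * κ₂ * (∫⁻ x, f x ^ p ∂(μ.prod ν)) ^ ((g + 1) / 2) *
        (∫⁻ x, h x ^ p ∂(μ.prod ν)) ^ ((g + 1) / 2) := by
        have e1 : ∀ k : E × F → ℝ≥0∞, Measurable k →
            ∫⁻ x, (fun t => (∫⁻ y, k (y, t) ^ p ∂μ) ^ (1 / p)) x ^ p ∂ν =
              ∫⁻ x, k x ^ p ∂(μ.prod ν) := by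
          intro k hk
          rw [lintegral_prod_symm' _ (hk.pow_const p)]
          refine lintegral_congr fun t => ?_
          simp only
          rw [← ENNReal.rpow_mul, one_div, inv_mul_cancel₀ hp0.ne', ENNReal.rpow_one]
        rw [← e1 f hf, ← e1 h hh]
        ring

theorem YP.of_measurePreserving {E F : Type*} [AddCommGroup E] [MeasurableSpace E]
    [AddCommGroup F] [MeasurableSpace F] [MeasurableSub₂ F] {μ : Measure E} {ν : Measure F}
    [SFinite ν] {g : ℝ} {κ : ℝ≥0∞}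
    (e : E → F) (he : MeasurePreserving e μ ν) (hlin : ∀ x y : E, e (x - y) = e x - e y)
    (hE : YP E μ g κ) : YP F ν g κ := by
  intro f h hf hh
  have h1 : Measurable fun z : F × F => f z.2 * h (z.1 - z.2) :=
    (hf.comp measurable_snd).mul (hh.comp (measurable_fst.sub measurable_snd))
  have h2 : Measurable fun x : F => (∫⁻ y, f y * h (x - y) ∂ν) ^ g :=
    h1.lintegral_prod_right'.pow_const g
  have h3 : ∀ x, Measurable fun y : F => f y * h (x - y) := fun x =>
    h1.comp measurable_prodMk_left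
  rw [← he.lintegral_comp h2, ← he.lintegral_comp (hf.pow_const _),
    ← he.lintegral_comp (hh.pow_const _)]
  have := hE (f ∘ e) (h ∘ e) (hf.comp he.measurable) (hh.comp he.measurable)
  refine le_trans (le_of_eq ?_) this
  refine lintegral_congr fun x => ?_
  rw [← he.lintegral_comp (h3 _)]
  simp only [Function.comp_def, hlin]

theorem YP_pi {g : ℝ} (hg : 1 < g) {κ : ℝ≥0∞} (h1 : YP ℝ volume g κ) (n : ℕ) :
    YP (Fin n → ℝ) volume g (κ ^ n) := by
  induction n with
  | zero =>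
    intro f h hf hh
    have : (volume : Measure (Fin 0 → ℝ)) = Measure.dirac 0 := by
      exact Measure.volume_pi_eq_dirac (ι := Fin 0) (α := fun _ => ℝ) 0
    rw [this, lintegral_dirac, lintegral_dirac, lintegral_dirac, lintegral_dirac, pow_zero,
      one_mul, sub_zero, ← ENNReal.rpow_mul, ← ENNReal.rpow_mul, ENNReal.mul_rpow_of_nonneg _ _
      (by linarith)]
    have : 2 * g / (g + 1) * ((g + 1) / 2) = g := by
      have : g + 1 ≠ 0 := by linarith
      field_simp
    rw [this]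
  | succ n ih =>
    rw [pow_succ']
    refine YP.of_measurePreserving
      (MeasurableEquiv.piFinSuccAbove (fun _ : Fin (n+1) => ℝ) 0).symm
      ((volume_preserving_piFinSuccAbove (fun _ : Fin (n+1) => ℝ) 0).symm) ?_ (h1.prod hg ih)
    intro x y
    ext i
    refine Fin.cases ?_ (fun j => ?_) i
    · simp [MeasurableEquiv.piFinSuccAbove]
    · simp [MeasurableEquiv.piFinSuccAbove]

/-! ### The one-dimensional inequality -/

/-- Affinity versus total variation on one event. -/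
theorem affinity_sq {α : Type*} [MeasurableSpace α] {μ : Measure α} {P R : α → ℝ≥0∞}
    (hP : Measurable P) (hR : Measurable R) (hP1 : ∫⁻ x, P x ∂μ = 1) (hR1 : ∫⁻ x, R x ∂μ = 1)
    {A : Set α} (hA : MeasurableSet A) :
    (∫⁻ x, P x ^ (1 / 2 : ℝ) * R x ^ (1 / 2 : ℝ) ∂μ).toReal ^ 2 +
      ((∫⁻ x in A, P x ∂μ).toReal - (∫⁻ x in A, R x ∂μ).toReal) ^ 2 ≤ 1 := by
  have hconj : (2 : ℝ).HolderConjugate 2 := Real.HolderConjugate.two_two
  have cs : ∀ s : Set α, ∫⁻ x in s, P x ^ (1 / 2 : ℝ) * R x ^ (1 / 2 : ℝ) ∂μ ≤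
      (∫⁻ x in s, P x ∂μ) ^ (1 / 2 : ℝ) * (∫⁻ x in s, R x ∂μ) ^ (1 / 2 : ℝ) := by
    intro s
    refine (ENNReal.lintegral_mul_le_Lp_mul_Lq (μ.restrict s) hconj
      (hP.pow_const _).aemeasurable (hR.pow_const _).aemeasurable).trans (le_of_eq ?_)
    simp only [← ENNReal.rpow_mul]
    norm_num
  set s := ∫⁻ x in A, P x ∂μ with hs
  set t := ∫⁻ x in A, R x ∂μ with ht
  set s' := ∫⁻ x in Aᶜ, P x ∂μ with hs'
  set t' := ∫⁻ x in Aᶜ, R x ∂μ with ht'
  have hs1 : s + s' = 1 := by rw [hs, hs', lintegral_add_compl _ hA, hP1]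
  have ht1 : t + t' = 1 := by rw [ht, ht', lintegral_add_compl _ hA, hR1]
  have hstop : s ≠ ∞ := ne_top_of_le_ne_top ENNReal.one_ne_top (hs1 ▸ le_self_add)
  have hs'top : s' ≠ ∞ := ne_top_of_le_ne_top ENNReal.one_ne_top (hs1 ▸ le_add_self)
  have httop : t ≠ ∞ := ne_top_of_le_ne_top ENNReal.one_ne_top (ht1 ▸ le_self_add)
  have ht'top : t' ≠ ∞ := ne_top_of_le_ne_top ENNReal.one_ne_top (ht1 ▸ le_add_self)
  have hss : s.toReal + s'.toReal = 1 := by
    rw [← ENNReal.toReal_add hstop hs'top, hs1]; simp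
  have htt : t.toReal + t'.toReal = 1 := by
    rw [← ENNReal.toReal_add httop ht'top, ht1]; simp
  have hle : ∫⁻ x, P x ^ (1 / 2 : ℝ) * R x ^ (1 / 2 : ℝ) ∂μ ≤
      s ^ (1 / 2 : ℝ) * t ^ (1 / 2 : ℝ) + s' ^ (1 / 2 : ℝ) * t' ^ (1 / 2 : ℝ) := by
    rw [← lintegral_add_compl _ hA]
    exact add_le_add (cs A) (cs Aᶜ)
  have htop : s ^ (1 / 2 : ℝ) * t ^ (1 / 2 : ℝ) + s' ^ (1 / 2 : ℝ) * t' ^ (1 / 2 : ℝ) ≠ ∞ := by
    refine ENNReal.add_ne_top.mpr ⟨ENNReal.mul_ne_top ?_ ?_, ENNReal.mul_ne_top ?_ ?_⟩ <;>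
    exact ENNReal.rpow_ne_top_of_nonneg (by norm_num) (by assumption)
  have hle' := ENNReal.toReal_mono htop hle
  rw [ENNReal.toReal_add, ENNReal.toReal_mul, ENNReal.toReal_mul, ← ENNReal.toReal_rpow,
    ← ENNReal.toReal_rpow, ← ENNReal.toReal_rpow, ← ENNReal.toReal_rpow] at hle'
  · have e1 := ENNReal.toReal_nonneg (a := s)
    have e2 := ENNReal.toReal_nonneg (a := t)
    have e3 := ENNReal.toReal_nonneg (a := s')
    have e4 := ENNReal.toReal_nonneg (a := t')
    rw [← Real.sqrt_eq_rpow, ← Real.sqrt_eq_rpow, ← Real.sqrt_eq_rpow, ← Real.sqrt_eq_rpow] at hle'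
    set a := (∫⁻ x, P x ^ (1 / 2 : ℝ) * R x ^ (1 / 2 : ℝ) ∂μ).toReal with ha
    have ha0 : 0 ≤ a := ENNReal.toReal_nonneg
    have q1 := Real.sq_sqrt e1
    have q2 := Real.sq_sqrt e2
    have q3 := Real.sq_sqrt e3
    have q4 := Real.sq_sqrt e4
    set x1 := √s.toReal
    set x2 := √t.toReal
    set x3 := √s'.toReal
    set x4 := √t'.toReal
    have h1 : a ^ 2 ≤ (x1 * x2 + x3 * x4) ^ 2 := by gcongr
    have h2 : s'.toReal = 1 - s.toReal := by linarith
    have h3 : t'.toReal = 1 - t.toReal := by linarith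
    nlinarith [sq_nonneg (x1 * x3 - x2 * x4)]
  · exact ENNReal.mul_ne_top (ENNReal.rpow_ne_top_of_nonneg (by norm_num) hstop)
      (ENNReal.rpow_ne_top_of_nonneg (by norm_num) httop)
  · exact ENNReal.mul_ne_top (ENNReal.rpow_ne_top_of_nonneg (by norm_num) hs'top)
      (ENNReal.rpow_ne_top_of_nonneg (by norm_num) ht'top)

/-- The affinity of `F` and `H (x - ·)`. -/
noncomputable def aff (F H : ℝ → ℝ≥0∞) (x : ℝ) : ℝ≥0∞ :=
  ∫⁻ y, F y ^ (1 / 2 : ℝ) * H (x - y) ^ (1 / 2 : ℝ)

/-- The convolution of `F` and `H`. -/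
noncomputable def conv (F H : ℝ → ℝ≥0∞) (x : ℝ) : ℝ≥0∞ := ∫⁻ y, F y * H (x - y)

theorem measurable_aff {F H : ℝ → ℝ≥0∞} (hF : Measurable F) (hH : Measurable H) :
    Measurable (aff F H) := by
  have h1 : Measurable fun z : ℝ × ℝ => F z.2 ^ (1 / 2 : ℝ) * H (z.1 - z.2) ^ (1 / 2 : ℝ) := by
    fun_prop
  exact h1.lintegral_prod_right'

theorem measurable_conv {F H : ℝ → ℝ≥0∞} (hF : Measurable F) (hH : Measurable H) :
    Measurable (conv F H) := by
  have h1 : Measurable fun z : ℝ × ℝ => F z.2 * H (z.1 - z.2) := by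
    fun_prop
  exact h1.lintegral_prod_right'

theorem lintegral_conv {F H : ℝ → ℝ≥0∞} (hF : Measurable F) (hH : Measurable H)
    (hF1 : ∫⁻ x, F x = 1) (hH1 : ∫⁻ x, H x = 1) : ∫⁻ x, conv F H x = 1 := by
  unfold conv
  rw [lintegral_lintegral_swap (by fun_prop)]
  calc ∫⁻ y, ∫⁻ x, F y * H (x - y) = ∫⁻ y, F y * ∫⁻ x, H (x - y) := by
        refine lintegral_congr fun y => ?_
        rw [lintegral_const_mul _ (by fun_prop)]
    _ = ∫⁻ y, F y := by
        refine lintegral_congr fun y => ?_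
        rw [lintegral_sub_right_eq_self (fun x => H x) y, hH1, mul_one]
    _ = 1 := hF1

theorem aff_le_one {F H : ℝ → ℝ≥0∞} (hF : Measurable F) (hH : Measurable H)
    (hF1 : ∫⁻ x, F x = 1) (hH1 : ∫⁻ x, H x = 1) (x : ℝ) : aff F H x ≤ 1 := by
  refine (ENNReal.lintegral_mul_le_Lp_mul_Lq volume Real.HolderConjugate.two_two
      (hF.pow_const _).aemeasurable (by fun_prop)).trans ?_
  simp only [← ENNReal.rpow_mul]
  norm_num
  rw [hF1, lintegral_sub_left_eq_self (fun x => H x) x, hH1]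
  simp

theorem window_le {F H : ℝ → ℝ≥0∞} (hF : Measurable F) (hH : Measurable H)
    (hF1 : ∫⁻ x, F x = 1) (hH1 : ∫⁻ x, H x = 1) {τ : ℝ} (hτ : 0 ≤ τ) {x x' : ℝ} (hxx : x ≤ x')
    (hx : τ ≤ (aff F H x).toReal) (hx' : τ ≤ (aff F H x').toReal) (w : ℝ) :
    ∫⁻ z in Ico (x - w) (x' - w), H z ≤ ENNReal.ofReal (2 * √(1 - τ ^ 2)) := by
  have trans : ∀ u, ∫⁻ y in Iic w, H (u - y) = ∫⁻ z in Ici (u - w), H z := by
    intro u
    rw [← lintegral_indicator measurableSet_Iic, ← lintegral_indicator measurableSet_Ici,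
      ← lintegral_sub_left_eq_self (fun z => (Ici (u - w)).indicator H z) u]
    refine lintegral_congr fun y => ?_
    simp only [indicator, mem_Iic, mem_Ici]
    by_cases h : y ≤ w
    · rw [if_pos h, if_pos (by linarith)]
    · rw [if_neg h, if_neg (by linarith)]
  have tot : ∀ u, ∫⁻ y, H (u - y) = 1 := by
    intro u
    rw [lintegral_sub_left_eq_self (fun x => H x) u, hH1]
  have m : ∀ u, Measurable fun y => H (u - y) := fun u => by fun_prop
  have k1 := affinity_sq (μ := volume) hF (m x) hF1 (tot x) (measurableSet_Iic (a := w))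
  have k2 := affinity_sq (μ := volume) hF (m x') hF1 (tot x') (measurableSet_Iic (a := w))
  rw [trans] at k1 k2
  set f := (∫⁻ x in Iic w, F x).toReal
  set s := ∫⁻ z in Ici (x - w), H z with hs
  set s' := ∫⁻ z in Ici (x' - w), H z with hs'
  set d := ∫⁻ z in Ico (x - w) (x' - w), H z with hd
  have hsplit : s = d + s' := by
    rw [hs, hs', hd, ← lintegral_union measurableSet_Ici]
    · congr 2
      ext z; simp only [mem_Ici, mem_union, mem_Ico]
      constructor
      · intro h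
        by_cases h' : z < x' - w
        · exact Or.inl ⟨h, h'⟩
        · exact Or.inr (not_lt.mp h')
      · rintro (h | h)
        · exact h.1
        · linarith
    · rw [Set.disjoint_left]
      rintro z hz hz'
      simp only [mem_Ici, mem_Ico] at hz hz'
      linarith
  have hstop : s ≠ ∞ := by
    refine ne_top_of_le_ne_top ENNReal.one_ne_top ?_
    rw [← hH1, hs]
    exact setLIntegral_le_lintegral _ _
  have hs'top : s' ≠ ∞ := by
    refine ne_top_of_le_ne_top hstop ?_
    rw [hsplit]; exact le_add_self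
  have hdtop : d ≠ ∞ := by
    refine ne_top_of_le_ne_top hstop ?_
    rw [hsplit]; exact le_self_add
  have hreal : s.toReal = d.toReal + s'.toReal := by
    rw [hsplit, ENNReal.toReal_add hdtop hs'top]
  rw [← ENNReal.ofReal_toReal hdtop]
  refine ENNReal.ofReal_le_ofReal ?_
  have l1 : |f - s.toReal| ≤ √(1 - τ ^ 2) := by
    refine Real.abs_le_sqrt ?_
    have : τ ^ 2 ≤ (aff F H x).toReal ^ 2 := by gcongr
    unfold aff at this
    linarith
  have l2 : |f - s'.toReal| ≤ √(1 - τ ^ 2) := by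
    refine Real.abs_le_sqrt ?_
    have : τ ^ 2 ≤ (aff F H x').toReal ^ 2 := by gcongr
    unfold aff at this
    linarith
  rw [abs_le] at l1 l2
  linarith [l1.1, l2.2]

theorem conv_Icc_le {F H : ℝ → ℝ≥0∞} (hF : Measurable F) (hH : Measurable H)
    (hF1 : ∫⁻ x, F x = 1) (hH1 : ∫⁻ x, H x = 1) {τ : ℝ} (hτ : 0 ≤ τ) {x x' : ℝ} (hxx : x ≤ x')
    (hx : τ ≤ (aff F H x).toReal) (hx' : τ ≤ (aff F H x').toReal) :
    ∫⁻ z in Icc x x', conv F H z ≤ ENNReal.ofReal (2 * √(1 - τ ^ 2)) := by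
  rw [← restrict_Ico_eq_restrict_Icc]
  unfold conv
  rw [lintegral_lintegral_swap (by fun_prop)]
  calc ∫⁻ y, ∫⁻ z in Ico x x', F y * H (z - y)
      = ∫⁻ y, F y * ∫⁻ z in Ico (x - y) (x' - y), H z := by
        refine lintegral_congr fun y => ?_
        rw [lintegral_const_mul _ (by fun_prop)]
        congr 1
        rw [← lintegral_indicator measurableSet_Ico, ← lintegral_indicator measurableSet_Ico,
          ← lintegral_sub_right_eq_self (fun z => (Ico (x - y) (x' - y)).indicator H z) y]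
        refine lintegral_congr fun z => ?_
        simp only [indicator, mem_Ico]
        by_cases h : x ≤ z ∧ z < x'
        · rw [if_pos h, if_pos ⟨by linarith [h.1], by linarith [h.2]⟩]
        · rw [if_neg h, if_neg]
          rintro ⟨h1, h2⟩
          exact h ⟨by linarith, by linarith⟩
    _ ≤ ∫⁻ y, F y * ENNReal.ofReal (2 * √(1 - τ ^ 2)) := by
        refine lintegral_mono fun y => ?_
        gcongr
        exact window_le hF hH hF1 hH1 hτ hxx hx hx' y
    _ = ENNReal.ofReal (2 * √(1 - τ ^ 2)) := by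
        rw [lintegral_mul_const _ hF, hF1, one_mul]

theorem tail_le {F H : ℝ → ℝ≥0∞} (hF : Measurable F) (hH : Measurable H)
    (hF1 : ∫⁻ x, F x = 1) (hH1 : ∫⁻ x, H x = 1) {τ : ℝ} (hτ : 0 ≤ τ) :
    (volume.withDensity (conv F H)) {x | τ < (aff F H x).toReal} ≤
      ENNReal.ofReal (2 * √(1 - τ ^ 2)) := by
  have hm : MeasurableSet {x | τ < (aff F H x).toReal} :=
    measurableSet_lt measurable_const (measurable_aff hF hH).ennreal_toReal
  have : IsFiniteMeasure (volume.withDensity (conv F H)) := by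
    refine isFiniteMeasure_withDensity ?_
    rw [lintegral_conv hF hH hF1 hH1]; simp
  rw [hm.measure_eq_iSup_isCompact]
  refine iSup₂_le fun K hK => iSup_le fun hKc => ?_
  rcases K.eq_empty_or_nonempty with rfl | hne
  · simp
  have h1 := hK (hKc.sInf_mem hne)
  have h2 := hK (hKc.sSup_mem hne)
  have h3 : sInf K ≤ sSup K := Real.sInf_le_sSup K hKc.bddBelow hKc.bddAbove
  calc (volume.withDensity (conv F H)) K
      ≤ (volume.withDensity (conv F H)) (Icc (sInf K) (sSup K)) := by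
        refine measure_mono fun z hz => ⟨csInf_le hKc.bddBelow hz, le_csSup hKc.bddAbove hz⟩
    _ = ∫⁻ z in Icc (sInf K) (sSup K), conv F H z := withDensity_apply _ measurableSet_Icc
    _ ≤ _ := conv_Icc_le hF hH hF1 hH1 hτ h3 (le_of_lt h1) (le_of_lt h2)

theorem moment_one {F H : ℝ → ℝ≥0∞} (hF : Measurable F) (hH : Measurable H)
    (hF1 : ∫⁻ x, F x = 1) (hH1 : ∫⁻ x, H x = 1) :
    ∫⁻ x, aff F H x ∂(volume.withDensity (conv F H)) ≤ 52 / 53 := by
  set P := volume.withDensity (conv F H) with hP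
  have hP1 : P univ = 1 := by
    rw [hP, withDensity_apply _ MeasurableSet.univ, Measure.restrict_univ,
      lintegral_conv hF hH hF1 hH1]
  have : IsProbabilityMeasure P := ⟨hP1⟩
  set S := {x | (35 / 37 : ℝ) < (aff F H x).toReal} with hS
  have hm : MeasurableSet S := measurableSet_lt measurable_const (measurable_aff hF hH).ennreal_toReal
  have htail : P S ≤ ENNReal.ofReal (2 * √(1 - (35 / 37 : ℝ) ^ 2)) :=
    tail_le hF hH hF1 hH1 (by norm_num)
  have hsq : √(1 - (35 / 37 : ℝ) ^ 2) = 12 / 37 := by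
    rw [show (1 - (35 / 37 : ℝ) ^ 2) = (12 / 37) ^ 2 by norm_num]
    exact Real.sqrt_sq (by norm_num)
  rw [hsq] at htail
  have h1 : ∫⁻ x in S, aff F H x ∂P ≤ P S := by
    calc ∫⁻ x in S, aff F H x ∂P ≤ ∫⁻ x in S, 1 ∂P :=
          lintegral_mono fun x => aff_le_one hF hH hF1 hH1 x
      _ = P S := by simp
  have h2 : ∫⁻ x in Sᶜ, aff F H x ∂P ≤ ENNReal.ofReal (35 / 37) * P Sᶜ := by
    calc ∫⁻ x in Sᶜ, aff F H x ∂P ≤ ∫⁻ x in Sᶜ, ENNReal.ofReal (35 / 37) ∂P := by
          refine setLIntegral_mono' hm.compl fun x hx => ?_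
          have hx' : (aff F H x).toReal ≤ 35 / 37 := not_lt.mp hx
          have hfin : aff F H x ≠ ∞ :=
            ne_top_of_le_ne_top ENNReal.one_ne_top (aff_le_one hF hH hF1 hH1 x)
          rw [← ENNReal.ofReal_toReal hfin]
          exact ENNReal.ofReal_le_ofReal hx'
      _ = ENNReal.ofReal (35 / 37) * P Sᶜ := by simp
  have hPS : P S ≠ ∞ := measure_ne_top P S
  have hPSc : P Sᶜ ≠ ∞ := measure_ne_top P Sᶜ
  have hsum : P S + P Sᶜ = 1 := by rw [measure_add_measure_compl hm, hP1]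
  have hsumr : (P S).toReal + (P Sᶜ).toReal = 1 := by
    rw [← ENNReal.toReal_add hPS hPSc, hsum]; simp
  have htailr : (P S).toReal ≤ 24 / 37 := by
    have := ENNReal.toReal_mono ENNReal.ofReal_ne_top htail
    rw [ENNReal.toReal_ofReal (by norm_num)] at this
    linarith
  rw [← lintegral_add_compl _ hm]
  refine (add_le_add h1 h2).trans ?_
  rw [← ENNReal.ofReal_toReal hPS, ← ENNReal.ofReal_toReal hPSc, ← ENNReal.ofReal_mul (by norm_num),
    ← ENNReal.ofReal_add (by positivity) (by positivity)]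
  have : (52 / 53 : ℝ≥0∞) = ENNReal.ofReal (52 / 53) := by
    rw [ENNReal.ofReal_div_of_pos (by norm_num)]
    norm_num
  rw [this]
  refine ENNReal.ofReal_le_ofReal ?_
  nlinarith

theorem moment_pow {F H : ℝ → ℝ≥0∞} (hF : Measurable F) (hH : Measurable H)
    (hF1 : ∫⁻ x, F x = 1) (hH1 : ∫⁻ x, H x = 1) {N : ℝ} (hN : 0 < N) :
    ∫⁻ x, aff F H x ^ N ∂(volume.withDensity (conv F H)) ≤
      ENNReal.ofReal (2 * √(2 / (N + 2))) := by
  set P := volume.withDensity (conv F H) with hP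
  set s := √(2 / (N + 2)) with hs
  have hs2 : s ^ 2 = 2 / (N + 2) := Real.sq_sqrt (by positivity)
  have hs0 : 0 < s := Real.sqrt_pos.mpr (by positivity)
  have e1 : ∫⁻ x, aff F H x ^ N ∂P = ∫⁻ x, ENNReal.ofReal ((aff F H x).toReal ^ N) ∂P := by
    refine lintegral_congr fun x => ?_
    have hfin : aff F H x ≠ ∞ :=
      ne_top_of_le_ne_top ENNReal.one_ne_top (aff_le_one hF hH hF1 hH1 x)
    rw [← ENNReal.ofReal_rpow_of_nonneg ENNReal.toReal_nonneg hN.le, ENNReal.ofReal_toReal hfin]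
  rw [e1, lintegral_rpow_eq_lintegral_meas_lt_mul P (Filter.Eventually.of_forall fun x =>
    ENNReal.toReal_nonneg) (measurable_aff hF hH).ennreal_toReal.aemeasurable hN]
  have e2 : ∀ t : ℝ, 0 < t → P {a | t < (aff F H a).toReal} * ENNReal.ofReal (t ^ (N - 1)) ≤
      (Ioc (0:ℝ) 1).indicator (fun t => ENNReal.ofReal (((1 - t ^ 2) / s + s) * t ^ (N - 1))) t := by
    intro t ht
    have h1 := tail_le hF hH hF1 hH1 ht.le
    simp only [indicator]
    split_ifs with h
    · refine (mul_le_mul_left h1 _).trans ?_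
      rw [← ENNReal.ofReal_mul (by positivity)]
      refine ENNReal.ofReal_le_ofReal ?_
      refine mul_le_mul_of_nonneg_right ?_ (Real.rpow_nonneg ht.le _)
      have h2 : 0 ≤ 1 - t ^ 2 := by
        have := h.2
        nlinarith
      have h3 : √(1 - t ^ 2) ^ 2 = 1 - t ^ 2 := Real.sq_sqrt h2
      have h4 : 0 ≤ (√(1 - t ^ 2) - s) ^ 2 / s := by positivity
      have h5 : (√(1 - t ^ 2) - s) ^ 2 / s = (1 - t ^ 2) / s + s - 2 * √(1 - t ^ 2) := by
        rw [← h3]
        field_simp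
        rw [Real.sqrt_sq (Real.sqrt_nonneg _)]
        ring
      linarith
    · have h2 : 1 < t := by
        by_contra h3
        exact h ⟨ht, not_lt.mp h3⟩
      have h3 : 1 - t ^ 2 ≤ 0 := by nlinarith
      rw [Real.sqrt_eq_zero_of_nonpos h3] at h1
      simp only [mul_zero, ENNReal.ofReal_zero, nonpos_iff_eq_zero] at h1
      rw [h1, zero_mul]
  have hI0 : IntervalIntegrable (fun t : ℝ => t ^ (N - 1)) volume 0 1 :=
    intervalIntegral.intervalIntegrable_rpow' (by linarith)
  have hI1 : IntervalIntegrable (fun t : ℝ => t ^ (N + 1)) volume 0 1 :=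
    intervalIntegral.intervalIntegrable_rpow' (by linarith)
  have hcongr : ∀ t ∈ Ioc (0:ℝ) 1, ((1 - t ^ 2) / s + s) * t ^ (N - 1) =
      (1 / s + s) * t ^ (N - 1) - 1 / s * t ^ (N + 1) := by
    intro t ht
    have : t ^ (N + 1) = t ^ 2 * t ^ (N - 1) := by
      rw [← Real.rpow_natCast t 2, ← Real.rpow_add ht.1]
      congr 1
      push_cast
      ring
    rw [this]
    ring
  have hint : IntegrableOn (fun t : ℝ => ((1 - t ^ 2) / s + s) * t ^ (N - 1)) (Ioc 0 1) := by
    have h1 := ((hI0.const_mul (1 / s + s)).sub (hI1.const_mul (1 / s))).1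
    exact h1.congr_fun (fun t ht => (hcongr t ht).symm) measurableSet_Ioc
  have hval : ∫ t in Ioc (0:ℝ) 1, ((1 - t ^ 2) / s + s) * t ^ (N - 1) = 2 * s / N := by
    rw [setIntegral_congr_fun measurableSet_Ioc hcongr, ← intervalIntegral.integral_of_le zero_le_one,
      intervalIntegral.integral_sub (hI0.const_mul _) (hI1.const_mul _),
      intervalIntegral.integral_const_mul, intervalIntegral.integral_const_mul,
      integral_rpow (Or.inl (by linarith)), integral_rpow (Or.inl (by linarith))]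
    have h1 : N - 1 + 1 = N := by ring
    have h2 : N + 1 + 1 = N + 2 := by ring
    rw [h1, h2, Real.one_rpow, Real.one_rpow, Real.zero_rpow hN.ne', Real.zero_rpow (by linarith)]
    have h3 : N + 2 ≠ 0 := by linarith
    have h4 : s ^ 2 * (N + 2) = 2 := by rw [hs2]; field_simp
    field_simp
    nlinarith
  calc ENNReal.ofReal N * ∫⁻ t in Ioi 0, P {a | t < (aff F H a).toReal} * ENNReal.ofReal (t ^ (N - 1))
      ≤ ENNReal.ofReal N * ∫⁻ t in Ioi 0, (Ioc (0:ℝ) 1).indicator
          (fun t => ENNReal.ofReal (((1 - t ^ 2) / s + s) * t ^ (N - 1))) t := by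
        gcongr ENNReal.ofReal N * ?_
        exact setLIntegral_mono' measurableSet_Ioi fun t ht => e2 t ht
    _ = ENNReal.ofReal N * ∫⁻ t in Ioc 0 1, ENNReal.ofReal (((1 - t ^ 2) / s + s) * t ^ (N - 1)) := by
        rw [lintegral_indicator measurableSet_Ioc, Measure.restrict_restrict measurableSet_Ioc,
          inter_eq_left.mpr Ioc_subset_Ioi_self]
    _ = ENNReal.ofReal N * ENNReal.ofReal (2 * s / N) := by
        rw [← ofReal_integral_eq_lintegral_ofReal hint, hval]
        filter_upwards [self_mem_ae_restrict measurableSet_Ioc] with t ht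
        have h1 : 0 ≤ t ^ (N - 1) := Real.rpow_nonneg ht.1.le _
        have h2 : 0 ≤ 1 - t ^ 2 := by nlinarith [ht.1, ht.2]
        exact mul_nonneg (by positivity) h1
    _ = ENNReal.ofReal (2 * s) := by
        rw [← ENNReal.ofReal_mul hN.le]
        congr 1
        field_simp

/-- From a moment bound of the affinity to Young's inequality on `ℝ`. -/
theorem YP_real_of {g : ℝ} (hg : 1 < g) {κ : ℝ≥0∞} (hκ : κ ≠ 0)
    (hmom : ∀ F H : ℝ → ℝ≥0∞, Measurable F → Measurable H → ∫⁻ x, F x = 1 → ∫⁻ x, H x = 1 →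
      ∫⁻ x, aff F H x ^ (g - 1) ∂(volume.withDensity (conv F H)) ≤ κ) :
    YP ℝ volume g κ := by
  intro f h hf hh
  have g0 : 0 < g := by linarith
  set p := 2 * g / (g + 1) with hp
  have hp0 : 0 < p := by positivity
  set A := ∫⁻ x, f x ^ p with hA
  set B := ∫⁻ x, h x ^ p with hB
  have hgp : 0 < (g + 1) / 2 := by linarith
  by_cases hA0 : A = 0
  · have h1 : ∀ᵐ y, f y = 0 := by
      have := (lintegral_eq_zero_iff (hf.pow_const p)).mp hA0
      filter_upwards [this] with y hy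
      simpa [ENNReal.rpow_eq_zero_iff, hp0, hp0.not_gt] using hy
    have h2 : ∀ x, ∫⁻ y, f y * h (x - y) = 0 := by
      intro x
      rw [lintegral_eq_zero_iff (by fun_prop)]
      filter_upwards [h1] with y hy
      simp [hy]
    simp only [h2, ENNReal.zero_rpow_of_pos g0, lintegral_zero]
    exact zero_le
  by_cases hB0 : B = 0
  · have h1 : ∀ᵐ y, h y = 0 := by
      have := (lintegral_eq_zero_iff (hh.pow_const p)).mp hB0
      filter_upwards [this] with y hy
      simpa [ENNReal.rpow_eq_zero_iff, hp0, hp0.not_gt] using hy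
    have h2 : ∀ x, ∫⁻ y, f y * h (x - y) = 0 := by
      intro x
      rw [← lintegral_sub_left_eq_self (fun y => f y * h (x - y)) x, lintegral_eq_zero_iff (by fun_prop)]
      filter_upwards [h1] with y hy
      simp [hy]
    simp only [h2, ENNReal.zero_rpow_of_pos g0, lintegral_zero]
    exact zero_le
  by_cases hAt : A = ∞
  · have : κ * A ^ ((g + 1) / 2) * B ^ ((g + 1) / 2) = ∞ := by
      rw [hAt, ENNReal.top_rpow_of_pos hgp, ENNReal.mul_top hκ, ENNReal.top_mul]
      simp [ENNReal.rpow_eq_zero_iff, hB0, hgp.not_gt, hgp]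
    rw [this]; exact le_top
  by_cases hBt : B = ∞
  · have : κ * A ^ ((g + 1) / 2) * B ^ ((g + 1) / 2) = ∞ := by
      rw [hBt, ENNReal.top_rpow_of_pos hgp, ENNReal.mul_top]
      refine mul_ne_zero hκ ?_
      simp [ENNReal.rpow_eq_zero_iff, hA0, hgp.not_gt, hgp]
    rw [this]; exact le_top
  set F : ℝ → ℝ≥0∞ := fun x => f x ^ p / A with hF
  set H : ℝ → ℝ≥0∞ := fun x => h x ^ p / B with hH
  have hFm : Measurable F := by fun_prop
  have hHm : Measurable H := by fun_prop
  have hF1 : ∫⁻ x, F x = 1 := by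
    simp only [hF, div_eq_mul_inv]
    rw [lintegral_mul_const _ (by fun_prop), ← hA, ENNReal.mul_inv_cancel hA0 hAt]
  have hH1 : ∫⁻ x, H x = 1 := by
    simp only [hH, div_eq_mul_inv]
    rw [lintegral_mul_const _ (by fun_prop), ← hB, ENNReal.mul_inv_cancel hB0 hBt]
  have hconj : (g / (g - 1)).HolderConjugate g := (Real.HolderConjugate.conjExponent hg).symm
  set q := g / (g - 1) with hq
  have hq0 : 0 < q := hconj.pos
  have hg1 : g - 1 ≠ 0 := by linarith
  have hexp : 1 / p = 1 / 2 * (1 / q) + 1 / g := by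
    rw [hp, hq]; field_simp; ring
  have hfF : ∀ y, f y = A ^ (1 / p) * F y ^ (1 / p) := by
    intro y
    simp only [hF]
    rw [← ENNReal.mul_rpow_of_nonneg _ _ (by positivity), ENNReal.mul_div_cancel hA0 hAt,
      ← ENNReal.rpow_mul, mul_one_div_cancel hp0.ne', ENNReal.rpow_one]
  have hhH : ∀ y, h y = B ^ (1 / p) * H y ^ (1 / p) := by
    intro y
    simp only [hH]
    rw [← ENNReal.mul_rpow_of_nonneg _ _ (by positivity), ENNReal.mul_div_cancel hB0 hBt,
      ← ENNReal.rpow_mul, mul_one_div_cancel hp0.ne', ENNReal.rpow_one]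
  have hsplit : ∀ z : ℝ≥0∞, z ^ (1 / p) = (z ^ (1 / 2 : ℝ)) ^ (1 / q) * z ^ (1 / g) := by
    intro z
    rw [hexp, ENNReal.rpow_add_of_nonneg _ _ (by positivity) (by positivity), ENNReal.rpow_mul]
  have hpt : ∀ x, (∫⁻ y, f y * h (x - y)) ^ g ≤
      A ^ ((g + 1) / 2) * B ^ ((g + 1) / 2) * (conv F H x * aff F H x ^ (g - 1)) := by
    intro x
    have h1 : ∫⁻ y, f y * h (x - y) = A ^ (1 / p) * B ^ (1 / p) *
        ∫⁻ y, (F y ^ (1 / 2 : ℝ) * H (x - y) ^ (1 / 2 : ℝ)) ^ (1 / q) *
          (F y * H (x - y)) ^ (1 / g) := by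
      rw [← lintegral_const_mul _ (by fun_prop)]
      refine lintegral_congr fun y => ?_
      rw [hfF y, hhH (x - y), hsplit (F y), hsplit (H (x - y)),
        ENNReal.mul_rpow_of_nonneg _ _ (by positivity : 0 ≤ 1 / q),
        ENNReal.mul_rpow_of_nonneg _ _ (by positivity : 0 ≤ 1 / g)]
      ring
    have h2 : ∫⁻ y, (F y ^ (1 / 2 : ℝ) * H (x - y) ^ (1 / 2 : ℝ)) ^ (1 / q) *
          (F y * H (x - y)) ^ (1 / g) ≤ aff F H x ^ (1 / q) * conv F H x ^ (1 / g) := by
      refine (ENNReal.lintegral_mul_le_Lp_mul_Lq volume hconj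
        (f := fun y => (F y ^ (1 / 2 : ℝ) * H (x - y) ^ (1 / 2 : ℝ)) ^ (1 / q))
        (g := fun y => (F y * H (x - y)) ^ (1 / g)) (by fun_prop) (by fun_prop)).trans
        (le_of_eq ?_)
      simp only [← ENNReal.rpow_mul]
      rw [one_div_mul_cancel hq0.ne', one_div_mul_cancel g0.ne']
      simp only [ENNReal.rpow_one]
      rfl
    calc (∫⁻ y, f y * h (x - y)) ^ g
        ≤ (A ^ (1 / p) * B ^ (1 / p) * (aff F H x ^ (1 / q) * conv F H x ^ (1 / g))) ^ g := by
          rw [h1]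
          exact ENNReal.rpow_le_rpow (by gcongr) g0.le
      _ = A ^ ((g + 1) / 2) * B ^ ((g + 1) / 2) * (conv F H x * aff F H x ^ (g - 1)) := by
          rw [ENNReal.mul_rpow_of_nonneg _ _ g0.le, ENNReal.mul_rpow_of_nonneg _ _ g0.le,
            ENNReal.mul_rpow_of_nonneg _ _ g0.le, ← ENNReal.rpow_mul, ← ENNReal.rpow_mul,
            ← ENNReal.rpow_mul, ← ENNReal.rpow_mul]
          have e1 : 1 / p * g = (g + 1) / 2 := by rw [hp]; field_simp
          have e2 : 1 / q * g = g - 1 := by rw [hq]; field_simp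
          have e3 : 1 / g * g = 1 := by field_simp
          rw [e1, e2, e3, ENNReal.rpow_one, mul_comm (conv F H x)]
  calc ∫⁻ x, (∫⁻ y, f y * h (x - y)) ^ g
      ≤ ∫⁻ x, A ^ ((g + 1) / 2) * B ^ ((g + 1) / 2) * (conv F H x * aff F H x ^ (g - 1)) :=
        lintegral_mono hpt
    _ = A ^ ((g + 1) / 2) * B ^ ((g + 1) / 2) *
        ∫⁻ x, aff F H x ^ (g - 1) ∂(volume.withDensity (conv F H)) := by
        have m1 := measurable_conv hFm hHm
        have m2 := measurable_aff hFm hHm
        rw [lintegral_const_mul _ (by fun_prop),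
          lintegral_withDensity_eq_lintegral_mul _ m1 (by fun_prop)]
        rfl
    _ ≤ A ^ ((g + 1) / 2) * B ^ ((g + 1) / 2) * κ := by
        gcongr
        exact hmom F H hFm hHm hF1 hH1
    _ = κ * A ^ ((g + 1) / 2) * B ^ ((g + 1) / 2) := by ring

/-- Young's inequality on `ℝ` with constant `52 / 53`. -/
theorem YP_real_one {g : ℝ} (hg : 2 ≤ g) : YP ℝ volume g (52 / 53) := by
  refine YP_real_of (by linarith) (by norm_num) fun F H hF hH hF1 hH1 => ?_
  refine le_trans (lintegral_mono fun x => ?_) (moment_one hF hH hF1 hH1)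
  exact ENNReal.rpow_le_self_of_le_one (aff_le_one hF hH hF1 hH1 x) (by linarith)

/-- Young's inequality on `ℝ` with constant `2 √(2 / (g + 1))`. -/
theorem YP_real_pow {g : ℝ} (hg : 1 < g) :
    YP ℝ volume g (ENNReal.ofReal (2 * √(2 / (g + 1)))) := by
  refine YP_real_of hg ?_ fun F H hF hH hF1 hH1 => ?_
  · rw [Ne, ENNReal.ofReal_eq_zero, not_le]
    positivity
  · have := moment_pow hF hH hF1 hH1 (N := g - 1) (by linarith)
    rwa [show g - 1 + 2 = g + 1 by ring] at this

/-- **Young's inequality with exponentially small constant**, `p = 2 g / (g + 1)`. -/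
theorem young_one {g : ℝ} (hg : 2 ≤ g) (n : ℕ) :
    YP (Fin n → ℝ) volume g ((52 / 53) ^ n) := YP_pi (by linarith) (YP_real_one hg) n

/-- **Young's inequality with exponentially small constant**, `p = 2 g / (g + 1)`. -/
theorem young_pow {g : ℝ} (hg : 1 < g) (n : ℕ) :
    YP (Fin n → ℝ) volume g (ENNReal.ofReal (2 * √(2 / (g + 1))) ^ n) :=
  YP_pi hg (YP_real_pow hg) n

end Crest.Agent.R225.Young
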