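import Crest.Agent.R225.Iface
import Crest.Agent.R225.Young

/-!
# Row 225 (S0347): the analytic inequality, nodes A1, A2, A3, A4
-/

set_option autoImplicit false

open MeasureTheory Set
open scoped ENNReal

namespace Crest.Agent.R225

namespace A234

theorem const_aux {g : ℕ} (hg : 2 ≤ g) :
    2 * √(2 / ((g : ℝ) + 1)) ≤ 2 * √2 / √g := by
  have hg2 : (2 : ℝ) ≤ g := by exact_mod_cast hg
  rw [Real.sqrt_div (by norm_num), mul_div_assoc]
  have : 0 < √(g : ℝ) := Real.sqrt_pos.mpr (by linarith)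
  have : √(g : ℝ) ≤ √((g : ℝ) + 1) := Real.sqrt_le_sqrt (by linarith)
  gcongr

/-- all measurable functions, natural exponents -/
theorem young_nat {g : ℕ} (hg : 2 ≤ g) (m : ℕ) {f h : (Fin m → ℝ) → ℝ≥0∞}
    (hf : Measurable f) (hh : Measurable h) :
    ∫⁻ y, (conv f h y) ^ g ≤ ENNReal.ofReal (min (52 / 53) (2 * √2 / √g)) ^ m *
      (∫⁻ x, f x ^ (2 * g / (g + 1) : ℝ)) ^ ((g + 1 : ℝ) / 2) *
      (∫⁻ x, h x ^ (2 * g / (g + 1) : ℝ)) ^ ((g + 1 : ℝ) / 2) := by
  have hg2 : (2 : ℝ) ≤ g := by exact_mod_cast hg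
  have h1 := Young.young_one (g := g) hg2 m f h hf hh
  have h2 := Young.young_pow (g := g) (by linarith) m f h hf hh
  simp only [ENNReal.rpow_natCast] at h1 h2
  rcases min_choice (52 / 53 : ℝ) (2 * √2 / √g) with h3 | h3
  · rw [h3]
    have : (52 / 53 : ℝ≥0∞) = ENNReal.ofReal (52 / 53) := by
      rw [ENNReal.ofReal_div_of_pos (by norm_num)]
      norm_num
    rw [this] at h1
    exact h1
  · rw [h3]
    refine h2.trans ?_
    gcongr
    exact const_aux hg

end A234

theorem prf_A2 : S_A2 :=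
  ⟨52 / 53, 2 * √2, by norm_num, by norm_num, by positivity,
    fun _ m hg _ _ hf hh _ _ => A234.young_nat hg m hf hh⟩

theorem prf_A1 : S_A1 := by
  refine ⟨52 / 53, 2 * √2, by norm_num, by norm_num, by positivity,
    fun g hg f h hf hh _ _ => ?_⟩
  have hg2 : (2 : ℝ) ≤ g := by exact_mod_cast hg
  have h1 := Young.YP_real_one (g := g) hg2 f h hf hh
  have h2 := Young.YP_real_pow (g := g) (by linarith) f h hf hh
  simp only [ENNReal.rpow_natCast] at h1 h2
  rcases min_choice (52 / 53 : ℝ) (2 * √2 / √g) with h3 | h3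
  · rw [h3]
    have : (52 / 53 : ℝ≥0∞) = ENNReal.ofReal (52 / 53) := by
      rw [ENNReal.ofReal_div_of_pos (by norm_num)]
      norm_num
    rw [this] at h1
    exact h1
  · rw [h3]
    refine h2.trans ?_
    gcongr
    exact A234.const_aux hg

namespace A234

variable {m : ℕ}

theorem measurable_conv {f h : (Fin m → ℝ) → ℝ≥0∞} (hf : Measurable f) (hh : Measurable h) :
    Measurable (conv f h) := by
  have h1 : Measurable fun z : (Fin m → ℝ) × (Fin m → ℝ) => f z.2 * h (z.1 - z.2) := by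
    fun_prop
  exact h1.lintegral_prod_right'

theorem lintegral_conv {f h : (Fin m → ℝ) → ℝ≥0∞} (hf : Measurable f) (hh : Measurable h) :
    ∫⁻ y, conv f h y = (∫⁻ x, f x) * ∫⁻ x, h x := by
  unfold conv
  rw [lintegral_lintegral_swap (by fun_prop)]
  calc ∫⁻ y, ∫⁻ x, f y * h (x - y) = ∫⁻ y, f y * ∫⁻ x, h x := by
        refine lintegral_congr fun y => ?_
        rw [lintegral_const_mul _ (by fun_prop), lintegral_sub_right_eq_self (fun x => h x) y]
    _ = (∫⁻ x, f x) * ∫⁻ x, h x := by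
        rw [lintegral_mul_const _ hf]

theorem conv_le {f : (Fin m → ℝ) → ℝ≥0∞} (hf : Measurable f) (y : Fin m → ℝ) :
    conv f f y ≤ ∫⁻ x, f x ^ 2 := by
  unfold conv
  have h1 : ∫⁻ x, f (y - x) ^ 2 = ∫⁻ x, f x ^ 2 := lintegral_sub_left_eq_self (fun x => f x ^ 2) y
  have h2 := ENNReal.lintegral_mul_le_Lp_mul_Lq (volume : Measure (Fin m → ℝ))
    Real.HolderConjugate.two_two (f := f) (g := fun x => f (y - x)) hf.aemeasurable
    (by fun_prop)
  refine h2.trans ?_
  have e2 : ∀ z : ℝ≥0∞, z ^ (2 : ℝ) = z ^ (2 : ℕ) := fun z => by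
    rw [← ENNReal.rpow_natCast]; norm_num
  simp only [e2, h1]
  rw [← ENNReal.rpow_add_of_nonneg _ _ (by norm_num) (by norm_num)]
  norm_num

theorem measurable_FF {S : Set (Fin m → ℝ)} (hS : MeasurableSet S) (j : ℕ) :
    Measurable (FF S j) := by
  induction j with
  | zero => exact measurable_one.indicator hS
  | succ j ih => exact measurable_conv ih ih

theorem lintegral_FF {S : Set (Fin m → ℝ)} (hS : MeasurableSet S) (j : ℕ) :
    ∫⁻ x, FF S j x = volume S ^ (2 ^ j) := by
  induction j with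
  | zero => simp [FF, lintegral_indicator_one hS]
  | succ j ih =>
    rw [FF, lintegral_conv (measurable_FF hS j) (measurable_FF hS j), ih, ← pow_add, pow_succ]
    congr 1; ring

end A234

theorem prf_A3 : S_A3 := by
  refine ⟨52 / 53, by norm_num, by norm_num, fun m j S _ hS hV => ?_⟩
  have hκ : (52 / 53 : ℝ≥0∞) = ENNReal.ofReal (52 / 53) := by
    rw [ENNReal.ofReal_div_of_pos (by norm_num)]
    norm_num
  rw [← hκ]
  set κ : ℝ≥0∞ := 52 / 53
  set V := volume S with hVdef
  -- one step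
  have step : ∀ j, ∀ B : ℝ≥0∞, (∀ y, FF S j y ≤ B) →
      ∫⁻ y, FF S (j + 1) y ^ 2 ≤ κ ^ m * B * V ^ (3 * 2 ^ j) := by
    intro j B hB
    have h1 := Young.young_one (g := 2) le_rfl m (FF S j) (FF S j) (A234.measurable_FF hS j)
      (A234.measurable_FF hS j)
    have e2 : ∀ z : ℝ≥0∞, z ^ (2 : ℝ) = z ^ (2 : ℕ) := fun z => by
      rw [← ENNReal.rpow_natCast]; norm_num
    simp only [e2] at h1
    have h2 : ∫⁻ x, FF S j x ^ (2 * 2 / (2 + 1) : ℝ) ≤ B ^ (1 / 3 : ℝ) * V ^ (2 ^ j) := by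
      calc ∫⁻ x, FF S j x ^ (2 * 2 / (2 + 1) : ℝ) ≤ ∫⁻ x, B ^ (1 / 3 : ℝ) * FF S j x := by
            refine lintegral_mono fun x => ?_
            have : (2 * 2 / (2 + 1) : ℝ) = 1 / 3 + 1 := by norm_num
            simp only
            rw [this, ENNReal.rpow_add_of_nonneg _ _ (by norm_num) (by norm_num),
              ENNReal.rpow_one]
            gcongr
            exact hB x
        _ = B ^ (1 / 3 : ℝ) * V ^ (2 ^ j) := by
            rw [lintegral_const_mul _ (A234.measurable_FF hS j), A234.lintegral_FF hS j]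
    have h3 : (∫⁻ x, FF S j x ^ (2 * 2 / (2 + 1) : ℝ)) ^ ((2 + 1) / 2 : ℝ) ≤
        (B ^ (1 / 3 : ℝ) * V ^ (2 ^ j)) ^ ((2 + 1) / 2 : ℝ) := by
      gcongr
    calc ∫⁻ y, FF S (j + 1) y ^ 2 ≤ κ ^ m * (B ^ (1 / 3 : ℝ) * V ^ (2 ^ j)) ^ ((2 + 1) / 2 : ℝ) *
          (B ^ (1 / 3 : ℝ) * V ^ (2 ^ j)) ^ ((2 + 1) / 2 : ℝ) := by
          refine le_trans ?_ (mul_le_mul' (mul_le_mul' le_rfl h3) h3)
          exact h1
      _ = κ ^ m * B * V ^ (3 * 2 ^ j) := by
          rw [mul_assoc, ← ENNReal.rpow_add_of_nonneg _ _ (by norm_num) (by norm_num),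
            ENNReal.mul_rpow_of_nonneg _ _ (by norm_num), ← ENNReal.rpow_mul,
            ← ENNReal.rpow_natCast V, ← ENNReal.rpow_mul, ← ENNReal.rpow_natCast V, mul_assoc]
          congr 2
          · norm_num
          · congr 1
            push_cast
            ring
  induction j using Nat.twoStepInduction with
  | zero =>
    simp only [FF, zero_add, pow_one, Nat.reduceDiv, mul_zero, pow_zero, one_mul]
    norm_num
    have : ∀ y, (S.indicator (1 : (Fin m → ℝ) → ℝ≥0∞) y) ^ 2 = S.indicator 1 y := by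
      intro y
      by_cases hy : y ∈ S <;> simp [hy]
    simp only [this]
    rw [lintegral_indicator_one hS]
  | one =>
    have := step 0 1 (fun y => by
      simp only [FF]
      by_cases hy : y ∈ S <;> simp [hy])
    simpa using this
  | more j ih _ =>
    have hB : ∀ y, FF S (j + 1) y ≤ κ ^ (m * ((j + 1) / 2)) * V ^ (2 ^ (j + 1) - 1) :=
      fun y => (A234.conv_le (A234.measurable_FF hS j) y).trans ih
    have h1 := step (j + 1) _ hB
    refine h1.trans (le_of_eq ?_)
    have h2 : (j + 2 + 1) / 2 = (j + 1) / 2 + 1 := by omega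
    have h3 : 2 ^ (j + 2 + 1) - 1 = (2 ^ (j + 1) - 1) + 3 * 2 ^ (j + 1) := by
      have : 2 ^ (j + 2 + 1) = 4 * 2 ^ (j + 1) := by ring
      have h4 : 1 ≤ 2 ^ (j + 1) := Nat.one_le_two_pow
      omega
    rw [h2, h3, mul_add, mul_one, pow_add κ, pow_add V]
    ring

theorem prf_A4 : S_A4 := by
  refine ⟨2 * √2, by positivity, fun g m S hg _ hS hV => ?_⟩
  have h1 : ∀ (f : (Fin m → ℝ) → ℝ≥0∞) (T : Set (Fin m → ℝ)), MeasurableSet T →
      volume T = volume S → f = T.indicator 1 →
      ∫⁻ y, (conv (S.indicator 1) f y) ^ g ≤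
        ENNReal.ofReal (2 * √2 / √g) ^ m * volume S ^ (g + 1) := by
    intro f T hT hTV hf
    have hm1 : Measurable (S.indicator (1 : (Fin m → ℝ) → ℝ≥0∞)) := measurable_one.indicator hS
    have hm2 : Measurable f := hf ▸ measurable_one.indicator hT
    have hg0 : (0 : ℝ) < g := by
      have : 0 < g := by omega
      exact_mod_cast this
    have hp : (0 : ℝ) < 2 * g / (g + 1) := by positivity
    have e1 : ∀ R : Set (Fin m → ℝ), MeasurableSet R →
        ∫⁻ x, (R.indicator (1 : (Fin m → ℝ) → ℝ≥0∞) x) ^ (2 * g / (g + 1) : ℝ) = volume R := by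
      intro R hR
      have : ∀ x, (R.indicator (1 : (Fin m → ℝ) → ℝ≥0∞) x) ^ (2 * g / (g + 1) : ℝ) =
          R.indicator 1 x := by
        intro x
        by_cases hx : x ∈ R
        · simp [hx]
        · simp [hx, hp]
      simp only [this]
      rw [lintegral_indicator_one hR]
    have h := A234.young_nat hg m hm1 hm2
    rw [e1 S hS, hf, e1 T hT, hTV, ← hf, mul_assoc,
      ← ENNReal.rpow_add_of_nonneg _ _ (by positivity) (by positivity)] at h
    have e3 : (g + 1 : ℝ) / 2 + (g + 1) / 2 = ((g + 1 : ℕ) : ℝ) := by push_cast; ring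
    rw [e3, ENNReal.rpow_natCast] at h
    refine h.trans ?_
    gcongr
    exact min_le_right _ _
  constructor
  · have h2 := h1 (S.indicator 1) S hS rfl rfl
    refine le_trans (le_of_eq ?_) h2
    refine lintegral_congr fun y => ?_
    congr 1
    unfold conv
    have : ∀ x, S.indicator (1 : (Fin m → ℝ) → ℝ≥0∞) x * S.indicator 1 (y - x) =
        (S ∩ {x | y - x ∈ S}).indicator 1 x := by
      intro x
      by_cases hx : x ∈ S <;> by_cases hy : y - x ∈ S <;> simp [hx, hy, indicator]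
    simp only [this]
    rw [lintegral_indicator_one]
    exact hS.inter (measurable_const.sub measurable_id hS)
  · have hneg : MeasurableSet (-S) := hS.neg
    have h2 := h1 ((-S).indicator 1) (-S) hneg (by simp) rfl
    refine le_trans (le_of_eq ?_) h2
    refine lintegral_congr fun y => ?_
    congr 1
    unfold conv
    have : ∀ x, S.indicator (1 : (Fin m → ℝ) → ℝ≥0∞) x * (-S).indicator 1 (y - x) =
        (S ∩ {x | x - y ∈ S}).indicator 1 x := by
      intro x
      by_cases hx : x ∈ S <;> by_cases hy : x - y ∈ S <;> simp [hx, hy, indicator]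
    simp only [this]
    rw [lintegral_indicator_one]
    exact hS.inter (measurable_id.sub measurable_const hS)

end Crest.Agent.R225
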