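import Crest.Agent.R225.B3Asm

/-!
# Row 225 (S0347), node B3: final assembly from the numerics (helper351)
-/

set_option autoImplicit false

open Finset
open scoped BigOperators

namespace Crest.Agent.R225
namespace B3

/-- numerics with a general constant `K` -/
def S_numK (K : ℝ) : Prop := ∀ c1 : ℝ, 0 < c1 → c1 ≤ 1 → ∃ X0 : ℝ, 1 ≤ X0 ∧ ∀ X ≥ X0,
  ∃ n0 : ℕ, 3 ≤ n0 ∧ ∀ n ≥ n0, ∀ I : ℕ, (n : ℝ) ^ (9 / 10 : ℝ) ≤ xl X I →
  xl X I ≤ 2 * (n : ℝ) ^ (9 / 10 : ℝ) →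
  ∀ (N ν0 s0 : ℕ), N = 2 * ⌈(n : ℝ) ^ (15 / 100 : ℝ)⌉₊ → ν0 = ⌈(n : ℝ) ^ (12 / 100 : ℝ)⌉₊ →
  s0 = ⌈(n : ℝ) ^ (2 / 100 : ℝ)⌉₊ →
  1 ≤ NN n ∧ 3 ≤ s0 ∧ ν0 * s0 ≤ N ∧ (2 * ((n ^ 16 : ℕ) : ℝ) + 1) ^ N * al X I ≤ 1 ∧
  (K / tau X (I + 1)) ^ N *
      (((2 * ((n ^ 16 : ℕ) : ℝ) + 1) ^ N * al X I) ^ ν0 +
        2 ^ N * (2 * (hbb (n ^ 16) N : ℝ) + 1) ^ N * Real.exp (-(c1 * NN n)))
    ≤ Real.exp (-(c1 / 3 * NN n))

lemma tau_le_one (X : ℝ) (i : ℕ) : tau X i ≤ 1 := by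
  unfold tau
  apply Finset.prod_le_one
  · intro j _
    positivity
  · intro j _
    rw [div_le_one (by unfold lam; positivity)]
    have h1 : 1 ≤ lam X j := by
      unfold lam
      exact Real.one_le_exp (Real.sqrt_nonneg _)
    nlinarith

lemma al_le_one (X : ℝ) (hX : 0 ≤ X) (i : ℕ) : al X i ≤ 1 := by
  unfold al
  rw [Real.exp_le_one_iff]
  unfold xl theta
  have h1 : (1 : ℝ) ≤ (1 + 1 / 200000) ^ i := one_le_pow₀ (by norm_num)
  nlinarith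

lemma final_ineq (N : ℕ) (γ τ S β hh δ : ℝ) (hτ : 0 < τ) (hS : 0 < S) (hγ0 : 0 ≤ γ)
    (hγ : γ ≤ 5 * S / τ) (hβ0 : 0 ≤ β) (hhh0 : 0 ≤ hh) (hδ0 : 0 ≤ δ) :
    2 ^ N * (γ ^ N * (β + N * 2 ^ N * hh * δ)) / (S / 20) ^ N ≤
      (1000 / τ) ^ N * (β + 2 ^ N * hh * δ) := by
  have hNpow : (N : ℝ) ≤ 2 ^ N := by
    exact_mod_cast (Nat.lt_two_pow_self).le
  rw [div_le_iff₀ (by positivity)]
  have e1 : γ ^ N ≤ (5 * S / τ) ^ N := by gcongr
  have e2 : β + N * 2 ^ N * hh * δ ≤ 2 ^ N * (β + 2 ^ N * hh * δ) := by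
    have h1 : (1 : ℝ) ≤ 2 ^ N := one_le_pow₀ (by norm_num)
    have h2 : β ≤ 2 ^ N * β := by nlinarith
    have h3 : (N : ℝ) * (2 ^ N * hh * δ) ≤ 2 ^ N * (2 ^ N * hh * δ) := by gcongr
    linarith
  have h1 : (2 : ℝ) ^ N * ((5 * S / τ) ^ N * 2 ^ N) = (400 / τ) ^ N * (S / 20) ^ N := by
    rw [← mul_pow, ← mul_pow, ← mul_pow]
    congr 1
    field_simp
    ring
  calc 2 ^ N * (γ ^ N * (β + N * 2 ^ N * hh * δ))
      ≤ 2 ^ N * ((5 * S / τ) ^ N * (2 ^ N * (β + 2 ^ N * hh * δ))) := by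
        gcongr
    _ = (400 / τ) ^ N * (S / 20) ^ N * (β + 2 ^ N * hh * δ) := by
        rw [← h1]; ring
    _ ≤ (1000 / τ) ^ N * (S / 20) ^ N * (β + 2 ^ N * hh * δ) := by
        gcongr
        norm_num
    _ = (1000 / τ) ^ N * (β + 2 ^ N * hh * δ) * (S / 20) ^ N := by ring

theorem B3_of_num (hI : S_indep) (hB1 : S_B1) (hB2 : S_B2) (hnum : S_numK 1000) : S_B3 := by
  classical
  intro c1 Crat hc1 hc1' hCrat
  obtain ⟨X0, hX0, hX⟩ := hnum c1 hc1 hc1'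
  refine ⟨X0, fun X hXX => ?_⟩
  obtain ⟨n0, hn0, hn⟩ := hX X hXX
  refine ⟨n0, fun n hnn m I hx1 hx2 _ _ G => ?_⟩
  have hX1 : 1 ≤ X := hX0.trans hXX
  obtain ⟨P1, hP1⟩ := mom hI hB1 hB2 m G
  obtain ⟨P2, hP2⟩ := Ear.base_small (m := m) n I X G (by omega)
  refine ⟨max (max P1 P2) (80 * G.card + 1), fun P hP => ?_⟩
  intro _ α0 w ctx
  obtain ⟨N, hN⟩ : ∃ N : ℕ, N = 2 * ⌈(n : ℝ) ^ (15 / 100 : ℝ)⌉₊ := ⟨_, rfl⟩
  obtain ⟨ν0, hν0⟩ : ∃ ν0 : ℕ, ν0 = ⌈(n : ℝ) ^ (12 / 100 : ℝ)⌉₊ := ⟨_, rfl⟩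
  obtain ⟨s0, hs0⟩ : ∃ s0 : ℕ, s0 = ⌈(n : ℝ) ^ (2 / 100 : ℝ)⌉₊ := ⟨_, rfl⟩
  obtain ⟨hNN, hs3, hνs, hKA, hfin⟩ := hn n hnn I hx1 hx2 N ν0 s0 hN hν0 hs0
  have hmom := hP1 P ((le_max_left _ _).trans ((le_max_left _ _).trans hP))
  have hsm := hP2 P ((le_max_right _ _).trans ((le_max_left _ _).trans hP)) c1 Crat α0 w ctx
  have hPG : 80 * G.card + 1 ≤ P := (le_max_right _ _).trans hP
  have hτ := BaseN.tau_pos X (I + 1)
  have hτ1 := tau_le_one X (I + 1)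
  have hα := BaseN.al_pos X I
  have hα1 := al_le_one X (by linarith) I
  have hPr : (80 * G.card : ℝ) ≤ P := by
    have : 80 * G.card ≤ P := by omega
    exact_mod_cast this
  have hPpos : (0 : ℝ) < P := by
    have : 0 < P := by omega
    exact_mod_cast this
  obtain ⟨g0, hg0⟩ := ctx.grid.box
  set S : ℝ := Stot w G [] with hS
  have hSdef : S = ∑ g ∈ G, w g [] := by
    rw [hS]; unfold Stot wt hist; simp
  have hS1 : 1 ≤ S := by
    have h1 := ctx.lower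
    have h2 : 1 ≤ Real.exp X := Real.one_le_exp (by linarith)
    rw [hSdef]
    nlinarith
  -- the centred weights
  let D : Pt m → ZMod P → ℝ := fun g x => w g [x] - 𝔼 ξ, w g [ξ]
  have hwrange : ∀ g x, 0 ≤ w g [x] ∧ w g [x] ≤ al X I := by
    intro g x
    refine ⟨Ear.w_one_nonneg ctx g x, ?_⟩
    rcases Ear.w_one_mem ctx g x with h1 | h1
    · rw [h1]; exact hα.le
    · exact h1.2
  have hμ : ∀ g, 0 ≤ (𝔼 ξ, w g [ξ]) ∧ (𝔼 ξ, w g [ξ]) ≤ al X I := by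
    intro g
    refine ⟨Finset.expect_nonneg fun ξ _ => (hwrange g ξ).1, ?_⟩
    exact Finset.expect_le Finset.univ_nonempty (fun ξ _ => (hwrange g ξ).2)
  have hD0 : ∀ g ∈ G, 𝔼 x, D g x = 0 := by
    intro g _
    simp only [D]
    rw [Finset.expect_sub_distrib, Finset.expect_const Finset.univ_nonempty, sub_self]
  have hDA : ∀ g ∈ G, ∀ x, |D g x| ≤ al X I := by
    intro g _ x
    simp only [D]
    rw [abs_le]
    have h1 := hwrange g x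
    have h2 := hμ g
    constructor <;> linarith
  have hDa : ∀ g ∈ G, 𝔼 x, |D g x| ≤ 4 * α0 := by
    intro g hg
    have h1 : 𝔼 x, |D g x| ≤ 𝔼 x : ZMod P, (w g [x] + 𝔼 ξ, w g [ξ]) := by
      refine Finset.expect_le_expect fun x _ => ?_
      simp only [D]
      rw [abs_le]
      have h1 := hwrange g x
      have h2 := hμ g
      constructor <;> linarith
    rw [Finset.expect_add_distrib, Finset.expect_const Finset.univ_nonempty] at h1
    have h2 := abs_le.mp (Ear.w_mart ctx g)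
    have h3 := hsm g hg
    have h4 := (Ear.w_nil_mem ctx hg).2
    linarith [h2.2]
  have hrel : ∀ (s : ℕ) (h : Fin s → ℤ) (y : Pt m), s0 ≤ s → (∀ i, h i ≠ 0) →
      (relCount G h y : ℝ) ≤ (G.card : ℝ) ^ (s - 1) * Real.exp (-(c1 * NN n)) := by
    intro s h y hs hh
    refine ctx.grid.relL s h y ?_ hh
    refine (Nat.le_ceil _).trans ?_
    rw [← hs0]
    exact_mod_cast hs
  have hN1 : 1 ≤ N := by
    rcases Nat.eq_zero_or_pos N with h | h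
    · exfalso
      rw [h] at hνs
      have h1 : ν0 = 0 := by
        rcases Nat.eq_zero_or_pos ν0 with h2 | h2
        · exact h2
        · nlinarith
      rw [hν0, Nat.ceil_eq_zero] at h1
      have h2 : (0 : ℝ) < (n : ℝ) ^ (12 / 100 : ℝ) := by
        have : (0 : ℝ) < n := by
          have : 0 < n := by omega
          exact_mod_cast this
        positivity
      linarith
    · exact h
  have hM := hmom N ν0 s0 (n ^ 16) g0 D (al X I) (4 * α0) (Real.exp (-(c1 * NN n)))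
    (fun g hg k => by exact_mod_cast hg0 g hg k) hN1 hs3 hνs hα (by linarith [ctx.hα0])
    (Real.exp_pos _).le hKA hD0 hDA hDa hrel
  -- Markov
  have hY : ∀ r : Row P m, ¬ (|Stot w G [r] - S| ≤ 1 / 10 * S) →
      S / 20 ≤ |∑ g ∈ G, D g (res r g)| := by
    intro r hr
    push Not at hr
    have h1 : Stot w G [r] = ∑ g ∈ G, w g [res r g] := by
      unfold Stot wt hist; simp
    have h2 : Stot w G [r] - S = ∑ g ∈ G, D g (res r g) +
        ∑ g ∈ G, ((𝔼 ξ, w g [ξ]) - w g []) := by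
      rw [h1, hSdef, ← Finset.sum_sub_distrib, ← Finset.sum_add_distrib]
      refine Finset.sum_congr rfl fun g _ => ?_
      simp only [D]
      ring
    have h3 : |∑ g ∈ G, ((𝔼 ξ, w g [ξ]) - w g [])| ≤ 1 / 20 := by
      calc |∑ g ∈ G, ((𝔼 ξ, w g [ξ]) - w g [])| ≤ ∑ g ∈ G, |(𝔼 ξ, w g [ξ]) - w g []| :=
            Finset.abs_sum_le_sum_abs _ _
        _ ≤ ∑ _g ∈ G, (4 : ℝ) / (P : ℝ) * 1 := by
            refine Finset.sum_le_sum fun g _ => (Ear.w_mart ctx g).trans ?_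
            gcongr
        _ = (G.card : ℝ) * (4 / (P : ℝ)) := by rw [Finset.sum_const, nsmul_eq_mul, mul_one]
        _ ≤ 1 / 20 := by
            rw [mul_div_assoc', div_le_iff₀ hPpos]
            linarith
    rw [h2] at hr
    have h4 := abs_add_le (∑ g ∈ G, D g (res r g)) (∑ g ∈ G, ((𝔼 ξ, w g [ξ]) - w g []))
    linarith
  have hmk := markov_even (fun r : Row P m => ∑ g ∈ G, D g (res r g))
    (fun r => |Stot w G [r] - S| ≤ 1 / 10 * S) ⌈(n : ℝ) ^ (15 / 100 : ℝ)⌉₊ (S / 20) _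
    (by linarith) hY (hN ▸ hM)
  refine hmk.trans (le_trans ?_ hfin)
  -- final inequality
  have hγ : (G.card : ℝ) * (4 * α0) + 1 ≤ 5 * S / tau X (I + 1) := by
    rw [le_div_iff₀ hτ]
    have h1 : (G.card : ℝ) * α0 * tau X (I + 1) ≤ S := by
      calc (G.card : ℝ) * α0 * tau X (I + 1) = ∑ _g ∈ G, tau X (I + 1) * α0 := by
            rw [Finset.sum_const, nsmul_eq_mul]; ring
        _ ≤ ∑ g ∈ G, w g [] := Finset.sum_le_sum fun g hg => (Ear.w_nil_mem ctx hg).1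
        _ = S := hSdef.symm
    nlinarith
  have hγ0 : 0 ≤ (G.card : ℝ) * (4 * α0) + 1 := by
    have := ctx.hα0
    positivity
  rw [← hN]
  exact final_ineq N _ (tau X (I + 1)) S _ _ _ hτ (by linarith) hγ0 hγ
    (pow_nonneg (mul_nonneg (pow_nonneg (by positivity) _) hα.le) _)
    (pow_nonneg (by positivity) _) (Real.exp_pos _).le

end B3
end Crest.Agent.R225
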