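import Crest.Agent.R225.B3Iface

/-!
Row 225 (S0347), node B3, piece P1: `S_indep`.
-/

set_option autoImplicit false

open Finset
open scoped BigOperators

namespace Crest.Agent.R225
namespace B3

theorem common_den' {ι : Type*} [Fintype ι] (q : ι → ℚ) :
    ∃ d : ℕ, d ≠ 0 ∧ ∀ i, ∃ z : ℤ, (d : ℚ) * q i = z := by
  classical
  refine ⟨∏ i, (q i).den, Finset.prod_ne_zero_iff.2 fun i _ => (q i).den_nz, fun i => ?_⟩
  obtain ⟨e, he⟩ := Finset.dvd_prod_of_mem (fun i => (q i).den) (Finset.mem_univ i)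
  refine ⟨e * (q i).num, ?_⟩
  rw [he]
  push_cast
  have := Rat.den_mul_eq_num (q i)
  calc ((q i).den : ℚ) * e * q i = e * ((q i).den * q i) := by ring
    _ = _ := by rw [this]

/-- value of an integral affine functional -/
def evi {m : ℕ} (v : ℤ × (Fin m → ℤ)) (h : Pt m) : ℤ := v.1 + ∑ k, v.2 k * h k

theorem sep_int {m : ℕ} (Z : Finset (Pt m)) (g : Pt m)
    (hg : aff g ∉ Submodule.span ℚ (aff '' (Z : Set (Pt m)))) :
    ∃ v : ℤ × (Fin m → ℤ), (∀ h ∈ Z, evi v h = 0) ∧ evi v g ≠ 0 := by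
  classical
  obtain ⟨f, hf2, hf1⟩ := Submodule.exists_le_ker_of_notMem hg
  obtain ⟨d, hd, hz⟩ := common_den' (fun o : Option (Fin m) =>
    match o with
    | none => f ((0 : Fin m → ℚ), (1 : ℚ))
    | some k => f ((Pi.single k 1 : Fin m → ℚ), (0 : ℚ)))
  choose z hz using hz
  have h3 : ∀ h : Pt m, (d : ℚ) * f (aff h) = ((evi (z none, fun k => z (some k)) h : ℤ) : ℚ) := by
    intro h
    have h2 : aff h = ((0 : Fin m → ℚ), (1 : ℚ)) +
        ∑ k, (h k : ℚ) • ((Pi.single k 1 : Fin m → ℚ), (0 : ℚ)) := by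
      refine Prod.ext ?_ ?_
      · funext j
        simp [aff, Prod.fst_sum, Finset.sum_apply, Pi.single_apply]
      · simp [aff, Prod.snd_sum]
    rw [h2, map_add, map_sum]
    simp only [map_smul, smul_eq_mul, mul_add, Finset.mul_sum, evi]
    push_cast
    rw [← hz none]
    congr 1
    refine Finset.sum_congr rfl fun k _ => ?_
    rw [← hz (some k)]
    ring
  refine ⟨(z none, fun k => z (some k)), fun h hh => ?_, fun h0 => ?_⟩
  · have h4 : f (aff h) = 0 := by
      have : aff h ∈ LinearMap.ker f := hf1 (Submodule.subset_span ⟨h, hh, rfl⟩)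
      simpa using this
    have h5 := h3 h
    rw [h4, mul_zero] at h5
    exact_mod_cast h5.symm
  · have h5 := h3 g
    rw [h0] at h5
    simp only [Int.cast_zero, mul_eq_zero, Nat.cast_eq_zero] at h5
    rcases h5 with h5 | h5
    · exact hd h5
    · exact hf2 h5

theorem prf_indep : S_indep := by
  classical
  intro m G
  have hfam : ∀ p : Finset (Pt m) × Pt m, ∃ v : ℤ × (Fin m → ℤ),
      aff p.2 ∉ Submodule.span ℚ (aff '' (p.1 : Set (Pt m))) →
      (∀ h ∈ p.1, evi v h = 0) ∧ evi v p.2 ≠ 0 := by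
    intro p
    by_cases hp : aff p.2 ∉ Submodule.span ℚ (aff '' (p.1 : Set (Pt m)))
    · obtain ⟨v, hv⟩ := sep_int p.1 p.2 hp
      exact ⟨v, fun _ => hv⟩
    · exact ⟨0, fun h => absurd h hp⟩
  choose v hv using hfam
  refine ⟨(∑ p ∈ G.powerset ×ˢ G, (evi (v p) p.2).natAbs) + 1, fun P hP hprime Z g F f hZ hg hsp hF => ?_⟩
  obtain ⟨hv1, hv2⟩ := hv (Z, g) hsp
  set w := v (Z, g) with hw
  have hd : ((evi w g : ℤ) : ZMod P) ≠ 0 := by
    intro h0
    rw [ZMod.intCast_zmod_eq_zero_iff_dvd] at h0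
    have h1 : (P : ℤ).natAbs ≤ (evi w g).natAbs :=
      Int.natAbs_le_of_dvd_ne_zero h0 hv2
    have h2 : (evi w g).natAbs ≤ ∑ p ∈ G.powerset ×ˢ G, (evi (v p) p.2).natAbs :=
      Finset.single_le_sum (f := fun p : Finset (Pt m) × Pt m => (evi (v p) p.2).natAbs)
        (fun _ _ => Nat.zero_le _)
        (Finset.mem_product.2 ⟨Finset.mem_powerset.2 hZ, hg⟩)
    simp only [Int.natAbs_natCast] at h1
    omega
  -- translation
  set tr : ZMod P → Row P m := fun t => (t * (w.1 : ZMod P), fun k => t * (w.2 k : ZMod P)) with htr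
  have hres : ∀ (r : Row P m) (t : ZMod P) (h : Pt m),
      res (r + tr t) h = res r h + t * ((evi w h : ℤ) : ZMod P) := by
    intro r t h
    simp only [res, evi, htr, Prod.fst_add, Prod.snd_add, Pi.add_apply]
    push_cast
    simp only [add_mul, Finset.sum_add_distrib, mul_add, Finset.mul_sum]
    have : ∀ k, t * (w.2 k : ZMod P) * (h k : ZMod P) = t * ((w.2 k : ZMod P) * (h k : ZMod P)) :=
      fun k => mul_assoc _ _ _
    simp only [this]
    ring
  have key : ∀ t : ZMod P, 𝔼 r : Row P m, F r * f (res r g) =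
      𝔼 r : Row P m, F r * f (res r g + t * ((evi w g : ℤ) : ZMod P)) := by
    intro t
    refine (Fintype.expect_equiv (Equiv.addRight (tr t)) _ _ fun r => ?_).symm
    simp only [Equiv.coe_addRight]
    rw [hres]
    congr 1
    apply hF
    intro h hh
    rw [hres, hv1 h hh]
    simp
  have havg : ∀ x : ZMod P, 𝔼 t : ZMod P, f (x + t * ((evi w g : ℤ) : ZMod P)) = 𝔼 x, f x := by
    intro x
    have hbij : Function.Bijective fun t : ZMod P => x + t * ((evi w g : ℤ) : ZMod P) := by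
      refine ⟨fun a b hab => ?_, fun y => ⟨(y - x) / ((evi w g : ℤ) : ZMod P), ?_⟩⟩
      · exact mul_right_cancel₀ hd (add_left_cancel hab)
      · simp only
        rw [div_mul_cancel₀ _ hd]
        ring
    exact Fintype.expect_equiv (Equiv.ofBijective _ hbij) _ _ fun t => rfl
  calc 𝔼 r : Row P m, F r * f (res r g)
      = 𝔼 t : ZMod P, 𝔼 r : Row P m, F r * f (res r g + t * ((evi w g : ℤ) : ZMod P)) := by
        rw [← Finset.expect_congr rfl fun t _ => key t]
        rw [Finset.expect_const ⟨0, Finset.mem_univ _⟩]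
    _ = 𝔼 r : Row P m, 𝔼 t : ZMod P, F r * f (res r g + t * ((evi w g : ℤ) : ZMod P)) :=
        Finset.expect_comm _ _ _
    _ = 𝔼 r : Row P m, F r * 𝔼 x, f x := by
        refine Finset.expect_congr rfl fun r _ => ?_
        rw [← Finset.mul_expect, havg]
    _ = _ := by rw [Finset.expect_mul]

end B3
end Crest.Agent.R225
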