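import Crest.Agent.R225.Iface

/-!
Row 225 (S0347), node `S_Num`: numerical facts about the parameters.
-/

set_option autoImplicit false

open Finset MeasureTheory Filter Asymptotics
open scoped BigOperators ENNReal

namespace Crest.Agent.R225

namespace NumL

lemma theta_pos : 0 < theta := by unfold theta; norm_num

lemma xl_zero (X : ℝ) : xl X 0 = X := by simp [xl]

lemma xl_succ (X : ℝ) (i : ℕ) : xl X (i + 1) = xl X i * (1 + theta) := by
  unfold xl; rw [pow_succ]; ring

lemma le_xl {X : ℝ} (hX : 0 ≤ X) (i : ℕ) : X ≤ xl X i := by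
  unfold xl
  have : (1 : ℝ) ≤ (1 + theta) ^ i := one_le_pow₀ (by have := theta_pos; linarith)
  nlinarith

lemma xl_pos {X : ℝ} (hX : 0 < X) (i : ℕ) : 0 < xl X i := lt_of_lt_of_le hX (le_xl hX.le i)

/-- eventual inequalities -/
lemma ev_c (K : ℝ) : ∀ᶠ x : ℝ in atTop,
    K * Real.sqrt x * (1 + Real.log x) ≤ x ^ (3 / 4 : ℝ) := by
  have h1 : (fun x : ℝ => Real.log x) =o[atTop] (fun x : ℝ => x ^ (1 / 4 : ℝ)) :=
    isLittleO_log_rpow_atTop (by norm_num)
  have h2 : (fun _ : ℝ => (1 : ℝ)) =o[atTop] (fun x : ℝ => x ^ (1 / 4 : ℝ)) := by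
    refine isLittleO_const_left.mpr (Or.inr ?_)
    exact tendsto_norm_atTop_atTop.comp (tendsto_rpow_atTop (by norm_num))
  have h3 := (h2.add h1)
  have hc : (0 : ℝ) < 1 / (|K| + 1) := by positivity
  filter_upwards [h3.bound hc, eventually_ge_atTop 1] with x hx hx1
  have hx0 : 0 < x := by linarith
  have hl : 0 ≤ 1 + Real.log x := by have := Real.log_nonneg hx1; linarith
  have hp : 0 ≤ x ^ (1 / 4 : ℝ) := Real.rpow_nonneg hx0.le _
  rw [Real.norm_of_nonneg hl, Real.norm_of_nonneg hp] at hx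
  have hs : x ^ (3 / 4 : ℝ) = Real.sqrt x * x ^ (1 / 4 : ℝ) := by
    rw [Real.sqrt_eq_rpow, ← Real.rpow_add hx0]; norm_num
  have hK : |K| * (1 / (|K| + 1)) ≤ 1 := by
    rw [mul_one_div, div_le_one (by positivity)]; linarith
  have hs0 : 0 ≤ Real.sqrt x := Real.sqrt_nonneg x
  calc K * Real.sqrt x * (1 + Real.log x)
      ≤ |K| * Real.sqrt x * (1 + Real.log x) := by
        gcongr; exact le_abs_self K
    _ ≤ |K| * Real.sqrt x * (1 / (|K| + 1) * x ^ (1 / 4 : ℝ)) := by gcongr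
    _ = (|K| * (1 / (|K| + 1))) * (Real.sqrt x * x ^ (1 / 4 : ℝ)) := by ring
    _ ≤ 1 * (Real.sqrt x * x ^ (1 / 4 : ℝ)) := by gcongr
    _ = x ^ (3 / 4 : ℝ) := by rw [hs, one_mul]

lemma ev_d (K : ℝ) : ∀ᶠ x : ℝ in atTop, K * x ^ (3 / 4 : ℝ) ≤ theta * x := by
  have h1 : ∀ᶠ x : ℝ in atTop, |K| / theta ≤ x ^ (1 / 4 : ℝ) :=
    (tendsto_rpow_atTop (by norm_num : (0 : ℝ) < 1 / 4)).eventually_ge_atTop _
  filter_upwards [h1, eventually_gt_atTop 0] with x hx hx0
  have hth := theta_pos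
  have hs : x = x ^ (1 / 4 : ℝ) * x ^ (3 / 4 : ℝ) := by
    rw [← Real.rpow_add hx0]; norm_num
  have hp : 0 ≤ x ^ (3 / 4 : ℝ) := Real.rpow_nonneg hx0.le _
  rw [div_le_iff₀ hth] at hx
  calc K * x ^ (3 / 4 : ℝ) ≤ |K| * x ^ (3 / 4 : ℝ) := by gcongr; exact le_abs_self K
    _ ≤ (x ^ (1 / 4 : ℝ) * theta) * x ^ (3 / 4 : ℝ) := by gcongr
    _ = theta * (x ^ (1 / 4 : ℝ) * x ^ (3 / 4 : ℝ)) := by ring
    _ = theta * x := by rw [← hs]

lemma ev_g : ∀ᶠ x : ℝ in atTop,
    Real.log 2000 + 2 * (1500000 * (2 * Real.sqrt x)) + 2 * Real.log 8 + 2 * Real.sqrt x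
      ≤ 2 / 10 * theta * x := by
  have h1 : ∀ᶠ x : ℝ in atTop, (10 : ℝ) ^ 6 * (6000002 + (Real.log 2000 + 2 * Real.log 8))
      ≤ Real.sqrt x := by
    have : Tendsto (fun x : ℝ => Real.sqrt x) atTop atTop := by
      simpa [Real.sqrt_eq_rpow] using (tendsto_rpow_atTop (by norm_num : (0 : ℝ) < 1 / 2))
    exact this.eventually_ge_atTop _
  filter_upwards [h1, eventually_ge_atTop 1] with x hx hx1
  have hs1 : 1 ≤ Real.sqrt x := by rw [Real.le_sqrt' one_pos]; simpa using hx1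
  have hC : 0 ≤ Real.log 2000 + 2 * Real.log 8 := by
    have := Real.log_nonneg (by norm_num : (1 : ℝ) ≤ 2000)
    have := Real.log_nonneg (by norm_num : (1 : ℝ) ≤ 8)
    linarith
  set C := Real.log 2000 + 2 * Real.log 8 with hCdef
  have hx0 : 0 ≤ x := by linarith
  have hsq : Real.sqrt x * Real.sqrt x = x := Real.mul_self_sqrt hx0
  have h2 : Real.log 2000 + 2 * (1500000 * (2 * Real.sqrt x)) + 2 * Real.log 8 + 2 * Real.sqrt x
      = C + 6000002 * Real.sqrt x := by rw [hCdef]; ring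
  rw [h2]
  have h3 : C + 6000002 * Real.sqrt x ≤ (6000002 + C) * Real.sqrt x := by nlinarith
  have h4 : (6000002 + C) * Real.sqrt x ≤ (1 / 10 ^ 6 * Real.sqrt x) * Real.sqrt x := by
    have : (6000002 + C) ≤ 1 / 10 ^ 6 * Real.sqrt x := by
      rw [div_mul_eq_mul_div, one_mul, le_div_iff₀ (by norm_num)]
      linarith
    exact mul_le_mul_of_nonneg_right this (Real.sqrt_nonneg _)
  calc C + 6000002 * Real.sqrt x ≤ _ := h3
    _ ≤ _ := h4
    _ = 1 / 10 ^ 6 * (Real.sqrt x * Real.sqrt x) := by ring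
    _ = 2 / 10 * theta * x := by rw [hsq]; unfold theta; norm_num

lemma sqrt_succ {X : ℝ} (i : ℕ) :
    Real.sqrt (xl X i) * (1 + 1 / 400001) ≤ Real.sqrt (xl X (i + 1)) := by
  rw [xl_succ]
  have h : (1 : ℝ) + 1 / 400001 ≤ Real.sqrt (1 + theta) := by
    apply Real.le_sqrt_of_sq_le
    unfold theta; norm_num
  rw [Real.sqrt_mul' _ (by unfold theta; norm_num)]
  exact mul_le_mul_of_nonneg_left h (Real.sqrt_nonneg _)

lemma sum_sqrt {X : ℝ} (i : ℕ) :
    ∑ j ∈ range i, Real.sqrt (xl X j) ≤ 400001 * Real.sqrt (xl X i) := by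
  induction i with
  | zero => simp [Real.sqrt_nonneg]
  | succ i ih =>
    rw [sum_range_succ]
    have := sqrt_succ (X := X) i
    linarith

lemma lam_pos (X : ℝ) (i : ℕ) : 0 < lam X i := Real.exp_pos _

lemma tau_pos (X : ℝ) (i : ℕ) : 0 < tau X i := by
  unfold tau
  refine prod_pos fun j _ => ?_
  have := lam_pos X j
  positivity

lemma log_tau (X : ℝ) (i : ℕ) :
    Real.log (1 / tau X i) = ∑ j ∈ range i, (Real.log 2 + 2 * Real.sqrt (xl X j)) := by
  rw [one_div, Real.log_inv]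
  unfold tau
  rw [Real.log_prod (fun j _ => by have := lam_pos X j; positivity), ← sum_neg_distrib]
  refine sum_congr rfl fun j _ => ?_
  have hl := lam_pos X j
  rw [one_div, Real.log_inv, neg_neg, Real.log_mul (by norm_num) (by positivity), Real.log_pow]
  unfold lam
  rw [Real.log_exp]
  norm_num

lemma log_tau_le {X : ℝ} (hX : 4 ≤ X) (i : ℕ) :
    Real.log (1 / tau X i) ≤ 1500000 * Real.sqrt (xl X i) := by
  rw [log_tau]
  have h1 : ∑ j ∈ range i, (Real.log 2 + 2 * Real.sqrt (xl X j)) ≤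
      ∑ j ∈ range i, (5 / 2) * Real.sqrt (xl X j) := by
    refine sum_le_sum fun j _ => ?_
    have h2 : (2 : ℝ) ≤ Real.sqrt (xl X j) := by
      apply Real.le_sqrt_of_sq_le
      have := le_xl (by linarith : (0 : ℝ) ≤ X) j
      norm_num; linarith
    have h3 : Real.log 2 ≤ 1 := by
      have := Real.log_two_lt_d9; linarith
    linarith
  rw [← mul_sum] at h1
  have h4 := sum_sqrt (X := X) i
  have h5 := Real.sqrt_nonneg (xl X i)
  linarith

lemma sum_inv_lam {X : ℝ} (hX : 0 < X) (i : ℕ) :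
    ∑ j ∈ range i, 1 / lam X j ≤ 400002 / X := by
  have h1 : ∀ j, 1 / lam X j ≤ 2 / xl X j := by
    intro j
    have hx := xl_pos hX j
    unfold lam
    rw [div_le_div_iff₀ (Real.exp_pos _) hx, one_mul]
    have h2 := Real.quadratic_le_exp_of_nonneg (Real.sqrt_nonneg (xl X j))
    rw [Real.sq_sqrt hx.le] at h2
    have := Real.sqrt_nonneg (xl X j)
    linarith
  have h3 : ∀ j, 2 / xl X j = 400002 / xl X j - 400002 / xl X (j + 1) := by
    intro j
    have hx := xl_pos hX j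
    rw [xl_succ]
    have ht : (0 : ℝ) < 1 + theta := by have := theta_pos; linarith
    field_simp
    unfold theta
    ring
  calc ∑ j ∈ range i, 1 / lam X j ≤ ∑ j ∈ range i, 2 / xl X j := sum_le_sum fun j _ => h1 j
    _ = ∑ j ∈ range i, (400002 / xl X j - 400002 / xl X (j + 1)) :=
        sum_congr rfl fun j _ => h3 j
    _ = 400002 / xl X 0 - 400002 / xl X i := Finset.sum_range_sub' (fun j => 400002 / xl X j) i
    _ ≤ 400002 / X := by
        rw [xl_zero]
        have := xl_pos hX i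
        have : 0 ≤ 400002 / xl X i := by positivity
        linarith

lemma log_one_theta_pos : 0 < Real.log (1 + theta) :=
  Real.log_pos (by have := theta_pos; linarith)

lemma pow_Rst_ge : (600 : ℝ) ≤ (1 + theta) ^ Rst := by
  have hl := log_one_theta_pos
  have h1 : Real.log 600 / Real.log (1 + theta) ≤ Rst := Nat.le_ceil _
  rw [div_le_iff₀ hl] at h1
  have h2 : (0 : ℝ) < 1 + theta := by have := theta_pos; linarith
  rw [← Real.log_le_log_iff (by norm_num) (by positivity), Real.log_pow]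
  exact h1

lemma pow_Rst_le : (1 + theta) ^ Rst ≤ (601 : ℝ) := by
  have hl := log_one_theta_pos
  have h0 : 0 ≤ Real.log 600 / Real.log (1 + theta) :=
    div_nonneg (Real.log_nonneg (by norm_num)) hl.le
  have h1 : (Rst : ℝ) < Real.log 600 / Real.log (1 + theta) + 1 := Nat.ceil_lt_add_one h0
  have h2 : (0 : ℝ) < 1 + theta := by have := theta_pos; linarith
  have h3 : (Rst : ℝ) * Real.log (1 + theta) ≤ Real.log 600 + Real.log (1 + theta) := by
    have := mul_le_mul_of_nonneg_right h1.le hl.le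
    rw [add_mul, div_mul_cancel₀ _ hl.ne', one_mul] at this
    exact this
  have h4 : (1 + theta) ^ Rst ≤ 600 * (1 + theta) := by
    rw [← Real.log_le_log_iff (by positivity) (by positivity), Real.log_pow,
      Real.log_mul (by norm_num) h2.ne']
    exact h3
  refine h4.trans ?_
  unfold theta; norm_num

lemma xl_add (X : ℝ) (i t : ℕ) : xl X (i + t) = xl X i * (1 + theta) ^ t := by
  unfold xl; rw [pow_add]; ring

lemma dl_pos (X : ℝ) (i : ℕ) : 0 < dl X i := by
  unfold dl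
  have := tau_pos X (i + 1)
  have := lam_pos X i
  positivity

lemma log_inv_dl (X : ℝ) (i : ℕ) : Real.log (1 / dl X i) =
    Real.log (1 / tau X (i + 1)) + theta * xl X i + Real.log 8 + Real.sqrt (xl X i) := by
  have h1 := tau_pos X (i + 1)
  have h2 := lam_pos X i
  have h3 : 1 / dl X i = (1 / tau X (i + 1)) * Real.exp (theta * xl X i) * 8 * lam X i := by
    unfold dl
    rw [Real.exp_neg]
    field_simp
  rw [h3, Real.log_mul (by positivity) (by positivity), Real.log_mul (by positivity) (by norm_num),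
    Real.log_mul (by positivity) (by positivity), Real.log_exp]
  unfold lam
  rw [Real.log_exp]

lemma dl_le_one {X : ℝ} (hX : 4 ≤ X) (i : ℕ) : dl X i ≤ 1 := by
  have h := log_inv_dl X i
  have h1 : 0 ≤ Real.log (1 / tau X (i + 1)) := by
    rw [log_tau]
    refine sum_nonneg fun j _ => ?_
    have := Real.log_nonneg (by norm_num : (1 : ℝ) ≤ 2)
    have := Real.sqrt_nonneg (xl X j)
    linarith
  have h2 : 0 ≤ theta * xl X i := mul_nonneg theta_pos.le (xl_pos (by linarith) i).le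
  have h3 := Real.log_nonneg (by norm_num : (1 : ℝ) ≤ 8)
  have h4 := Real.sqrt_nonneg (xl X i)
  have h5 : 0 ≤ Real.log (1 / dl X i) := by rw [h]; linarith
  rw [one_div, Real.log_inv] at h5
  have h6 : Real.log (dl X i) ≤ 0 := by linarith
  exact (Real.log_nonpos_iff (dl_pos X i).le).mp h6

lemma log_Hd_le {X : ℝ} (hX : 4 ≤ X) (i : ℕ) : Real.log (Hd X i) ≤
    Real.log 2000 + 2 * (1500000 * (2 * Real.sqrt (xl X i))) + 2 * Real.log 8
      + 2 * Real.sqrt (xl X i) + 2 * theta * xl X i := by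
  have hd := dl_pos X i
  have hd1 := dl_le_one hX i
  have h1 : (1 : ℝ) ≤ 1000 / (dl X i) ^ 2 := by
    rw [le_div_iff₀ (by positivity)]
    have : (dl X i) ^ 2 ≤ 1 := pow_le_one₀ hd.le hd1
    linarith
  have h2 : (Hd X i : ℝ) ≤ 2000 / (dl X i) ^ 2 := by
    have h3 : (Hd X i : ℝ) < 1000 / (dl X i) ^ 2 + 1 := Nat.ceil_lt_add_one (by linarith)
    have h4 : 2000 / (dl X i) ^ 2 = 1000 / (dl X i) ^ 2 + 1000 / (dl X i) ^ 2 := by ring
    rw [h4]; linarith
  have hH : (0 : ℝ) < Hd X i := by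
    have h3 : 1000 / (dl X i) ^ 2 ≤ (Hd X i : ℝ) := Nat.le_ceil _
    linarith
  have h5 : Real.log (Hd X i) ≤ Real.log (2000 / (dl X i) ^ 2) := Real.log_le_log hH h2
  have h6 : Real.log (2000 / (dl X i) ^ 2) = Real.log 2000 + 2 * Real.log (1 / dl X i) := by
    rw [Real.log_div (by norm_num) (by positivity), Real.log_pow, one_div, Real.log_inv]
    push_cast; ring
  rw [h6, log_inv_dl] at h5
  have h7 := log_tau_le hX (i + 1)
  have h8 : Real.sqrt (xl X (i + 1)) ≤ 2 * Real.sqrt (xl X i) := by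
    have hx := xl_pos (by linarith : (0 : ℝ) < X) i
    rw [xl_succ, Real.sqrt_mul' _ (by unfold theta; norm_num), mul_comm]
    refine mul_le_mul_of_nonneg_right ?_ (Real.sqrt_nonneg _)
    rw [Real.sqrt_le_left (by norm_num)]
    unfold theta; norm_num
  linarith

end NumL

open NumL in
theorem prf_Num : S_Num := by
  intro K
  obtain ⟨X1, hX1⟩ := eventually_atTop.mp ((ev_c K).and ((ev_d K).and ev_g))
  refine ⟨max (max X1 4) (max K (400002 * (1 + |K|))), ?_, ?_⟩
  · exact le_trans (by norm_num) (le_trans (le_max_right X1 4) (le_max_left _ _))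
  intro X hX i
  have hXX1 : X1 ≤ X := le_trans (le_trans (le_max_left X1 4) (le_max_left _ _)) hX
  have hX4 : 4 ≤ X := le_trans (le_trans (le_max_right X1 4) (le_max_left _ _)) hX
  have hXK : K ≤ X := le_trans (le_trans (le_max_left K _) (le_max_right _ _)) hX
  have hXK2 : 400002 * (1 + |K|) ≤ X := le_trans (le_trans (le_max_right K _) (le_max_right _ _)) hX
  have hX0 : 0 < X := by linarith
  have hle : X ≤ xl X i := le_xl hX0.le i
  obtain ⟨hc, hd, hg⟩ := hX1 (xl X i) (hXX1.trans hle)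
  have hxp := xl_pos hX0 i
  refine ⟨hXK.trans hle, log_tau_le hX4 i, hc, hd, ?_, ?_, ?_, ?_⟩
  · rw [xl_add, mul_comm]
    exact mul_le_mul_of_nonneg_left pow_Rst_ge hxp.le
  · rw [xl_add, mul_comm (601 : ℝ)]
    exact mul_le_mul_of_nonneg_left pow_Rst_le hxp.le
  · have := log_Hd_le hX4 i
    linarith
  · refine (sum_inv_lam hX0 i).trans ?_
    rw [div_le_div_iff₀ hX0 (by positivity)]
    linarith

end Crest.Agent.R225
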