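import Crest.Agent.R225.B3Iface
import Crest.Agent.R225.Num

/-!
# Row 225 (S0347), node B3, sub-node P4: numerics
-/

set_option autoImplicit false

open Finset Filter Asymptotics
open scoped BigOperators

namespace Crest.Agent.R225
namespace B3
open NumL

namespace P4

lemma ev1 (a b K : ℝ) (hab : a < b) : ∀ᶠ x : ℝ in atTop,
    K * x ^ a * (1 + Real.log x) ≤ x ^ b := by
  have hp : 0 < b - a := by linarith
  have h1 : (fun x : ℝ => Real.log x) =o[atTop] (fun x : ℝ => x ^ (b - a)) :=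
    isLittleO_log_rpow_atTop hp
  have h2 : (fun _ : ℝ => (1 : ℝ)) =o[atTop] (fun x : ℝ => x ^ (b - a)) := by
    refine isLittleO_const_left.mpr (Or.inr ?_)
    exact tendsto_norm_atTop_atTop.comp (tendsto_rpow_atTop hp)
  have h3 := (h2.add h1)
  have hc : (0 : ℝ) < 1 / (|K| + 1) := by positivity
  filter_upwards [h3.bound hc, eventually_ge_atTop 1] with x hx hx1
  have hx0 : 0 < x := by linarith
  have hl : 0 ≤ 1 + Real.log x := by have := Real.log_nonneg hx1; linarith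
  have hp : 0 ≤ x ^ (b - a) := Real.rpow_nonneg hx0.le _
  rw [Real.norm_of_nonneg hl, Real.norm_of_nonneg hp] at hx
  have hs : x ^ b = x ^ a * x ^ (b - a) := by
    rw [← Real.rpow_add hx0]; congr 1; ring
  have hK : |K| * (1 / (|K| + 1)) ≤ 1 := by
    rw [mul_one_div, div_le_one (by positivity)]; linarith
  have hs0 : 0 ≤ x ^ a := Real.rpow_nonneg hx0.le _
  calc K * x ^ a * (1 + Real.log x)
      ≤ |K| * x ^ a * (1 + Real.log x) := by
        gcongr; exact le_abs_self K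
    _ ≤ |K| * x ^ a * (1 / (|K| + 1) * x ^ (b - a)) := by gcongr
    _ = (|K| * (1 / (|K| + 1))) * (x ^ a * x ^ (b - a)) := by ring
    _ ≤ 1 * (x ^ a * x ^ (b - a)) := by gcongr
    _ = x ^ b := by rw [hs, one_mul]

lemma pow_eq_exp {a : ℝ} (ha : 0 < a) (N : ℕ) : a ^ N = Real.exp (N * Real.log a) := by
  rw [mul_comm, Real.exp_mul, Real.exp_log ha, Real.rpow_natCast]

lemma ceil_le {y : ℝ} (hy : 1 ≤ y) : ((⌈y⌉₊ : ℕ) : ℝ) ≤ 2 * y := by
  have := Nat.ceil_lt_add_one (by linarith : 0 ≤ y)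
  linarith

lemma two_le_log {x : ℝ} (hx : 16 ≤ x) : 2 ≤ Real.log x := by
  rw [Real.le_log_iff_exp_le (by linarith)]
  have h9 := Real.exp_one_lt_d9
  have h10 : Real.exp 2 = Real.exp 1 * Real.exp 1 := by rw [← Real.exp_add]; norm_num
  rw [h10]
  have h11 := Real.exp_pos 1
  nlinarith

lemma log3_le : Real.log 3 ≤ 2 := by
  have := Real.log_le_sub_one_of_pos (by norm_num : (0 : ℝ) < 3)
  linarith

lemma log100_le : Real.log 100 ≤ 10 := by
  rw [Real.log_le_iff_le_exp (by norm_num)]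
  have h11 : Real.exp 10 = Real.exp 1 ^ 10 := by rw [← Real.exp_nat_mul]; norm_num
  rw [h11]
  have h12 := Real.exp_one_gt_d9
  calc (100 : ℝ) ≤ 2 ^ 10 := by norm_num
    _ ≤ Real.exp 1 ^ 10 := pow_le_pow_left₀ (by norm_num) (by linarith) 10

lemma uv_le {u v : ℝ} (hu : 1 ≤ u) (hv : 1 ≤ v) : (u + 1) * (v + 1) ≤ 4 * (u * v) := by
  nlinarith

lemma aux1 {p L X : ℝ} (hp : 1 ≤ p) (hL : 0 ≤ L) (hX : 0 ≤ X) :
    (4 * p) * (2 + 16 * L) + X ≤ 2 * ((128 + X) * p * (1 + L)) := by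
  have h1 : 0 ≤ p * L := by positivity
  have h2 : 0 ≤ X * (p - 1) := mul_nonneg hX (by linarith)
  have h3 : 0 ≤ X * (p * L) := by positivity
  nlinarith

lemma fin1 {c1 n L : ℝ} (hc1 : 0 < c1) (hc1' : c1 ≤ 1) (hn : 16 ≤ n) (hL : 2 ≤ L)
    (h7 : 100 ≤ c1 * n) :
    c1 / 100 * n - 9 / 10 * (2 * (1 + L)) * n ≤ -(c1 / 3 * (n * L)) - 1 ∧
    c1 / 100 * n + c1 / 100 * (n * 3) - c1 * (n * L) ≤ -(c1 / 3 * (n * L)) - 1 := by
  have h1 : c1 * n ≤ n := by nlinarith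
  have hnL : 0 ≤ n * L := by positivity
  have h2 : c1 * (n * L) ≤ n * L := by nlinarith
  have h3 : 2 * (c1 * n) ≤ c1 * (n * L) := by nlinarith [mul_pos hc1 (by linarith : 0 < n)]
  constructor
  · have e : 9 / 10 * (2 * (1 + L)) * n = 9 / 5 * n + 9 / 5 * (n * L) := by ring
    rw [e]; linarith
  · linarith

end P4

set_option maxHeartbeats 2000000 in
open P4 in
/-- `S_num` with an arbitrary constant `K` in place of `100` -/
theorem num_gen (K : ℝ) (hK : 1 ≤ K) (c1 : ℝ) (hc1 : 0 < c1) (hc1' : c1 ≤ 1) :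
    ∃ X0 : ℝ, 1 ≤ X0 ∧ ∀ X ≥ X0,
  ∃ n0 : ℕ, 3 ≤ n0 ∧ ∀ n ≥ n0, ∀ I : ℕ, (n : ℝ) ^ (9 / 10 : ℝ) ≤ xl X I →
  xl X I ≤ 2 * (n : ℝ) ^ (9 / 10 : ℝ) →
  ∀ (N ν0 s0 : ℕ), N = 2 * ⌈(n : ℝ) ^ (15 / 100 : ℝ)⌉₊ → ν0 = ⌈(n : ℝ) ^ (12 / 100 : ℝ)⌉₊ →
  s0 = ⌈(n : ℝ) ^ (2 / 100 : ℝ)⌉₊ →
  1 ≤ NN n ∧ 3 ≤ s0 ∧ ν0 * s0 ≤ N ∧ (2 * ((n ^ 16 : ℕ) : ℝ) + 1) ^ N * al X I ≤ 1 ∧
  (K / tau X (I + 1)) ^ N *
      (((2 * ((n ^ 16 : ℕ) : ℝ) + 1) ^ N * al X I) ^ ν0 +
        2 ^ N * (2 * (hbb (n ^ 16) N : ℝ) + 1) ^ N * Real.exp (-(c1 * NN n)))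
    ≤ Real.exp (-(c1 / 3 * NN n)) := by
  have hlK : 0 ≤ Real.log K := Real.log_nonneg hK
  have hKp : 0 < K := by linarith
  refine ⟨4, by norm_num, fun X hX => ?_⟩
  have hXp : 0 < X := by linarith
  have hev : ∀ᶠ n : ℕ in atTop, (3 : ℝ) ≤ (n : ℝ) ^ (2 / 100 : ℝ) ∧
      (2 : ℝ) ≤ (n : ℝ) ^ (1 / 100 : ℝ) ∧
      (20 * (128 + X)) * (n : ℝ) ^ (15 / 100 : ℝ) * (1 + Real.log n) ≤ (n : ℝ) ^ (9 / 10 : ℝ) ∧
      (100 / c1 * (4 * (Real.log K + 3000000))) * (n : ℝ) ^ (6 / 10 : ℝ) * (1 + Real.log n) ≤ (n : ℝ) ^ (1 : ℝ) ∧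
      2 * (n : ℝ) ^ (0 : ℝ) * (1 + Real.log n) ≤ (n : ℝ) ^ (2 / 100 : ℝ) ∧
      (100 / c1 * 400) * (n : ℝ) ^ (3 / 10 : ℝ) * (1 + Real.log n) ≤ (n : ℝ) ^ (1 : ℝ) ∧
      100 / c1 ≤ (n : ℝ) ∧ 16 ≤ (n : ℝ) := by
    have h := (((tendsto_rpow_atTop (by norm_num : (0 : ℝ) < 2 / 100)).eventually_ge_atTop 3).and
      (((tendsto_rpow_atTop (by norm_num : (0 : ℝ) < 1 / 100)).eventually_ge_atTop 2).and
      ((ev1 (15 / 100) (9 / 10) (20 * (128 + X)) (by norm_num)).and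
      ((ev1 (6 / 10) 1 (100 / c1 * (4 * (Real.log K + 3000000))) (by norm_num)).and
      ((ev1 0 (2 / 100) 2 (by norm_num)).and
      ((ev1 (3 / 10) 1 (100 / c1 * 400) (by norm_num)).and
      ((eventually_ge_atTop (100 / c1)).and (eventually_ge_atTop 16))))))))
    exact tendsto_natCast_atTop_atTop.eventually h
  obtain ⟨n0, hn0⟩ := eventually_atTop.1 hev
  refine ⟨max n0 3, le_max_right _ _, fun n hn I hxl hxu N ν0 s0 hN hν hs => ?_⟩
  obtain ⟨h1, h2, h3, h4, h5, h6, h7, h8⟩ := hn0 n ((le_max_left _ _).trans hn)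
  rw [Real.rpow_one] at h4 h6
  rw [Real.rpow_zero, mul_one] at h5
  have hnp : (0 : ℝ) < n := by linarith
  have hn1 : (1 : ℝ) ≤ n := by linarith
  have hL2 : 2 ≤ Real.log n := two_le_log h8
  set L := Real.log n with hL
  have hNN : NN n = n * L := rfl
  have hrp : ∀ a : ℝ, 0 ≤ a → 1 ≤ (n : ℝ) ^ a := fun a ha => Real.one_le_rpow hn1 ha
  have p15 := hrp (15 / 100) (by norm_num)
  have p12 := hrp (12 / 100) (by norm_num)
  have p02 := hrp (2 / 100) (by norm_num)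
  have hN4 : (N : ℝ) ≤ 4 * (n : ℝ) ^ (15 / 100 : ℝ) := by
    rw [hN]; push_cast
    have := ceil_le p15
    linarith
  have hNlow : 2 * (n : ℝ) ^ (15 / 100 : ℝ) ≤ N := by
    rw [hN]; push_cast
    have := Nat.le_ceil ((n : ℝ) ^ (15 / 100 : ℝ))
    linarith
  have hN0 : (0 : ℝ) ≤ N := Nat.cast_nonneg _
  have hN1 : 1 ≤ N := by
    have : (1 : ℝ) ≤ N := by linarith
    exact_mod_cast this
  -- the four first facts
  have f1 : 1 ≤ NN n := by
    rw [hNN]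
    exact one_le_mul_of_one_le_of_one_le hn1 (by linarith)
  have f2 : 3 ≤ s0 := by
    rw [hs]
    have : (3 : ℝ) ≤ (⌈(n : ℝ) ^ (2 / 100 : ℝ)⌉₊ : ℝ) := h1.trans (Nat.le_ceil _)
    exact_mod_cast this
  have f3 : ν0 * s0 ≤ N := by
    have h9 : (ν0 : ℝ) ≤ (n : ℝ) ^ (12 / 100 : ℝ) + 1 := by
      rw [hν]; exact (Nat.ceil_lt_add_one (by linarith)).le
    have h10 : (s0 : ℝ) ≤ (n : ℝ) ^ (2 / 100 : ℝ) + 1 := by
      rw [hs]; exact (Nat.ceil_lt_add_one (by linarith)).le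
    have h11 : (n : ℝ) ^ (15 / 100 : ℝ) = (n : ℝ) ^ (12 / 100 : ℝ) * (n : ℝ) ^ (2 / 100 : ℝ)
        * (n : ℝ) ^ (1 / 100 : ℝ) := by
      rw [← Real.rpow_add hnp, ← Real.rpow_add hnp]; norm_num
    have h12 : (ν0 : ℝ) * s0 ≤ N := by
      have h13 : (ν0 : ℝ) * s0 ≤ ((n : ℝ) ^ (12 / 100 : ℝ) + 1) * ((n : ℝ) ^ (2 / 100 : ℝ) + 1) :=
        mul_le_mul h9 h10 (Nat.cast_nonneg _) (by linarith)
      set u := (n : ℝ) ^ (12 / 100 : ℝ)
      set v := (n : ℝ) ^ (2 / 100 : ℝ)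
      set w := (n : ℝ) ^ (1 / 100 : ℝ)
      have h14 : (u + 1) * (v + 1) ≤ 4 * (u * v) := uv_le p12 p02
      have huv : 0 < u * v := mul_pos (by linarith) (by linarith)
      have h15 : 4 * (u * v) ≤ 2 * (u * v * w) := by
        have := mul_le_mul_of_nonneg_left h2 huv.le
        linarith
      rw [h11] at hNlow
      linarith
    exact_mod_cast h12
  -- logarithm of `2n^16+1`
  have hb0 : (0 : ℝ) < 2 * ((n ^ 16 : ℕ) : ℝ) + 1 := by positivity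
  have hn16 : (1 : ℝ) ≤ (n : ℝ) ^ 16 := one_le_pow₀ hn1
  have hlogb : Real.log (2 * ((n ^ 16 : ℕ) : ℝ) + 1) ≤ 2 + 16 * L := by
    have h9 : 2 * ((n ^ 16 : ℕ) : ℝ) + 1 ≤ 3 * (n : ℝ) ^ 16 := by push_cast; linarith
    refine (Real.log_le_log hb0 h9).trans ?_
    rw [Real.log_mul (by norm_num) (by positivity), Real.log_pow]
    have h10 : Real.log 3 ≤ 2 := log3_le
    push_cast; linarith
  have hlogb0 : 0 ≤ Real.log (2 * ((n ^ 16 : ℕ) : ℝ) + 1) := Real.log_nonneg (by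
    have : (0 : ℝ) ≤ ((n ^ 16 : ℕ) : ℝ) := Nat.cast_nonneg _
    linarith)
  set x := xl X I with hx
  have hx0 : 0 < x := xl_pos hXp I
  have hNb : N * Real.log (2 * ((n ^ 16 : ℕ) : ℝ) + 1) + X ≤ 1 / 10 * (n : ℝ) ^ (9 / 10 : ℝ) := by
    have h9 : N * Real.log (2 * ((n ^ 16 : ℕ) : ℝ) + 1) ≤
        (4 * (n : ℝ) ^ (15 / 100 : ℝ)) * (2 + 16 * L) :=
      mul_le_mul hN4 hlogb hlogb0 (by linarith)
    have h10 := aux1 p15 (by linarith : 0 ≤ L) hXp.le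
    have h11 : 20 * (128 + X) * (n : ℝ) ^ (15 / 100 : ℝ) * (1 + L) =
        10 * (2 * ((128 + X) * (n : ℝ) ^ (15 / 100 : ℝ) * (1 + L))) := by ring
    rw [h11] at h3
    linarith
  have f4' : Real.log ((2 * ((n ^ 16 : ℕ) : ℝ) + 1) ^ N * al X I) ≤
      -(9 / 10 * (n : ℝ) ^ (9 / 10 : ℝ)) := by
    have hal : al X I = Real.exp (-(x - X)) := rfl
    rw [hal, Real.log_mul (by positivity) (Real.exp_pos _).ne', Real.log_pow, Real.log_exp]
    linarith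
  have hβ0 : 0 < (2 * ((n ^ 16 : ℕ) : ℝ) + 1) ^ N * al X I :=
    mul_pos (by positivity) (Real.exp_pos _)
  set β := (2 * ((n ^ 16 : ℕ) : ℝ) + 1) ^ N * al X I with hβ
  have p9 := hrp (9 / 10) (by norm_num)
  have f4 : β ≤ 1 := by
    rw [← Real.exp_log hβ0, ← Real.exp_zero]
    apply Real.exp_le_exp.2
    linarith
  refine ⟨f1, f2, f3, f4, ?_⟩
  -- the factor `(K/τ)^N`
  have htau := tau_pos X (I + 1)
  have e1 : (K / tau X (I + 1)) ^ N ≤ Real.exp (c1 / 100 * n) := by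
    rw [pow_eq_exp (by positivity)]
    apply Real.exp_le_exp.2
    have h9 : Real.log (K / tau X (I + 1)) = Real.log K + Real.log (1 / tau X (I + 1)) := by
      rw [← Real.log_mul (by positivity) (by positivity)]
      congr 1; ring
    have h11 := log_tau_le hX (I + 1)
    have h12 : Real.sqrt (xl X (I + 1)) ≤ 2 * (n : ℝ) ^ (45 / 100 : ℝ) := by
      have h13 : xl X (I + 1) ≤ (2 * (n : ℝ) ^ (45 / 100 : ℝ)) ^ 2 := by
        have h14 : ((n : ℝ) ^ (45 / 100 : ℝ)) ^ 2 = (n : ℝ) ^ (9 / 10 : ℝ) := by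
          rw [pow_two, ← Real.rpow_add hnp]; norm_num
        rw [mul_pow, h14, xl_succ, ← hx]
        unfold theta
        linarith
      refine (Real.sqrt_le_sqrt h13).trans ?_
      rw [Real.sqrt_sq (by positivity)]
    have h13 : Real.log (K / tau X (I + 1)) ≤
        (Real.log K + 3000000) * (n : ℝ) ^ (45 / 100 : ℝ) := by
      have h16 := mul_le_mul_of_nonneg_left (hrp (45 / 100) (by norm_num)) hlK
      rw [h9, add_mul]; linarith
    have h14 : (n : ℝ) ^ (6 / 10 : ℝ) = (n : ℝ) ^ (15 / 100 : ℝ) * (n : ℝ) ^ (45 / 100 : ℝ) := by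
      rw [← Real.rpow_add hnp]; norm_num
    have h15 : 0 ≤ (n : ℝ) ^ (45 / 100 : ℝ) := by positivity
    calc N * Real.log (K / tau X (I + 1)) ≤
          N * ((Real.log K + 3000000) * (n : ℝ) ^ (45 / 100 : ℝ)) :=
          mul_le_mul_of_nonneg_left h13 hN0
      _ ≤ (4 * (n : ℝ) ^ (15 / 100 : ℝ)) * ((Real.log K + 3000000) * (n : ℝ) ^ (45 / 100 : ℝ)) :=
          mul_le_mul_of_nonneg_right hN4 (by positivity)
      _ = (4 * (Real.log K + 3000000)) * (n : ℝ) ^ (6 / 10 : ℝ) * 1 := by rw [h14]; ring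
      _ ≤ (4 * (Real.log K + 3000000)) * (n : ℝ) ^ (6 / 10 : ℝ) * (1 + L) :=
          mul_le_mul_of_nonneg_left (by linarith) (by positivity)
      _ = c1 / 100 * ((100 / c1 * (4 * (Real.log K + 3000000))) * (n : ℝ) ^ (6 / 10 : ℝ)
            * (1 + L)) := by
          field_simp
      _ ≤ c1 / 100 * n := mul_le_mul_of_nonneg_left h4 (by positivity)
  -- the first term
  have e2 : β ^ ν0 ≤ Real.exp (-(9 / 10 * (2 * (1 + L)) * n)) := by
    rw [pow_eq_exp hβ0]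
    apply Real.exp_le_exp.2
    have h9 : (n : ℝ) ^ (12 / 100 : ℝ) ≤ ν0 := by rw [hν]; exact Nat.le_ceil _
    have h10 : (n : ℝ) ^ (12 / 100 : ℝ) * (n : ℝ) ^ (9 / 10 : ℝ) = (n : ℝ) ^ (2 / 100 : ℝ) * n := by
      rw [← Real.rpow_add hnp]
      nth_rw 3 [← Real.rpow_one (n : ℝ)]
      rw [← Real.rpow_add hnp]; norm_num
    have h11 : ν0 * Real.log β ≤ ν0 * (-(9 / 10 * (n : ℝ) ^ (9 / 10 : ℝ))) :=
      mul_le_mul_of_nonneg_left f4' (Nat.cast_nonneg _)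
    have h12 : (n : ℝ) ^ (2 / 100 : ℝ) * n ≤ ν0 * (n : ℝ) ^ (9 / 10 : ℝ) := by
      rw [← h10]
      exact mul_le_mul_of_nonneg_right h9 (by positivity)
    have h13 : 2 * (1 + L) * n ≤ (n : ℝ) ^ (2 / 100 : ℝ) * n :=
      mul_le_mul_of_nonneg_right h5 hnp.le
    have h14 : (ν0 : ℝ) * (-(9 / 10 * (n : ℝ) ^ (9 / 10 : ℝ))) =
        -(9 / 10 * (ν0 * (n : ℝ) ^ (9 / 10 : ℝ))) := by ring
    rw [h14] at h11
    linarith
  -- the second term
  have hh1 : (1 : ℝ) ≤ (hbb (n ^ 16) N : ℝ) := by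
    have : 1 ≤ hbb (n ^ 16) N := by
      unfold hbb
      exact Nat.one_le_pow _ _ (by positivity)
    exact_mod_cast this
  have hlh : Real.log (hbb (n ^ 16) N : ℝ) ≤ N * (34 + 17 * L) := by
    unfold hbb
    push_cast
    rw [Real.log_pow]
    refine mul_le_mul_of_nonneg_left ?_ hN0
    have hnn : (N : ℝ) ≤ 4 * n := by
      refine hN4.trans ?_
      have : (n : ℝ) ^ (15 / 100 : ℝ) ≤ (n : ℝ) ^ (1 : ℝ) :=
        Real.rpow_le_rpow_of_exponent_le hn1 (by norm_num)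
      rw [Real.rpow_one] at this
      linarith
    have h9 : (N : ℝ) * ((n : ℝ) ^ 16 + 1) ≤ 8 * (n : ℝ) ^ 17 := by
      have h10 : (n : ℝ) ^ 16 + 1 ≤ 2 * (n : ℝ) ^ 16 := by linarith
      calc (N : ℝ) * ((n : ℝ) ^ 16 + 1) ≤ (4 * n) * (2 * (n : ℝ) ^ 16) :=
            mul_le_mul hnn h10 (by positivity) (by positivity)
        _ = 8 * (n : ℝ) ^ 17 := by ring
    have hNpos : (0 : ℝ) < N := by linarith
    refine (Real.log_le_log (by positivity) h9).trans ?_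
    rw [Real.log_mul (by norm_num) (by positivity), Real.log_pow]
    have h10 : Real.log 8 ≤ 34 := by
      have := Real.log_le_sub_one_of_pos (by norm_num : (0 : ℝ) < 8)
      linarith
    push_cast; linarith
  have e3 : 2 ^ N * (2 * (hbb (n ^ 16) N : ℝ) + 1) ^ N ≤ Real.exp (c1 / 100 * (n * 3)) := by
    have h9 : (2 : ℝ) ^ N * (2 * (hbb (n ^ 16) N : ℝ) + 1) ^ N ≤
        (6 * (hbb (n ^ 16) N : ℝ)) ^ N := by
      rw [← mul_pow]
      refine pow_le_pow_left₀ (by positivity) (by linarith) N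
    refine h9.trans ?_
    rw [pow_eq_exp (by positivity)]
    apply Real.exp_le_exp.2
    rw [Real.log_mul (by norm_num) (by positivity)]
    have h10 : Real.log 6 ≤ 5 := by
      have := Real.log_le_sub_one_of_pos (by norm_num : (0 : ℝ) < 6)
      linarith
    have hNr : (1 : ℝ) ≤ N := by exact_mod_cast hN1
    have h11 : Real.log 6 + Real.log (hbb (n ^ 16) N : ℝ) ≤ N * (39 + 17 * L) := by
      have h13 : (N : ℝ) * (39 + 17 * L) = N * (34 + 17 * L) + 5 * N := by ring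
      rw [h13]; linarith
    have h12 : (n : ℝ) ^ (3 / 10 : ℝ) = (n : ℝ) ^ (15 / 100 : ℝ) * (n : ℝ) ^ (15 / 100 : ℝ) := by
      rw [← Real.rpow_add hnp]; norm_num
    calc N * (Real.log 6 + Real.log (hbb (n ^ 16) N : ℝ)) ≤ N * (N * (39 + 17 * L)) :=
          mul_le_mul_of_nonneg_left h11 hN0
      _ = (N * N) * (39 + 17 * L) := by ring
      _ ≤ ((4 * (n : ℝ) ^ (15 / 100 : ℝ)) * (4 * (n : ℝ) ^ (15 / 100 : ℝ))) * (39 + 17 * L) := by
          refine mul_le_mul_of_nonneg_right (mul_le_mul hN4 hN4 hN0 (by positivity)) (by positivity)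
      _ = 16 * (n : ℝ) ^ (3 / 10 : ℝ) * (39 + 17 * L) := by rw [h12]; ring
      _ ≤ 16 * (n : ℝ) ^ (3 / 10 : ℝ) * (75 * (1 + L)) := by
          refine mul_le_mul_of_nonneg_left (by linarith) (by positivity)
      _ = c1 / 100 * (3 * ((100 / c1 * 400) * (n : ℝ) ^ (3 / 10 : ℝ) * (1 + L))) := by
          field_simp; ring
      _ ≤ c1 / 100 * (3 * n) := by
          refine mul_le_mul_of_nonneg_left (by linarith) (by positivity)
      _ = _ := by ring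
  calc (K / tau X (I + 1)) ^ N *
      (β ^ ν0 + 2 ^ N * (2 * (hbb (n ^ 16) N : ℝ) + 1) ^ N * Real.exp (-(c1 * NN n)))
      ≤ Real.exp (c1 / 100 * n) * (Real.exp (-(9 / 10 * (2 * (1 + L)) * n)) +
          Real.exp (c1 / 100 * (n * 3)) * Real.exp (-(c1 * NN n))) := by
        gcongr
    _ = Real.exp (c1 / 100 * n - 9 / 10 * (2 * (1 + L)) * n) +
          Real.exp (c1 / 100 * n + c1 / 100 * (n * 3) - c1 * NN n) := by
        rw [mul_add, ← Real.exp_add, ← Real.exp_add, ← Real.exp_add]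
        congr 2 <;> ring
    _ ≤ Real.exp (-(c1 / 3 * NN n) - 1) + Real.exp (-(c1 / 3 * NN n) - 1) := by
        have hcn : 100 ≤ c1 * n := by
          rw [div_le_iff₀ hc1] at h7; linarith
        obtain ⟨g1, g2⟩ := fin1 hc1 hc1' h8 hL2 hcn
        exact add_le_add (Real.exp_le_exp.2 g1) (Real.exp_le_exp.2 g2)
    _ = (2 * Real.exp (-1)) * Real.exp (-(c1 / 3 * NN n)) := by
        rw [sub_eq_add_neg, Real.exp_add]; ring
    _ ≤ 1 * Real.exp (-(c1 / 3 * NN n)) := by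
        refine mul_le_mul_of_nonneg_right ?_ (Real.exp_pos _).le
        rw [Real.exp_neg]
        have h9 := Real.exp_one_gt_d9
        rw [← div_eq_mul_inv, div_le_one (by positivity)]
        linarith
    _ = _ := one_mul _

theorem prf_num : S_num := fun c1 hc1 hc1' => num_gen 100 (by norm_num) c1 hc1 hc1'

end B3
end Crest.Agent.R225
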