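import Crest.Agent.R225.Iface

/-!
# Row 225 (S0347), nodes B0, B1, B2: affine independence, flats, Siegel
-/

set_option autoImplicit false

open Finset MeasureTheory
open scoped BigOperators ENNReal

namespace Crest.Agent.R225

namespace B012

/-- few functionals separate the points of a finite dimensional subspace -/
lemma exists_few_functionals {K V ι : Type*} [Field K] [AddCommGroup V] [Module K V]
    [FiniteDimensional K V] [DecidableEq ι]
    (ℓ : ι → V →ₗ[K] K) : ∀ (d : ℕ) (U : Submodule K V),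
    Module.finrank K U ≤ d → (∀ u ∈ U, (∀ i, ℓ i u = 0) → u = 0) →
    ∃ b : Finset ι, b.card ≤ d ∧ ∀ u ∈ U, (∀ i ∈ b, ℓ i u = 0) → u = 0 := by
  intro d
  induction d with
  | zero =>
    intro U hd _
    have hU : U = ⊥ := by
      rw [← Submodule.finrank_eq_zero (R := K)]; omega
    exact ⟨∅, by simp, fun u hu _ => by simpa [hU] using hu⟩
  | succ d ih =>
    intro U hd hsep
    by_cases hU : U = ⊥
    · exact ⟨∅, by simp, fun u hu _ => by simpa [hU] using hu⟩
    obtain ⟨u, hu, hu0⟩ := Submodule.exists_mem_ne_zero_of_ne_bot hU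
    have : ∃ i, ℓ i u ≠ 0 := by
      by_contra h
      push Not at h
      exact hu0 (hsep u hu h)
    obtain ⟨i, hi⟩ := this
    have hlt : U ⊓ LinearMap.ker (ℓ i) < U := by
      refine lt_of_le_of_ne inf_le_left fun h => hi ?_
      have : u ∈ U ⊓ LinearMap.ker (ℓ i) := by rw [h]; exact hu
      exact this.2
    have hfr := Submodule.finrank_lt_finrank_of_lt hlt
    obtain ⟨b, hb, hb'⟩ := ih (U ⊓ LinearMap.ker (ℓ i)) (by omega)
      (fun v hv h => hsep v hv.1 h)
    refine ⟨insert i b, (Finset.card_insert_le _ _).trans (by omega), fun v hv h => ?_⟩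
    refine hb' v ⟨hv, ?_⟩ fun j hj => h j (Finset.mem_insert_of_mem hj)
    exact h i (Finset.mem_insert_self _ _)

/-- the coordinate functionals relative to the centre `g0` -/
noncomputable def fn {m : ℕ} (g0 : Pt m) : Option (Fin m) → ((Fin m → ℚ) × ℚ) →ₗ[ℚ] ℚ
  | none => LinearMap.snd ℚ _ _
  | some k => (LinearMap.proj k).comp (LinearMap.fst ℚ _ _) - (g0 k : ℚ) • LinearMap.snd ℚ _ _

/-- integer coordinates relative to the centre -/
def ic {m : ℕ} (g0 : Pt m) (g : Pt m) : Option (Fin m) → ℤ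
  | none => 1
  | some k => g k - g0 k

lemma fn_aff {m : ℕ} (g0 g : Pt m) (c : Option (Fin m)) : fn g0 c (aff g) = (ic g0 g c : ℚ) := by
  cases c <;> simp [fn, aff, ic]

lemma fn_sep {m : ℕ} (g0 : Pt m) (u : (Fin m → ℚ) × ℚ) (h : ∀ c, fn g0 c u = 0) : u = 0 := by
  have h0 : u.2 = 0 := by simpa [fn] using h none
  have h1 : u.1 = 0 := by
    funext k
    have := h (some k)
    simpa [fn, h0] using this
  exact Prod.ext h1 h0

lemma aff_injective {m : ℕ} : Function.Injective (aff : Pt m → _) := by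
  intro g g' h
  funext k
  have : (aff g).1 k = (aff g').1 k := by rw [h]
  simpa [aff] using this

end B012

open B012

theorem prf_B1 : S_B1 := by
  classical
  intro m rX G J g0 hG
  set U : Submodule ℚ ((Fin m → ℚ) × ℚ) := Submodule.span ℚ (aff '' (J : Set (Pt m))) with hU
  have hfr : Module.finrank ℚ U ≤ J.card := by
    have := finrank_span_finset_le_card (R := ℚ) (J.image aff)
    rw [Finset.coe_image] at this
    exact this.trans Finset.card_image_le
  obtain ⟨b, hb, hb'⟩ := exists_few_functionals (fn g0) J.card U hfr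
    (fun u _ h => fn_sep g0 u h)
  have hmaps : ∀ g ∈ G.filter (fun g => aff g ∈ U),
      (fun c : b => if (c : Option (Fin m)) = none then (0 : ℤ) else ic g0 g c) ∈
        Fintype.piFinset (fun _ : b => Finset.Icc (-(rX : ℤ)) rX) := by
    intro g hg
    rw [Fintype.mem_piFinset]
    rintro ⟨c, hc⟩
    rw [Finset.mem_Icc, ← abs_le]
    cases c with
    | none => simp
    | some k => simpa [ic] using hG g (Finset.mem_filter.1 hg).1 k
  have hinj : Set.InjOn
      (fun (g : Pt m) (c : b) => if (c : Option (Fin m)) = none then (0 : ℤ) else ic g0 g c)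
      (G.filter (fun g => aff g ∈ U)) := by
    intro g hg g' hg' h
    have hg1 := (Finset.mem_filter.1 (Finset.mem_coe.1 hg)).2
    have hg2 := (Finset.mem_filter.1 (Finset.mem_coe.1 hg')).2
    have : aff g - aff g' = 0 := by
      refine hb' _ (U.sub_mem hg1 hg2) fun c hc => ?_
      rw [map_sub, fn_aff, fn_aff]
      cases c with
      | none => simp [ic]
      | some k =>
        have := congrFun h ⟨some k, hc⟩
        simp only [reduceCtorEq, if_false] at this
        rw [this, sub_self]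
    exact aff_injective (sub_eq_zero.1 this)
  have hcard := Finset.card_le_card_of_injOn _ hmaps hinj
  refine hcard.trans ?_
  rw [Fintype.card_piFinset, Finset.prod_const, Int.card_Icc]
  have h1 : ((rX : ℤ) + 1 - -(rX : ℤ)).toNat = 2 * rX + 1 := by omega
  rw [h1]
  refine Nat.pow_le_pow_right (by omega) ?_
  simpa using hb


attribute [local instance] Matrix.seminormedAddCommGroup in
lemma B012.siegel {α β : Type*} [Fintype α] [Fintype β] (A : Matrix α β ℤ) (M : ℝ)
    (hM : 1 ≤ M) (hA : ∀ i j, |(A i j : ℝ)| ≤ M)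
    (hn : Fintype.card α < Fintype.card β) (hm : 0 < Fintype.card α) :
    ∃ t : β → ℤ, t ≠ 0 ∧ A.mulVec t = 0 ∧ ∀ j, |(t j : ℝ)| ≤ (Fintype.card β * M) ^ Fintype.card β := by
  obtain ⟨t, ht0, htA, ht⟩ := Int.Matrix.exists_ne_zero_int_vec_norm_le A hn hm
  refine ⟨t, ht0, htA, fun j => ?_⟩
  have h1 : |(t j : ℝ)| ≤ ‖t‖ := by
    have := norm_le_pi_norm t j
    rwa [Int.norm_eq_abs] at this
  have h2 : max 1 ‖A‖ ≤ M := by
    refine max_le hM ?_
    rw [Matrix.norm_le_iff (by linarith)]
    intro i j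
    rw [Int.norm_eq_abs]
    exact hA i j
  have hb : (1 : ℝ) ≤ Fintype.card β := by
    exact_mod_cast (by omega : 1 ≤ Fintype.card β)
  have h3 : (1 : ℝ) ≤ (Fintype.card β : ℝ) * max 1 ‖A‖ := by
    have := le_max_left (1 : ℝ) ‖A‖
    nlinarith
  have hc : (Fintype.card α : ℝ) + 1 ≤ Fintype.card β := by exact_mod_cast hn
  calc |(t j : ℝ)| ≤ ((Fintype.card β : ℝ) * max 1 ‖A‖) ^
        ((Fintype.card α : ℝ) / ((Fintype.card β : ℝ) - Fintype.card α)) := h1.trans ht
    _ ≤ ((Fintype.card β : ℝ) * max 1 ‖A‖) ^ (Fintype.card β : ℝ) := by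
        refine Real.rpow_le_rpow_of_exponent_le h3 ?_
        rw [div_le_iff₀ (by linarith)]
        have : (0 : ℝ) ≤ Fintype.card α := Nat.cast_nonneg _
        nlinarith
    _ = ((Fintype.card β : ℝ) * max 1 ‖A‖) ^ Fintype.card β := Real.rpow_natCast _ _
    _ ≤ (Fintype.card β * M) ^ Fintype.card β := by
        gcongr

theorem prf_B2 : S_B2 := by
  classical
  intro m rX Z g0 hZ hdep
  set U : Submodule ℚ ((Fin m → ℚ) × ℚ) := Submodule.span ℚ (aff '' (Z : Set (Pt m))) with hU
  have hZne : Z.Nonempty := by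
    rw [Finset.nonempty_iff_ne_empty]
    rintro rfl
    exact hdep (by simp)
  have hfr : Module.finrank ℚ U < Z.card := by
    by_contra hlt
    push Not at hlt
    apply hdep
    have : LinearIndependent ℚ (fun g : (Z : Set (Pt m)) => aff (g : Pt m)) := by
      rw [linearIndependent_iff_card_le_finrank_span]
      have h1 : Set.range (fun g : (Z : Set (Pt m)) => aff (g : Pt m)) = aff '' (Z : Set (Pt m)) := by
        ext x; simp
      rw [h1]
      simpa [Set.finrank] using hlt
    exact this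
  obtain ⟨b, hb, hb'⟩ := exists_few_functionals (fn g0) (Z.card - 1) U (by omega)
    (fun u _ h => fn_sep g0 u h)
  have hbne : b.Nonempty := by
    rw [Finset.nonempty_iff_ne_empty]
    rintro rfl
    obtain ⟨g, hg⟩ := hZne
    have h0 : aff g = 0 := hb' _ (Submodule.subset_span ⟨g, hg, rfl⟩) (by simp)
    have : (aff g).2 = 0 := by rw [h0]; rfl
    simp [aff] at this
  obtain ⟨t, ht0, htA, ht⟩ := siegel (α := b) (β := Z) (fun c g => ic g0 g c) ((rX : ℝ) + 1)
    (by have : (0 : ℝ) ≤ rX := Nat.cast_nonneg _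
        linarith)
    (by
      rintro ⟨c, hc⟩ ⟨g, hg⟩
      cases c with
      | none => simp [ic]
      | some k =>
        have h1 : |((g k - g0 k : ℤ) : ℝ)| ≤ rX := by
          exact_mod_cast hZ g hg k
        simpa [ic] using h1.trans (by linarith))
    (by simp only [Fintype.card_coe]; have := hZne.card_pos; omega)
    (by simpa using hbne)
  set h : Pt m → ℤ := fun g => if hg : g ∈ Z then t ⟨g, hg⟩ else 0 with hh
  have hht : ∀ g : Z, h g = t g := fun g => by simp [hh]
  have hvec : ∑ g ∈ Z, (h g : ℚ) • aff g = 0 := by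
    refine hb' _ (U.sum_mem fun g hg => U.smul_mem _ (Submodule.subset_span ⟨g, hg, rfl⟩)) ?_
    intro c hc
    have h1 := congrFun htA ⟨c, hc⟩
    simp only [Matrix.mulVec, dotProduct, Pi.zero_apply] at h1
    rw [map_sum]
    have h2 : ∀ g ∈ Z, (fn g0 c) ((h g : ℚ) • aff g) = ((ic g0 g c * h g : ℤ) : ℚ) := by
      intro g _
      rw [map_smul, fn_aff, smul_eq_mul]; push_cast; ring
    rw [Finset.sum_congr rfl h2, ← Int.cast_sum, Int.cast_eq_zero]
    rw [← h1, ← Finset.sum_coe_sort Z]
    exact Finset.sum_congr rfl fun g _ => by rw [hht]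
  refine ⟨h, ?_, ⟨?_, ?_, ?_⟩, ?_⟩
  · intro h0
    apply ht0
    funext g
    rw [← hht, h0]; rfl
  · intro g hg; simp [hh, hg]
  · have := congrArg Prod.snd hvec
    simp only [Prod.snd_sum, Prod.smul_snd, aff, smul_eq_mul, mul_one, Prod.snd_zero] at this
    exact_mod_cast this
  · funext k
    have := congrFun (congrArg Prod.fst hvec) k
    simp only [Prod.fst_sum, Prod.smul_fst, aff, Finset.sum_apply, Pi.smul_apply, smul_eq_mul,
      Prod.fst_zero, Pi.zero_apply] at this
    simp only [Finset.sum_apply, Pi.smul_apply, smul_eq_mul, Pi.zero_apply]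
    exact_mod_cast this
  · intro g
    by_cases hg : g ∈ Z
    · have := ht ⟨g, hg⟩
      rw [← hht ⟨g, hg⟩] at this
      simpa using this
    · simp only [hh, hg, dif_neg, not_false_eq_true, Int.cast_zero, abs_zero]
      positivity

namespace B012

lemma expect_comp_surj {A B : Type*} [AddCommGroup A] [Fintype A] [AddCommGroup B] [Fintype B]
    (φ : A →+ B) (hφ : Function.Surjective φ) (F : B → ℝ) : 𝔼 a, F (φ a) = 𝔼 b, F b := by
  obtain ⟨s, hs⟩ := hφ.hasRightInverse
  have h1 : ∀ b : B, 𝔼 a, F (φ a) = 𝔼 a, F (φ a + b) := by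
    intro b
    refine (Fintype.expect_equiv (Equiv.addRight (s b)) _ _ fun a => ?_).symm
    simp [hs b]
  have h2 : 𝔼 a, F (φ a) = 𝔼 b : B, 𝔼 a, F (φ a + b) := by
    rw [← Finset.expect_congr rfl fun b _ => h1 b]
    rw [Finset.expect_const ⟨0, Finset.mem_univ _⟩]
  rw [h2, Finset.expect_comm]
  have h3 : ∀ a : A, 𝔼 b : B, F (φ a + b) = 𝔼 b, F b := by
    intro a
    exact Fintype.expect_equiv (Equiv.addLeft (φ a)) _ _ fun b => rfl
  rw [Finset.expect_congr rfl fun a _ => h3 a, Finset.expect_const ⟨0, Finset.mem_univ _⟩]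

lemma expect_prod_indep {J X : Type*} [Fintype J] [DecidableEq J] [Fintype X] (f : J → X → ℝ) :
    𝔼 t : J → X, ∏ g, f g (t g) = ∏ g, 𝔼 x, f g x := by
  simp only [Fintype.expect_eq_sum_div_card]
  rw [Finset.prod_div_distrib, Finset.prod_univ_sum]
  simp [Fintype.piFinset_univ]

lemma common_den {ι : Type*} [Fintype ι] (q : ι → ℚ) :
    ∃ d : ℕ, d ≠ 0 ∧ ∀ i, ∃ z : ℤ, (d : ℚ) * q i = z := by
  classical
  refine ⟨∏ i, (q i).den, Finset.prod_ne_zero_iff.2 fun i _ => (q i).den_nz, fun i => ?_⟩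
  obtain ⟨e, he⟩ := Finset.dvd_prod_of_mem (fun i => (q i).den) (Finset.mem_univ i)
  refine ⟨e * (q i).num, ?_⟩
  rw [he]
  push_cast
  have := Rat.den_mul_eq_num (q i)
  calc ((q i).den : ℚ) * e * q i = e * ((q i).den * q i) := by ring
    _ = _ := by rw [this]

/-- integral dual functionals -/
lemma dual_int {m : ℕ} (J : Finset (Pt m)) (hJ : LinearIndepOn ℚ aff (J : Set (Pt m))) :
    ∃ d : ℕ, d ≠ 0 ∧ ∃ (c : J → ℤ) (ψ : J → Fin m → ℤ), ∀ g g' : J,
      c g + ∑ k, ψ g k * (g' : Pt m) k = if g = g' then (d : ℤ) else 0 := by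
  classical
  have hJ' : LinearIndependent ℚ (fun g : J => aff (g : Pt m)) := hJ
  obtain ⟨Λ, hΛ⟩ := LinearMap.exists_leftInverse_of_injective
    (Finsupp.linearCombination ℚ (fun g : J => aff (g : Pt m))) (LinearMap.ker_eq_bot.2 hJ')
  have h1 : ∀ g g' : J, Λ (aff (g' : Pt m)) g = if g = g' then 1 else 0 := by
    intro g g'
    have := congrArg (fun l => l (Finsupp.single g' 1)) hΛ
    simp only [LinearMap.comp_apply, Finsupp.linearCombination_single, one_smul,
      LinearMap.id_apply] at this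
    rw [this, Finsupp.single_apply]
    simp only [eq_comm]
  obtain ⟨d, hd, hz⟩ := common_den (fun p : J × Option (Fin m) =>
    match p.2 with
    | none => Λ (0, 1) p.1
    | some k => Λ (Pi.single k 1, 0) p.1)
  choose z hz using hz
  refine ⟨d, hd, fun g => z (g, none), fun g k => z (g, some k), fun g g' => ?_⟩
  have h2 : aff (g' : Pt m) = ((0 : Fin m → ℚ), (1 : ℚ)) +
      ∑ k, ((g' : Pt m) k : ℚ) • ((Pi.single k 1 : Fin m → ℚ), (0 : ℚ)) := by
    refine Prod.ext ?_ ?_
    · funext j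
      simp [aff, Prod.fst_sum, Finset.sum_apply, Pi.single_apply]
    · simp [aff, Prod.snd_sum]
  have h3 : (d : ℚ) * Λ (aff (g' : Pt m)) g =
      z (g, none) + ∑ k, (z (g, some k) : ℚ) * (g' : Pt m) k := by
    rw [h2, map_add, map_sum]
    simp only [map_smul, Finsupp.add_apply, Finsupp.finsetSum_apply, Finsupp.smul_apply,
      smul_eq_mul, mul_add, Finset.mul_sum]
    rw [← hz (g, none)]
    congr 1
    refine Finset.sum_congr rfl fun k _ => ?_
    rw [← hz (g, some k)]
    ring
  rw [h1] at h3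
  have h4 : ((z (g, none) + ∑ k, z (g, some k) * (g' : Pt m) k : ℤ) : ℚ) =
      ((if g = g' then (d : ℤ) else 0 : ℤ) : ℚ) := by
    push_cast
    rw [← h3]
    split_ifs <;> simp
  exact_mod_cast h4

end B012

theorem prf_B0 : S_B0 := by
  classical
  intro m rX k
  -- the finite family of boxes
  set box : Finset (Pt m) := Fintype.piFinset (fun _ : Fin m => Finset.Icc (-(rX : ℤ)) rX)
  have hfam : ∀ J : Finset (Pt m), ∃ d : ℕ, LinearIndepOn ℚ aff (J : Set (Pt m)) → d ≠ 0 ∧
      ∃ (c : J → ℤ) (ψ : J → Fin m → ℤ), ∀ g g' : J,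
      c g + ∑ k, ψ g k * (g' : Pt m) k = if g = g' then (d : ℤ) else 0 := by
    intro J
    by_cases hJ : LinearIndepOn ℚ aff (J : Set (Pt m))
    · obtain ⟨d, h1, h2⟩ := dual_int J hJ
      exact ⟨d, fun _ => ⟨h1, h2⟩⟩
    · exact ⟨0, fun h => absurd h hJ⟩
  choose d hd using hfam
  refine ⟨box.powerset.sup d + 1, ?_⟩
  intro P hP _ J g0 f _ hbox hind
  set J' : Finset (Pt m) := J.image (fun g => g - g0) with hJ'
  have hJ'mem : J' ∈ box.powerset := by
    rw [Finset.mem_powerset]
    intro g hg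
    obtain ⟨g1, hg1, rfl⟩ := Finset.mem_image.1 hg
    rw [Fintype.mem_piFinset]
    intro j
    rw [Finset.mem_Icc, ← abs_le]
    exact hbox g1 hg1 j
  have hdP : d J' < P := by
    have := Finset.le_sup (f := d) hJ'mem
    omega
  have hind' : LinearIndepOn ℚ aff (J' : Set (Pt m)) := by
    rw [hJ', Finset.coe_image]
    refine LinearIndepOn.image_of_comp (f := fun g : Pt m => g - g0) (g := aff) ?_
    let T : ((Fin m → ℚ) × ℚ) →ₗ[ℚ] ((Fin m → ℚ) × ℚ) :=
      LinearMap.prod (LinearMap.fst ℚ _ _ -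
        (LinearMap.snd ℚ (Fin m → ℚ) ℚ).smulRight (fun k => (g0 k : ℚ))) (LinearMap.snd ℚ _ _)
    have hT : (aff ∘ fun g : Pt m => g - g0) = T ∘ aff := by
      funext g
      refine Prod.ext ?_ ?_
      · funext j; simp [T, aff]
      · simp [T, aff]
    rw [hT]
    refine hind.map_injOn T ?_
    intro x _ y _ hxy
    have h2 : x.2 = y.2 := by simpa [T] using congrArg Prod.snd hxy
    refine Prod.ext ?_ h2
    have h1 := congrArg Prod.fst hxy
    simpa [T, h2] using h1
  obtain ⟨hd0, c, ψ, hcψ⟩ := hd J' hind'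
  have hdP0 : ((d J' : ℕ) : ZMod P) ≠ 0 := by
    rw [Ne, ZMod.natCast_eq_zero_iff]
    intro h
    exact absurd (Nat.le_of_dvd (Nat.pos_of_ne_zero hd0) h) (by omega)
  -- the residue map
  let φ : Row P m →+ (J → ZMod P) :=
    { toFun := fun r g => res r (g : Pt m)
      map_zero' := by funext g; simp [res]
      map_add' := by
        intro r r'
        funext g
        simp only [res, Prod.fst_add, Prod.snd_add, Pi.add_apply, add_mul, Finset.sum_add_distrib]
        ring }
  have hmem : ∀ g : J, (g : Pt m) - g0 ∈ J' := fun g => Finset.mem_image_of_mem _ g.2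
  have hsurj : Function.Surjective φ := by
    intro t
    set ψt : Fin m → ZMod P := fun j => ∑ g : J, (t g * ((d J' : ℕ) : ZMod P)⁻¹) *
      (ψ ⟨_, hmem g⟩ j : ZMod P) with hψt
    refine ⟨(∑ g : J, (t g * ((d J' : ℕ) : ZMod P)⁻¹) * (c ⟨_, hmem g⟩ : ZMod P) -
      ∑ j, ψt j * (g0 j : ZMod P), ψt), ?_⟩
    funext g1
    change res _ (g1 : Pt m) = t g1
    have h1 : ∀ g : J, (c ⟨_, hmem g⟩ : ZMod P) + ∑ j, (ψ ⟨_, hmem g⟩ j : ZMod P) *
        (((g1 : Pt m) j : ZMod P) - (g0 j : ZMod P)) = if g = g1 then ((d J' : ℕ) : ZMod P) else 0 := by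
      intro g
      have := congrArg (fun z : ℤ => (z : ZMod P)) (hcψ ⟨_, hmem g⟩ ⟨_, hmem g1⟩)
      simp only [Pi.sub_apply] at this
      push_cast at this
      rw [this]
      have h2 : ((⟨_, hmem g⟩ : J') = ⟨_, hmem g1⟩) ↔ g = g1 := by
        rw [Subtype.mk.injEq, sub_left_inj, Subtype.ext_iff]
      by_cases h3 : g = g1
      · rw [if_pos h3, if_pos (h2.2 h3)]
      · rw [if_neg h3, if_neg (fun h => h3 (h2.1 h))]
    calc res _ (g1 : Pt m)
        = ∑ g : J, (t g * ((d J' : ℕ) : ZMod P)⁻¹) * ((c ⟨_, hmem g⟩ : ZMod P) +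
            ∑ j, (ψ ⟨_, hmem g⟩ j : ZMod P) *
              (((g1 : Pt m) j : ZMod P) - (g0 j : ZMod P))) := by
          simp only [res, mul_add, Finset.sum_add_distrib]
          have h4 : ∑ g : J, (t g * ((d J' : ℕ) : ZMod P)⁻¹) * ∑ j, (ψ ⟨_, hmem g⟩ j : ZMod P) *
              (((g1 : Pt m) j : ZMod P) - (g0 j : ZMod P)) =
              ∑ j, ψt j * (((g1 : Pt m) j : ZMod P) - (g0 j : ZMod P)) := by
            simp only [hψt, Finset.mul_sum, Finset.sum_mul]
            rw [Finset.sum_comm]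
            refine Finset.sum_congr rfl fun j _ => Finset.sum_congr rfl fun g _ => ?_
            ring
          rw [h4]
          simp only [mul_sub, Finset.sum_sub_distrib]
          ring
      _ = ∑ g : J, (t g * ((d J' : ℕ) : ZMod P)⁻¹) *
            (if g = g1 then ((d J' : ℕ) : ZMod P) else 0) := by
          refine Finset.sum_congr rfl fun g _ => ?_
          rw [h1 g]
      _ = t g1 := by
          simp only [mul_ite, mul_zero, Finset.sum_ite_eq', Finset.mem_univ, if_true]
          rw [mul_assoc, inv_mul_cancel₀ hdP0, mul_one]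
  have hfin := expect_comp_surj φ hsurj (fun t : J → ZMod P => ∏ g : J, f g (t g))
  rw [expect_prod_indep (fun g : J => f g)] at hfin
  rw [← Finset.prod_coe_sort J (fun g => 𝔼 x, f g x), ← hfin]
  refine Finset.expect_congr rfl fun r _ => ?_
  rw [← Finset.prod_coe_sort J (fun g => f g (res r g))]
  rfl

end Crest.Agent.R225
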