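import Crest.Agent.R225.Iface

/-!
Row 225 (S0347): shared library for the base nodes B3, B4, B5 (helper565):
survival of affinely independent sets in the special row, ear counts.
-/

set_option autoImplicit false

open Finset
open scoped BigOperators

namespace Crest.Agent.R225
namespace Ear

/-! ### affine relations and linear independence -/

lemma sum_smul_aff {m : ℕ} (Z : Finset (Pt m)) (c : Pt m → ℚ) :
    ∑ g ∈ Z, c g • aff g = (fun k => ∑ g ∈ Z, c g * (g k : ℚ), ∑ g ∈ Z, c g) := by
  refine Prod.ext ?_ ?_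
  · funext k
    simp [aff, Prod.fst_sum, Finset.sum_apply]
  · simp [aff, Prod.snd_sum]

lemma arel_sum_aff {m : ℕ} {Z : Finset (Pt m)} {h : Pt m → ℤ} (hr : ARel Z h) :
    ∑ g ∈ Z, (h g : ℚ) • aff g = 0 := by
  rw [sum_smul_aff]
  obtain ⟨_, h1, h2⟩ := hr
  refine Prod.ext ?_ ?_
  · funext k
    have h3 := congrFun h2 k
    simp only [Finset.sum_apply, Pi.smul_apply, smul_eq_mul, Pi.zero_apply] at h3
    have h4 : ((∑ g ∈ Z, h g * g k : ℤ) : ℚ) = 0 := by rw [h3]; simp
    push_cast at h4
    simpa using h4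
  · have h4 : ((∑ g ∈ Z, h g : ℤ) : ℚ) = 0 := by rw [h1]; simp
    push_cast at h4
    simpa using h4

lemma arel_eq_zero {m : ℕ} {Z : Finset (Pt m)} {h : Pt m → ℤ} (hr : ARel Z h)
    (hind : LinearIndepOn ℚ aff (Z : Set (Pt m))) : h = 0 := by
  rw [linearIndepOn_finset_iff] at hind
  have h1 := hind (fun g => (h g : ℚ)) (arel_sum_aff hr)
  funext g
  by_cases hg : g ∈ Z
  · have := h1 g hg
    exact_mod_cast this
  · exact hr.1 g hg

open scoped Classical in
/-- E1. the relation of a circuit modulo `J` -/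
lemma ear_rel (hB2 : S_B2) {m rX : ℕ} (J Z : Finset (Pt m)) (g0 : Pt m)
    (hbox : ∀ g ∈ J ∪ Z, ∀ k, |g k - g0 k| ≤ rX)
    (hdep : ¬ LinearIndepOn ℚ aff ((J ∪ Z : Finset (Pt m)) : Set (Pt m)))
    (hmin : ∀ z ∈ Z, LinearIndepOn ℚ aff ((J ∪ Z.erase z : Finset (Pt m)) : Set (Pt m))) :
    ∃ h : Pt m → ℤ,
      BRel (J ∪ Z) (((J ∪ Z).card * (rX + 1) : ℝ) ^ (J ∪ Z).card) h ∧ ∀ z ∈ Z, h z ≠ 0 := by
  obtain ⟨h, hne, hB⟩ := hB2 m rX (J ∪ Z) g0 hbox hdep
  refine ⟨h, hB, ?_⟩
  intro z hz hz0
  apply hne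
  refine arel_eq_zero (Z := J ∪ Z.erase z) ?_ (hmin z hz)
  obtain ⟨⟨h1, h2, h3⟩, _⟩ := hB
  have hsub : J ∪ Z.erase z ⊆ J ∪ Z := Finset.union_subset_union_right (Finset.erase_subset _ _)
  have hout : ∀ g, g ∉ J ∪ Z.erase z → h g = 0 := by
    intro g hg
    by_cases hg' : g ∈ J ∪ Z
    · have : g = z := by
        by_contra hgz
        apply hg
        rcases Finset.mem_union.mp hg' with h4 | h4
        · exact Finset.mem_union_left _ h4
        · exact Finset.mem_union_right _ (Finset.mem_erase.mpr ⟨hgz, h4⟩)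
      rw [this]; exact hz0
    · exact h1 g hg'
  refine ⟨hout, ?_, ?_⟩
  · rw [← h2]
    exact Finset.sum_subset hsub (fun g _ hg => hout g hg)
  · rw [← h3]
    exact Finset.sum_subset hsub (fun g _ hg => by rw [hout g hg, zero_smul])

/-! ### circuits modulo `J` as tuples, counting -/

open scoped Classical in
/-- the injective tuple `z` is a circuit modulo the span of `J` -/
def CircMod {m s : ℕ} (J : Finset (Pt m)) (z : Fin s → Pt m) : Prop :=
  Function.Injective z ∧ Disjoint J (univ.image z) ∧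
    ¬ LinearIndepOn ℚ aff ((J ∪ univ.image z : Finset (Pt m)) : Set (Pt m)) ∧
    ∀ i, LinearIndepOn ℚ aff ((J ∪ (univ.image z).erase (z i) : Finset (Pt m)) : Set (Pt m))

/-- height bound of the relation -/
def hb (rX k : ℕ) : ℕ := (k * (rX + 1)) ^ k

open scoped Classical in
/-- E2. ear count. -/
lemma ear_count (hB2 : S_B2) {m rX s : ℕ} (G J : Finset (Pt m)) (g0 : Pt m)
    (hbG : ∀ g ∈ G, ∀ k, |g k - g0 k| ≤ rX) (hbJ : ∀ g ∈ J, ∀ k, |g k - g0 k| ≤ rX)
    (K : ℝ) (hK : ∀ (h : Fin s → ℤ) (y : Pt m), (∀ i, h i ≠ 0) → (relCount G h y : ℝ) ≤ K) :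
    (((Fintype.piFinset fun _ : Fin s => G).filter fun z => CircMod J z).card : ℝ) ≤
      (2 * hb rX (J.card + s) + 1) ^ (J.card + s) * K := by
  set B : ℕ := hb rX (J.card + s) with hB
  -- index set of coefficient vectors
  let HS : Finset (Fin s → ℤ) :=
    (Fintype.piFinset fun _ : Fin s => Finset.Icc (-(B : ℤ)) B).filter (fun h => ∀ i, h i ≠ 0)
  let AS : Finset (J → ℤ) := Fintype.piFinset fun _ : J => Finset.Icc (-(B : ℤ)) B
  have hcov : ((Fintype.piFinset fun _ : Fin s => G).filter fun z => CircMod J z) ⊆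
      (HS ×ˢ AS).biUnion (fun p => (Fintype.piFinset fun _ : Fin s => G).filter
        fun z => ∑ i, p.1 i • z i = - ∑ b : J, p.2 b • (b : Pt m)) := by
    intro z hz
    rw [Finset.mem_filter] at hz
    obtain ⟨hzG, hinj, hdisj, hdep, hmin⟩ := hz
    have hzG' : ∀ i, z i ∈ G := fun i => by
      have := Fintype.mem_piFinset.mp hzG i
      simpa using this
    have hcardZ : (univ.image z).card = s := by
      rw [Finset.card_image_of_injective _ hinj]; simp
    have hcard : (J ∪ univ.image z).card = J.card + s := by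
      rw [Finset.card_union_of_disjoint hdisj, hcardZ]
    obtain ⟨h, hBR, hne⟩ := ear_rel hB2 J (univ.image z) g0 (by
        intro g hg
        rcases Finset.mem_union.mp hg with h1 | h1
        · exact hbJ g h1
        · obtain ⟨i, _, rfl⟩ := Finset.mem_image.mp h1
          exact hbG _ (hzG' i)) hdep (by
        intro g hg
        obtain ⟨i, _, rfl⟩ := Finset.mem_image.mp hg
        exact hmin i)
    rw [hcard] at hBR
    obtain ⟨⟨h1, h2, h3⟩, h4⟩ := hBR
    have hbd : ∀ g, h g ∈ Finset.Icc (-(B : ℤ)) B := by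
      intro g
      have h5 := h4 g
      have h6 : (((J.card + s : ℕ) * (rX + 1) : ℝ)) ^ (J.card + s) = ((B : ℤ) : ℝ) := by
        rw [hB]; unfold hb; push_cast; ring
      rw [h6] at h5
      have h7 : |h g| ≤ (B : ℤ) := by exact_mod_cast h5
      rw [Finset.mem_Icc]
      exact abs_le.mp h7
    rw [Finset.mem_biUnion]
    refine ⟨(fun i => h (z i), fun b => h b), ?_, ?_⟩
    · rw [Finset.mem_product]
      refine ⟨Finset.mem_filter.mpr ⟨Fintype.mem_piFinset.mpr fun i => hbd _, fun i => ?_⟩,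
        Fintype.mem_piFinset.mpr fun b => hbd _⟩
      exact hne (z i) (Finset.mem_image_of_mem _ (Finset.mem_univ _))
    · rw [Finset.mem_filter]
      refine ⟨hzG, ?_⟩
      rw [Finset.sum_union hdisj] at h3
      have h5 : ∑ g ∈ univ.image z, h g • g = ∑ i, h (z i) • z i :=
        Finset.sum_image (fun a _ b _ hab => hinj hab)
      have h6 : ∑ g ∈ J, h g • g = ∑ b : J, h b • (b : Pt m) := by
        rw [← Finset.sum_coe_sort J (fun g => h g • g)]
      rw [h5, h6] at h3
      exact eq_neg_of_add_eq_zero_right h3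
  have hcardHS : HS.card ≤ (2 * B + 1) ^ s := by
    refine (Finset.card_filter_le _ _).trans ?_
    rw [Fintype.card_piFinset]
    simp only [Int.card_Icc, Finset.prod_const, Finset.card_univ, Fintype.card_fin]
    apply Nat.pow_le_pow_left
    omega
  have hcardAS : AS.card ≤ (2 * B + 1) ^ J.card := by
    rw [Fintype.card_piFinset]
    simp only [Int.card_Icc, Finset.prod_const, Finset.card_univ, Fintype.card_coe]
    apply Nat.pow_le_pow_left
    omega
  by_cases hHS : HS.Nonempty
  swap
  · -- no coefficient vector at all: the set is empty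
    rw [Finset.not_nonempty_iff_eq_empty] at hHS
    have h0 : ((Fintype.piFinset fun _ : Fin s => G).filter fun z => CircMod J z) = ∅ := by
      apply Finset.subset_empty.mp
      refine hcov.trans ?_
      rw [hHS]; simp
    rw [h0]
    have hK0 : 0 ≤ K := by
      have := hK (fun _ => 1) 0 (fun _ => one_ne_zero)
      exact (Nat.cast_nonneg _).trans this
    simp only [Finset.card_empty, Nat.cast_zero]
    positivity
  have hK0 : 0 ≤ K := by
    have := hK (fun _ => 1) 0 (fun _ => one_ne_zero)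
    exact (Nat.cast_nonneg _).trans this
  calc (((Fintype.piFinset fun _ : Fin s => G).filter fun z => CircMod J z).card : ℝ)
      ≤ (((HS ×ˢ AS).biUnion (fun p => (Fintype.piFinset fun _ : Fin s => G).filter
        fun z => ∑ i, p.1 i • z i = - ∑ b : J, p.2 b • (b : Pt m))).card : ℝ) := by
        exact_mod_cast Finset.card_le_card hcov
    _ ≤ ∑ p ∈ HS ×ˢ AS, (((Fintype.piFinset fun _ : Fin s => G).filter
        fun z => ∑ i, p.1 i • z i = - ∑ b : J, p.2 b • (b : Pt m)).card : ℝ) := by
        exact_mod_cast Finset.card_biUnion_le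
    _ ≤ ∑ _p ∈ HS ×ˢ AS, K := by
        refine Finset.sum_le_sum fun p hp => ?_
        have hp1 := (Finset.mem_filter.mp (Finset.mem_product.mp hp).1).2
        have := hK p.1 (- ∑ b : J, p.2 b • (b : Pt m)) hp1
        unfold relCount at this
        convert this using 2
    _ = ((HS.card * AS.card : ℕ) : ℝ) * K := by
        rw [Finset.sum_const, nsmul_eq_mul, Finset.card_product]
    _ ≤ ((2 * B + 1) ^ s * (2 * B + 1) ^ J.card : ℕ) * K := by
        gcongr
    _ = (2 * (B : ℝ) + 1) ^ (J.card + s) * K := by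
        push_cast
        rw [← pow_add, add_comm s]

end Ear
end Crest.Agent.R225
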