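import Crest.Agent.R225.B4Iface
import Crest.Agent.R225.Ear

/-!
# Row 225 (S0347), node B4 (cleaning): linear algebra (helper925)
-/

set_option autoImplicit false

open Finset
open scoped BigOperators

namespace Crest.Agent.R225
namespace B4

variable {m : ℕ}

lemma mkQ_sum (J Z : Finset (Pt m)) (c : Pt m → ℚ) :
    ∑ z ∈ Z, c z • (((Submodule.span ℚ (aff '' (J : Set (Pt m)))).mkQ ∘ aff) z) =
      (Submodule.span ℚ (aff '' (J : Set (Pt m)))).mkQ (∑ z ∈ Z, c z • aff z) := by
  rw [map_sum]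
  exact Finset.sum_congr rfl fun z _ => by rw [map_smul]; rfl

/-- not dependent mod `J` = independent in the quotient -/
lemma not_dep_iff (J Z : Finset (Pt m)) :
    ¬ Dep J Z ↔ LinearIndepOn ℚ ((Submodule.span ℚ (aff '' (J : Set (Pt m)))).mkQ ∘ aff)
      (Z : Set (Pt m)) := by
  rw [linearIndepOn_finset_iff]
  constructor
  · intro h c hc z hz
    by_contra hne
    apply h
    refine ⟨c, ⟨z, hz, hne⟩, ?_⟩
    rw [mkQ_sum] at hc
    rwa [Submodule.mkQ_apply, Submodule.Quotient.mk_eq_zero] at hc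
  · rintro h ⟨c, ⟨z, hz, hne⟩, hc⟩
    apply hne
    refine h c ?_ z hz
    rw [mkQ_sum, Submodule.mkQ_apply, Submodule.Quotient.mk_eq_zero]
    exact hc

lemma dep_of_mem {J Z : Finset (Pt m)} {z : Pt m} (hz : z ∈ J) (hz' : z ∈ Z) : Dep J Z := by
  classical
  refine ⟨fun g => if g = z then 1 else 0, ⟨z, hz', by simp⟩, ?_⟩
  have : ∑ g ∈ Z, (if g = z then (1 : ℚ) else 0) • aff g = aff z := by
    rw [Finset.sum_eq_single z]
    · simp
    · intro b _ hb; simp [hb]
    · intro h; exact absurd hz' h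
  rw [this]
  exact Submodule.subset_span ⟨z, by exact_mod_cast hz, rfl⟩

open scoped Classical in
theorem prf_circ_ind : S_circ_ind := by
  intro m J Z z hJ hc hz
  have h1 : ¬ Dep J (Z.erase z) := hc.2 _ (Finset.erase_ssubset hz)
  have hdisj : Disjoint J (Z.erase z) := by
    rw [Finset.disjoint_left]
    intro g hg hg'
    exact h1 (dep_of_mem hg hg')
  refine ⟨?_, hdisj⟩
  rw [not_dep_iff] at h1
  have h2 := LinearIndepOn.union_of_quotient hJ h1
  unfold Ind
  rw [Finset.coe_union]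
  exact h2

open scoped Classical in
theorem prf_int_rel (hB2 : S_B2) : S_int_rel := by
  intro m rX J Z g0 hJ hc h2 hbox
  have hmin : ∀ z ∈ Z, LinearIndepOn ℚ aff ((J ∪ Z.erase z : Finset (Pt m)) : Set (Pt m)) :=
    fun z hz => (prf_circ_ind m J Z z hJ hc hz).1
  have hdisj : Disjoint J Z := by
    rw [Finset.disjoint_left]
    intro g hg hg'
    obtain ⟨z, hz, hne⟩ : ∃ z ∈ Z, z ≠ g := by
      by_contra hcon
      push Not at hcon
      have : Z ⊆ {g} := fun z hz => by rw [Finset.mem_singleton]; exact hcon z hz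
      have := Finset.card_le_card this
      rw [Finset.card_singleton] at this
      omega
    exact hc.2 _ (Finset.erase_ssubset hz) (dep_of_mem hg (Finset.mem_erase.mpr ⟨hne.symm, hg'⟩))
  have hdep : ¬ LinearIndepOn ℚ aff ((J ∪ Z : Finset (Pt m)) : Set (Pt m)) := by
    intro hind
    rw [Finset.coe_union] at hind
    have hd : Disjoint (J : Set (Pt m)) (Z : Set (Pt m)) := by exact_mod_cast hdisj
    have h3 := ((linearIndepOn_union_iff_quotient hd).mp hind).2
    exact (not_dep_iff J Z).mpr h3 hc.1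
  obtain ⟨h, hB, hne⟩ := Ear.ear_rel hB2 J Z g0 hbox hdep hmin
  exact ⟨h, hne, hB⟩

/-- a dependent set contains a circuit -/
lemma exists_circ (J : Finset (Pt m)) : ∀ Z : Finset (Pt m), Dep J Z → ∃ Z' ⊆ Z, Circ J Z' := by
  intro Z
  induction Z using Finset.strongInduction with
  | H Z ih =>
    intro hdep
    by_cases h : ∃ Z' ⊂ Z, Dep J Z'
    · obtain ⟨Z', hZ', hd⟩ := h
      obtain ⟨Z'', h1, h2⟩ := ih Z' hZ' hd
      exact ⟨Z'', h1.trans hZ'.1, h2⟩
    · push Not at h
      exact ⟨Z, Finset.Subset.refl _, hdep, h⟩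

open scoped Classical in
theorem prf_clean : S_clean := by
  intro m s0 W J hJ hJW hno Z hZ hZs h hrel
  by_contra hne
  -- `Z` is dependent
  have hdep : Dep J Z := by
    refine ⟨fun g => (h g : ℚ), ?_, ?_⟩
    · by_contra hcon
      push Not at hcon
      apply hne
      funext g
      by_cases hg : g ∈ Z
      · have := hcon g hg
        exact_mod_cast this
      · exact hrel.1 g hg
    · rw [Ear.arel_sum_aff hrel]
      exact Submodule.zero_mem _
  obtain ⟨Z', hZ', hc⟩ := exists_circ J Z hdep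
  have hZW : ∀ z ∈ Z, z ∈ W ∧ aff z ∉ Submodule.span ℚ (aff '' (J : Set (Pt m))) ∧
      ¬ ∃ z' ∈ W, z' ≠ z ∧ Circ J {z, z'} := by
    intro z hz
    have := hZ hz
    rw [Finset.mem_filter] at this
    exact this
  have hZ'W : Z' ⊆ W := fun z hz => (hZW z (hZ' hz)).1
  have hcard : Z'.card ≤ s0 := (Finset.card_le_card hZ').trans hZs
  rcases Nat.lt_or_ge Z'.card 3 with hlt | hge
  · have h012 : Z'.card = 0 ∨ Z'.card = 1 ∨ Z'.card = 2 := by omega
    rcases h012 with h0 | h1 | h2
    · rw [Finset.card_eq_zero] at h0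
      subst h0
      obtain ⟨c, ⟨z, hz, _⟩, _⟩ := hc.1
      simp at hz
    · rw [Finset.card_eq_one] at h1
      obtain ⟨z, rfl⟩ := h1
      obtain ⟨c, ⟨z', hz', hcz⟩, hspan⟩ := hc.1
      rw [Finset.mem_singleton] at hz'
      subst hz'
      rw [Finset.sum_singleton] at hspan
      have hz : z' ∈ Z := hZ' (Finset.mem_singleton_self _)
      apply (hZW z' hz).2.1
      have := Submodule.smul_mem _ (c z')⁻¹ hspan
      rwa [smul_smul, inv_mul_cancel₀ hcz, one_smul] at this
    · rw [Finset.card_eq_two] at h2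
      obtain ⟨z, z', hzz, rfl⟩ := h2
      have hz : z ∈ Z := hZ' (by simp)
      have hz' : z' ∈ Z := hZ' (by simp)
      exact (hZW z hz).2.2 ⟨z', (hZW z' hz').1, hzz.symm, hc⟩
  · exact hno Z' hZ'W hge hcard hc

end B4
end Crest.Agent.R225
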