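import Crest.Agent.R225.B4Iface

/-!
# Row 225, node B4: counting lemmas (`S_ear`, `S_badY`) (helper435)
-/

set_option autoImplicit false

open Finset
open scoped BigOperators

namespace Crest.Agent.R225.B4

namespace Cnt

/-- coefficient vectors bounded by `B` -/
noncomputable def coef (ι : Type*) [Fintype ι] [DecidableEq ι] (B : ℕ) : Finset (ι → ℤ) :=
  Fintype.piFinset fun _ : ι => Finset.Icc (-(B : ℤ)) B

lemma card_coef (ι : Type*) [Fintype ι] [DecidableEq ι] (B : ℕ) :
    (coef ι B).card = (2 * B + 1) ^ Fintype.card ι := by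
  unfold coef
  rw [Fintype.card_piFinset]
  simp only [Int.card_Icc, prod_const, card_univ]
  congr 1
  omega

lemma mem_coef {ι : Type*} [Fintype ι] [DecidableEq ι] {B : ℕ} {h : ι → ℤ} :
    h ∈ coef ι B ↔ ∀ i, |h i| ≤ (B : ℤ) := by
  simp [coef, abs_le]

open scoped Classical in
/-- The number of sets `Z` of size `s` that support, together with `J`, an integer combination
with nonzero coefficients on `Z`, all coefficients bounded by `B`. -/
theorem count_sets {m : ℕ} (G J : Finset (Pt m)) (s B : ℕ) (C : ℝ)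
    (hC : ∀ h : Fin s → ℤ, (∀ i, h i ≠ 0) → ∀ y, (relCount G h y : ℝ) ≤ C) :
    (((G.powersetCard s).filter fun Z => ∃ h h' : Pt m → ℤ, (∀ g, |h g| ≤ (B : ℤ)) ∧
      (∀ g, |h' g| ≤ (B : ℤ)) ∧
      (∀ g ∈ Z, h g ≠ 0) ∧ ∑ g ∈ Z, h g • g + ∑ g ∈ J, h' g • g = 0).card : ℝ)
      ≤ (2 * B + 1) ^ (J.card + s) * C := by
  set S := (G.powersetCard s).filter fun Z => ∃ h h' : Pt m → ℤ, (∀ g, |h g| ≤ (B : ℤ)) ∧
      (∀ g, |h' g| ≤ (B : ℤ)) ∧
      (∀ g ∈ Z, h g ≠ 0) ∧ ∑ g ∈ Z, h g • g + ∑ g ∈ J, h' g • g = 0 with hS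
  set K : Finset ((Fin s → ℤ) × (J → ℤ)) :=
    ((coef (Fin s) B).filter fun h => ∀ i, h i ≠ 0) ×ˢ coef J B with hK
  have hsub : S ⊆ K.biUnion fun p =>
      (((Fintype.piFinset fun _ : Fin s => G).filter fun z =>
        ∑ i, p.1 i • z i = -∑ g : J, p.2 g • (g : Pt m))).image fun z => univ.image z := by
    intro Z hZ
    rw [hS, mem_filter, mem_powersetCard] at hZ
    obtain ⟨⟨hZG, hZs⟩, h, h', hB, hB', hne, hsum⟩ := hZ
    set e := Finset.equivFinOfCardEq hZs with he
    rw [mem_biUnion]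
    refine ⟨(fun i => h (e.symm i), fun g => h' g), ?_, ?_⟩
    · rw [hK, mem_product, mem_filter, mem_coef, mem_coef]
      exact ⟨⟨fun i => hB _, fun i => hne _ (e.symm i).2⟩, fun g => hB' _⟩
    · rw [mem_image]
      refine ⟨fun i => (e.symm i : Pt m), ?_, ?_⟩
      · rw [mem_filter, Fintype.mem_piFinset]
        refine ⟨fun i => hZG (e.symm i).2, ?_⟩
        have h1 : ∑ i, h (e.symm i) • (e.symm i : Pt m) = ∑ g ∈ Z, h g • g := by
          rw [← Finset.sum_coe_sort Z (fun g => h g • g)]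
          exact Equiv.sum_comp e.symm (fun g : Z => h g • (g : Pt m))
        have h2 : ∑ g : J, h' g • (g : Pt m) = ∑ g ∈ J, h' g • g :=
          Finset.sum_coe_sort J (fun g => h' g • g)
        simp only
        rw [h1, h2]
        exact eq_neg_of_add_eq_zero_left hsum
      · ext g
        simp only [mem_image, mem_univ, true_and]
        constructor
        · rintro ⟨i, rfl⟩
          exact (e.symm i).2
        · intro hg
          exact ⟨e ⟨g, hg⟩, by simp⟩
  have hcard : (S.card : ℝ) ≤ ∑ p ∈ K, C := by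
    calc (S.card : ℝ) ≤ ((K.biUnion fun p =>
      (((Fintype.piFinset fun _ : Fin s => G).filter fun z =>
        ∑ i, p.1 i • z i = -∑ g : J, p.2 g • (g : Pt m))).image fun z => univ.image z).card : ℝ) := by
          exact_mod_cast card_le_card hsub
      _ ≤ ((∑ p ∈ K, ((((Fintype.piFinset fun _ : Fin s => G).filter fun z =>
        ∑ i, p.1 i • z i = -∑ g : J, p.2 g • (g : Pt m))).image fun z => univ.image z).card : ℕ) : ℝ) := by
          exact_mod_cast card_biUnion_le
      _ ≤ ∑ p ∈ K, C := by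
          push_cast
          refine sum_le_sum fun p hp => ?_
          rw [hK, mem_product, mem_filter] at hp
          refine le_trans ?_ (hC p.1 hp.1.2 (-∑ g : J, p.2 g • (g : Pt m)))
          unfold relCount
          exact_mod_cast card_image_le
  have hC0' : 0 ≤ C := le_trans (Nat.cast_nonneg _) (hC (fun _ => 1) (fun _ => one_ne_zero) 0)
  refine hcard.trans ?_
  rw [sum_const, nsmul_eq_mul]
  refine mul_le_mul_of_nonneg_right ?_ hC0'
  have h3 : K.card ≤ (2 * B + 1) ^ (J.card + s) := by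
    rw [hK, card_product, add_comm J.card s, pow_add]
    refine Nat.mul_le_mul ?_ ?_
    · refine (card_filter_le _ _).trans ?_
      rw [card_coef, Fintype.card_fin]
    · rw [card_coef, Fintype.card_coe]
  exact_mod_cast h3

open scoped Classical in
/-- one linear equation with a nonzero coefficient: the corresponding point is determined -/
lemma relCount_le {m j : ℕ} (G : Finset (Pt m)) (a : Fin j → ℤ) (y : Pt m) (i0 : Fin j)
    (ha : a i0 ≠ 0) : relCount G a y ≤ G.card ^ (j - 1) := by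
  obtain ⟨j', rfl⟩ : ∃ j', j = j' + 1 := ⟨j - 1, by have := i0.2; omega⟩
  have hcard : (Fintype.piFinset fun _ : Fin j' => G).card = G.card ^ (j' + 1 - 1) := by
    rw [Fintype.card_piFinset]; simp
  rw [← hcard]
  unfold relCount
  refine card_le_card_of_injOn (fun z i => z (i0.succAbove i)) ?_ ?_
  · intro z hz
    have hz' := (mem_filter.1 (mem_coe.1 hz)).1
    rw [Fintype.mem_piFinset] at hz'
    exact mem_coe.2 (Fintype.mem_piFinset.2 fun i => hz' _)
  · intro z hz z' hz' hzz
    have h1 := (mem_filter.1 (mem_coe.1 hz)).2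
    have h2 := (mem_filter.1 (mem_coe.1 hz')).2
    rw [Fin.sum_univ_succAbove _ i0] at h1 h2
    have h3 : ∀ i, z (i0.succAbove i) = z' (i0.succAbove i) := fun i => congrFun hzz i
    have h4 : ∑ i, a (i0.succAbove i) • z (i0.succAbove i)
        = ∑ i, a (i0.succAbove i) • z' (i0.succAbove i) :=
      sum_congr rfl fun i _ => by rw [h3 i]
    rw [h4] at h1
    have h5 : a i0 • z i0 = a i0 • z' i0 := by
      have := h1.trans h2.symm
      exact add_right_cancel this
    have h6 : z i0 = z' i0 := by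
      funext k
      have := congrFun h5 k
      simp only [Pi.smul_apply, smul_eq_mul] at this
      exact mul_left_cancel₀ ha this
    funext i
    rcases eq_or_ne i i0 with rfl | hi
    · exact h6
    · obtain ⟨i', rfl⟩ := Fin.exists_succAbove_eq hi
      exact h3 i'

end Cnt

open Cnt

theorem prf_ear : S_int_rel → S_ear := by
  classical
  intro hrel m rX s B G J g0 R hbox hJG hJ hs2 hB hR
  refine le_trans ?_ (count_sets G J s B R fun h hh y => hR h y hh)
  refine Nat.cast_le.2 (card_le_card ?_)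
  intro Z hZ
  rw [mem_filter, mem_powersetCard] at hZ ⊢
  obtain ⟨⟨hZG, hZs⟩, hcirc⟩ := hZ
  refine ⟨⟨hZG, hZs⟩, ?_⟩
  have hbox' : InBox rX g0 (J ∪ Z) := by
    intro g hg
    rcases mem_union.1 hg with h | h
    · exact hbox g (hJG h)
    · exact hbox g (hZG h)
  obtain ⟨h, hne, ⟨hsupp, hs0, hs1⟩, hbd⟩ := hrel m rX J Z g0 hJ hcirc (by omega) hbox'
  have hcard : (J ∪ Z).card ≤ J.card + s := by
    have := card_union_le J Z
    omega
  have hBle : (((J ∪ Z).card * (rX + 1) : ℝ) ^ (J ∪ Z).card) ≤ B := by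
    have h1 : ((J ∪ Z).card * (rX + 1)) ^ (J ∪ Z).card ≤ B := by
      refine le_trans ?_ hB
      rcases Nat.eq_zero_or_pos (J ∪ Z).card with h0 | h0
      · rw [h0, pow_zero]
        rcases Nat.eq_zero_or_pos (J.card + s) with h1 | h1
        · rw [h1]; simp
        · exact Nat.one_le_pow _ _ (Nat.mul_pos h1 (Nat.succ_pos _))
      · exact (Nat.pow_le_pow_left (Nat.mul_le_mul_right _ hcard) _).trans
          (Nat.pow_le_pow_right (Nat.mul_pos (by omega) (Nat.succ_pos _)) hcard)
    exact_mod_cast h1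
  have hb : ∀ g, |h g| ≤ (B : ℤ) := by
    intro g
    have h1 := (hbd g).trans hBle
    have h2 : ((|h g| : ℤ) : ℝ) ≤ ((B : ℤ) : ℝ) := by
      push_cast
      exact h1
    exact_mod_cast h2
  refine ⟨h, fun g => if g ∈ Z then 0 else h g, hb, ?_, hne, ?_⟩
  · intro g
    by_cases hg : g ∈ Z
    · simp [hg]
    · simp only [hg, if_false]; exact hb g
  · have h1 : ∑ g ∈ J ∪ Z, h g • g = ∑ g ∈ Z, h g • g + ∑ g ∈ J \ Z, h g • g := by
      rw [← sum_union (disjoint_sdiff), union_sdiff_self_eq_union, union_comm]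
    have h2 : ∑ g ∈ J, (if g ∈ Z then (0 : ℤ) else h g) • g = ∑ g ∈ J \ Z, h g • g := by
      rw [← sum_sdiff (s₁ := J ∩ Z) (s₂ := J) inter_subset_left]
      have h3 : ∑ g ∈ J ∩ Z, (if g ∈ Z then (0 : ℤ) else h g) • g = 0 :=
        sum_eq_zero fun g hg => by simp [(mem_inter.1 hg).2]
      rw [h3, add_zero, sdiff_inter_self_left]
      exact sum_congr rfl fun g hg => by simp [(mem_sdiff.1 hg).2]
    rw [h2, ← h1]
    exact hs1

theorem prf_badY : S_badY := by
  classical
  intro m j B G Y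
  set S := (G.powersetCard j).filter fun J => ∃ a : Pt m → ℤ, (∃ b ∈ J, a b ≠ 0) ∧
      (∀ b ∈ J, |a b| ≤ (B : ℤ)) ∧ ∑ b ∈ J, a b • b ∈ Y with hS
  set K : Finset (Fin j → ℤ) := (coef (Fin j) B).filter fun h => ∃ i, h i ≠ 0 with hK
  have hsub : S ⊆ (K ×ˢ Y).biUnion fun p =>
      (((Fintype.piFinset fun _ : Fin j => G).filter fun z =>
        ∑ i, p.1 i • z i = p.2)).image fun z => univ.image z := by
    intro Z hZ
    rw [hS, mem_filter, mem_powersetCard] at hZ
    obtain ⟨⟨hZG, hZs⟩, a, ⟨b, hb, hab⟩, hB, hY⟩ := hZ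
    set e := Finset.equivFinOfCardEq hZs with he
    rw [mem_biUnion]
    refine ⟨(fun i => a (e.symm i), ∑ b ∈ Z, a b • b), ?_, ?_⟩
    · rw [mem_product, hK, mem_filter, mem_coef]
      exact ⟨⟨fun i => hB _ (e.symm i).2, e ⟨b, hb⟩, by simpa using hab⟩, hY⟩
    · rw [mem_image]
      refine ⟨fun i => (e.symm i : Pt m), ?_, ?_⟩
      · rw [mem_filter, Fintype.mem_piFinset]
        refine ⟨fun i => hZG (e.symm i).2, ?_⟩
        simp only
        rw [← Finset.sum_coe_sort Z (fun g => a g • g)]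
        exact Equiv.sum_comp e.symm (fun g : Z => a g • (g : Pt m))
      · ext g
        simp only [mem_image, mem_univ, true_and]
        constructor
        · rintro ⟨i, rfl⟩
          exact (e.symm i).2
        · intro hg
          exact ⟨e ⟨g, hg⟩, by simp⟩
  have hcard : S.card ≤ ∑ p ∈ K ×ˢ Y, G.card ^ (j - 1) := by
    refine (card_le_card hsub).trans (card_biUnion_le.trans (sum_le_sum fun p hp => ?_))
    refine card_image_le.trans ?_
    rw [mem_product, hK, mem_filter] at hp
    obtain ⟨i0, hi0⟩ := hp.1.2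
    exact relCount_le G p.1 p.2 i0 hi0
  rw [sum_const, smul_eq_mul, card_product] at hcard
  have hKc : K.card ≤ (2 * B + 1) ^ j := by
    refine (card_filter_le _ _).trans ?_
    rw [card_coef, Fintype.card_fin]
  have h3 : S.card ≤ (2 * B + 1) ^ j * (G.card ^ (j - 1) * Y.card) := by
    refine hcard.trans ?_
    calc K.card * Y.card * G.card ^ (j - 1) ≤ (2 * B + 1) ^ j * Y.card * G.card ^ (j - 1) := by
          gcongr
      _ = (2 * B + 1) ^ j * (G.card ^ (j - 1) * Y.card) := by ring
  exact_mod_cast h3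

end Crest.Agent.R225.B4
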