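import Crest.Agent.R225.B4Iface2
import Crest.Agent.R225.B4Count

/-!
# Row 225, node B4: expectation bound for the exceptional targets (helper435)
-/

set_option autoImplicit false

open Finset
open scoped BigOperators

namespace Crest.Agent.R225.B4

namespace E3

open scoped Classical in
/-- the bad combination property -/
def Bad {m : ℕ} (B : ℕ) (Y J : Finset (Pt m)) : Prop :=
  ∃ a : Pt m → ℤ, (∃ b ∈ J, a b ≠ 0) ∧ (∀ b ∈ J, |a b| ≤ (B : ℤ)) ∧ ∑ b ∈ J, a b • b ∈ Y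

open scoped Classical in
lemma sum_bad (hY : S_badY) {m B j N : ℕ} (G Y : Finset (Pt m)) {ρ R δL : ℝ} (hρ : 0 ≤ ρ)
    (hR : (G.card : ℝ) * ρ ≤ R) (hR1 : 1 ≤ R) (hδL : 0 ≤ δL)
    (hYc : (Y.card : ℝ) ≤ G.card * δL) (hj : j ≤ N) :
    (((G.powersetCard j).filter fun J => Bad B Y J).card : ℝ) * ρ ^ j
      ≤ (2 * B + 1 : ℝ) ^ N * R ^ N * δL := by
  have hb1 : (1 : ℝ) ≤ 2 * B + 1 := by
    have : (0 : ℝ) ≤ B := Nat.cast_nonneg _
    linarith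
  have hRHS : 0 ≤ (2 * B + 1 : ℝ) ^ N * R ^ N * δL := by positivity
  rcases Nat.eq_zero_or_pos j with rfl | hj0
  · have h0 : ((G.powersetCard 0).filter fun J => Bad B Y J) = ∅ := by
      rw [filter_eq_empty_iff]
      intro J hJ hbad
      obtain ⟨a, ⟨b, hb, _⟩, _⟩ := hbad
      rw [powersetCard_zero, mem_singleton] at hJ
      rw [hJ] at hb
      exact absurd hb (notMem_empty _)
    rw [h0]
    simpa using hRHS
  · have h1 := hY m j B G Y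
    have h2 : (((G.powersetCard j).filter fun J => Bad B Y J).card : ℝ) ≤
        (2 * B + 1 : ℝ) ^ j * ((G.card : ℝ) ^ (j - 1) * Y.card) := by
      refine le_trans (le_of_eq ?_) h1
      rfl
    obtain ⟨i, rfl⟩ : ∃ i, j = i + 1 := ⟨j - 1, by omega⟩
    have hGρ : 0 ≤ (G.card : ℝ) * ρ := by positivity
    calc (((G.powersetCard (i + 1)).filter fun J => Bad B Y J).card : ℝ) * ρ ^ (i + 1)
        ≤ (2 * B + 1 : ℝ) ^ (i + 1) * ((G.card : ℝ) ^ (i + 1 - 1) * Y.card) * ρ ^ (i + 1) :=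
          mul_le_mul_of_nonneg_right h2 (by positivity)
      _ ≤ (2 * B + 1 : ℝ) ^ (i + 1) * ((G.card : ℝ) ^ (i + 1 - 1) * (G.card * δL)) *
          ρ ^ (i + 1) := by gcongr
      _ = (2 * B + 1 : ℝ) ^ (i + 1) * (((G.card : ℝ) * ρ) ^ (i + 1)) * δL := by
          rw [Nat.add_sub_cancel, mul_pow]; ring
      _ ≤ (2 * B + 1 : ℝ) ^ N * R ^ N * δL := by
          have h3 : ((G.card : ℝ) * ρ) ^ (i + 1) ≤ R ^ N :=
            (pow_le_pow_left₀ hGρ hR _).trans (pow_le_pow_right₀ hR1 hj)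
          have h4 : (2 * B + 1 : ℝ) ^ (i + 1) ≤ (2 * B + 1 : ℝ) ^ N := pow_le_pow_right₀ hb1 hj
          gcongr

end E3

open scoped Classical in
theorem E3 (hY : S_badY) {m L s1 s0 kmax B : ℕ} {Ω : Type} [Fintype Ω] [Nonempty Ω]
    {W : Ω → Finset (Pt m)} {G : Finset (Pt m)} {ρ R δL : ℝ} (hRS : RS Ω W G ρ kmax)
    (hR : (G.card : ℝ) * ρ ≤ R) (hR1 : 1 ≤ R) (hδL : 0 ≤ δL) (hk : L * s1 ≤ kmax)
    (Y : ℤ → ℤ → Finset (Pt m)) (hYc : ∀ c c', ((Y c c').card : ℝ) ≤ G.card * δL) :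
    (𝔼 ω, if ∃ J ⊆ W ω, Ind J ∧ J.card ≤ L * s1 ∧ ∃ (c c' : ℤ) (a : Pt m → ℤ),
        |c| ≤ (B : ℤ) ∧ |c'| ≤ (B : ℤ) ∧ (∃ b ∈ J, a b ≠ 0) ∧ (∀ b ∈ J, |a b| ≤ (B : ℤ)) ∧
        ∑ b ∈ J, a b • b ∈ Y c c' then (1 : ℝ) else 0)
      ≤ (L * s1 + 1) * (2 * B + 1 : ℝ) ^ (L * s1 + s0 + 2) * R ^ (L * s1) * δL := by
  set N := L * s1 with hN
  set IB := Icc (-(B : ℤ)) B with hIB
  have hρ := hRS.nonneg
  let bad : ℤ → ℤ → ℕ → Finset (Finset (Pt m)) := fun c c' j =>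
    ((G.powersetCard j).filter fun J => E3.Bad B (Y c c') J).filter fun J => Ind J
  have hpt : ∀ ω, (if ∃ J ⊆ W ω, Ind J ∧ J.card ≤ N ∧ ∃ (c c' : ℤ) (a : Pt m → ℤ),
        |c| ≤ (B : ℤ) ∧ |c'| ≤ (B : ℤ) ∧ (∃ b ∈ J, a b ≠ 0) ∧ (∀ b ∈ J, |a b| ≤ (B : ℤ)) ∧
        ∑ b ∈ J, a b • b ∈ Y c c' then (1 : ℝ) else 0) ≤
      ∑ p ∈ (IB ×ˢ IB) ×ˢ range (N + 1), ∑ J ∈ bad p.1.1 p.1.2 p.2,
        if J ⊆ W ω then (1 : ℝ) else 0 := by
    intro ω
    have hnn : ∀ p ∈ (IB ×ˢ IB) ×ˢ range (N + 1), 0 ≤ ∑ J ∈ bad p.1.1 p.1.2 p.2,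
        if J ⊆ W ω then (1 : ℝ) else 0 := fun p _ => sum_nonneg fun J _ => by
          split_ifs <;> norm_num
    split_ifs with h
    · obtain ⟨J, hJW, hInd, hJc, c, c', a, hc, hc', hb, hB, hmem⟩ := h
      have hp : ((c, c'), J.card) ∈ (IB ×ˢ IB) ×ˢ range (N + 1) := by
        rw [mem_product, mem_product, hIB, mem_Icc, mem_Icc, mem_range]
        exact ⟨⟨abs_le.1 hc, abs_le.1 hc'⟩, by omega⟩
      refine le_trans ?_ (single_le_sum hnn hp)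
      have hJb : J ∈ bad c c' J.card := by
        simp only [bad, mem_filter, mem_powersetCard]
        exact ⟨⟨⟨hJW.trans (hRS.sub ω), trivial⟩, a, hb, hB, hmem⟩, hInd⟩
      have h2 : (if J ⊆ W ω then (1 : ℝ) else 0) ≤ ∑ J ∈ bad c c' J.card,
          if J ⊆ W ω then (1 : ℝ) else 0 :=
        single_le_sum (f := fun J => if J ⊆ W ω then (1 : ℝ) else 0)
          (fun J _ => by split_ifs <;> norm_num) hJb
      rw [if_pos hJW] at h2
      exact h2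
    · exact sum_nonneg hnn
  refine (expect_le_expect fun ω _ => hpt ω).trans ?_
  rw [expect_sum_comm]
  have hterm : ∀ p ∈ (IB ×ˢ IB) ×ˢ range (N + 1),
      (𝔼 ω, ∑ J ∈ bad p.1.1 p.1.2 p.2, if J ⊆ W ω then (1 : ℝ) else 0) ≤
        (2 * B + 1 : ℝ) ^ N * R ^ N * δL := by
    intro p hp
    rw [expect_sum_comm]
    rw [mem_product, mem_range] at hp
    have h1 : ∀ J ∈ bad p.1.1 p.1.2 p.2, (𝔼 ω, if J ⊆ W ω then (1 : ℝ) else 0) ≤ ρ ^ p.2 := by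
      intro J hJ
      simp only [bad, mem_filter, mem_powersetCard] at hJ
      obtain ⟨⟨⟨hJG, hJc⟩, _⟩, hInd⟩ := hJ
      have := hRS.surv J hJG hInd (by omega)
      rwa [hJc] at this
    refine (sum_le_sum h1).trans ?_
    rw [sum_const, nsmul_eq_mul]
    refine le_trans ?_ (E3.sum_bad hY G (Y p.1.1 p.1.2) hρ hR hR1 hδL (hYc _ _)
      (show p.2 ≤ N by omega))
    refine mul_le_mul_of_nonneg_right ?_ (pow_nonneg hρ _)
    exact_mod_cast card_le_card (filter_subset _ _)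
  refine (sum_le_sum hterm).trans ?_
  rw [sum_const, nsmul_eq_mul, card_product, card_product, card_range]
  have hIBc : IB.card = 2 * B + 1 := by
    rw [hIB, Int.card_Icc]; omega
  rw [hIBc]
  have hb1 : (1 : ℝ) ≤ 2 * B + 1 := by
    have : (0 : ℝ) ≤ B := Nat.cast_nonneg _
    linarith
  have hR0 : 0 ≤ R := zero_le_one.trans hR1
  push_cast
  calc (2 * (B : ℝ) + 1) * (2 * B + 1) * (N + 1) * ((2 * B + 1) ^ N * R ^ N * δL)
      = (N + 1) * (2 * B + 1 : ℝ) ^ (N + 2) * R ^ N * δL := by ring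
    _ ≤ (N + 1) * (2 * B + 1 : ℝ) ^ (N + s0 + 2) * R ^ N * δL := by
        have : (2 * B + 1 : ℝ) ^ (N + 2) ≤ (2 * B + 1 : ℝ) ^ (N + s0 + 2) :=
          pow_le_pow_right₀ hb1 (by omega)
        gcongr
    _ = (L * s1 + 1) * (2 * B + 1 : ℝ) ^ (N + s0 + 2) * R ^ N * δL := by
        rw [hN]; push_cast; ring

end Crest.Agent.R225.B4
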