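import Crest.Agent.R225.B4Iface

/-!
# Row 225 (S0347), node B4: split of `S_core` (deterministic part)
-/

set_option autoImplicit false

open Finset
open scoped BigOperators

namespace Crest.Agent.R225
namespace B4

open scoped Classical in
/-- points of `G` having a partner in `G` for the relation `c z + c' z' = y` -/
noncomputable def ASet {m : ℕ} (G : Finset (Pt m)) (c c' : ℤ) (y : Pt m) : Finset (Pt m) :=
  G.filter fun z => ∃ z' ∈ G, c • z + c' • z' = y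

/-- `|ASet G c c' y| ≤ relCount G ![c, c'] y` -/
def S_ASet : Prop := ∀ (m : ℕ) (G : Finset (Pt m)) (c c' : ℤ) (y : Pt m), c ≠ 0 → c' ≠ 0 →
  (ASet G c c' y).card ≤ relCount G ![c, c'] y

open scoped Classical in
/-- deterministic part of `S_core`: no long chain, no long circuit modulo a small set, and all the
sets `W ∩ ASet` small ⇒ a good `G'`.
Proof: take `t < L` maximal with `Chn W s1 t J`; `G' = W.filter (...)` of `S_clean`;
`W \ G' ⊆ (W ∩ span J) ∪ ⋃_{(c,c',a)} (W ∩ ASet G c c' (∑ a_b b))`, with `S_int_rel` for `Z = {z,z'}`;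
number of types `≤ (2B+1)^(|J|+2)`. -/
def S_det : Prop := ∀ (m rX L s1 s0 B : ℕ) (W G : Finset (Pt m)) (g0 : Pt m) (T : ℝ),
  W ⊆ G → InBox rX g0 G → 0 < T → 3 ≤ s1 → s1 ≤ s0 →
  ((L * s1 + s0 + 2) * (rX + 1)) ^ (L * s1 + s0 + 2) ≤ B →
  (¬ ∃ J, Chn W s1 L J) →
  (∀ J ⊆ W, Ind J → J.card ≤ L * s1 → ∀ Z ⊆ W, s1 < Z.card → Z.card ≤ s0 → ¬ Circ J Z) →
  (∀ J ⊆ W, Ind J → J.card ≤ L * s1 → ∀ (c c' : ℤ) (a : Pt m → ℤ), c ≠ 0 → c' ≠ 0 →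
    |c| ≤ (B : ℤ) → |c'| ≤ (B : ℤ) → (∃ b ∈ J, a b ≠ 0) → (∀ b ∈ J, |a b| ≤ (B : ℤ)) →
    ((W ∩ ASet G c c' (∑ b ∈ J, a b • b)).card : ℝ) < T) →
  ∃ G' ⊆ W, ((W \ G').card : ℝ) ≤ (2 * rX + 1 : ℝ) ^ (L * s1) +
      (2 * B + 1 : ℝ) ^ (L * s1 + s0 + 2) * T ∧ NoRelInf G' s0

end B4
end Crest.Agent.R225
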