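import Crest.Agent.R225.B4Prob
import Crest.Agent.R225.B4Iface2
import Crest.Agent.R225.B4E3

/-!
# Row 225 (S0347), node B4: `S_core` from the pieces
-/

set_option autoImplicit false

open Finset
open scoped BigOperators

namespace Crest.Agent.R225
namespace B4

/-! ### union bounds -/

lemma exp_union {Ω ι : Type*} [Fintype Ω] [Nonempty Ω] (s : Finset ι) (q : ι → Ω → Prop)
    (p : Ω → Prop) (f : ι → ℝ) [∀ i, DecidablePred (q i)] [DecidablePred p]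
    (h : ∀ i ∈ s, (𝔼 ω, if q i ω then (1 : ℝ) else 0) ≤ f i)
    (hp : ∀ ω, p ω → ∃ i ∈ s, q i ω) :
    (𝔼 ω, if p ω then (1 : ℝ) else 0) ≤ ∑ i ∈ s, f i := by
  have h1 : (𝔼 ω, if p ω then (1 : ℝ) else 0) ≤ 𝔼 ω, ∑ i ∈ s, if q i ω then (1 : ℝ) else 0 := by
    refine Finset.expect_le_expect fun ω _ => ?_
    by_cases hpω : p ω
    · obtain ⟨i, hi, hq⟩ := hp ω hpω
      rw [if_pos hpω]
      have := Finset.single_le_sum (f := fun i => if q i ω then (1 : ℝ) else 0)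
        (fun j _ => by split_ifs <;> norm_num) hi
      simp only [hq, if_true] at this
      exact this
    · rw [if_neg hpω]
      exact Finset.sum_nonneg fun j _ => by split_ifs <;> norm_num
  refine h1.trans ?_
  rw [Finset.expect_sum_comm]
  exact Finset.sum_le_sum h

open scoped Classical in
/-- `∑_{J ⊆ G, |J| ≤ j0} ρ^|J| ≤ (j0+1) R^j0` -/
lemma sum_small_sets {m : ℕ} (G : Finset (Pt m)) (j0 : ℕ) {ρ R : ℝ} (hρ : 0 ≤ ρ)
    (hR : (G.card : ℝ) * ρ ≤ R) (hR1 : 1 ≤ R) :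
    ∑ J ∈ G.powerset.filter (fun J => J.card ≤ j0), ρ ^ J.card ≤ (j0 + 1) * R ^ j0 := by
  have hsub : G.powerset.filter (fun J => J.card ≤ j0) ⊆
      (range (j0 + 1)).biUnion fun j => G.powersetCard j := by
    intro J hJ
    rw [Finset.mem_filter, Finset.mem_powerset] at hJ
    rw [Finset.mem_biUnion]
    exact ⟨J.card, Finset.mem_range.mpr (by omega), Finset.mem_powersetCard.mpr ⟨hJ.1, rfl⟩⟩
  have hf : ∀ J : Finset (Pt m), 0 ≤ ρ ^ J.card := fun J => pow_nonneg hρ _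
  calc ∑ J ∈ G.powerset.filter (fun J => J.card ≤ j0), ρ ^ J.card
      ≤ _ := Finset.sum_le_sum_of_subset_of_nonneg hsub (fun J _ _ => hf J)
    _ ≤ _ := sum_biUnion_le_sum _ _ _ hf
    _ ≤ ∑ j ∈ range (j0 + 1), R ^ j0 := by
        refine Finset.sum_le_sum fun j hj => ?_
        rw [Finset.mem_range] at hj
        have h1 : ∀ J ∈ G.powersetCard j, ρ ^ J.card = ρ ^ j := by
          intro J hJ
          rw [(Finset.mem_powersetCard.mp hJ).2]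
        rw [Finset.sum_congr rfl h1, Finset.sum_const, nsmul_eq_mul, Finset.card_powersetCard]
        have h2 : ((G.card.choose j : ℕ) : ℝ) ≤ (G.card : ℝ) ^ j := by
          exact_mod_cast Nat.choose_le_pow G.card j
        calc ((G.card.choose j : ℕ) : ℝ) * ρ ^ j ≤ (G.card : ℝ) ^ j * ρ ^ j :=
              mul_le_mul_of_nonneg_right h2 (pow_nonneg hρ _)
          _ = (G.card * ρ) ^ j := by rw [mul_pow]
          _ ≤ R ^ j := pow_le_pow_left₀ (by positivity) hR j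
          _ ≤ R ^ j0 := pow_le_pow_right₀ hR1 (by omega)
    _ = (j0 + 1) * R ^ j0 := by
        rw [Finset.sum_const, nsmul_eq_mul, Finset.card_range]
        push_cast
        ring

lemma hB_mono {j k rX B : ℕ} (h : j ≤ k) (hk : 1 ≤ k) (hB : (k * (rX + 1)) ^ k ≤ B) :
    (j * (rX + 1)) ^ j ≤ B := by
  refine le_trans ?_ hB
  calc (j * (rX + 1)) ^ j ≤ (k * (rX + 1)) ^ j := Nat.pow_le_pow_left (Nat.mul_le_mul_right _ h) j
    _ ≤ (k * (rX + 1)) ^ k := Nat.pow_le_pow_right (Nat.mul_pos hk (Nat.succ_pos _)) h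

open scoped Classical in
/-- weighted ear count -/
lemma ear_weight (hEar : S_ear) {m rX B N s : ℕ} {G J : Finset (Pt m)} {g0 : Pt m}
    {ρ R δ : ℝ} (hρ : 0 ≤ ρ) (hR : (G.card : ℝ) * ρ ≤ R) (hδ : 0 ≤ δ)
    (hbox : InBox rX g0 G) (hJG : J ⊆ G) (hJ : Ind J) (hs2 : 2 ≤ s) (hN : J.card + s ≤ N)
    (hN1 : 1 ≤ N) (hB : (N * (rX + 1)) ^ N ≤ B)
    (hrel : ∀ (h : Fin s → ℤ) (y : Pt m), (∀ i, h i ≠ 0) →
      (relCount G h y : ℝ) ≤ (G.card : ℝ) ^ (s - 1) * δ) :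
    (((G.powersetCard s).filter fun Z => Circ J Z).card : ℝ) * ρ ^ (s - 1) ≤
      (2 * B + 1 : ℝ) ^ N * R ^ (s - 1) * δ := by
  have h1 := hEar m rX s B G J g0 ((G.card : ℝ) ^ (s - 1) * δ) hbox hJG hJ hs2
    (hB_mono hN hN1 hB) hrel
  have hb1 : (1 : ℝ) ≤ 2 * B + 1 := by
    have : (0 : ℝ) ≤ B := Nat.cast_nonneg _
    linarith
  have h2 : (2 * B + 1 : ℝ) ^ (J.card + s) ≤ (2 * B + 1 : ℝ) ^ N := pow_le_pow_right₀ hb1 hN
  calc (((G.powersetCard s).filter fun Z => Circ J Z).card : ℝ) * ρ ^ (s - 1)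
      ≤ ((2 * B + 1 : ℝ) ^ (J.card + s) * ((G.card : ℝ) ^ (s - 1) * δ)) * ρ ^ (s - 1) :=
        mul_le_mul_of_nonneg_right h1 (pow_nonneg hρ _)
    _ = (2 * B + 1 : ℝ) ^ (J.card + s) * ((G.card * ρ) ^ (s - 1) * δ) := by
        rw [mul_pow]; ring
    _ ≤ (2 * B + 1 : ℝ) ^ N * (R ^ (s - 1) * δ) := by
        apply mul_le_mul h2 _ (by positivity) (by positivity)
        apply mul_le_mul_of_nonneg_right _ hδ
        exact pow_le_pow_left₀ (by positivity) hR _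
    _ = _ := by ring

/-! ### E1: long chains -/

open scoped Classical in
lemma E1 (hC : S_circ_ind) (hEar : S_ear) (hCh : S_chain) {m rX L s1 s0 kmax B : ℕ}
    {Ω : Type} [Fintype Ω] [Nonempty Ω] {W : Ω → Finset (Pt m)} {G : Finset (Pt m)} {g0 : Pt m}
    {ρ R δ3 : ℝ} (hRS : RS Ω W G ρ kmax) (hbox : InBox rX g0 G) (hR : G.card * ρ ≤ R)
    (hR1 : 1 ≤ R) (hδ3 : 0 ≤ δ3) (hk : L * s1 ≤ kmax) (hs : s1 ≤ s0)
    (hB : ((L * s1 + s0 + 2) * (rX + 1)) ^ (L * s1 + s0 + 2) ≤ B)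
    (hrel : ∀ (s : ℕ) (h : Fin s → ℤ) (y : Pt m), 3 ≤ s → (∀ i, h i ≠ 0) →
      (relCount G h y : ℝ) ≤ (G.card : ℝ) ^ (s - 1) * δ3) :
    (𝔼 ω, if ∃ J, Chn (W ω) s1 L J then (1 : ℝ) else 0) ≤
      (s1 ^ 2 * (2 * B + 1 : ℝ) ^ (L * s1 + s0 + 2) * R ^ s1 * δ3) ^ L := by
  have hρ := hRS.nonneg
  set q : ℝ := s1 ^ 2 * (2 * B + 1 : ℝ) ^ (L * s1 + s0 + 2) * R ^ s1 * δ3 with hq
  have hq0 : 0 ≤ q := by positivity
  have hstep : ∀ J ⊆ G, Ind J → J.card ≤ L * s1 →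
      ∑ s ∈ Icc 3 s1, (((G.powersetCard s).filter fun Z => Circ J Z).card : ℝ) * s * ρ ^ (s - 1)
        ≤ q := by
    intro J hJG hJ hJc
    have h1 : ∀ s ∈ Icc 3 s1, (((G.powersetCard s).filter fun Z => Circ J Z).card : ℝ) * s *
        ρ ^ (s - 1) ≤ s1 * ((2 * B + 1 : ℝ) ^ (L * s1 + s0 + 2) * R ^ s1 * δ3) := by
      intro s hs'
      rw [Finset.mem_Icc] at hs'
      have h2 := ear_weight hEar (N := L * s1 + s0 + 2) (s := s) hρ hR hδ3 hbox hJG hJ (by omega)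
        (by omega) (by omega) hB (fun h y => hrel s h y hs'.1)
      have h3 : R ^ (s - 1) ≤ R ^ s1 := pow_le_pow_right₀ hR1 (by omega)
      have h4 : (s : ℝ) ≤ s1 := by exact_mod_cast hs'.2
      calc (((G.powersetCard s).filter fun Z => Circ J Z).card : ℝ) * s * ρ ^ (s - 1)
          = s * ((((G.powersetCard s).filter fun Z => Circ J Z).card : ℝ) * ρ ^ (s - 1)) := by
            ring
        _ ≤ s1 * ((2 * B + 1 : ℝ) ^ (L * s1 + s0 + 2) * R ^ (s - 1) * δ3) := by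
            apply mul_le_mul h4 h2 (by positivity) (by positivity)
        _ ≤ _ := by gcongr
    refine (Finset.sum_le_sum h1).trans ?_
    rw [Finset.sum_const, nsmul_eq_mul, Nat.card_Icc]
    have h5 : ((s1 + 1 - 3 : ℕ) : ℝ) ≤ s1 := by
      have : s1 + 1 - 3 ≤ s1 := by omega
      exact_mod_cast this
    calc ((s1 + 1 - 3 : ℕ) : ℝ) * (s1 * ((2 * B + 1 : ℝ) ^ (L * s1 + s0 + 2) * R ^ s1 * δ3))
        ≤ s1 * (s1 * ((2 * B + 1 : ℝ) ^ (L * s1 + s0 + 2) * R ^ s1 * δ3)) := by gcongr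
      _ = q := by rw [hq]; ring
  have h2 := hCh m s1 L G ρ q hρ hq0 hstep L le_rfl
  refine le_trans ?_ h2
  refine exp_union _ (fun J ω => J ⊆ W ω) _ _ ?_ ?_
  · intro J hJ
    rw [Finset.mem_filter] at hJ
    obtain ⟨hI, hJG, hJc⟩ := chn_facts hC L J hJ.2
    exact hRS.surv J hJG hI (hJc.trans hk)
  · rintro ω ⟨J, hJ⟩
    refine ⟨J, ?_, (chn_facts hC L J hJ).2.1⟩
    rw [Finset.mem_filter, Finset.mem_powerset]
    exact ⟨(chn_facts hC L J hJ).2.1.trans (hRS.sub ω), chn_mono (hRS.sub ω) L J hJ⟩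

/-! ### E2: long circuits -/

open scoped Classical in
lemma E2 (hC : S_circ_ind) (hEar : S_ear) {m rX L s1 s0 kmax B : ℕ}
    {Ω : Type} [Fintype Ω] [Nonempty Ω] {W : Ω → Finset (Pt m)} {G : Finset (Pt m)} {g0 : Pt m}
    {ρ R δL : ℝ} (hRS : RS Ω W G ρ kmax) (hbox : InBox rX g0 G) (hR : G.card * ρ ≤ R)
    (hR1 : 1 ≤ R) (hδL : 0 ≤ δL) (hk : L * s1 + s0 ≤ kmax) (hs3 : 3 ≤ s1)
    (hB : ((L * s1 + s0 + 2) * (rX + 1)) ^ (L * s1 + s0 + 2) ≤ B)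
    (hrel : ∀ (s : ℕ) (h : Fin s → ℤ) (y : Pt m), s1 < s → (∀ i, h i ≠ 0) →
      (relCount G h y : ℝ) ≤ (G.card : ℝ) ^ (s - 1) * δL) :
    (𝔼 ω, if ∃ J ⊆ W ω, Ind J ∧ J.card ≤ L * s1 ∧ ∃ Z ⊆ W ω, s1 < Z.card ∧ Z.card ≤ s0 ∧
        Circ J Z then (1 : ℝ) else 0) ≤
      (L * s1 + 1) * (s0 + 1) * (2 * B + 1 : ℝ) ^ (L * s1 + s0 + 2) * R ^ (L * s1 + s0) * δL := by
  have hρ := hRS.nonneg
  set Λ : ℝ := (2 * B + 1 : ℝ) ^ (L * s1 + s0 + 2) with hΛ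
  set SJ := (G.powerset.filter (fun J => J.card ≤ L * s1)).filter Ind with hSJ
  have hsum := sum_small_sets G (L * s1) hρ hR hR1
  have hΛ0 : 0 ≤ Λ := by rw [hΛ]; positivity
  -- circuits of size `s` modulo a fixed `J`
  have h1 : ∀ J ∈ SJ, ∀ s ∈ Ioc s1 s0,
      (𝔼 ω, if J ⊆ W ω ∧ ∃ Z ⊆ W ω, Z.card = s ∧ Circ J Z then (1 : ℝ) else 0) ≤
        ρ ^ J.card * (Λ * R ^ s0 * δL) := by
    intro J hJ s hs'
    simp only [hSJ, Finset.mem_filter, Finset.mem_powerset] at hJ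
    obtain ⟨⟨hJG, hJc⟩, hI⟩ := hJ
    rw [Finset.mem_Ioc] at hs'
    have hu : (𝔼 ω, if J ⊆ W ω ∧ ∃ Z ⊆ W ω, Z.card = s ∧ Circ J Z then (1 : ℝ) else 0) ≤
        ∑ _Z ∈ (G.powersetCard s).filter (fun Z => Circ J Z), ρ ^ (J.card + (s - 1)) := by
      refine exp_union _ (fun (Z : Finset (Pt m)) ω => J ⊆ W ω ∧ Z ⊆ W ω) _ _ ?_ ?_
      · intro Z hZ
        rw [Finset.mem_filter, Finset.mem_powersetCard] at hZ
        obtain ⟨⟨hZG, hZc⟩, hcirc⟩ := hZ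
        have hZne : Z.Nonempty := by
          rw [← Finset.card_pos]; omega
        obtain ⟨z, hz⟩ := hZne
        obtain ⟨h5, h6⟩ := hC m J Z z hI hcirc hz
        have hcard : (J ∪ Z.erase z).card = J.card + (s - 1) := by
          rw [Finset.card_union_of_disjoint h6, Finset.card_erase_of_mem hz, hZc]
        have h7 := hRS.surv (J ∪ Z.erase z)
          (Finset.union_subset hJG ((Finset.erase_subset _ _).trans hZG)) h5 (by omega)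
        rw [hcard] at h7
        refine le_trans (Finset.expect_le_expect fun ω _ => ?_) h7
        by_cases h8 : J ⊆ W ω ∧ Z ⊆ W ω
        · have h9 : J ∪ Z.erase z ⊆ W ω :=
            Finset.union_subset h8.1 ((Finset.erase_subset _ _).trans h8.2)
          rw [if_pos h8, if_pos h9]
        · rw [if_neg h8]
          split_ifs <;> norm_num
      · rintro ω ⟨hJW, Z, hZW, hZc, hcirc⟩
        refine ⟨Z, ?_, hJW, hZW⟩
        rw [Finset.mem_filter, Finset.mem_powersetCard]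
        exact ⟨⟨hZW.trans (hRS.sub ω), hZc⟩, hcirc⟩
    refine hu.trans ?_
    have h3 := ear_weight hEar (N := L * s1 + s0 + 2) (s := s) hρ hR hδL hbox hJG hI (by omega)
      (by omega) (by omega) hB (fun h y => hrel s h y hs'.1)
    rw [Finset.sum_const, nsmul_eq_mul, pow_add]
    have h4 : R ^ (s - 1) ≤ R ^ s0 := pow_le_pow_right₀ hR1 (by omega)
    have h5 : 0 ≤ ρ ^ J.card := pow_nonneg hρ _
    calc (((G.powersetCard s).filter fun Z => Circ J Z).card : ℝ) *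
          (ρ ^ J.card * ρ ^ (s - 1))
        = ρ ^ J.card * ((((G.powersetCard s).filter fun Z => Circ J Z).card : ℝ) *
            ρ ^ (s - 1)) := by ring
      _ ≤ ρ ^ J.card * (Λ * R ^ (s - 1) * δL) := mul_le_mul_of_nonneg_left h3 h5
      _ ≤ ρ ^ J.card * (Λ * R ^ s0 * δL) := by
          apply mul_le_mul_of_nonneg_left _ h5
          apply mul_le_mul_of_nonneg_right _ hδL
          apply mul_le_mul_of_nonneg_left h4 hΛ0
  -- all sizes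
  have h2 : ∀ J ∈ SJ,
      (𝔼 ω, if J ⊆ W ω ∧ ∃ Z ⊆ W ω, s1 < Z.card ∧ Z.card ≤ s0 ∧ Circ J Z then (1 : ℝ) else 0) ≤
        ρ ^ J.card * ((s0 + 1) * (Λ * R ^ s0 * δL)) := by
    intro J hJ
    have hu : (𝔼 ω, if J ⊆ W ω ∧ ∃ Z ⊆ W ω, s1 < Z.card ∧ Z.card ≤ s0 ∧ Circ J Z
        then (1 : ℝ) else 0) ≤ ∑ _s ∈ Ioc s1 s0, ρ ^ J.card * (Λ * R ^ s0 * δL) := by
      refine exp_union _ (fun (s : ℕ) ω => J ⊆ W ω ∧ ∃ Z ⊆ W ω, Z.card = s ∧ Circ J Z) _ _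
        (h1 J hJ) ?_
      rintro ω ⟨hJW, Z, hZW, hZ1, hZ0, hcirc⟩
      exact ⟨Z.card, Finset.mem_Ioc.mpr ⟨hZ1, hZ0⟩, hJW, Z, hZW, rfl, hcirc⟩
    refine hu.trans ?_
    rw [Finset.sum_const, nsmul_eq_mul, Nat.card_Ioc]
    have h6 : ((s0 - s1 : ℕ) : ℝ) ≤ s0 + 1 := by
      have : s0 - s1 ≤ s0 + 1 := by omega
      exact_mod_cast this
    have h7 : 0 ≤ ρ ^ J.card * (Λ * R ^ s0 * δL) := by positivity
    calc ((s0 - s1 : ℕ) : ℝ) * (ρ ^ J.card * (Λ * R ^ s0 * δL))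
        ≤ (s0 + 1) * (ρ ^ J.card * (Λ * R ^ s0 * δL)) := mul_le_mul_of_nonneg_right h6 h7
      _ = _ := by ring
  -- all `J`
  have h3 : (𝔼 ω, if ∃ J ⊆ W ω, Ind J ∧ J.card ≤ L * s1 ∧ ∃ Z ⊆ W ω, s1 < Z.card ∧
      Z.card ≤ s0 ∧ Circ J Z then (1 : ℝ) else 0) ≤
      ∑ J ∈ SJ, ρ ^ J.card * ((s0 + 1) * (Λ * R ^ s0 * δL)) := by
    refine exp_union _ (fun (J : Finset (Pt m)) ω => J ⊆ W ω ∧ ∃ Z ⊆ W ω, s1 < Z.card ∧
      Z.card ≤ s0 ∧ Circ J Z) _ _ h2 ?_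
    rintro ω ⟨J, hJW, hJ, hJc, Z, hZW, hs1, hs0, hcirc⟩
    refine ⟨J, ?_, hJW, Z, hZW, hs1, hs0, hcirc⟩
    simp only [hSJ, Finset.mem_filter, Finset.mem_powerset]
    exact ⟨⟨hJW.trans (hRS.sub ω), hJc⟩, hJ⟩
  refine h3.trans ?_
  rw [← Finset.sum_mul]
  have h8 : ∑ J ∈ SJ, ρ ^ J.card ≤ (L * s1 + 1) * R ^ (L * s1) := by
    refine le_trans (Finset.sum_le_sum_of_subset_of_nonneg (Finset.filter_subset _ _)
      (fun J _ _ => pow_nonneg hρ _)) ?_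
    have := hsum
    push_cast at this
    exact this
  have h9 : 0 ≤ (s0 + 1 : ℝ) * (Λ * R ^ s0 * δL) := by positivity
  calc (∑ J ∈ SJ, ρ ^ J.card) * ((s0 + 1) * (Λ * R ^ s0 * δL))
      ≤ ((L * s1 + 1) * R ^ (L * s1)) * ((s0 + 1) * (Λ * R ^ s0 * δL)) :=
        mul_le_mul_of_nonneg_right h8 h9
    _ = _ := by rw [pow_add]; ring

/-! ### E4: many atoms in a small set -/

open scoped Classical in
lemma E4 (hMom : S_mom) (hAS : S_ASet) {m rX L s1 s0 k kmax B : ℕ}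
    {Ω : Type} [Fintype Ω] [Nonempty Ω] {W : Ω → Finset (Pt m)} {G : Finset (Pt m)} {g0 : Pt m}
    {ρ R δp T : ℝ} (hRS : RS Ω W G ρ kmax) (hbox : InBox rX g0 G) (hR : G.card * ρ ≤ R)
    (hR1 : 1 ≤ R) (hT : 0 < T) (hδp : 0 ≤ δp) (hk : L * s1 + k ≤ kmax)
    (Y : ℤ → ℤ → Finset (Pt m))
    (hYp : ∀ c c' : ℤ, c ≠ 0 → c' ≠ 0 → ∀ y, y ∉ Y c c' →
      (relCount G ![c, c'] y : ℝ) ≤ G.card * δp) :
    (𝔼 ω, if ∃ J ⊆ W ω, Ind J ∧ J.card ≤ L * s1 ∧ ∃ (c c' : ℤ) (a : Pt m → ℤ), c ≠ 0 ∧ c' ≠ 0 ∧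
        |c| ≤ (B : ℤ) ∧ |c'| ≤ (B : ℤ) ∧ (∀ b ∈ J, |a b| ≤ (B : ℤ)) ∧
        ∑ b ∈ J, a b • b ∉ Y c c' ∧
        T ≤ ((W ω ∩ ASet G c c' (∑ b ∈ J, a b • b)).card : ℝ) then (1 : ℝ) else 0) ≤
      (L * s1 + 1) * (2 * B + 1 : ℝ) ^ (L * s1 + s0 + 2) * R ^ (L * s1) *
        ((R * δp + (2 * rX + 1 : ℝ) ^ (L * s1 + k)) / T) ^ k := by
  have hρ := hRS.nonneg
  have hb1 : (1 : ℝ) ≤ 2 * B + 1 := by
    have : (0 : ℝ) ≤ B := Nat.cast_nonneg _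
    linarith
  have hr1 : (1 : ℝ) ≤ 2 * rX + 1 := by
    have : (0 : ℝ) ≤ rX := Nat.cast_nonneg _
    linarith
  set M : ℝ := ((R * δp + (2 * rX + 1 : ℝ) ^ (L * s1 + k)) / T) ^ k with hM
  have hR0 : 0 ≤ R := by linarith
  have hM0 : 0 ≤ M := by rw [hM]; positivity
  set I : Finset ℤ := Icc (-(B : ℤ)) B with hI
  have hIcard : (I.card : ℝ) = 2 * B + 1 := by
    rw [hI, Int.card_Icc]
    have : ((B : ℤ) + 1 - -(B : ℤ)).toNat = 2 * B + 1 := by omega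
    rw [this]
    push_cast
    ring
  have hmemI : ∀ x : ℤ, |x| ≤ (B : ℤ) → x ∈ I := by
    intro x hx
    rw [hI, Finset.mem_Icc]
    exact abs_le.mp hx
  set SJ := (G.powerset.filter (fun J => J.card ≤ L * s1)).filter Ind with hSJ
  have hsum := sum_small_sets G (L * s1) hρ hR hR1
  -- fixed `J`, `c`, `c'` and coefficient vector
  have h1 : ∀ J ∈ SJ, ∀ (c c' : ℤ) (y : Pt m),
      (𝔼 ω, if J ⊆ W ω ∧ c ≠ 0 ∧ c' ≠ 0 ∧ y ∉ Y c c' ∧ T ≤ ((W ω ∩ ASet G c c' y).card : ℝ)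
        then (1 : ℝ) else 0) ≤ ρ ^ J.card * M := by
    intro J hJ c c' y
    simp only [hSJ, Finset.mem_filter, Finset.mem_powerset] at hJ
    obtain ⟨⟨hJG, hJc⟩, hInd⟩ := hJ
    have hnn : 0 ≤ ρ ^ J.card * M := mul_nonneg (pow_nonneg hρ _) hM0
    by_cases hcy : c ≠ 0 ∧ c' ≠ 0 ∧ y ∉ Y c c'
    · obtain ⟨hc, hc', hy⟩ := hcy
      have hAG : ASet G c c' y ⊆ G := Finset.filter_subset _ _
      have h2 := hMom m rX k kmax Ω W G J (ASet G c c' y) g0 ρ T hRS hbox hJG hInd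
        (by omega) hAG hT
      have h3 : ((ASet G c c' y).card : ℝ) ≤ G.card * δp :=
        le_trans (by exact_mod_cast hAS m G c c' y hc hc') (hYp c c' hc hc' y hy)
      have h4 : (((ASet G c c' y).card : ℝ) * ρ + (2 * rX + 1 : ℝ) ^ (J.card + k)) / T ≤
          (R * δp + (2 * rX + 1 : ℝ) ^ (L * s1 + k)) / T := by
        apply div_le_div_of_nonneg_right _ hT.le
        apply add_le_add
        · calc ((ASet G c c' y).card : ℝ) * ρ ≤ (G.card * δp) * ρ :=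
                mul_le_mul_of_nonneg_right h3 hρ
            _ = (G.card * ρ) * δp := by ring
            _ ≤ R * δp := mul_le_mul_of_nonneg_right hR hδp
        · exact pow_le_pow_right₀ hr1 (by omega)
      have h5 : ((((ASet G c c' y).card : ℝ) * ρ + (2 * rX + 1 : ℝ) ^ (J.card + k)) / T) ^ k ≤
          M := by
        rw [hM]
        exact pow_le_pow_left₀ (by positivity) h4 k
      refine le_trans (Finset.expect_le_expect fun ω _ => ?_)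
        (h2.trans (mul_le_mul_of_nonneg_left h5 (pow_nonneg hρ _)))
      by_cases h6 : J ⊆ W ω ∧ T ≤ ((W ω ∩ ASet G c c' y).card : ℝ)
      · rw [if_pos h6]
        split_ifs <;> norm_num
      · rw [if_neg h6, if_neg (fun h => h6 ⟨h.1, h.2.2.2.2⟩)]
    · refine le_trans (le_of_eq ?_) hnn
      apply Finset.expect_eq_zero
      intro ω _
      rw [if_neg]
      intro h
      exact hcy ⟨h.2.1, h.2.2.1, h.2.2.2.1⟩
  -- all coefficient vectors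
  have h2 : ∀ J ∈ SJ, ∀ (c c' : ℤ),
      (𝔼 ω, if J ⊆ W ω ∧ ∃ a : Pt m → ℤ, c ≠ 0 ∧ c' ≠ 0 ∧ (∀ b ∈ J, |a b| ≤ (B : ℤ)) ∧
          ∑ b ∈ J, a b • b ∉ Y c c' ∧
          T ≤ ((W ω ∩ ASet G c c' (∑ b ∈ J, a b • b)).card : ℝ) then (1 : ℝ) else 0) ≤
        (2 * B + 1 : ℝ) ^ (L * s1) * (ρ ^ J.card * M) := by
    intro J hJ c c'
    have hu : (𝔼 ω, if J ⊆ W ω ∧ ∃ a : Pt m → ℤ, c ≠ 0 ∧ c' ≠ 0 ∧ (∀ b ∈ J, |a b| ≤ (B : ℤ)) ∧
          ∑ b ∈ J, a b • b ∉ Y c c' ∧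
          T ≤ ((W ω ∩ ASet G c c' (∑ b ∈ J, a b • b)).card : ℝ) then (1 : ℝ) else 0) ≤
        ∑ _a ∈ J.pi (fun _ => I), ρ ^ J.card * M := by
      refine exp_union _ (fun (a : ∀ b ∈ J, ℤ) ω => J ⊆ W ω ∧ c ≠ 0 ∧ c' ≠ 0 ∧
        (∑ b ∈ J.attach, a b.1 b.2 • b.1) ∉ Y c c' ∧
        T ≤ ((W ω ∩ ASet G c c' (∑ b ∈ J.attach, a b.1 b.2 • b.1)).card : ℝ)) _ _ ?_ ?_
      · intro a _
        exact h1 J hJ c c' _
      · rintro ω ⟨hJW, a, hc, hc', ha, hy, hTle⟩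
        refine ⟨fun b _ => a b, ?_, hJW, hc, hc', ?_, ?_⟩
        · rw [Finset.mem_pi]
          intro b hb
          exact hmemI _ (ha b hb)
        · rw [Finset.sum_attach J (fun b => a b • b)]
          exact hy
        · rw [Finset.sum_attach J (fun b => a b • b)]
          exact hTle
    refine hu.trans ?_
    rw [Finset.sum_const, nsmul_eq_mul, Finset.card_pi, Finset.prod_const]
    push_cast
    rw [hIcard]
    simp only [hSJ, Finset.mem_filter, Finset.mem_powerset] at hJ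
    apply mul_le_mul_of_nonneg_right _ (mul_nonneg (pow_nonneg hρ _) hM0)
    exact pow_le_pow_right₀ hb1 hJ.1.2
  -- all `c, c'`
  have h3 : ∀ J ∈ SJ,
      (𝔼 ω, if J ⊆ W ω ∧ ∃ (c c' : ℤ) (a : Pt m → ℤ), c ≠ 0 ∧ c' ≠ 0 ∧
        |c| ≤ (B : ℤ) ∧ |c'| ≤ (B : ℤ) ∧ (∀ b ∈ J, |a b| ≤ (B : ℤ)) ∧
        ∑ b ∈ J, a b • b ∉ Y c c' ∧
        T ≤ ((W ω ∩ ASet G c c' (∑ b ∈ J, a b • b)).card : ℝ) then (1 : ℝ) else 0) ≤
        (2 * B + 1 : ℝ) ^ (L * s1 + 2) * (ρ ^ J.card * M) := by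
    intro J hJ
    have hu : (𝔼 ω, if J ⊆ W ω ∧ ∃ (c c' : ℤ) (a : Pt m → ℤ), c ≠ 0 ∧ c' ≠ 0 ∧
        |c| ≤ (B : ℤ) ∧ |c'| ≤ (B : ℤ) ∧ (∀ b ∈ J, |a b| ≤ (B : ℤ)) ∧
        ∑ b ∈ J, a b • b ∉ Y c c' ∧
        T ≤ ((W ω ∩ ASet G c c' (∑ b ∈ J, a b • b)).card : ℝ) then (1 : ℝ) else 0) ≤
        ∑ _x ∈ I ×ˢ I, (2 * B + 1 : ℝ) ^ (L * s1) * (ρ ^ J.card * M) := by
      refine exp_union _ (fun (x : ℤ × ℤ) ω => J ⊆ W ω ∧ ∃ a : Pt m → ℤ, x.1 ≠ 0 ∧ x.2 ≠ 0 ∧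
          (∀ b ∈ J, |a b| ≤ (B : ℤ)) ∧ ∑ b ∈ J, a b • b ∉ Y x.1 x.2 ∧
          T ≤ ((W ω ∩ ASet G x.1 x.2 (∑ b ∈ J, a b • b)).card : ℝ)) _ _ ?_ ?_
      · intro x _
        exact h2 J hJ x.1 x.2
      · rintro ω ⟨hJW, c, c', a, hc, hc', hcB, hc'B, ha, hy, hTle⟩
        refine ⟨(c, c'), ?_, hJW, a, hc, hc', ha, hy, hTle⟩
        rw [Finset.mem_product]
        exact ⟨hmemI _ hcB, hmemI _ hc'B⟩
    refine hu.trans (le_of_eq ?_)
    rw [Finset.sum_const, nsmul_eq_mul, Finset.card_product]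
    push_cast
    rw [hIcard]
    ring
  -- all `J`
  have h4 : (𝔼 ω, if ∃ J ⊆ W ω, Ind J ∧ J.card ≤ L * s1 ∧ ∃ (c c' : ℤ) (a : Pt m → ℤ),
        c ≠ 0 ∧ c' ≠ 0 ∧
        |c| ≤ (B : ℤ) ∧ |c'| ≤ (B : ℤ) ∧ (∀ b ∈ J, |a b| ≤ (B : ℤ)) ∧
        ∑ b ∈ J, a b • b ∉ Y c c' ∧
        T ≤ ((W ω ∩ ASet G c c' (∑ b ∈ J, a b • b)).card : ℝ) then (1 : ℝ) else 0) ≤
      ∑ J ∈ SJ, (2 * B + 1 : ℝ) ^ (L * s1 + 2) * (ρ ^ J.card * M) := by
    refine exp_union _ (fun (J : Finset (Pt m)) ω => J ⊆ W ω ∧ ∃ (c c' : ℤ) (a : Pt m → ℤ),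
        c ≠ 0 ∧ c' ≠ 0 ∧
        |c| ≤ (B : ℤ) ∧ |c'| ≤ (B : ℤ) ∧ (∀ b ∈ J, |a b| ≤ (B : ℤ)) ∧
        ∑ b ∈ J, a b • b ∉ Y c c' ∧
        T ≤ ((W ω ∩ ASet G c c' (∑ b ∈ J, a b • b)).card : ℝ)) _ _ h3 ?_
    rintro ω ⟨J, hJW, hJ, hJc, c, c', a, h⟩
    refine ⟨J, ?_, hJW, c, c', a, h⟩
    simp only [hSJ, Finset.mem_filter, Finset.mem_powerset]
    exact ⟨⟨hJW.trans (hRS.sub ω), hJc⟩, hJ⟩
  refine h4.trans ?_
  have h8 : ∑ J ∈ SJ, ρ ^ J.card ≤ (L * s1 + 1) * R ^ (L * s1) := by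
    refine le_trans (Finset.sum_le_sum_of_subset_of_nonneg (Finset.filter_subset _ _)
      (fun J _ _ => pow_nonneg hρ _)) ?_
    have := hsum
    push_cast at this
    exact this
  have h9 : ∑ J ∈ SJ, (2 * B + 1 : ℝ) ^ (L * s1 + 2) * (ρ ^ J.card * M) =
      (∑ J ∈ SJ, ρ ^ J.card) * ((2 * B + 1 : ℝ) ^ (L * s1 + 2) * M) := by
    rw [Finset.sum_mul]
    refine Finset.sum_congr rfl fun J _ => by ring
  rw [h9]
  have h10 : (2 * B + 1 : ℝ) ^ (L * s1 + 2) ≤ (2 * B + 1 : ℝ) ^ (L * s1 + s0 + 2) :=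
    pow_le_pow_right₀ hb1 (by omega)
  calc (∑ J ∈ SJ, ρ ^ J.card) * ((2 * B + 1 : ℝ) ^ (L * s1 + 2) * M)
      ≤ ((L * s1 + 1) * R ^ (L * s1)) * ((2 * B + 1 : ℝ) ^ (L * s1 + s0 + 2) * M) := by
        apply mul_le_mul h8 _ (by positivity) (by positivity)
        exact mul_le_mul_of_nonneg_right h10 hM0
    _ = _ := by ring

/-! ### assembly -/

theorem prf_core (hC : S_circ_ind) (hEar : S_ear) (hBadY : S_badY) (hCh : S_chain) (hMom : S_mom)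
    (hAS : S_ASet) (hDet : S_det) : S_core := by
  classical
  intro m rX L s1 s0 k kmax B Ω _ _ W G g0 ρ R T δ3 δL δp Λ hRS hbox hR hR1 hT hδ3 hδL hδp hk hs3
    hs10 hB hΛ hrel3 hrelL hpair
  have hρ := hRS.nonneg
  -- choice of the exceptional sets
  choose! Y hYc hYp using hpair
  set Y' : ℤ → ℤ → Finset (Pt m) := fun c c' => if c ≠ 0 ∧ c' ≠ 0 then Y c c' else ∅ with hY'
  have hY'c : ∀ c c', ((Y' c c').card : ℝ) ≤ G.card * δL := by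
    intro c c'
    simp only [hY']
    split_ifs with h
    · exact hYc c c' h.1 h.2
    · simp; positivity
  have hY'p : ∀ c c' : ℤ, c ≠ 0 → c' ≠ 0 → ∀ y, y ∉ Y' c c' →
      (relCount G ![c, c'] y : ℝ) ≤ G.card * δp := by
    intro c c' hc hc' y hy
    simp only [hY', hc, hc', ne_eq, not_false_eq_true, and_self, if_true] at hy
    exact hYp c c' hc hc' y hy
  have b1 := E1 hC hEar hCh (s0 := s0) hRS hbox hR hR1 hδ3 (by omega) hs10 hB hrel3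
  have b2 := E2 hC hEar hRS hbox hR hR1 hδL (by omega) hs3 hB hrelL
  have b3 := E3 hBadY (L := L) (s1 := s1) (s0 := s0) (kmax := kmax) (B := B) hRS hR hR1 hδL
    (by omega) Y' hY'c
  have b4 := E4 hMom hAS (L := L) (s1 := s1) (s0 := s0) (k := k) (B := B) hRS hbox hR hR1 hT hδp
    (by omega) Y' hY'p
  rw [hΛ] at b1 b2 b3 b4
  refine le_trans ?_ (add_le_add (add_le_add (add_le_add b1 b2) b3) b4)
  rw [← Finset.expect_add_distrib, ← Finset.expect_add_distrib, ← Finset.expect_add_distrib]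
  refine Finset.expect_le_expect fun ω _ => ?_
  have hn : ∀ (p : Prop) [Decidable p], (0 : ℝ) ≤ if p then 1 else 0 := by
    intro p _; split_ifs <;> norm_num
  by_cases g1 : ∃ J, Chn (W ω) s1 L J
  · rw [if_pos g1]
    refine le_trans ?_ (add_le_add (add_le_add (add_le_add le_rfl (hn _)) (hn _)) (hn _))
    split_ifs <;> norm_num
  by_cases g2 : ∃ J ⊆ W ω, Ind J ∧ J.card ≤ L * s1 ∧ ∃ Z ⊆ W ω, s1 < Z.card ∧ Z.card ≤ s0 ∧
      Circ J Z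
  · rw [if_pos g2]
    refine le_trans ?_ (add_le_add (add_le_add (add_le_add (hn _) le_rfl) (hn _)) (hn _))
    split_ifs <;> norm_num
  by_cases g3 : ∃ J ⊆ W ω, Ind J ∧ J.card ≤ L * s1 ∧ ∃ (c c' : ℤ) (a : Pt m → ℤ),
      |c| ≤ (B : ℤ) ∧ |c'| ≤ (B : ℤ) ∧ (∃ b ∈ J, a b ≠ 0) ∧ (∀ b ∈ J, |a b| ≤ (B : ℤ)) ∧
      ∑ b ∈ J, a b • b ∈ Y' c c'
  · rw [if_pos g3]
    refine le_trans ?_ (add_le_add (add_le_add (add_le_add (hn _) (hn _)) le_rfl) (hn _))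
    split_ifs <;> norm_num
  by_cases g4 : ∃ J ⊆ W ω, Ind J ∧ J.card ≤ L * s1 ∧ ∃ (c c' : ℤ) (a : Pt m → ℤ),
      c ≠ 0 ∧ c' ≠ 0 ∧ |c| ≤ (B : ℤ) ∧ |c'| ≤ (B : ℤ) ∧ (∀ b ∈ J, |a b| ≤ (B : ℤ)) ∧
      ∑ b ∈ J, a b • b ∉ Y' c c' ∧
      T ≤ ((W ω ∩ ASet G c c' (∑ b ∈ J, a b • b)).card : ℝ)
  · rw [if_pos g4]
    refine le_trans ?_ (add_le_add (add_le_add (add_le_add (hn _) (hn _)) (hn _)) le_rfl)
    split_ifs <;> norm_num
  -- no bad event: the deterministic part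
  have hdet := hDet m rX L s1 s0 B (W ω) G g0 T (hRS.sub ω) hbox hT hs3 hs10 hB g1 (by
      intro J hJW hJ hJc Z hZW hZ1 hZ0 hcirc
      exact g2 ⟨J, hJW, hJ, hJc, Z, hZW, hZ1, hZ0, hcirc⟩) (by
      intro J hJW hJ hJc c c' a hc hc' hcB hc'B hne ha
      by_contra hcon
      rw [not_lt] at hcon
      by_cases hy : ∑ b ∈ J, a b • b ∈ Y' c c'
      · exact g3 ⟨J, hJW, hJ, hJc, c, c', a, hcB, hc'B, hne, ha, hy⟩
      · exact g4 ⟨J, hJW, hJ, hJc, c, c', a, hc, hc', hcB, hc'B, ha, hy, hcon⟩)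
  rw [hΛ] at hdet
  rw [if_pos hdet]
  exact add_nonneg (add_nonneg (add_nonneg (hn _) (hn _)) (hn _)) (hn _)

end B4
end Crest.Agent.R225
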