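import Crest.Agent.R225.B4Iface

/-!
# Row 225 (S0347), node B4: probability part (`S_mom`, `S_chain`, `S_surv1`)
-/

set_option autoImplicit false

open Finset
open scoped BigOperators

namespace Crest.Agent.R225
namespace B4

lemma aff_injective {m : ℕ} : Function.Injective (aff : Pt m → (Fin m → ℚ) × ℚ) := by
  intro g g' h
  have h1 : (fun k => (g k : ℚ)) = fun k => (g' k : ℚ) := (Prod.ext_iff.mp h).1
  funext k
  have := congrFun h1 k
  exact_mod_cast this

open scoped Classical in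
lemma ind_insert {m : ℕ} {J : Finset (Pt m)} {z : Pt m} (hJ : Ind J)
    (hz : aff z ∉ Submodule.span ℚ (aff '' (J : Set (Pt m)))) :
    Ind (insert z J) ∧ z ∉ J := by
  have hzJ : z ∉ J := by
    intro h
    exact hz (Submodule.subset_span ⟨z, by exact_mod_cast h, rfl⟩)
  refine ⟨?_, hzJ⟩
  unfold Ind at *
  rw [Finset.coe_insert]
  rw [linearIndepOn_insert (by exact_mod_cast hzJ)]
  exact ⟨hJ, hz⟩

open scoped Classical in
lemma mom_aux (hB1 : S_B1) {m rX kmax : ℕ} {Ω : Type} [Fintype Ω] [Nonempty Ω]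
    {W : Ω → Finset (Pt m)} {G A : Finset (Pt m)} {g0 : Pt m} {ρ : ℝ} (hRS : RS Ω W G ρ kmax)
    (hbox : InBox rX g0 G) (hA : A ⊆ G) :
    ∀ k (J : Finset (Pt m)), J ⊆ G → Ind J → J.card + k ≤ kmax →
      (𝔼 ω, (if J ⊆ W ω then (1 : ℝ) else 0) * ((W ω ∩ A).card : ℝ) ^ k) ≤
        ρ ^ J.card * (A.card * ρ + (2 * rX + 1 : ℝ) ^ (J.card + k)) ^ k := by
  have hρ := hRS.nonneg
  intro k
  induction k with
  | zero =>
    intro J hJG hJ hk
    simpa using hRS.surv J hJG hJ (by omega)
  | succ k ih =>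
    intro J hJG hJ hk
    set D : ℝ := A.card * ρ + (2 * rX + 1 : ℝ) ^ (J.card + (k + 1)) with hD
    have hD0 : 0 ≤ D := by positivity
    have hbase : (1 : ℝ) ≤ 2 * rX + 1 := by
      have : (0 : ℝ) ≤ rX := Nat.cast_nonneg _
      linarith
    have hx0 : 0 ≤ ρ ^ J.card := pow_nonneg hρ _
    -- expand one factor
    have e1 : ∀ ω, (if J ⊆ W ω then (1 : ℝ) else 0) * ((W ω ∩ A).card : ℝ) ^ (k + 1) =
        ∑ z ∈ A, (if J ⊆ W ω ∧ z ∈ W ω then (1 : ℝ) else 0) * ((W ω ∩ A).card : ℝ) ^ k := by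
      intro ω
      have e2 : ((W ω ∩ A).card : ℝ) = ∑ z ∈ A, if z ∈ W ω then (1 : ℝ) else 0 := by
        rw [Finset.inter_comm, ← Finset.filter_mem_eq_inter, Finset.card_filter]
        push_cast
        rfl
      rw [pow_succ, ← mul_assoc]
      have e3 : (if J ⊆ W ω then (1 : ℝ) else 0) * ((W ω ∩ A).card : ℝ) ^ k *
          ((W ω ∩ A).card : ℝ) = (if J ⊆ W ω then (1 : ℝ) else 0) * ((W ω ∩ A).card : ℝ) ^ k *
          ∑ z ∈ A, if z ∈ W ω then (1 : ℝ) else 0 := by rw [← e2]
      rw [e3, Finset.mul_sum]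
      refine Finset.sum_congr rfl fun z _ => ?_
      by_cases h1 : J ⊆ W ω <;> by_cases h2 : z ∈ W ω <;> simp [h1, h2]
    rw [Finset.expect_congr rfl (fun ω _ => e1 ω), Finset.expect_sum_comm]
    -- bound each `z`
    have key : ∀ z ∈ A, (𝔼 ω, (if J ⊆ W ω ∧ z ∈ W ω then (1 : ℝ) else 0) *
        ((W ω ∩ A).card : ℝ) ^ k) ≤
        (ρ + if aff z ∈ Submodule.span ℚ (aff '' (J : Set (Pt m))) then 1 else 0) *
          (ρ ^ J.card * D ^ k) := by
      intro z hz
      by_cases hsp : aff z ∈ Submodule.span ℚ (aff '' (J : Set (Pt m)))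
      · rw [if_pos hsp]
        have h1 : (𝔼 ω, (if J ⊆ W ω ∧ z ∈ W ω then (1 : ℝ) else 0) *
            ((W ω ∩ A).card : ℝ) ^ k) ≤
            𝔼 ω, (if J ⊆ W ω then (1 : ℝ) else 0) * ((W ω ∩ A).card : ℝ) ^ k := by
          refine Finset.expect_le_expect fun ω _ => ?_
          apply mul_le_mul_of_nonneg_right _ (by positivity)
          by_cases h1 : J ⊆ W ω <;> by_cases h2 : z ∈ W ω <;> simp [h1, h2]
        have h2 := ih J hJG hJ (by omega)
        have h3 : (A.card * ρ + (2 * rX + 1 : ℝ) ^ (J.card + k)) ^ k ≤ D ^ k := by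
          apply pow_le_pow_left₀ (by positivity)
          rw [hD]
          have := pow_le_pow_right₀ hbase (show J.card + k ≤ J.card + (k + 1) by omega)
          linarith
        calc _ ≤ _ := h1
          _ ≤ _ := h2
          _ ≤ ρ ^ J.card * D ^ k := mul_le_mul_of_nonneg_left h3 hx0
          _ ≤ (ρ + 1) * (ρ ^ J.card * D ^ k) := by
            have : 0 ≤ ρ ^ J.card * D ^ k := by positivity
            nlinarith
      · rw [if_neg hsp, add_zero]
        obtain ⟨hI, hzJ⟩ := ind_insert hJ hsp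
        have h1 : (𝔼 ω, (if J ⊆ W ω ∧ z ∈ W ω then (1 : ℝ) else 0) *
            ((W ω ∩ A).card : ℝ) ^ k) =
            𝔼 ω, (if insert z J ⊆ W ω then (1 : ℝ) else 0) * ((W ω ∩ A).card : ℝ) ^ k := by
          refine Finset.expect_congr rfl fun ω _ => ?_
          congr 1
          by_cases h1 : J ⊆ W ω <;> by_cases h2 : z ∈ W ω <;>
            simp [h1, h2, Finset.insert_subset_iff]
        have hc : (insert z J).card = J.card + 1 := Finset.card_insert_of_notMem hzJ
        have h2 := ih (insert z J) (Finset.insert_subset (hA hz) hJG) hI (by omega)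
        rw [h1]
        refine h2.trans ?_
        rw [hc, pow_succ]
        have h3 : (A.card * ρ + (2 * rX + 1 : ℝ) ^ (J.card + 1 + k)) = D := by
          rw [hD]; congr 2; omega
        rw [h3]
        apply le_of_eq; ring
    refine (Finset.sum_le_sum key).trans ?_
    rw [← Finset.sum_mul]
    have hcount : ∑ z ∈ A, (ρ + if aff z ∈ Submodule.span ℚ (aff '' (J : Set (Pt m)))
        then (1 : ℝ) else 0) ≤ D := by
      rw [Finset.sum_add_distrib, Finset.sum_const, nsmul_eq_mul, hD]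
      have h1 : (∑ z ∈ A, if aff z ∈ Submodule.span ℚ (aff '' (J : Set (Pt m)))
          then (1 : ℝ) else 0) ≤ (2 * rX + 1 : ℝ) ^ J.card := by
        rw [← Finset.sum_filter, Finset.sum_const, nsmul_eq_mul, mul_one]
        have h2 := hB1 m rX G J g0 hbox
        have h3 : (A.filter fun g => aff g ∈ Submodule.span ℚ (aff '' (J : Set (Pt m)))).card ≤
            (G.filter fun g => aff g ∈ Submodule.span ℚ (aff '' (J : Set (Pt m)))).card :=
          Finset.card_le_card (Finset.filter_subset_filter _ hA)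
        calc _ ≤ (((2 * rX + 1) ^ J.card : ℕ) : ℝ) := by exact_mod_cast h3.trans h2
          _ = _ := by push_cast; ring
      have h4 : (2 * rX + 1 : ℝ) ^ J.card ≤ (2 * rX + 1 : ℝ) ^ (J.card + (k + 1)) :=
        pow_le_pow_right₀ hbase (by omega)
      linarith
    calc _ ≤ D * (ρ ^ J.card * D ^ k) := mul_le_mul_of_nonneg_right hcount (by positivity)
      _ = _ := by ring

theorem prf_mom : S_B1 → S_mom := by
  classical
  intro hB1 m rX k kmax Ω _ _ W G J A g0 ρ T hRS hbox hJG hJ hk hA hT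
  have h := mom_aux hB1 hRS hbox hA k J hJG hJ hk
  have hTk : 0 < T ^ k := pow_pos hT k
  have h1 : (𝔼 ω, if J ⊆ W ω ∧ T ≤ ((W ω ∩ A).card : ℝ) then (1 : ℝ) else 0) ≤
      (𝔼 ω, (if J ⊆ W ω then (1 : ℝ) else 0) * ((W ω ∩ A).card : ℝ) ^ k) / T ^ k := by
    rw [Finset.expect_div]
    refine Finset.expect_le_expect fun ω _ => ?_
    by_cases h1 : J ⊆ W ω
    · by_cases h2 : T ≤ ((W ω ∩ A).card : ℝ)
      · simp only [h1, h2, and_self, if_true, one_mul]
        rw [le_div_iff₀ hTk, one_mul]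
        exact pow_le_pow_left₀ hT.le h2 k
      · simp only [h1, h2, and_false, if_false, if_true, one_mul]
        positivity
    · simp [h1]
  refine h1.trans ?_
  rw [div_pow, ← mul_div_assoc]
  exact div_le_div_of_nonneg_right h hTk.le

/-! ### chains -/

lemma sum_biUnion_le_sum {ι α : Type*} [DecidableEq α] (s : Finset ι) (t : ι → Finset α)
    (f : α → ℝ) (hf : ∀ a, 0 ≤ f a) :
    ∑ a ∈ s.biUnion t, f a ≤ ∑ i ∈ s, ∑ a ∈ t i, f a := by
  classical
  have h : s.biUnion t = (s.sigma t).image (fun x => x.2) := by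
    ext a
    simp only [Finset.mem_biUnion, Finset.mem_image, Finset.mem_sigma]
    constructor
    · rintro ⟨i, hi, ha⟩
      exact ⟨⟨i, a⟩, ⟨hi, ha⟩, rfl⟩
    · rintro ⟨⟨i, b⟩, ⟨hi, hb⟩, rfl⟩
      exact ⟨i, hi, hb⟩
  rw [h]
  refine (Finset.sum_image_le_of_nonneg (fun u _ => hf u)).trans ?_
  rw [Finset.sum_sigma]

open scoped Classical in
lemma chn_facts (hC : S_circ_ind) {m : ℕ} {W : Finset (Pt m)} {s1 : ℕ} :
    ∀ t J, Chn W s1 t J → Ind J ∧ J ⊆ W ∧ J.card ≤ t * s1 := by
  intro t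
  induction t with
  | zero =>
    intro J hJ
    simp only [Chn] at hJ
    subst hJ
    refine ⟨?_, Finset.empty_subset _, by simp⟩
    unfold Ind
    rw [Finset.coe_empty]
    exact linearIndepOn_empty ℚ aff
  | succ t ih =>
    intro J' hJ'
    obtain ⟨J, Z, z, hJ, hZW, hz, h3, hs, hc, rfl⟩ := hJ'
    obtain ⟨hI, hJW, hcard⟩ := ih J hJ
    obtain ⟨h1, h2⟩ := hC m J Z z hI hc hz
    refine ⟨h1, Finset.union_subset hJW ((Finset.erase_subset _ _).trans hZW), ?_⟩
    rw [Finset.card_union_of_disjoint h2, Finset.card_erase_of_mem hz, Nat.succ_mul]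
    omega

open scoped Classical in
lemma chn_mono {m : ℕ} {W W' : Finset (Pt m)} (h : W ⊆ W') {s1 : ℕ} :
    ∀ t J, Chn W s1 t J → Chn W' s1 t J := by
  intro t
  induction t with
  | zero => intro J hJ; exact hJ
  | succ t ih =>
    intro J' hJ'
    obtain ⟨J, Z, z, hJ, hZW, hz, h3, hs, hc, rfl⟩ := hJ'
    exact ⟨J, Z, z, ih J hJ, hZW.trans h, hz, h3, hs, hc, rfl⟩

theorem prf_chain : S_circ_ind → S_chain := by
  classical
  intro hC m s1 L G ρ q hρ hq hstep t
  induction t with
  | zero =>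
    intro _
    have h : G.powerset.filter (fun J => Chn G s1 0 J) = {∅} := by
      ext J
      rw [Finset.mem_filter, Finset.mem_powerset, Finset.mem_singleton]
      constructor
      · exact fun h => h.2
      · rintro rfl
        exact ⟨Finset.empty_subset _, rfl⟩
    rw [h]
    simp
  | succ t ih =>
    intro ht
    have ih' := ih (by omega)
    set S := G.powerset.filter (fun J => Chn G s1 t J) with hS
    have hsub : G.powerset.filter (fun J => Chn G s1 (t + 1) J) ⊆
        S.biUnion fun J => (Icc 3 s1).biUnion fun s =>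
          ((G.powersetCard s).filter fun Z => Circ J Z).biUnion fun Z =>
            Z.image fun z => J ∪ Z.erase z := by
      intro J' hJ'
      rw [Finset.mem_filter] at hJ'
      obtain ⟨J, Z, z, hJ, hZW, hz, h3, hs, hc, rfl⟩ := hJ'.2
      rw [Finset.mem_biUnion]
      refine ⟨J, ?_, ?_⟩
      · rw [hS, Finset.mem_filter, Finset.mem_powerset]
        exact ⟨(chn_facts hC t J hJ).2.1, hJ⟩
      · rw [Finset.mem_biUnion]
        refine ⟨Z.card, Finset.mem_Icc.mpr ⟨h3, hs⟩, ?_⟩
        rw [Finset.mem_biUnion]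
        refine ⟨Z, ?_, Finset.mem_image.mpr ⟨z, hz, rfl⟩⟩
        rw [Finset.mem_filter, Finset.mem_powersetCard]
        exact ⟨⟨hZW, rfl⟩, hc⟩
    have hf : ∀ J : Finset (Pt m), 0 ≤ ρ ^ J.card := fun J => pow_nonneg hρ _
    have h1 : ∀ J ∈ S, (∑ J' ∈ ((Icc 3 s1).biUnion fun s =>
          ((G.powersetCard s).filter fun Z => Circ J Z).biUnion fun Z =>
            Z.image fun z => J ∪ Z.erase z), ρ ^ J'.card) ≤ ρ ^ J.card * q := by
      intro J hJ
      rw [hS, Finset.mem_filter] at hJ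
      obtain ⟨hI, hJG, hcard⟩ := chn_facts hC t J hJ.2
      have h2 := hstep J hJG hI (hcard.trans (Nat.mul_le_mul_right _ (by omega)))
      refine (sum_biUnion_le_sum _ _ _ hf).trans ?_
      refine le_trans ?_ (mul_le_mul_of_nonneg_left h2 (hf J))
      rw [Finset.mul_sum]
      refine Finset.sum_le_sum fun s hs => ?_
      refine (sum_biUnion_le_sum _ _ _ hf).trans ?_
      have h3 : ∀ Z ∈ (G.powersetCard s).filter (fun Z => Circ J Z),
          (∑ J' ∈ Z.image (fun z => J ∪ Z.erase z), ρ ^ J'.card) ≤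
            s * (ρ ^ J.card * ρ ^ (s - 1)) := by
        intro Z hZ
        rw [Finset.mem_filter, Finset.mem_powersetCard] at hZ
        refine (Finset.sum_image_le_of_nonneg (fun u _ => hf u)).trans ?_
        have h4 : ∀ z ∈ Z, ρ ^ (J ∪ Z.erase z).card = ρ ^ J.card * ρ ^ (s - 1) := by
          intro z hz
          obtain ⟨h5, h6⟩ := hC m J Z z hI hZ.2 hz
          rw [Finset.card_union_of_disjoint h6, Finset.card_erase_of_mem hz, hZ.1.2, pow_add]
        rw [Finset.sum_congr rfl h4, Finset.sum_const, nsmul_eq_mul, hZ.1.2]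
      refine (Finset.sum_le_sum h3).trans ?_
      rw [Finset.sum_const, nsmul_eq_mul]
      apply le_of_eq
      ring
    calc ∑ J ∈ G.powerset.filter (fun J => Chn G s1 (t + 1) J), ρ ^ J.card
        ≤ _ := Finset.sum_le_sum_of_subset_of_nonneg hsub (fun J _ _ => hf J)
      _ ≤ _ := sum_biUnion_le_sum _ _ _ hf
      _ ≤ ∑ J ∈ S, ρ ^ J.card * q := Finset.sum_le_sum h1
      _ = (∑ J ∈ S, ρ ^ J.card) * q := by rw [Finset.sum_mul]
      _ ≤ q ^ t * q := mul_le_mul_of_nonneg_right ih' hq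
      _ = q ^ (t + 1) := by ring

end B4
end Crest.Agent.R225
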