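import Crest.Agent.R225.B4Iface2
import Crest.Agent.R225.B4Prob
import Crest.Agent.R225.B4Count

/-!
# Row 225, node B4: deterministic part (`S_ASet`, `S_det`) (helper435)
-/

set_option autoImplicit false

open Finset
open scoped BigOperators

namespace Crest.Agent.R225.B4

theorem prf_ASet : S_ASet := by
  classical
  intro m G c c' y hc hc'
  unfold ASet relCount
  refine card_le_card_of_injOn
    (fun z => if hz : ∃ z' ∈ G, c • z + c' • z' = y then ![z, hz.choose] else ![z, z]) ?_ ?_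
  · intro z hz
    have hz' := mem_filter.1 (mem_coe.1 hz)
    obtain ⟨hzG, hex⟩ := hz'
    refine mem_coe.2 (mem_filter.2 ⟨?_, ?_⟩)
    · rw [Fintype.mem_piFinset]
      intro i
      simp only [hex, dif_pos]
      fin_cases i
      · exact hzG
      · exact hex.choose_spec.1
    · simp only [hex, dif_pos, Fin.sum_univ_two]
      exact hex.choose_spec.2
  · intro z hz z' hz' h
    have hz1 := (mem_filter.1 (mem_coe.1 hz)).2
    have hz2 := (mem_filter.1 (mem_coe.1 hz')).2
    simp only [hz1, hz2, dif_pos] at h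
    exact congrFun h 0

namespace Det

open scoped Classical in
lemma pair_rel (hIR : S_int_rel) {m rX B N : ℕ} {G J : Finset (Pt m)} {g0 : Pt m}
    (hbox : InBox rX g0 G) (hJG : J ⊆ G) (hJ : Ind J) {z z' : Pt m} (hz : z ∈ G) (hz' : z' ∈ G)
    (hne : z' ≠ z) (hc : Circ J {z, z'}) (hN : J.card + 2 ≤ N) (hB : (N * (rX + 1)) ^ N ≤ B) :
    ∃ (c c' : ℤ) (a : Pt m → ℤ), c ≠ 0 ∧ c' ≠ 0 ∧ |c| ≤ (B : ℤ) ∧ |c'| ≤ (B : ℤ) ∧
      (∃ b ∈ J, a b ≠ 0) ∧ (∀ g, |a g| ≤ (B : ℤ)) ∧ (∀ g ∉ J, a g = 0) ∧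
      z ∈ ASet G c c' (∑ b ∈ J, a b • b) := by
  have hZG : ({z, z'} : Finset (Pt m)) ⊆ G := by
    intro g hg
    rw [mem_insert, mem_singleton] at hg
    rcases hg with rfl | rfl
    · exact hz
    · exact hz'
  have hbox' : InBox rX g0 (J ∪ {z, z'}) := by
    intro g hg
    rcases mem_union.1 hg with h | h
    · exact hbox g (hJG h)
    · exact hbox g (hZG h)
  obtain ⟨h, hnz, ⟨hsupp, hs0, hs1⟩, hbd⟩ := hIR m rX J {z, z'} g0 hJ hc (by rw [card_pair hne.symm]) hbox'
  -- z, z' are not in J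
  have hdepsub : ∀ u ∈ J, Dep J ({u} : Finset (Pt m)) := by
    intro u hu
    refine ⟨fun _ => 1, ⟨u, mem_singleton_self _, one_ne_zero⟩, ?_⟩
    rw [sum_singleton, one_smul]
    exact Submodule.subset_span ⟨u, by exact_mod_cast hu, rfl⟩
  have hzJ : z ∉ J := by
    intro hu
    refine hc.2 {z} ?_ (hdepsub z hu)
    rw [Finset.ssubset_iff_of_subset (by simp)]
    exact ⟨z', by simp, by simpa using hne⟩
  have hz'J : z' ∉ J := by
    intro hu
    refine hc.2 {z'} ?_ (hdepsub z' hu)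
    rw [Finset.ssubset_iff_of_subset (by simp)]
    exact ⟨z, by simp, by simpa using hne.symm⟩
  have hdisj : Disjoint J {z, z'} := by
    rw [Finset.disjoint_right]
    intro g hg
    rw [mem_insert, mem_singleton] at hg
    rcases hg with rfl | rfl
    · exact hzJ
    · exact hz'J
  have hcard : (J ∪ {z, z'}).card ≤ N := by
    have h1 := card_union_le J {z, z'}
    have h2 : ({z, z'} : Finset (Pt m)).card ≤ 2 := card_le_two
    omega
  have hcard0 : 0 < (J ∪ {z, z'}).card := card_pos.2 ⟨z, by simp⟩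
  have hBle : (((J ∪ {z, z'}).card * (rX + 1) : ℝ) ^ (J ∪ {z, z'}).card) ≤ B := by
    have h1 : ((J ∪ {z, z'}).card * (rX + 1)) ^ (J ∪ {z, z'}).card ≤ B := by
      refine le_trans ?_ hB
      exact (Nat.pow_le_pow_left (Nat.mul_le_mul_right _ hcard) _).trans
          (Nat.pow_le_pow_right (Nat.mul_pos (by omega) (Nat.succ_pos _)) hcard)
    exact_mod_cast h1
  have hb : ∀ g, |h g| ≤ (B : ℤ) := by
    intro g
    have h1 := (hbd g).trans hBle
    have h2 : ((|h g| : ℤ) : ℝ) ≤ ((B : ℤ) : ℝ) := by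
      push_cast
      exact h1
    exact_mod_cast h2
  have hzz' : z ≠ z' := hne.symm
  rw [sum_union hdisj, sum_pair hzz'] at hs0 hs1
  refine ⟨h z, h z', fun g => if g ∈ J then -h g else 0, hnz z (by simp), hnz z' (by simp),
    hb z, hb z', ?_, ?_, ?_, ?_⟩
  · by_contra hcon
    push Not at hcon
    have h0 : ∀ b ∈ J, h b = 0 := by
      intro b hbJ
      have := hcon b hbJ
      simpa [hbJ] using this
    have e1 : ∑ g ∈ J, h g = 0 := sum_eq_zero h0
    have e2 : ∑ g ∈ J, h g • g = 0 := sum_eq_zero fun b hbJ => by rw [h0 b hbJ, zero_smul]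
    rw [e1, zero_add] at hs0
    rw [e2, zero_add] at hs1
    have e3 : h z' = -h z := by linarith
    rw [e3, neg_smul, ← sub_eq_add_neg, ← smul_sub] at hs1
    apply hzz'
    funext k
    have := congrFun hs1 k
    simp only [Pi.smul_apply, Pi.sub_apply, smul_eq_mul, Pi.zero_apply] at this
    rcases mul_eq_zero.1 this with h1 | h1
    · exact absurd h1 (hnz z (by simp))
    · linarith
  · intro g
    by_cases hg : g ∈ J
    · simp only [hg, if_true, abs_neg]; exact hb g
    · simp [hg]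
  · intro g hg
    simp [hg]
  · unfold ASet
    rw [mem_filter]
    refine ⟨hz, z', hz', ?_⟩
    have e1 : ∑ b ∈ J, (if b ∈ J then -h b else 0) • b = -∑ b ∈ J, h b • b := by
      rw [← sum_neg_distrib]
      exact sum_congr rfl fun b hbJ => by simp [hbJ]
    rw [e1]
    exact (neg_eq_of_add_eq_zero_right hs1).symm

end Det

theorem prf_det : S_B1 → S_circ_ind → S_int_rel → S_clean → S_det := by
  classical
  intro hB1 hCI hIR hclean m rX L s1 s0 B W G g0 T hWG hbox hT hs1 hs10 hB hnoL hlong hpair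
  -- maximal chain
  obtain ⟨t, htL, ⟨J, hJt⟩, hmax⟩ : ∃ t < L, (∃ J, Chn W s1 t J) ∧ ¬ ∃ J, Chn W s1 (t + 1) J := by
    have hex : ∃ t, ¬ ∃ J, Chn W s1 t J := ⟨L, hnoL⟩
    set t0 := Nat.find hex with ht0
    have h1 : ¬ ∃ J, Chn W s1 t0 J := Nat.find_spec hex
    have h2 : t0 ≠ 0 := by
      intro h0
      apply h1
      rw [h0]
      exact ⟨∅, rfl⟩
    obtain ⟨t, ht⟩ := Nat.exists_eq_succ_of_ne_zero h2
    refine ⟨t, ?_, ?_, ?_⟩
    · have : t0 ≤ L := Nat.find_min' hex hnoL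
      omega
    · have := Nat.find_min hex (m := t) (by omega)
      push Not at this
      exact this
    · rw [← Nat.succ_eq_add_one, ← ht]
      exact h1
  obtain ⟨hInd, hJW, hJc⟩ := chn_facts hCI t J hJt
  have hJL : J.card ≤ L * s1 := hJc.trans (Nat.mul_le_mul_right _ htL.le)
  have hJG : J ⊆ G := hJW.trans hWG
  set G' := W.filter (fun z => aff z ∉ Submodule.span ℚ (aff '' (J : Set (Pt m))) ∧
      ¬ ∃ z' ∈ W, z' ≠ z ∧ Circ J {z, z'}) with hG'
  refine ⟨G', filter_subset _ _, ?_, ?_⟩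
  · -- cardinality
    set N := L * s1 + s0 + 2 with hN
    set K : Finset ((ℤ × ℤ) × (J → ℤ)) :=
      ((Icc (-(B : ℤ)) B ×ˢ Icc (-(B : ℤ)) B) ×ˢ Cnt.coef J B).filter fun p =>
        p.1.1 ≠ 0 ∧ p.1.2 ≠ 0 ∧ ∃ b, p.2 b ≠ 0 with hK
    let ext : (J → ℤ) → Pt m → ℤ := fun a g => if hg : g ∈ J then a ⟨g, hg⟩ else 0
    have hsub : W \ G' ⊆ (W.filter fun g => aff g ∈ Submodule.span ℚ (aff '' (J : Set (Pt m)))) ∪
        K.biUnion fun p => W ∩ ASet G p.1.1 p.1.2 (∑ b ∈ J, ext p.2 b • b) := by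
      intro z hz
      rw [mem_sdiff, hG', mem_filter] at hz
      obtain ⟨hzW, hzn⟩ := hz
      rw [mem_union]
      by_cases hsp : aff z ∈ Submodule.span ℚ (aff '' (J : Set (Pt m)))
      · left
        exact mem_filter.2 ⟨hzW, hsp⟩
      · right
        have hex : ∃ z' ∈ W, z' ≠ z ∧ Circ J {z, z'} := by
          by_contra hcon
          exact hzn ⟨hzW, hsp, hcon⟩
        obtain ⟨z', hz'W, hne, hc⟩ := hex
        obtain ⟨c, c', a, hc0, hc'0, hcB, hc'B, ⟨b, hbJ, hab⟩, haB, ha0, hA⟩ :=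
          Det.pair_rel hIR hbox hJG hInd (hWG hzW) (hWG hz'W) hne hc
            (show J.card + 2 ≤ N by rw [hN]; omega) hB
        rw [mem_biUnion]
        refine ⟨((c, c'), fun g => a g), ?_, ?_⟩
        · rw [hK, mem_filter, mem_product, mem_product, mem_Icc, mem_Icc, Cnt.mem_coef]
          exact ⟨⟨⟨abs_le.1 hcB, abs_le.1 hc'B⟩, fun g => haB _⟩, hc0, hc'0, ⟨b, hbJ⟩, hab⟩
        · rw [mem_inter]
          refine ⟨hzW, ?_⟩
          have e1 : ∑ b ∈ J, ext (fun g => a g) b • b = ∑ b ∈ J, a b • b :=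
            sum_congr rfl fun b hb => by simp [ext, hb]
          simp only
          rw [e1]
          exact hA
    have hKc : K.card ≤ (2 * B + 1) ^ N := by
      rw [hK]
      refine (card_filter_le _ _).trans ?_
      rw [card_product, card_product, Cnt.card_coef, Fintype.card_coe]
      have h1 : (Icc (-(B : ℤ)) B).card = 2 * B + 1 := by
        rw [Int.card_Icc]; omega
      rw [h1]
      calc (2 * B + 1) * (2 * B + 1) * (2 * B + 1) ^ J.card = (2 * B + 1) ^ (J.card + 2) := by ring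
        _ ≤ (2 * B + 1) ^ N := Nat.pow_le_pow_right (Nat.succ_pos _) (by omega)
    have h1 : (((W \ G').card : ℕ) : ℝ) ≤
        ((W.filter fun g => aff g ∈ Submodule.span ℚ (aff '' (J : Set (Pt m)))).card : ℝ) +
        ∑ p ∈ K, ((W ∩ ASet G p.1.1 p.1.2 (∑ b ∈ J, ext p.2 b • b)).card : ℝ) := by
      have h2 := (card_le_card hsub).trans (card_union_le _ _)
      have h3 := h2.trans (Nat.add_le_add_left card_biUnion_le _)
      exact_mod_cast h3
    refine h1.trans (add_le_add ?_ ?_)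
    · have h2 := hB1 m rX G J g0 hbox
      have h3 : (W.filter fun g => aff g ∈ Submodule.span ℚ (aff '' (J : Set (Pt m)))).card ≤
          (2 * rX + 1) ^ J.card := (card_le_card (filter_subset_filter _ hWG)).trans h2
      have h4 : (2 * rX + 1) ^ J.card ≤ (2 * rX + 1) ^ (L * s1) :=
        Nat.pow_le_pow_right (Nat.succ_pos _) hJL
      exact_mod_cast h3.trans h4
    · have h2 : ∀ p ∈ K, ((W ∩ ASet G p.1.1 p.1.2 (∑ b ∈ J, ext p.2 b • b)).card : ℝ) ≤ T := by
        intro p hp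
        rw [hK, mem_filter, mem_product, mem_product, mem_Icc, mem_Icc, Cnt.mem_coef] at hp
        obtain ⟨⟨⟨h1, h2⟩, h3⟩, h4, h5, b, hb⟩ := hp
        refine (hpair J hJW hInd hJL p.1.1 p.1.2 (ext p.2) h4 h5 (abs_le.2 h1) (abs_le.2 h2)
          ⟨b, b.2, ?_⟩ ?_).le
        · simpa [ext] using hb
        · intro b hb
          simp only [ext, hb, dif_pos]
          exact h3 _
      refine (sum_le_sum h2).trans ?_
      rw [sum_const, nsmul_eq_mul]
      refine mul_le_mul_of_nonneg_right ?_ hT.le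
      exact_mod_cast hKc
  · -- no small relations
    have hcond : ∀ Z' ⊆ W, 3 ≤ Z'.card → Z'.card ≤ s0 → ¬ Circ J Z' := by
      intro Z' hZ'W h3 hs hcirc
      rcases le_or_gt Z'.card s1 with h4 | h4
      · obtain ⟨z, hz⟩ : Z'.Nonempty := card_pos.1 (by omega)
        exact hmax ⟨J ∪ Z'.erase z, J, Z', z, hJt, hZ'W, hz, h3, h4, hcirc, rfl⟩
      · exact hlong J hJW hInd hJL Z' hZ'W h4 hs hcirc
    intro Z hZ hZc h hBrel
    exact hclean m s0 W J hInd hJW hcond Z hZ (by exact_mod_cast hZc) h hBrel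

end Crest.Agent.R225.B4
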