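import Crest.Agent.R225.Base
import Crest.Agent.R225.Ear

/-!
Row 225 (S0347): shared library for the base nodes B3, B4, B5 (helper565), part 2:
survival probabilities in the special row.
-/

set_option autoImplicit false

open Finset
open scoped BigOperators

namespace Crest.Agent.R225
namespace Ear

/-! ### elementary consequences of `BaseCtx` -/

lemma alf_zero (X α0 : ℝ) (I : ℕ) : alf X α0 I 0 = α0 := by simp [alf]

lemma alf_one (X α0 : ℝ) (I : ℕ) : alf X α0 I 1 = al X I := by simp [alf]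

lemma tauf_zero (X : ℝ) (I : ℕ) : tauf X I 0 = tau X (I + 1) := by simp [tauf]

lemma tauf_one (X : ℝ) (I : ℕ) : tauf X I 1 = tau X I := by simp [tauf]

/-- `w g []` lies in `[τ_{I+1} α₀, α₀]` -/
lemma w_nil_mem {P n m I : ℕ} [NeZero P] {X c1 Crat α0 : ℝ} {G : Finset (Pt m)}
    {w : Pt m → List (ZMod P) → ℝ} (h : BaseCtx P n m I X c1 Crat α0 G w) {g : Pt m}
    (hg : g ∈ G) : tau X (I + 1) * α0 ≤ w g [] ∧ w g [] ≤ α0 := by
  have h1 := h.hw.rng g [] (by simp)
  rw [List.length_nil, alf_zero, tauf_zero] at h1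
  rcases h1 with h1 | h1
  · exact absurd h1 (h.pos g hg).ne'
  · exact h1

lemma w_one_mem {P n m I : ℕ} [NeZero P] {X c1 Crat α0 : ℝ} {G : Finset (Pt m)}
    {w : Pt m → List (ZMod P) → ℝ} (h : BaseCtx P n m I X c1 Crat α0 G w) (g : Pt m)
    (ξ : ZMod P) : w g [ξ] = 0 ∨ (tau X I * al X I ≤ w g [ξ] ∧ w g [ξ] ≤ al X I) := by
  have h1 := h.hw.rng g [ξ] (by simp)
  rwa [List.length_singleton, alf_one, tauf_one] at h1

lemma w_one_nonneg {P n m I : ℕ} [NeZero P] {X c1 Crat α0 : ℝ} {G : Finset (Pt m)}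
    {w : Pt m → List (ZMod P) → ℝ} (h : BaseCtx P n m I X c1 Crat α0 G w) (g : Pt m)
    (ξ : ZMod P) : 0 ≤ w g [ξ] := by
  rcases w_one_mem h g ξ with h1 | h1
  · rw [h1]
  · exact (mul_nonneg (BaseN.tau_pos X I).le (BaseN.al_pos X I).le).trans h1.1

lemma w_mart {P n m I : ℕ} [NeZero P] {X c1 Crat α0 : ℝ} {G : Finset (Pt m)}
    {w : Pt m → List (ZMod P) → ℝ} (h : BaseCtx P n m I X c1 Crat α0 G w) (g : Pt m) :
    |(𝔼 ξ, w g [ξ]) - w g []| ≤ 4 / P * al X I := by
  have h1 := h.hw.mart g [] (by simp)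
  rwa [List.length_nil, alf_one] at h1

/-- lower bound of `α₀` by the total weight -/
lemma α0_lower {P n m I : ℕ} [NeZero P] {X c1 Crat α0 : ℝ} {G : Finset (Pt m)}
    {w : Pt m → List (ZMod P) → ℝ} (h : BaseCtx P n m I X c1 Crat α0 G w) :
    Real.exp X * NN n ≤ G.card * α0 := by
  calc Real.exp X * NN n ≤ ∑ g ∈ G, w g [] := h.lower
    _ ≤ ∑ _g ∈ G, α0 := Finset.sum_le_sum fun g hg => (w_nil_mem h hg).2
    _ = G.card * α0 := by rw [Finset.sum_const, nsmul_eq_mul]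

/-- upper bound of `α₀` by the total weight -/
lemma α0_upper {P n m I : ℕ} [NeZero P] {X c1 Crat α0 : ℝ} {G : Finset (Pt m)}
    {w : Pt m → List (ZMod P) → ℝ} (h : BaseCtx P n m I X c1 Crat α0 G w) :
    tau X (I + 1) * (G.card * α0) ≤ Crat * Real.exp X * NN n := by
  calc tau X (I + 1) * (G.card * α0) = ∑ _g ∈ G, tau X (I + 1) * α0 := by
        rw [Finset.sum_const, nsmul_eq_mul]; ring
    _ ≤ ∑ g ∈ G, w g [] := Finset.sum_le_sum fun g hg => (w_nil_mem h hg).1
    _ ≤ _ := h.upper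

lemma NN_pos {n : ℕ} (hn : 2 ≤ n) : 0 < NN n := by
  unfold NN
  have h1 : (1 : ℝ) < n := by exact_mod_cast hn
  exact mul_pos (by linarith) (Real.log_pos h1)

/-- S1. for large `P` the discretisation error is below every weight -/
lemma base_small {m : ℕ} (n I : ℕ) (X : ℝ) (G : Finset (Pt m)) (hn : 2 ≤ n) :
    ∃ P0 : ℕ, ∀ P ≥ P0, ∀ [Fact P.Prime], ∀ (c1 Crat α0 : ℝ) (w : Pt m → List (ZMod P) → ℝ),
      BaseCtx P n m I X c1 Crat α0 G w → ∀ g ∈ G, 4 / P * al X I ≤ w g [] := by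
  set δ : ℝ := tau X (I + 1) * (Real.exp X * NN n) / (G.card + 1) with hδ
  have hτ := BaseN.tau_pos X (I + 1)
  have hα := BaseN.al_pos X I
  have hNN := NN_pos hn
  have hδpos : 0 < δ := by positivity
  refine ⟨⌈4 * al X I / δ⌉₊ + 1, fun P hP => ?_⟩
  intro _ c1 Crat α0 w h g hg
  have hPr : 4 * al X I / δ ≤ P := by
    refine (Nat.le_ceil _).trans ?_
    exact_mod_cast (Nat.le_succ _).trans hP
  have hPpos : (0 : ℝ) < P := by
    have : 0 < P := lt_of_lt_of_le (Nat.succ_pos _) hP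
    exact_mod_cast this
  have h1 : 4 / P * al X I ≤ δ := by
    rw [div_le_iff₀ hδpos] at hPr
    rw [div_mul_eq_mul_div, div_le_iff₀ hPpos]
    linarith
  refine h1.trans ?_
  refine le_trans ?_ (w_nil_mem h hg).1
  rw [hδ, div_le_iff₀ (by positivity)]
  have h2 := α0_lower h
  have h3 : (G.card : ℝ) * α0 ≤ (G.card + 1) * α0 := by
    have := h.hα0
    nlinarith
  have h4 := mul_le_mul_of_nonneg_left (h2.trans h3) hτ.le
  linarith

/-- the survival bound of one atom -/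
noncomputable def rho (X α0 : ℝ) (I : ℕ) : ℝ := 2 * α0 / (tau X I * al X I)

lemma rho_pos {X α0 : ℝ} {I : ℕ} (h : 0 < α0) : 0 < rho X α0 I := by
  unfold rho
  have := BaseN.tau_pos X I
  have := BaseN.al_pos X I
  positivity

/-- S3. `|G| ρ ≤ M_I / τ_{I+1}` -/
lemma R_le {P n m I : ℕ} [NeZero P] {X c1 Crat α0 : ℝ} {G : Finset (Pt m)}
    {w : Pt m → List (ZMod P) → ℝ} (h : BaseCtx P n m I X c1 Crat α0 G w) :
    G.card * rho X α0 I ≤ Mb X Crat n I / tau X (I + 1) := by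
  have hτ1 := BaseN.tau_pos X (I + 1)
  have hτ := BaseN.tau_pos X I
  have hα := BaseN.al_pos X I
  have h1 := α0_upper h
  rw [le_div_iff₀ hτ1]
  unfold rho Mb
  have h2 : Real.exp (xl X I) = Real.exp X / al X I := by
    unfold al
    rw [← Real.exp_sub]
    congr 1; ring
  rw [h2]
  rw [mul_div_assoc', div_mul_eq_mul_div, div_le_div_iff₀ (by positivity) hτ]
  have h3 : (2 * Crat * NN n * (Real.exp X / al X I)) * (tau X I * al X I) =
      2 * (Crat * Real.exp X * NN n) * tau X I := by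
    field_simp
  rw [h3]
  have h4 : (G.card * (2 * α0) * tau X (I + 1)) * tau X I =
      2 * (tau X (I + 1) * (G.card * α0)) * tau X I := by ring
  rw [h4]
  gcongr

/-- one atom: `P(alive) ≤ 2 w / (τ α)` -/
lemma p_alive {P n m I : ℕ} [NeZero P] {X c1 Crat α0 : ℝ} {G : Finset (Pt m)}
    {w : Pt m → List (ZMod P) → ℝ} (h : BaseCtx P n m I X c1 Crat α0 G w) {g : Pt m}
    (hs : 4 / P * al X I ≤ w g []) :
    (𝔼 ξ : ZMod P, if 0 < w g [ξ] then (1 : ℝ) else 0) ≤ 2 * w g [] / (tau X I * al X I) := by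
  have hτ := BaseN.tau_pos X I
  have hα := BaseN.al_pos X I
  have h1 : (𝔼 ξ : ZMod P, if 0 < w g [ξ] then (1 : ℝ) else 0) ≤
      𝔼 ξ : ZMod P, w g [ξ] / (tau X I * al X I) := by
    refine Finset.expect_le_expect fun ξ _ => ?_
    split_ifs with h2
    · rw [le_div_iff₀ (by positivity), one_mul]
      rcases w_one_mem h g ξ with h3 | h3
      · exact absurd h3 h2.ne'
      · exact h3.1
    · exact div_nonneg (w_one_nonneg h g ξ) (by positivity)
  refine h1.trans ?_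
  rw [← Finset.expect_div]
  apply div_le_div_of_nonneg_right _ (by positivity)
  have h4 := (abs_le.mp (w_mart h g)).2
  linarith

open scoped Classical in
/-- S2. survival of affinely independent sets (product form) -/
lemma surv_prod (hB0 : S_B0) {m : ℕ} (n I k : ℕ) (X : ℝ) (G : Finset (Pt m)) (hn : 2 ≤ n) :
    ∃ P0 : ℕ, ∀ P ≥ P0, ∀ [Fact P.Prime], ∀ (c1 Crat α0 : ℝ) (w : Pt m → List (ZMod P) → ℝ),
      BaseCtx P n m I X c1 Crat α0 G w → ∀ J ⊆ G, J.card ≤ k →
        LinearIndepOn ℚ aff (J : Set (Pt m)) →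
        (𝔼 r : Row P m, if J ⊆ alive w G [r] then (1 : ℝ) else 0) ≤
          ∏ g ∈ J, 2 * w g [] / (tau X I * al X I) := by
  obtain ⟨P1, hP1⟩ := base_small n I X G hn
  obtain ⟨P2, hP2⟩ := hB0 m (n ^ 16) k
  refine ⟨max P1 P2, fun P hP => ?_⟩
  intro _ c1 Crat α0 w h J hJ hJk hind
  have hs := hP1 P ((le_max_left _ _).trans hP) c1 Crat α0 w h
  obtain ⟨g0, hg0⟩ := h.grid.box
  have h0 := hP2 P ((le_max_right _ _).trans hP) J g0
    (fun g ξ => if 0 < w g [ξ] then (1 : ℝ) else 0) hJk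
    (fun g hg k => by exact_mod_cast hg0 g (hJ hg) k) hind
  have h1 : (𝔼 r : Row P m, if J ⊆ alive w G [r] then (1 : ℝ) else 0) =
      𝔼 r : Row P m, ∏ g ∈ J, (if 0 < w g [res r g] then (1 : ℝ) else 0) := by
    refine Finset.expect_congr rfl fun r _ => ?_
    by_cases hA : J ⊆ alive w G [r]
    · rw [if_pos hA]
      symm
      refine Finset.prod_eq_one fun g hg => ?_
      have := (Finset.mem_filter.mp (hA hg)).2
      simp only [wt, hist, List.map_cons, List.map_nil] at this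
      rw [if_pos this]
    · rw [if_neg hA]
      obtain ⟨g, hg, hgA⟩ := Finset.not_subset.mp hA
      symm
      refine Finset.prod_eq_zero hg ?_
      rw [if_neg]
      intro hpos
      apply hgA
      refine Finset.mem_filter.mpr ⟨hJ hg, ?_⟩
      simp only [wt, hist, List.map_cons, List.map_nil]
      exact hpos
  rw [h1, h0]
  refine Finset.prod_le_prod (fun g _ => ?_) (fun g hg => p_alive h (hs g (hJ hg)))
  exact Finset.expect_nonneg fun ξ _ => by split_ifs <;> norm_num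

open scoped Classical in
/-- S2. survival of affinely independent sets: `≤ ρ^{|J|}` -/
lemma surv (hB0 : S_B0) {m : ℕ} (n I k : ℕ) (X : ℝ) (G : Finset (Pt m)) (hn : 2 ≤ n) :
    ∃ P0 : ℕ, ∀ P ≥ P0, ∀ [Fact P.Prime], ∀ (c1 Crat α0 : ℝ) (w : Pt m → List (ZMod P) → ℝ),
      BaseCtx P n m I X c1 Crat α0 G w → ∀ J ⊆ G, J.card ≤ k →
        LinearIndepOn ℚ aff (J : Set (Pt m)) →
        (𝔼 r : Row P m, if J ⊆ alive w G [r] then (1 : ℝ) else 0) ≤ rho X α0 I ^ J.card := by
  obtain ⟨P1, hP1⟩ := surv_prod hB0 n I k X G hn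
  refine ⟨P1, fun P hP => ?_⟩
  intro _ c1 Crat α0 w h J hJ hJk hind
  refine (hP1 P hP c1 Crat α0 w h J hJ hJk hind).trans ?_
  have hτ := BaseN.tau_pos X I
  have hα := BaseN.al_pos X I
  rw [← Finset.prod_const]
  refine Finset.prod_le_prod (fun g hg => ?_) (fun g hg => ?_)
  · have := (h.pos g (hJ hg)).le
    positivity
  · unfold rho
    have := (w_nil_mem h (hJ hg)).2
    gcongr

end Ear
end Crest.Agent.R225
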