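import Crest.Agent.R225.B4Iface
import Crest.Agent.R225.EarSurv

/-!
# Row 225 (S0347), node B4: survival in the special row (`S_surv1`, from `S_B0`)
-/

set_option autoImplicit false

open Finset
open scoped BigOperators

namespace Crest.Agent.R225
namespace B4

theorem prf_surv1 (hB0 : S_B0) : S_surv1 := by
  intro c1 Crat X _ _ _ n m I kmax hn G
  obtain ⟨P0, hP0⟩ := Ear.surv hB0 n I kmax X G hn
  refine ⟨P0, fun P hP => ?_⟩
  intro _ α0 w h
  have hR := Ear.R_le h
  have hρ := (Ear.rho_pos (X := X) (I := I) h.hα0).le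
  refine ⟨⟨fun r => ?_, hρ, fun J hJ hind hk => hP0 P hP c1 Crat α0 w h J hJ hk hind⟩, hR⟩
  exact Finset.filter_subset _ _

end B4
end Crest.Agent.R225
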