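import Crest.Agent.R225.B4
import Crest.Agent.R225.B4Alg
import Crest.Agent.R225.B4Count
import Crest.Agent.R225.B4Core
import Crest.Agent.R225.B4Det
import Crest.Agent.R225.B4Prob
import Crest.Agent.R225.B4Surv
import Crest.Agent.R225.B4Num2
import Crest.Agent.R225.B012

/-!
# Row 225 (S0347), node B4 (cleaning): closing file (helper925)
-/

set_option autoImplicit false

namespace Crest.Agent.R225

theorem prf_B4_of (hB0 : S_B0) (hB1 : S_B1) (hB2 : S_B2) : S_B4 :=
  B4.prf_B4 (B4.prf_surv1 hB0)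
    (B4.prf_core B4.prf_circ_ind (B4.prf_ear (B4.prf_int_rel hB2)) B4.prf_badY
      (B4.prf_chain B4.prf_circ_ind) (B4.prf_mom hB1) B4.prf_ASet
      (B4.prf_det hB1 B4.prf_circ_ind (B4.prf_int_rel hB2) B4.prf_clean))
    B4.prf_num4

theorem prf_B4 : S_B4 := prf_B4_of prf_B0 prf_B1 prf_B2

end Crest.Agent.R225
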