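import Crest.Agent.R225.B5

/-!
# Row 225, node B5: numerics of the rank part (helper979)
-/

set_option autoImplicit false

open Finset Filter
open scoped BigOperators Nat

namespace Crest.Agent.R225

namespace B5C

lemma ev_num (c1 Crat : ℝ) (hc1 : 0 < c1) : ∀ᶠ n : ℕ in atTop,
    3 ≤ n ∧ 1202 * (c1 / 400) * ((n : ℝ) ^ (1 / 10 : ℝ) * Real.log n) + 2 ≤ (n : ℝ) ^ (3 / 10 : ℝ) ∧
    32 * ((n : ℝ) ^ (2 / 100 : ℝ) + 1) ≤ 18 * (c1 / 400) * (n : ℝ) ^ (1 / 10 : ℝ) ∧
    2 * Crat * (n : ℝ) ^ 2 ≤ Real.exp ((n : ℝ) ^ (45 / 100 : ℝ)) ∧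
    (100 * (3 * (9 / theta) + 1)) ^ 2 ≤ (n : ℝ) ^ (9 / 10 : ℝ) := by
  have hc := tendsto_natCast_atTop_atTop (R := ℝ)
  refine (eventually_ge_atTop 3).and ((?_ : ∀ᶠ n : ℕ in atTop, _).and
    ((?_ : ∀ᶠ n : ℕ in atTop, _).and ((?_ : ∀ᶠ n : ℕ in atTop, _).and
      (?_ : ∀ᶠ n : ℕ in atTop, _))))
  · have h1 : Tendsto (fun x : ℝ => Real.log x / x ^ (1 / 10 : ℝ)) atTop (nhds 0) :=
      (isLittleO_log_rpow_atTop (by norm_num : (0 : ℝ) < 1 / 10)).tendsto_div_nhds_zero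
    have h2 : ∀ᶠ x : ℝ in atTop, Real.log x / x ^ (1 / 10 : ℝ) < 1 / (1202 * (c1 / 400) * 2) :=
      h1.eventually_lt_const (by positivity)
    have h3 : Tendsto (fun x : ℝ => x ^ (3 / 10 : ℝ)) atTop atTop := tendsto_rpow_atTop (by norm_num)
    have h4 : Tendsto (fun x : ℝ => x ^ (1 / 10 : ℝ)) atTop atTop := tendsto_rpow_atTop (by norm_num)
    filter_upwards [hc.eventually h2, hc.eventually (h3.eventually_ge_atTop 4),
      hc.eventually (h4.eventually_ge_atTop 1), eventually_ge_atTop 3] with n a1 a2 a3 a4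
    have hn : (0 : ℝ) < n := by
      have : 0 < n := by omega
      exact_mod_cast this
    have hp : 0 < (n : ℝ) ^ (1 / 10 : ℝ) := by positivity
    rw [div_lt_iff₀ hp] at a1
    have e1 : (n : ℝ) ^ (3 / 10 : ℝ) =
        (n : ℝ) ^ (1 / 10 : ℝ) * (n : ℝ) ^ (1 / 10 : ℝ) * (n : ℝ) ^ (1 / 10 : ℝ) := by
      rw [← Real.rpow_add hn, ← Real.rpow_add hn]; norm_num
    have e2 : 1202 * (c1 / 400) * ((n : ℝ) ^ (1 / 10 : ℝ) * Real.log n) ≤
        1 / 2 * ((n : ℝ) ^ (1 / 10 : ℝ) * (n : ℝ) ^ (1 / 10 : ℝ)) := by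
      have hcc : 0 < 1202 * (c1 / 400) := by positivity
      have : 1202 * (c1 / 400) * Real.log n ≤ 1 / 2 * (n : ℝ) ^ (1 / 10 : ℝ) := by
        have h5 := mul_le_mul_of_nonneg_left a1.le hcc.le
        have h6 : 1202 * (c1 / 400) * (1 / (1202 * (c1 / 400) * 2) * (n : ℝ) ^ (1 / 10 : ℝ)) =
            1 / 2 * (n : ℝ) ^ (1 / 10 : ℝ) := by
          field_simp
        linarith
      nlinarith
    have e3 : (n : ℝ) ^ (1 / 10 : ℝ) * (n : ℝ) ^ (1 / 10 : ℝ) ≤ (n : ℝ) ^ (3 / 10 : ℝ) := by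
      rw [e1]
      have : 0 < (n : ℝ) ^ (1 / 10 : ℝ) * (n : ℝ) ^ (1 / 10 : ℝ) := by positivity
      nlinarith
    linarith
  · have h4 : Tendsto (fun x : ℝ => x ^ (8 / 100 : ℝ)) atTop atTop :=
      tendsto_rpow_atTop (by norm_num)
    filter_upwards [hc.eventually (h4.eventually_ge_atTop (64 / (18 * (c1 / 400)))),
      eventually_ge_atTop 3] with n a1 a4
    have hn : (0 : ℝ) < n := by
      have : 0 < n := by omega
      exact_mod_cast this
    have hn1 : (1 : ℝ) ≤ n := by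
      have : 1 ≤ n := by omega
      exact_mod_cast this
    have e1 : (n : ℝ) ^ (1 / 10 : ℝ) = (n : ℝ) ^ (2 / 100 : ℝ) * (n : ℝ) ^ (8 / 100 : ℝ) := by
      rw [← Real.rpow_add hn]; norm_num
    have e2 : 1 ≤ (n : ℝ) ^ (2 / 100 : ℝ) := Real.one_le_rpow hn1 (by norm_num)
    rw [div_le_iff₀ (by positivity)] at a1
    rw [e1]
    nlinarith
  · have h1 : Tendsto (fun x : ℝ => Real.exp x / x ^ 5) atTop atTop :=
      Real.tendsto_exp_div_pow_atTop 5
    have h4 : Tendsto (fun x : ℝ => x ^ (45 / 100 : ℝ)) atTop atTop :=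
      tendsto_rpow_atTop (by norm_num)
    filter_upwards [hc.eventually (h4.eventually (h1.eventually_ge_atTop (2 * |Crat|))),
      eventually_ge_atTop 3] with n a1 a4
    have hn : (0 : ℝ) < n := by
      have : 0 < n := by omega
      exact_mod_cast this
    have hn1 : (1 : ℝ) ≤ n := by
      have : 1 ≤ n := by omega
      exact_mod_cast this
    have hp : 0 < (n : ℝ) ^ (45 / 100 : ℝ) := by positivity
    rw [le_div_iff₀ (by positivity)] at a1
    refine le_trans ?_ a1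
    have e1 : ((n : ℝ) ^ (45 / 100 : ℝ)) ^ 5 = (n : ℝ) ^ (225 / 100 : ℝ) := by
      rw [← Real.rpow_natCast, ← Real.rpow_mul hn.le]; norm_num
    have e2 : (n : ℝ) ^ 2 ≤ (n : ℝ) ^ (225 / 100 : ℝ) := by
      rw [← Real.rpow_natCast]
      exact Real.rpow_le_rpow_of_exponent_le hn1 (by norm_num)
    rw [e1]
    have e3 : Crat ≤ |Crat| := le_abs_self _
    have e4 : 0 ≤ |Crat| := abs_nonneg _
    calc 2 * Crat * (n : ℝ) ^ 2 ≤ 2 * |Crat| * (n : ℝ) ^ 2 := by gcongr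
      _ ≤ 2 * |Crat| * (n : ℝ) ^ (225 / 100 : ℝ) := by gcongr
  · have h4 : Tendsto (fun x : ℝ => x ^ (9 / 10 : ℝ)) atTop atTop :=
      tendsto_rpow_atTop (by norm_num)
    exact hc.eventually (h4.eventually_ge_atTop _)

set_option maxHeartbeats 2000000 in
theorem num5 (c1 Crat X : ℝ) (hc1 : 0 < c1) (hc1' : c1 ≤ 1) (hCrat : 1 ≤ Crat) (hX : 1 ≤ X) :
    Num5 c1 Crat X := by
  obtain ⟨n1, hn1⟩ := eventually_atTop.mp (ev_num c1 Crat hc1)
  obtain ⟨n2, hn2⟩ := B5E.level_facts X (20 / c1) hX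
  refine ⟨max n1 n2, fun n hn I h1 h2 => ?_⟩
  obtain ⟨b1, b2, b3, b4, b5⟩ := hn1 n ((le_max_left _ _).trans hn)
  obtain ⟨hRI, h600, h601, hK⟩ := hn2 n ((le_max_right _ _).trans hn) I h1 h2
  set c0 : ℝ := c1 / 400 with hc0
  have hc0p : 0 < c0 := by positivity
  set x := xl X I with hx
  set x' := xl X (I - Rst) with hx'
  have hx1 : 1 ≤ x := BaseN.one_le_xl hX I
  have hx1' : 1 ≤ x' := BaseN.one_le_xl hX _
  have hn3 : (3 : ℝ) ≤ n := by exact_mod_cast b1
  have hn0 : (0 : ℝ) < n := by linarith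
  have hlog1 : 1 ≤ Real.log n := by
    rw [Real.le_log_iff_exp_le (by linarith)]
    exact (Real.exp_one_lt_d9.le.trans (by norm_num)).trans hn3
  have hNN : NN n = n * Real.log n := rfl
  have hNNn : (n : ℝ) ≤ NN n := by rw [hNN]; nlinarith
  have hp9 : 0 < (n : ℝ) ^ (9 / 10 : ℝ) := by positivity
  have en : (n : ℝ) = (n : ℝ) ^ (9 / 10 : ℝ) * (n : ℝ) ^ (1 / 10 : ℝ) := by
    rw [← Real.rpow_add hn0]; norm_num
  set K : ℕ := 2 * kk X c0 n (I - Rst) with hKdef
  -- upper bound for `K`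
  have hkk : (kk X c0 n (I - Rst) : ℝ) ≤ c0 * NN n / x' + 1 := by
    unfold kk
    rw [← hx']
    exact (Nat.ceil_lt_add_one (by have : 0 < NN n := by linarith
                                   positivity)).le
  have hK1 : (K : ℝ) ≤ 1202 * c0 * NN n / x + 2 := by
    have e1 : c0 * NN n / x' ≤ 601 * c0 * NN n / x := by
      rw [div_le_div_iff₀ (by linarith) (by linarith)]
      have : 0 ≤ c0 * NN n := by have : 0 < NN n := by linarith
                                 positivity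
      nlinarith
    have e2 : (K : ℝ) = 2 * (kk X c0 n (I - Rst) : ℝ) := by rw [hKdef]; push_cast; ring
    rw [e2]
    have e3 : 1202 * c0 * NN n / x = 2 * (601 * c0 * NN n / x) := by ring
    linarith
  have hKx : (K : ℝ) * x ≤ 311 / 100 * c1 * NN n := by
    have e1 : (K : ℝ) * x ≤ (1202 * c0 * NN n / x + 2) * x := by
      apply mul_le_mul_of_nonneg_right hK1 (by linarith)
    have e2 : (1202 * c0 * NN n / x + 2) * x = 1202 * c0 * NN n + 2 * x := by
      field_simp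
    have e3 : 2 * x ≤ c1 / 10 * NN n := by
      have := mul_le_mul_of_nonneg_left hK (by positivity : (0:ℝ) ≤ c1 / 10)
      have e4 : c1 / 10 * (20 / c1 * x) = 2 * x := by field_simp; ring
      linarith
    have e5 : 1202 * c0 * NN n = 1202 / 400 * c1 * NN n := by rw [hc0]; ring
    have e6 : 0 ≤ c1 * NN n := by have : 0 < NN n := by linarith
                                  positivity
    nlinarith
  -- the quantity `R`
  have hτ := BaseN.tau_pos X I
  have hτ' := BaseN.tau_pos X (I + 1)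
  have hτ1 := B5E.tau_le_one X I
  have hτ1' := B5E.tau_le_one X (I + 1)
  set R : ℝ := Mb X Crat n I / tau X (I + 1) with hR
  have hRe : R = 2 * Crat * NN n * Real.exp x * (1 / tau X I) * (1 / tau X (I + 1)) := by
    rw [hR]; unfold Mb; rw [← hx]; field_simp
  have hNNp : 0 < NN n := by linarith
  have hR1 : 1 ≤ R := by
    have a1 : 1 ≤ 1 / tau X I := by rw [le_div_iff₀ hτ]; linarith
    have a2 : 1 ≤ 1 / tau X (I + 1) := by rw [le_div_iff₀ hτ']; linarith
    have a3 : 1 ≤ Real.exp x := Real.one_le_exp (by linarith)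
    have a4 : 1 ≤ 2 * Crat * NN n := by nlinarith
    rw [hRe]
    have a5 := one_le_mul_of_one_le_of_one_le a4 a3
    have a6 := one_le_mul_of_one_le_of_one_le a5 a1
    exact one_le_mul_of_one_le_of_one_le a6 a2
  have hRx : R ≤ Real.exp (101 / 100 * x) := by
    set A : ℝ := 9 / theta with hA
    have hA0 : 0 < A := by rw [hA]; have := BaseN.theta_pos; positivity
    have i1 : 1 / tau X I ≤ Real.exp (A * Real.sqrt x) := BaseN.inv_tau_le hX I
    have i2 : 1 / tau X (I + 1) ≤ Real.exp (2 * A * Real.sqrt x) := by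
      refine (BaseN.inv_tau_le hX (I + 1)).trans (Real.exp_le_exp.2 ?_)
      have e1 : Real.sqrt (xl X (I + 1)) ≤ 2 * Real.sqrt x := by
        rw [BaseN.xl_succ, ← hx]
        rw [show (2 : ℝ) * Real.sqrt x = Real.sqrt (4 * x) by
          rw [Real.sqrt_mul (by norm_num)]
          congr 1
          rw [show (4 : ℝ) = 2 ^ 2 by norm_num, Real.sqrt_sq (by norm_num)]]
        apply Real.sqrt_le_sqrt
        have := BaseN.theta_le
        nlinarith
      calc 9 / theta * Real.sqrt (xl X (I + 1)) ≤ 9 / theta * (2 * Real.sqrt x) := by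
            apply mul_le_mul_of_nonneg_left e1
            rw [← hA]; exact hA0.le
        _ = 2 * A * Real.sqrt x := by rw [← hA]; ring
    have hs0 : 0 ≤ Real.sqrt x := Real.sqrt_nonneg x
    have i3 : 2 * Crat * NN n ≤ Real.exp (Real.sqrt x) := by
      have e1 : NN n ≤ (n : ℝ) ^ 2 := by
        rw [hNN, sq]
        apply mul_le_mul_of_nonneg_left _ hn0.le
        exact (Real.log_le_sub_one_of_pos hn0).trans (by linarith)
      have e2 : (n : ℝ) ^ (45 / 100 : ℝ) ≤ Real.sqrt x := by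
        apply Real.le_sqrt_of_sq_le
        refine le_trans (le_of_eq ?_) h1
        rw [← Real.rpow_natCast, ← Real.rpow_mul hn0.le]; norm_num
      calc 2 * Crat * NN n ≤ 2 * Crat * (n : ℝ) ^ 2 := by gcongr
        _ ≤ _ := b4
        _ ≤ _ := Real.exp_le_exp.2 e2
    have i4 : (3 * A + 1) * Real.sqrt x ≤ 1 / 100 * x := by
      have e1 : 100 * (3 * A + 1) ≤ Real.sqrt x := by
        apply Real.le_sqrt_of_sq_le
        exact b5.trans h1
      have e2 : Real.sqrt x * Real.sqrt x = x := Real.mul_self_sqrt (by linarith)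
      nlinarith
    calc R = 2 * Crat * NN n * Real.exp x * (1 / tau X I) * (1 / tau X (I + 1)) := hRe
      _ ≤ Real.exp (Real.sqrt x) * Real.exp x * Real.exp (A * Real.sqrt x) *
          Real.exp (2 * A * Real.sqrt x) := by
          gcongr
      _ = Real.exp (x + (3 * A + 1) * Real.sqrt x) := by
          rw [← Real.exp_add, ← Real.exp_add, ← Real.exp_add]; ring_nf
      _ ≤ _ := Real.exp_le_exp.2 (by linarith)
  refine ⟨⌈(n : ℝ) ^ (2 / 100 : ℝ)⌉₊, ?_, ?_, ?_, ?_, hR1, ?_⟩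
  · exact Nat.one_le_iff_ne_zero.2 (Nat.ceil_pos.2 (by positivity)).ne'
  · push_cast
    have := Nat.le_ceil ((n : ℝ) ^ (2 / 100 : ℝ))
    linarith [(Nat.cast_nonneg _ : (0:ℝ) ≤ (⌈(n : ℝ) ^ (2 / 100 : ℝ)⌉₊ : ℝ))]
  · refine le_trans hK1 (le_trans ?_ b2)
    have e1 : 1202 * c0 * NN n / x ≤ 1202 * c0 * NN n / (n : ℝ) ^ (9 / 10 : ℝ) := by
      apply div_le_div_of_nonneg_left (by positivity) hp9 h1
    have e2 : 1202 * c0 * NN n / (n : ℝ) ^ (9 / 10 : ℝ) =
        1202 * c0 * ((n : ℝ) ^ (1 / 10 : ℝ) * Real.log n) := by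
      rw [div_eq_iff hp9.ne', hNN]
      calc 1202 * c0 * ((n : ℝ) * Real.log n)
          = 1202 * c0 * (((n : ℝ) ^ (9 / 10 : ℝ) * (n : ℝ) ^ (1 / 10 : ℝ)) * Real.log n) := by
            rw [← en]
        _ = _ := by ring
    linarith
  · have e0 : (⌈(n : ℝ) ^ (2 / 100 : ℝ)⌉₊ : ℝ) ≤ (n : ℝ) ^ (2 / 100 : ℝ) + 1 :=
      (Nat.ceil_lt_add_one (by positivity)).le
    have e1 : ((2 * ⌈(n : ℝ) ^ (2 / 100 : ℝ)⌉₊ * 16 : ℕ) : ℝ) ≤
        32 * ((n : ℝ) ^ (2 / 100 : ℝ) + 1) := by push_cast; linarith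
    refine e1.trans (b3.trans ?_)
    unfold sp
    rw [← hx', le_div_iff₀ (by linarith)]
    have e2 : x' ≤ (n : ℝ) ^ (9 / 10 : ℝ) / 300 := by linarith
    calc 18 * c0 * (n : ℝ) ^ (1 / 10 : ℝ) * x'
        ≤ 18 * c0 * (n : ℝ) ^ (1 / 10 : ℝ) * ((n : ℝ) ^ (9 / 10 : ℝ) / 300) := by gcongr
      _ = 18 / 300 * c0 * ((n : ℝ) ^ (9 / 10 : ℝ) * (n : ℝ) ^ (1 / 10 : ℝ)) := by ring
      _ = 18 / 300 * c0 * n := by rw [← en]
      _ ≤ c0 / 16 * NN n := by nlinarith
  · have hx0 : 0 ≤ x := by linarith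
    have hKn : 0 ≤ (K : ℝ) := Nat.cast_nonneg _
    have k1 : (K : ℝ) + 1 ≤ Real.exp (311 / 100 * c1 * NN n) := by
      have e1 : (K : ℝ) ≤ 311 / 100 * c1 * NN n := by nlinarith
      exact (Real.add_one_le_exp _).trans (Real.exp_le_exp.2 e1)
    have k2 : R ^ K ≤ Real.exp (101 / 100 * (311 / 100 * c1 * NN n)) := by
      calc R ^ K ≤ (Real.exp (101 / 100 * x)) ^ K := pow_le_pow_left₀ (by linarith) hRx K
        _ = Real.exp (101 / 100 * (K * x)) := by rw [← Real.exp_nat_mul]; ring_nf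
        _ ≤ _ := Real.exp_le_exp.2 (by linarith)
    have hR0 : 0 ≤ R ^ K := by positivity
    calc ((K : ℝ) + 1) * (Real.exp (c1 / 100 * n) ^ 16 * (R ^ K * Real.exp (-(c1 * NN n)) ^ 16))
        ≤ Real.exp (311 / 100 * c1 * NN n) * (Real.exp (c1 / 100 * n) ^ 16 *
          (Real.exp (101 / 100 * (311 / 100 * c1 * NN n)) * Real.exp (-(c1 * NN n)) ^ 16)) := by
          gcongr
      _ = Real.exp (311 / 100 * c1 * NN n + (16 * (c1 / 100 * n) +
          (101 / 100 * (311 / 100 * c1 * NN n) + 16 * (-(c1 * NN n))))) := by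
          rw [Real.exp_add, Real.exp_add, Real.exp_add, ← Real.exp_nat_mul, ← Real.exp_nat_mul]
          push_cast
          rfl
      _ ≤ Real.exp (-(c1 / 3 * NN n)) := by
          apply Real.exp_le_exp.2
          have e1 : c1 * n ≤ c1 * NN n := mul_le_mul_of_nonneg_left hNNn hc1.le
          have e2 : 0 < c1 * NN n := by positivity
          nlinarith

end B5C

theorem prf_B5 (hB0 : S_B0) (hB2 : S_B2) (hE3 : S_E3) (hG3 : S_G3) : S_B5 :=
  B5C.prf_B5_of hB0 hB2 hE3 hG3 fun c1 Crat hc1 hc1' hCrat =>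
    ⟨1, fun X hX => B5C.num5 c1 Crat X hc1 hc1' hCrat hX⟩

end Crest.Agent.R225
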