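import Crest.Agent.R225.Iface

/-!
Row 225, S0347, node BASE: `prf_Base : S_B3 → S_B4 → S_B5 → S_Base` (helper778).
-/

set_option autoImplicit false

open Finset MeasureTheory
open scoped BigOperators ENNReal

namespace Crest.Agent.R225
namespace BaseN

lemma theta_pos : 0 < theta := by unfold theta; norm_num

lemma theta_le : theta ≤ 1 := by unfold theta; norm_num

lemma xl_succ (X : ℝ) (i : ℕ) : xl X (i + 1) = xl X i * (1 + theta) := by
  unfold xl; ring

lemma one_le_xl {X : ℝ} (hX : 1 ≤ X) (i : ℕ) : 1 ≤ xl X i := by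
  unfold xl
  have h1 : (1 : ℝ) ≤ (1 + theta) ^ i := one_le_pow₀ (by linarith [theta_pos])
  nlinarith

lemma tau_pos (X : ℝ) (i : ℕ) : 0 < tau X i := by
  unfold tau lam; exact Finset.prod_pos (fun j _ => by positivity)

lemma al_pos (X : ℝ) (i : ℕ) : 0 < al X i := Real.exp_pos _

lemma sqrt_step {x : ℝ} (hx : 1 ≤ x) :
    9 / theta * Real.sqrt x + 3 * Real.sqrt x ≤ 9 / theta * Real.sqrt (x * (1 + theta)) := by
  have hθ := theta_pos
  have hx0 : 0 ≤ x := by linarith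
  rw [Real.sqrt_mul hx0]
  have h1 : 1 + theta / 3 ≤ Real.sqrt (1 + theta) := by
    apply Real.le_sqrt_of_sq_le
    have := theta_le
    nlinarith
  have hs : 0 ≤ Real.sqrt x := Real.sqrt_nonneg x
  have h2 : 9 / theta * (1 + theta / 3) = 9 / theta + 3 := by
    field_simp
    ring
  calc 9 / theta * Real.sqrt x + 3 * Real.sqrt x = (9 / theta * (1 + theta / 3)) * Real.sqrt x := by
        rw [h2]; ring
    _ ≤ (9 / theta * Real.sqrt (1 + theta)) * Real.sqrt x := by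
        apply mul_le_mul_of_nonneg_right _ hs
        apply mul_le_mul_of_nonneg_left h1 (by positivity)
    _ = _ := by ring

/-- `1/τ_i ≤ exp((9/θ) √x_i)` -/
lemma inv_tau_le {X : ℝ} (hX : 1 ≤ X) (i : ℕ) :
    1 / tau X i ≤ Real.exp (9 / theta * Real.sqrt (xl X i)) := by
  induction i with
  | zero =>
    have : tau X 0 = 1 := by simp [tau]
    rw [this]
    have h0 : 0 ≤ 9 / theta * Real.sqrt (xl X 0) := by
      have := theta_pos; positivity
    simpa using Real.one_le_exp h0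
  | succ i ih =>
    have hx := one_le_xl hX i
    have h1 : tau X (i + 1) = tau X i * (1 / (2 * (lam X i) ^ 2)) := by
      unfold tau; rw [Finset.prod_range_succ]
    have hl : 0 < lam X i := Real.exp_pos _
    have ht := tau_pos X i
    have h2 : 1 / tau X (i + 1) = (1 / tau X i) * (2 * (lam X i) ^ 2) := by
      rw [h1]; field_simp
    rw [h2]
    have hs1 : 1 ≤ Real.sqrt (xl X i) := by
      rw [Real.one_le_sqrt]; exact hx
    have h3 : 2 * (lam X i) ^ 2 ≤ Real.exp (3 * Real.sqrt (xl X i)) := by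
      have e1 : (2 : ℝ) ≤ Real.exp (Real.sqrt (xl X i)) := by
        have := Real.add_one_le_exp (Real.sqrt (xl X i)); linarith
      have e2 : (lam X i) ^ 2 = Real.exp (2 * Real.sqrt (xl X i)) := by
        unfold lam; rw [← Real.exp_nat_mul]; norm_num
      have e3 : Real.exp (3 * Real.sqrt (xl X i)) =
          Real.exp (Real.sqrt (xl X i)) * Real.exp (2 * Real.sqrt (xl X i)) := by
        rw [← Real.exp_add]; ring_nf
      rw [e2, e3]
      exact mul_le_mul_of_nonneg_right e1 (Real.exp_pos _).le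
    calc (1 / tau X i) * (2 * (lam X i) ^ 2)
        ≤ Real.exp (9 / theta * Real.sqrt (xl X i)) * Real.exp (3 * Real.sqrt (xl X i)) := by
          apply mul_le_mul ih h3 (by positivity) (Real.exp_pos _).le
      _ = Real.exp (9 / theta * Real.sqrt (xl X i) + 3 * Real.sqrt (xl X i)) := by
          rw [Real.exp_add]
      _ ≤ Real.exp (9 / theta * Real.sqrt (xl X (i + 1))) := by
          rw [xl_succ]; exact Real.exp_le_exp.mpr (sqrt_step hx)

open Filter in
/-- asymptotics: `A exp(K √(2 n^0.9) - √n) ≤ ε` for large `n` -/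
lemma small_exp (A K ε : ℝ) (hA : 0 ≤ A) (hε : 0 < ε) : ∃ n0 : ℕ, ∀ n : ℕ, n0 ≤ n →
    A * Real.exp (K * Real.sqrt (2 * (n : ℝ) ^ (9 / 10 : ℝ)) - (n : ℝ) ^ (1 / 2 : ℝ)) ≤ ε := by
  -- pass to `n^(9/20) * (n^(1/20) - c)`
  set c : ℝ := |K| * Real.sqrt 2 with hc
  have hc0 : 0 ≤ c := by positivity
  have t1 : Tendsto (fun n : ℕ => (n : ℝ) ^ (1 / 20 : ℝ)) atTop atTop :=
    (tendsto_rpow_atTop (by norm_num)).comp tendsto_natCast_atTop_atTop
  have t2 : Tendsto (fun n : ℕ => (n : ℝ) ^ (9 / 20 : ℝ)) atTop atTop :=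
    (tendsto_rpow_atTop (by norm_num)).comp tendsto_natCast_atTop_atTop
  obtain ⟨L, hL⟩ : ∃ L : ℝ, A * Real.exp (-L) ≤ ε := by
    rcases eq_or_lt_of_le hA with h | h
    · exact ⟨0, by rw [← h]; simpa using hε.le⟩
    · refine ⟨-Real.log (ε / A), ?_⟩
      rw [neg_neg, Real.exp_log (by positivity)]
      rw [mul_div_cancel₀ _ h.ne']
  have ev : ∀ᶠ n : ℕ in atTop, c + 1 ≤ (n : ℝ) ^ (1 / 20 : ℝ) ∧ max L 1 ≤ (n : ℝ) ^ (9 / 20 : ℝ) :=
    (t1.eventually_ge_atTop _).and (t2.eventually_ge_atTop _)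
  obtain ⟨n0, hn0⟩ := eventually_atTop.mp ev
  refine ⟨n0, fun n hn => ?_⟩
  obtain ⟨h1, h2⟩ := hn0 n hn
  have hn' : (0 : ℝ) ≤ (n : ℝ) := Nat.cast_nonneg n
  have e1 : Real.sqrt (2 * (n : ℝ) ^ (9 / 10 : ℝ)) = Real.sqrt 2 * (n : ℝ) ^ (9 / 20 : ℝ) := by
    rw [Real.sqrt_mul (by norm_num)]
    congr 1
    rw [Real.sqrt_eq_rpow, ← Real.rpow_mul hn']
    norm_num
  have hn1 : 0 < (n : ℝ) := by
    rcases Nat.eq_zero_or_pos n with h | h
    · subst h
      have : (0 : ℝ) ^ (1 / 20 : ℝ) = 0 := Real.zero_rpow (by norm_num)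
      simp only [Nat.cast_zero] at h1
      rw [this] at h1
      linarith
    · exact_mod_cast h
  have e2 : (n : ℝ) ^ (1 / 2 : ℝ) = (n : ℝ) ^ (9 / 20 : ℝ) * (n : ℝ) ^ (1 / 20 : ℝ) := by
    rw [← Real.rpow_add hn1]; norm_num
  have hp : 0 ≤ (n : ℝ) ^ (9 / 20 : ℝ) := by positivity
  have key : K * Real.sqrt (2 * (n : ℝ) ^ (9 / 10 : ℝ)) - (n : ℝ) ^ (1 / 2 : ℝ) ≤ -L := by
    rw [e1, e2]
    have k1 : K * (Real.sqrt 2 * (n : ℝ) ^ (9 / 20 : ℝ)) ≤ c * (n : ℝ) ^ (9 / 20 : ℝ) := by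
      rw [hc, ← mul_assoc]
      apply mul_le_mul_of_nonneg_right _ hp
      apply mul_le_mul_of_nonneg_right (le_abs_self K) (Real.sqrt_nonneg _)
    have k2 : (n : ℝ) ^ (9 / 20 : ℝ) * (c + 1) ≤ (n : ℝ) ^ (9 / 20 : ℝ) * (n : ℝ) ^ (1 / 20 : ℝ) :=
      mul_le_mul_of_nonneg_left h1 hp
    have k3 : L ≤ (n : ℝ) ^ (9 / 20 : ℝ) := le_trans (le_max_left _ _) h2
    linarith
  calc A * Real.exp (K * Real.sqrt (2 * (n : ℝ) ^ (9 / 10 : ℝ)) - (n : ℝ) ^ (1 / 2 : ℝ))
      ≤ A * Real.exp (-L) := mul_le_mul_of_nonneg_left (Real.exp_le_exp.mpr key) hA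
    _ ≤ ε := hL

open Filter in
lemma NN_large (M : ℝ) : ∃ n0 : ℕ, ∀ n : ℕ, n0 ≤ n → M ≤ NN n := by
  have t : Tendsto (fun n : ℕ => NN n) atTop atTop := by
    unfold NN
    exact Tendsto.atTop_mul_atTop₀ tendsto_natCast_atTop_atTop
      (Real.tendsto_log_atTop.comp tendsto_natCast_atTop_atTop)
  obtain ⟨n0, h⟩ := eventually_atTop.mp (t.eventually_ge_atTop M)
  exact ⟨n0, h⟩

lemma NN_nonneg (n : ℕ) : 0 ≤ NN n := by
  unfold NN
  exact mul_nonneg (Nat.cast_nonneg n) (Real.log_natCast_nonneg n)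

end BaseN

open BaseN

open scoped Classical in
/-- deterministic part -/
theorem base_det {P n m I : ℕ} [NeZero P] {X c1 Crat α0 : ℝ} {G : Finset (Pt m)}
    {w : Pt m → List (ZMod P) → ℝ} (hctx : BaseCtx P n m I X c1 Crat α0 G w)
    (hCrat : 1 ≤ Crat) (hsmall : 2 * Crat * (1 / tau X I) * Real.exp (-(n : ℝ) ^ (1 / 2 : ℝ)) ≤ 3 / 20)
    (r : Row P m)
    (h3 : |Stot w G [r] - Stot w G []| ≤ 1 / 10 * Stot w G [])
    (G' : Finset (Pt m)) (hG' : G' ⊆ alive w G [r])
    (hcard : ((alive w G [r] \ G').card : ℝ) ≤ Mb X Crat n I * Real.exp (-(n : ℝ) ^ (1 / 2 : ℝ)))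
    (hno : NoRelInf G' (sp X (c1 / 400) n (I - Rst)))
    (h5 : ∀ G' ⊆ alive w G [r], (G'.card : ℝ) ≤ Mb X Crat n I →
        NoRelInf G' (sp X (c1 / 400) n (I - Rst)) →
        (∀ Z ⊆ G', Z.card ≤ 2 * kk X (c1 / 400) n (I - Rst) → ¬ RkGeInf Z 16) ∧
        (En (kk X (c1 / 400) n I) G' : ℝ) ≤ Mb X Crat n I ^ (2 * kk X (c1 / 400) n I) *
          Real.exp (-(9 / 10 * (c1 / 400) * NN n))) :
    GoodStart n m I (n ^ 16) X (c1 / 400) Crat G' (shiftw w r) := by
  have hτ := tau_pos X I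
  have hα := al_pos X I
  -- weights after one row
  have hlen : ∀ g : Pt m, (hist [r] g).length = 1 := fun g => by simp [hist]
  have hw0 : ∀ g : Pt m, wt w [r] g = 0 ∨
      (tau X I * al X I ≤ wt w [r] g ∧ wt w [r] g ≤ al X I) := by
    intro g
    have := hctx.hw.rng g (hist [r] g) (by rw [hlen]; omega)
    rw [hlen] at this
    simpa [tauf, alf, wt] using this
  have hwn : ∀ g : Pt m, 0 ≤ wt w [r] g := by
    intro g
    rcases hw0 g with h | h
    · rw [h]
    · exact le_trans (by positivity) h.1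
  have hshift : ∀ g : Pt m, shiftw w r g [] = wt w [r] g := by
    intro g; simp [shiftw, wt, hist]
  have hS0 : Stot w G [] = ∑ g ∈ G, w g [] := by simp [Stot, wt, hist]
  have hS1 : Stot w G [r] = ∑ g ∈ alive w G [r], wt w [r] g := by
    unfold Stot alive
    rw [Finset.sum_filter]
    refine Finset.sum_congr rfl (fun g _ => ?_)
    split_ifs with h
    · rfl
    · exact le_antisymm (not_lt.mp h) (hwn g)
  have hlow := hctx.lower
  have hupp := hctx.upper
  have habs := abs_le.mp h3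
  rw [hS0] at habs
  have hEX : 0 ≤ Real.exp X * NN n := mul_nonneg (Real.exp_pos _).le (NN_nonneg n)
  set S1 := Stot w G [r] with hS1def
  have hS1u : S1 ≤ 11 / 10 * (Crat * Real.exp X * NN n) := by linarith [habs.2]
  have hS1l : 9 / 10 * (Real.exp X * NN n) ≤ S1 := by linarith [habs.1]
  have hexp : Real.exp (xl X I) * al X I = Real.exp X := by
    unfold al; rw [← Real.exp_add]; ring_nf
  -- cardinality of the alive set
  have hcardal : ((alive w G [r]).card : ℝ) ≤ Mb X Crat n I := by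
    have h1 : ((alive w G [r]).card : ℝ) * (tau X I * al X I) ≤ S1 := by
      rw [hS1, ← nsmul_eq_mul]
      apply Finset.card_nsmul_le_sum
      intro g hg
      rcases hw0 g with h | h
      · have := (Finset.mem_filter.mp hg).2; rw [h] at this; exact absurd this (lt_irrefl _)
      · exact h.1
    have h2 : Mb X Crat n I * (tau X I * al X I) = 2 * (Crat * Real.exp X * NN n) := by
      unfold Mb
      rw [← hexp]; field_simp
    have h3' : ((alive w G [r]).card : ℝ) * (tau X I * al X I) ≤ Mb X Crat n I * (tau X I * al X I) := by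
      rw [h2]
      have : 0 ≤ Crat * Real.exp X * NN n := by
        have := NN_nonneg n; positivity
      linarith
    exact le_of_mul_le_mul_right h3' (by positivity)
  have hcardG' : (G'.card : ℝ) ≤ Mb X Crat n I :=
    le_trans (by exact_mod_cast Finset.card_le_card hG') hcardal
  obtain ⟨hrank, hen⟩ := h5 G' hG' hcardG' hno
  -- the sum over `G'`
  have hsum : ∑ g ∈ G', shiftw w r g [] = ∑ g ∈ G', wt w [r] g :=
    Finset.sum_congr rfl (fun g _ => hshift g)
  have hsplit : ∑ g ∈ alive w G [r] \ G', wt w [r] g + ∑ g ∈ G', wt w [r] g = S1 := by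
    rw [hS1]; exact Finset.sum_sdiff hG'
  have hlost : ∑ g ∈ alive w G [r] \ G', wt w [r] g ≤ 3 / 20 * (Real.exp X * NN n) := by
    have h1 : ∑ g ∈ alive w G [r] \ G', wt w [r] g ≤ ((alive w G [r] \ G').card : ℝ) * al X I := by
      rw [← nsmul_eq_mul]
      apply Finset.sum_le_card_nsmul
      intro g _
      rcases hw0 g with h | h
      · rw [h]; exact hα.le
      · exact h.2
    have h2 : ((alive w G [r] \ G').card : ℝ) * al X I ≤
        Mb X Crat n I * Real.exp (-(n : ℝ) ^ (1 / 2 : ℝ)) * al X I :=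
      mul_le_mul_of_nonneg_right hcard hα.le
    have h4 : Mb X Crat n I * Real.exp (-(n : ℝ) ^ (1 / 2 : ℝ)) * al X I =
        (2 * Crat * (1 / tau X I) * Real.exp (-(n : ℝ) ^ (1 / 2 : ℝ))) * (Real.exp X * NN n) := by
      unfold Mb; rw [← hexp]; ring
    rw [h4] at h2
    exact le_trans h1 (le_trans h2 (mul_le_mul_of_nonneg_right hsmall hEX))
  have hlost0 : 0 ≤ ∑ g ∈ alive w G [r] \ G', wt w [r] g := Finset.sum_nonneg (fun g _ => hwn g)
  refine ⟨?_, ?_, ?_, ?_, hno, hrank, hen⟩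
  · obtain ⟨g0, hg0⟩ := hctx.grid.box
    exact ⟨g0, fun g hg => hg0 g (Finset.mem_filter.mp (hG' hg)).1⟩
  · intro g hg
    rw [hshift]; exact (Finset.mem_filter.mp (hG' hg)).2
  · rw [hsum]; nlinarith
  · rw [hsum]
    have : 0 ≤ Crat * Real.exp X * NN n := by
      have := NN_nonneg n; positivity
    nlinarith

open scoped Classical in
theorem prf_Base : S_B3 → S_B4 → S_B5 → S_Base := by
  intro h3 h4 h5 c1 Crat hc1 hc1' hCrat
  obtain ⟨X3, h3⟩ := h3 c1 Crat hc1 hc1' hCrat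
  obtain ⟨X4, h4⟩ := h4 c1 Crat hc1 hc1' hCrat
  obtain ⟨X5, h5⟩ := h5 c1 Crat hc1 hc1' hCrat
  refine ⟨max (max X3 X4) (max X5 1), fun X hX => ?_⟩
  have hX3 : X3 ≤ X := le_trans (le_trans (le_max_left _ _) (le_max_left _ _)) hX
  have hX4 : X4 ≤ X := le_trans (le_trans (le_max_right _ _) (le_max_left _ _)) hX
  have hX5 : X5 ≤ X := le_trans (le_trans (le_max_left _ _) (le_max_right _ _)) hX
  have hX1 : 1 ≤ X := le_trans (le_trans (le_max_right _ _) (le_max_right _ _)) hX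
  obtain ⟨n3, h3⟩ := h3 X hX3
  obtain ⟨n4, h4⟩ := h4 X hX4
  obtain ⟨n5, h5⟩ := h5 X hX5
  obtain ⟨n6, h6⟩ := small_exp (2 * Crat) (9 / theta) (3 / 20) (by linarith) (by norm_num)
  obtain ⟨n7, h7⟩ := NN_large (24 / c1)
  refine ⟨max (max n3 n4) (max n5 (max n6 n7)), fun n hn m I hI1 hI2 hm1 hm2 G => ?_⟩
  have hn3 : n3 ≤ n := le_trans (le_trans (le_max_left _ _) (le_max_left _ _)) hn
  have hn4 : n4 ≤ n := le_trans (le_trans (le_max_right _ _) (le_max_left _ _)) hn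
  have hn5 : n5 ≤ n := le_trans (le_trans (le_max_left _ _) (le_max_right _ _)) hn
  have hn6 : n6 ≤ n := le_trans (le_trans (le_trans (le_max_left _ _) (le_max_right _ _))
    (le_max_right _ _)) hn
  have hn7 : n7 ≤ n := le_trans (le_trans (le_trans (le_max_right _ _) (le_max_right _ _))
    (le_max_right _ _)) hn
  obtain ⟨P3, h3⟩ := h3 n hn3 m I hI1 hI2 hm1 hm2 G
  obtain ⟨P4, h4⟩ := h4 n hn4 m I hI1 hI2 hm1 hm2 G
  obtain ⟨P5, h5⟩ := h5 n hn5 m I hI1 hI2 hm1 hm2 G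
  refine ⟨max P3 (max P4 P5), fun P hP => ?_⟩
  intro inst α0 w hctx
  have h3 := @h3 P (le_trans (le_max_left _ _) hP) inst α0 w hctx
  have h4 := @h4 P (le_trans (le_trans (le_max_left _ _) (le_max_right _ _)) hP) inst α0 w hctx
  have h5 := @h5 P (le_trans (le_trans (le_max_right _ _) (le_max_right _ _)) hP) inst α0 w hctx
  -- smallness
  have hsmall : 2 * Crat * (1 / tau X I) * Real.exp (-(n : ℝ) ^ (1 / 2 : ℝ)) ≤ 3 / 20 := by
    have e1 := inv_tau_le hX1 I
    have e2 : Real.sqrt (xl X I) ≤ Real.sqrt (2 * (n : ℝ) ^ (9 / 10 : ℝ)) := Real.sqrt_le_sqrt hI2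
    have hθ := theta_pos
    have e3 : Real.exp (9 / theta * Real.sqrt (xl X I)) ≤
        Real.exp (9 / theta * Real.sqrt (2 * (n : ℝ) ^ (9 / 10 : ℝ))) :=
      Real.exp_le_exp.mpr (mul_le_mul_of_nonneg_left e2 (by positivity))
    calc 2 * Crat * (1 / tau X I) * Real.exp (-(n : ℝ) ^ (1 / 2 : ℝ))
        ≤ 2 * Crat * Real.exp (9 / theta * Real.sqrt (2 * (n : ℝ) ^ (9 / 10 : ℝ))) *
            Real.exp (-(n : ℝ) ^ (1 / 2 : ℝ)) := by
          apply mul_le_mul_of_nonneg_right _ (Real.exp_pos _).le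
          exact mul_le_mul_of_nonneg_left (le_trans e1 e3) (by linarith)
      _ = 2 * Crat * Real.exp (9 / theta * Real.sqrt (2 * (n : ℝ) ^ (9 / 10 : ℝ)) -
            (n : ℝ) ^ (1 / 2 : ℝ)) := by
          rw [mul_assoc, ← Real.exp_add]; ring_nf
      _ ≤ 3 / 20 := h6 n hn6
  -- union bound
  have hexp3 : 3 * Real.exp (-(c1 / 3 * NN n)) ≤ Real.exp (-(c1 / 4 * NN n)) := by
    have e0 : 24 / c1 ≤ NN n := h7 n hn7
    have e1 : 2 ≤ c1 / 12 * NN n := by
      have : c1 / 12 * (24 / c1) ≤ c1 / 12 * NN n := mul_le_mul_of_nonneg_left e0 (by positivity)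
      have e : c1 / 12 * (24 / c1) = 2 := by field_simp; norm_num
      linarith
    have e2 : (3 : ℝ) ≤ Real.exp (c1 / 12 * NN n) := by
      have := Real.add_one_le_exp (c1 / 12 * NN n); linarith
    have e3 : Real.exp (-(c1 / 4 * NN n)) =
        Real.exp (c1 / 12 * NN n) * Real.exp (-(c1 / 3 * NN n)) := by
      rw [← Real.exp_add]; ring_nf
    rw [e3]
    exact mul_le_mul_of_nonneg_right e2 (Real.exp_pos _).le
  refine le_trans ?_ hexp3
  have hsum := add_le_add (add_le_add h3 h4) h5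
  have e : Real.exp (-(c1 / 3 * NN n)) + Real.exp (-(c1 / 3 * NN n)) +
      Real.exp (-(c1 / 3 * NN n)) = 3 * Real.exp (-(c1 / 3 * NN n)) := by ring
  rw [e] at hsum
  refine le_trans ?_ hsum
  rw [← Finset.expect_add_distrib, ← Finset.expect_add_distrib]
  apply Finset.expect_le_expect
  intro r _
  by_cases c3 : |Stot w G [r] - Stot w G []| ≤ 1 / 10 * Stot w G []
  · by_cases c4 : ∃ G' ⊆ alive w G [r],
        ((alive w G [r] \ G').card : ℝ) ≤ Mb X Crat n I * Real.exp (-(n : ℝ) ^ (1 / 2 : ℝ)) ∧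
        NoRelInf G' (sp X (c1 / 400) n (I - Rst))
    · by_cases c5 : ∀ G' ⊆ alive w G [r], (G'.card : ℝ) ≤ Mb X Crat n I →
        NoRelInf G' (sp X (c1 / 400) n (I - Rst)) →
        (∀ Z ⊆ G', Z.card ≤ 2 * kk X (c1 / 400) n (I - Rst) → ¬ RkGeInf Z 16) ∧
        (En (kk X (c1 / 400) n I) G' : ℝ) ≤ Mb X Crat n I ^ (2 * kk X (c1 / 400) n I) *
          Real.exp (-(9 / 10 * (c1 / 400) * NN n))
      · have hgood : ∃ G' ⊆ alive w G [r],
            GoodStart n m I (n ^ 16) X (c1 / 400) Crat G' (shiftw w r) := by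
          obtain ⟨G', hG', hcard, hno⟩ := c4
          exact ⟨G', hG', base_det hctx hCrat hsmall r c3 G' hG' hcard hno c5⟩
        rw [if_pos hgood]
        split_ifs <;> norm_num
      · rw [if_neg c5]
        split_ifs <;> norm_num
    · rw [if_neg c4]
      split_ifs <;> norm_num
  · rw [if_neg c3]
    split_ifs <;> norm_num

end Crest.Agent.R225
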