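import Crest.Agent.R225.Defs

/-!
# Finite Fourier analysis for one random row `(c, ψ) ∈ ZMod P × (ZMod P)^m` (helper413)

`Row P m = ZMod P × (Fin m → ZMod P)`; `pair w b` is the standard bilinear form, `hom g = (1, g mod P)`,
`lin g = (0, g mod P)`, `res w g = w.1 + ∑ ψ i * g i = pair w (hom g)`.

* `sum_char_pair`  : orthogonality;
* `expand`         : expectation of a product of trigonometric polynomials = sum over relations;
* `moment_eq`, `moment_mono`, `moment_count` : even moments and relation counts, monotonicity;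
* `sum_smul`       : invariance under multiplication of the row by a unit;
* `count_rel_le`   : Hölder bound for the number of solutions of one relation;
* `relation_int_iff` : relations mod `P` are integer relations if `P` is large.
-/

set_option autoImplicit false

namespace Crest.Agent.R225.Four

open Finset ZMod

/-- the standard bilinear form -/
def pair {P m : ℕ} (w b : Row P m) : ZMod P := w.1 * b.1 + ∑ i, w.2 i * b.2 i

/-- homogenised atom -/
def hom (P : ℕ) {m : ℕ} (g : Pt m) : Row P m := (1, fun i => (g i : ZMod P))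

/-- reduction mod `P` (no constant coordinate) -/
def lin (P : ℕ) {m : ℕ} (g : Pt m) : Row P m := (0, fun i => (g i : ZMod P))

section basic

variable {P m : ℕ}

lemma res_eq_pair (w : Row P m) (g : Pt m) : res w g = pair w (hom P g) := by
  simp [res, pair, hom]

lemma pair_add_right (w b b' : Row P m) : pair w (b + b') = pair w b + pair w b' := by
  simp only [pair, Prod.fst_add, Prod.snd_add, Pi.add_apply, mul_add, sum_add_distrib]; ring

lemma pair_add_left (w w' b : Row P m) : pair (w + w') b = pair w b + pair w' b := by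
  simp only [pair, Prod.fst_add, Prod.snd_add, Pi.add_apply, add_mul, sum_add_distrib]; ring

lemma pair_comm (w b : Row P m) : pair w b = pair b w := by
  simp only [pair, mul_comm]

@[simp] lemma pair_zero_right (w : Row P m) : pair w 0 = 0 := by simp [pair]

@[simp] lemma pair_zero_left (w : Row P m) : pair 0 w = 0 := by simp [pair]

lemma pair_smul_right (k : ZMod P) (w b : Row P m) : pair w (k • b) = k * pair w b := by
  simp only [pair, Prod.smul_fst, Prod.smul_snd, Pi.smul_apply, smul_eq_mul, mul_add, mul_sum]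
  congr 1
  · ring
  · exact sum_congr rfl fun i _ => by ring

lemma pair_smul_left (k : ZMod P) (w b : Row P m) : pair (k • w) b = k * pair w b := by
  rw [pair_comm, pair_smul_right, pair_comm]

lemma pair_neg_right (w b : Row P m) : pair w (-b) = -pair w b := by
  have := pair_add_right w b (-b)
  rw [add_neg_cancel, pair_zero_right] at this
  exact eq_neg_of_add_eq_zero_right this.symm

lemma pair_sub_right (w b b' : Row P m) : pair w (b - b') = pair w b - pair w b' := by
  rw [sub_eq_add_neg, pair_add_right, pair_neg_right, sub_eq_add_neg]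

lemma pair_sum_right {ι : Type*} (s : Finset ι) (w : Row P m) (b : ι → Row P m) :
    pair w (∑ a ∈ s, b a) = ∑ a ∈ s, pair w (b a) := by
  classical
  induction s using Finset.induction_on with
  | empty => simp
  | insert a s ha ih => rw [sum_insert ha, sum_insert ha, pair_add_right, ih]

lemma pair_eq_zero_iff (b : Row P m) : (∀ w : Row P m, pair w b = 0) ↔ b = 0 := by
  constructor
  · intro h
    have h1 := h (1, 0)
    simp [pair] at h1
    refine Prod.ext h1 (funext fun j => ?_)
    have h2 := h (0, Pi.single j 1)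
    simp only [pair, zero_mul, zero_add] at h2
    rw [sum_eq_single j] at h2
    · simpa using h2
    · intro i _ hij; simp [Pi.single_eq_of_ne hij]
    · intro hj; exact absurd (mem_univ j) hj
  · rintro rfl w; simp

end basic

variable {P : ℕ} [NeZero P] {m : ℕ}

/-- `e(x)` -/
noncomputable abbrev ee (x : ZMod P) : ℂ := (stdAddChar x : ℂ)

lemma ee_add (x y : ZMod P) : ee (x + y) = ee x * ee y := AddChar.map_add_eq_mul _ _ _

lemma ee_zero : ee (0 : ZMod P) = 1 := AddChar.map_zero_eq_one _

lemma norm_ee (x : ZMod P) : ‖ee x‖ = 1 := by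
  unfold ee; rw [stdAddChar_apply]; exact Circle.norm_coe _

lemma conj_ee (x : ZMod P) : (starRingEnd ℂ) (ee x) = ee (-x) := by
  unfold ee
  rw [stdAddChar_apply, stdAddChar_apply, ← Circle.coe_inv_eq_conj, AddChar.map_neg_eq_inv]

lemma ee_sum {ι : Type*} (s : Finset ι) (f : ι → ZMod P) : ee (∑ a ∈ s, f a) = ∏ a ∈ s, ee (f a) := by
  classical
  induction s using Finset.induction_on with
  | empty => simp [ee_zero]
  | insert a s ha ih => rw [sum_insert ha, prod_insert ha, ee_add, ih]

/-- The additive character of the space of rows attached to `b`. -/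
noncomputable def rowChar (b : Row P m) : AddChar (Row P m) ℂ where
  toFun w := ee (pair w b)
  map_zero_eq_one' := by simp [ee_zero]
  map_add_eq_mul' w w' := by rw [pair_add_left, ee_add]

lemma rowChar_apply (b w : Row P m) : rowChar b w = ee (pair w b) := rfl

lemma rowChar_eq_zero_iff (b : Row P m) : rowChar b = 0 ↔ b = 0 := by
  rw [← pair_eq_zero_iff, DFunLike.ext_iff]
  refine forall_congr' fun w => ?_
  rw [rowChar_apply, AddChar.zero_apply]
  constructor
  · intro h
    have : (stdAddChar (pair w b) : ℂ) = stdAddChar (0 : ZMod P) := by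
      have h' : (stdAddChar (pair w b) : ℂ) = 1 := h
      rw [h', AddChar.map_zero_eq_one]
    exact injective_stdAddChar this
  · intro h; rw [h, ee_zero]

lemma card_row : Fintype.card (Row P m) = P ^ (m + 1) := by
  rw [Fintype.card_prod, ZMod.card, Fintype.card_fun, ZMod.card, Fintype.card_fin, pow_succ']

/-- Orthogonality. -/
theorem sum_char_pair (b : Row P m) :
    ∑ w : Row P m, ee (pair w b) = if b = 0 then (P : ℂ) ^ (m + 1) else 0 := by
  classical
  have h := AddChar.sum_eq_ite (rowChar b)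
  simp only [rowChar_apply] at h
  rw [h]
  by_cases hb : b = 0
  · rw [if_pos hb, if_pos ((rowChar_eq_zero_iff b).2 hb), card_row]; push_cast; rfl
  · rw [if_neg hb, if_neg (fun h => hb ((rowChar_eq_zero_iff b).1 h))]

/-- Expectation of a product of trigonometric polynomials. -/
theorem expand {ι : Type*} [Fintype ι] [DecidableEq ι] (K : ι → Finset ℤ) (C : ι → ℤ → ℂ)
    (b : ι → Row P m) :
    ∑ w : Row P m, ∏ a, ∑ k ∈ K a, C a k * ee ((k : ZMod P) * pair w (b a)) =
      (P : ℂ) ^ (m + 1) *
        ∑ k ∈ Fintype.piFinset K with (∑ a, (k a : ZMod P) • b a = 0), ∏ a, C a (k a) := by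
  have h1 : ∀ w : Row P m, ∏ a, ∑ k ∈ K a, C a k * ee ((k : ZMod P) * pair w (b a)) =
      ∑ k ∈ Fintype.piFinset K, (∏ a, C a (k a)) * ee (pair w (∑ a, (k a : ZMod P) • b a)) := by
    intro w
    rw [prod_univ_sum]
    refine sum_congr rfl fun k _ => ?_
    rw [prod_mul_distrib, pair_sum_right, ee_sum]
    congr 1
    refine prod_congr rfl fun a _ => ?_
    rw [pair_smul_right]
  rw [sum_congr rfl fun w _ => h1 w, sum_comm, mul_sum, sum_filter]
  refine sum_congr rfl fun k _ => ?_
  rw [← mul_sum, sum_char_pair]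
  split_ifs with h
  · ring
  · ring

/-- Invariance under multiplication of the row by a unit. -/
theorem sum_smul {M : Type*} [AddCommMonoid M] (k : (ZMod P)ˣ) (f : Row P m → M) :
    ∑ w : Row P m, f ((k : ZMod P) • w) = ∑ w, f w :=
  Fintype.sum_equiv (MulAction.toPerm k) _ _ fun w => rfl

section moments

variable {α : Type*}

/-- Exponential sum over `W` with weights `u`. -/
noncomputable def S (W : Finset α) (b : α → Row P m) (u : α → ℂ) (w : Row P m) : ℂ :=
  ∑ g ∈ W, u g * ee (pair w (b g))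

lemma S_pow (W : Finset α) (b : α → Row P m) (u : α → ℂ) (w : Row P m) (s : ℕ) :
    S W b u w ^ s = ∑ x ∈ Fintype.piFinset (fun _ : Fin s => W),
      (∏ i, u (x i)) * ee (pair w (∑ i, b (x i))) := by
  classical
  unfold S
  rw [← Fin.prod_const, prod_univ_sum]
  refine sum_congr rfl fun x _ => ?_
  rw [prod_mul_distrib, pair_sum_right, ee_sum]

lemma conj_S_pow (W : Finset α) (b : α → Row P m) (u : α → ℂ) (w : Row P m) (s : ℕ) :
    (starRingEnd ℂ) (S W b u w ^ s) = ∑ x ∈ Fintype.piFinset (fun _ : Fin s => W),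
      (∏ i, (starRingEnd ℂ) (u (x i))) * ee (-pair w (∑ i, b (x i))) := by
  rw [S_pow, map_sum]
  refine sum_congr rfl fun x _ => ?_
  rw [map_mul, map_prod, conj_ee]

/-- Even moments. -/
theorem moment_eq [DecidableEq α] (W : Finset α) (b : α → Row P m) (u : α → ℂ) (s : ℕ) :
    ((∑ w : Row P m, ‖S W b u w‖ ^ (2 * s) : ℝ) : ℂ) = (P : ℂ) ^ (m + 1) *
      ∑ p ∈ (Fintype.piFinset (fun _ : Fin s => W)) ×ˢ (Fintype.piFinset (fun _ : Fin s => W))
        with (∑ i, b (p.1 i) = ∑ i, b (p.2 i)),
        (∏ i, u (p.1 i)) * ∏ i, (starRingEnd ℂ) (u (p.2 i)) := by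
  have h1 : ∀ w : Row P m, ((‖S W b u w‖ ^ (2 * s) : ℝ) : ℂ) =
      ∑ p ∈ (Fintype.piFinset (fun _ : Fin s => W)) ×ˢ (Fintype.piFinset (fun _ : Fin s => W)),
        ((∏ i, u (p.1 i)) * ∏ i, (starRingEnd ℂ) (u (p.2 i))) *
          ee (pair w (∑ i, b (p.1 i) - ∑ i, b (p.2 i))) := by
    intro w
    have h2 : ((‖S W b u w‖ ^ (2 * s) : ℝ) : ℂ) = S W b u w ^ s * (starRingEnd ℂ) (S W b u w ^ s) := by
      rw [Complex.mul_conj, Complex.normSq_eq_norm_sq, norm_pow]
      push_cast
      rw [← pow_mul, mul_comm s 2]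
    rw [h2, conj_S_pow, S_pow, sum_mul_sum, sum_product]
    refine sum_congr rfl fun x _ => sum_congr rfl fun y _ => ?_
    rw [pair_sub_right, sub_eq_add_neg, ee_add]
    ring
  push_cast at h1 ⊢
  rw [sum_congr rfl fun w _ => h1 w, sum_comm, mul_sum, sum_filter]
  refine sum_congr rfl fun p _ => ?_
  rw [← mul_sum, sum_char_pair]
  simp only [sub_eq_zero]
  split_ifs with h
  · ring
  · ring

/-- Even moments with real weights. -/
theorem moment_real [DecidableEq α] (W : Finset α) (b : α → Row P m) (v : α → ℝ) (s : ℕ) :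
    (∑ w : Row P m, ‖S W b (fun g => (v g : ℂ)) w‖ ^ (2 * s)) = (P : ℝ) ^ (m + 1) *
      ∑ p ∈ (Fintype.piFinset (fun _ : Fin s => W)) ×ˢ (Fintype.piFinset (fun _ : Fin s => W))
        with (∑ i, b (p.1 i) = ∑ i, b (p.2 i)), (∏ i, v (p.1 i)) * ∏ i, v (p.2 i) := by
  have h := moment_eq W b (fun g => (v g : ℂ)) s
  simp only [Complex.conj_ofReal] at h
  exact_mod_cast h

/-- Monotonicity of even moments. -/
theorem moment_mono (W : Finset α) (b : α → Row P m) (u : α → ℂ) (v : α → ℝ)
    (huv : ∀ g ∈ W, ‖u g‖ ≤ v g) (s : ℕ) :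
    ∑ w : Row P m, ‖S W b u w‖ ^ (2 * s) ≤
      ∑ w : Row P m, ‖S W b (fun g => (v g : ℂ)) w‖ ^ (2 * s) := by
  classical
  have h0 : (0 : ℝ) ≤ ∑ w : Row P m, ‖S W b u w‖ ^ (2 * s) := sum_nonneg fun _ _ => by positivity
  have h1 : ∑ w : Row P m, ‖S W b u w‖ ^ (2 * s) =
      ‖((∑ w : Row P m, ‖S W b u w‖ ^ (2 * s) : ℝ) : ℂ)‖ := by
    rw [Complex.norm_real, Real.norm_of_nonneg h0]
  rw [h1, moment_eq, moment_real, norm_mul, norm_pow, Complex.norm_natCast]
  refine mul_le_mul_of_nonneg_left ((norm_sum_le _ _).trans (sum_le_sum fun p hp => ?_)) (by positivity)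
  rw [mem_filter, mem_product, Fintype.mem_piFinset, Fintype.mem_piFinset] at hp
  rw [norm_mul, norm_prod, norm_prod]
  refine mul_le_mul (prod_le_prod (fun _ _ => norm_nonneg _) fun i _ => huv _ (hp.1.1 i)) ?_
    (prod_nonneg fun _ _ => norm_nonneg _)
    (prod_nonneg fun i _ => (norm_nonneg _).trans (huv _ (hp.1.1 i)))
  refine prod_le_prod (fun _ _ => norm_nonneg _) fun i _ => ?_
  rw [RCLike.norm_conj]
  exact huv _ (hp.1.2 i)

/-- unweighted moments are relation counts -/
theorem moment_count [DecidableEq α] (W : Finset α) (b : α → Row P m) (s : ℕ) :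
    (∑ w : Row P m, ‖S W b (fun _ => 1) w‖ ^ (2 * s)) = (P : ℝ) ^ (m + 1) *
      #{p ∈ (Fintype.piFinset (fun _ : Fin s => W)) ×ˢ (Fintype.piFinset (fun _ : Fin s => W)) |
        ∑ i, b (p.1 i) = ∑ i, b (p.2 i)} := by
  have h := moment_real W b (fun _ => (1 : ℝ)) s
  simpa using h

lemma norm_S_le (W : Finset α) (b : α → Row P m) (u : α → ℂ) (w : Row P m) :
    ‖S W b u w‖ ≤ ∑ g ∈ W, ‖u g‖ := by
  unfold S
  refine (norm_sum_le _ _).trans (sum_le_sum fun g _ => ?_)
  rw [norm_mul, norm_ee, mul_one]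

lemma norm_S_one_le (W : Finset α) (b : α → Row P m) (w : Row P m) :
    ‖S W b (fun _ => 1) w‖ ≤ #W := by
  refine (norm_S_le W b _ w).trans ?_
  simp

/-- frequency `k` -/
lemma S_smul (W : Finset α) (b : α → Row P m) (u : α → ℂ) (k : ZMod P) (w : Row P m) :
    S W b u (k • w) = ∑ g ∈ W, u g * ee (k * pair w (b g)) := by
  unfold S
  refine sum_congr rfl fun g _ => ?_
  rw [pair_smul_left]

/-- AM-GM in power form. -/
lemma prod_le_sum_pow {ι : Type*} [Fintype ι] [Nonempty ι] (x : ι → ℝ) (hx : ∀ a, 0 ≤ x a) :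
    ∏ a, x a ≤ (∑ a, x a ^ (Fintype.card ι)) / Fintype.card ι := by
  have hcard : (0 : ℝ) < Fintype.card ι := by exact_mod_cast Fintype.card_pos
  have h := Real.geom_mean_le_arith_mean_weighted (univ : Finset ι)
      (fun _ => (1 : ℝ) / Fintype.card ι) (fun a => x a ^ (Fintype.card ι))
      (fun _ _ => by positivity)
      (by rw [sum_const, card_univ, nsmul_eq_mul]; field_simp)
      (fun a _ => pow_nonneg (hx a) _)
  rw [sum_div]
  refine le_trans (le_of_eq ?_) (h.trans (le_of_eq ?_))
  · refine prod_congr rfl fun a _ => ?_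
    rw [← Real.rpow_natCast, ← Real.rpow_mul (hx a), mul_one_div_cancel hcard.ne', Real.rpow_one]
  · refine sum_congr rfl fun a _ => ?_
    ring

/-- Fourier formula for the weighted number of solutions of one relation. -/
theorem rel_eq {ι : Type*} [Fintype ι] [DecidableEq ι] (W : ι → Finset α)
    (b : ι → α → Row P m) (u : ι → α → ℂ) (k : ι → ZMod P) (z : Row P m) :
    (P : ℂ) ^ (m + 1) * ∑ x ∈ Fintype.piFinset W with (∑ a, k a • b a (x a) = z),
        ∏ a, u a (x a) =
      ∑ w : Row P m, (∏ a, S (W a) (b a) (u a) (k a • w)) * ee (pair w (-z)) := by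
  have h2 : ∀ w : Row P m, (∏ a, S (W a) (b a) (u a) (k a • w)) * ee (pair w (-z)) =
      ∑ x ∈ Fintype.piFinset W, (∏ a, u a (x a)) * ee (pair w (∑ a, k a • b a (x a) - z)) := by
    intro w
    simp only [S_smul]
    rw [prod_univ_sum, sum_mul]
    refine sum_congr rfl fun x _ => ?_
    rw [prod_mul_distrib, sub_eq_add_neg, pair_add_right, ee_add, pair_sum_right, ee_sum, mul_assoc]
    congr 2
    refine prod_congr rfl fun a _ => ?_
    rw [pair_smul_right]
  rw [sum_congr rfl fun w _ => h2 w, sum_comm, mul_sum, sum_filter]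
  refine sum_congr rfl fun x _ => ?_
  rw [← mul_sum, sum_char_pair]
  simp only [sub_eq_zero]
  split_ifs with h
  · ring
  · ring

/-- The number of solutions of one relation with unit coefficients. -/
theorem rel_count_le {ι : Type*} [Fintype ι] [DecidableEq ι] [Nonempty ι] (W : Finset α)
    (b : α → Row P m) (k : ι → (ZMod P)ˣ) (z : Row P m) :
    (P : ℝ) ^ (m + 1) *
      #{x ∈ Fintype.piFinset (fun _ : ι => W) | ∑ a, (k a : ZMod P) • b (x a) = z} ≤
      ∑ w : Row P m, ‖S W b (fun _ => 1) w‖ ^ (Fintype.card ι) := by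
  have hcard : (0 : ℝ) < Fintype.card ι := by exact_mod_cast Fintype.card_pos
  have h1 := rel_eq (fun _ : ι => W) (fun _ => b) (fun _ _ => (1 : ℂ)) (fun a => (k a : ZMod P)) z
  simp only [prod_const_one, sum_const, nsmul_eq_mul, mul_one] at h1
  have h3 : (P : ℝ) ^ (m + 1) *
      #{x ∈ Fintype.piFinset (fun _ : ι => W) | ∑ a, (k a : ZMod P) • b (x a) = z} =
      ‖∑ w : Row P m, (∏ a, S W b (fun _ => 1) ((k a : ZMod P) • w)) * ee (pair w (-z))‖ := by
    rw [← h1, norm_mul, norm_pow, Complex.norm_natCast, Complex.norm_natCast]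
  rw [h3]
  refine (norm_sum_le _ _).trans ?_
  have h4 : ∀ w : Row P m,
      ‖(∏ a, S W b (fun _ => 1) ((k a : ZMod P) • w)) * ee (pair w (-z))‖ ≤
      (∑ a, ‖S W b (fun _ => 1) ((k a : ZMod P) • w)‖ ^ (Fintype.card ι)) / Fintype.card ι := by
    intro w
    rw [norm_mul, norm_ee, mul_one, norm_prod]
    exact prod_le_sum_pow _ fun _ => norm_nonneg _
  refine (sum_le_sum fun w _ => h4 w).trans (le_of_eq ?_)
  rw [← sum_div, sum_comm]
  have h5 : ∀ a : ι, ∑ w : Row P m, ‖S W b (fun _ => 1) ((k a : ZMod P) • w)‖ ^ (Fintype.card ι) =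
      ∑ w : Row P m, ‖S W b (fun _ => 1) w‖ ^ (Fintype.card ι) := fun a =>
    sum_smul (k a) (fun w => ‖S W b (fun _ => 1) w‖ ^ (Fintype.card ι))
  rw [sum_congr rfl fun a _ => h5 a, sum_const, card_univ, nsmul_eq_mul]
  field_simp

end moments

end Crest.Agent.R225.Four
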