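import Crest.Agent.R225.Iface
import Crest.Agent.R225.Four

/-!
# Nodes E1 and E2 (helper413)
-/

set_option autoImplicit false

namespace Crest.Agent.R225

open Finset

namespace E12

open Four

variable {P : ℕ} {m : ℕ}

lemma lin_add (g g' : Pt m) : lin P (g + g') = lin P g + lin P g' := by
  refine Prod.ext (by simp [lin]) (funext fun i => by simp [lin])

lemma lin_zero : lin P (0 : Pt m) = 0 := by
  refine Prod.ext (by simp [lin]) (funext fun i => by simp [lin])

lemma lin_zsmul (h : ℤ) (g : Pt m) : lin P (h • g) = (h : ZMod P) • lin P g := by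
  refine Prod.ext (by simp [lin]) (funext fun i => by simp [lin])

lemma lin_sum {ι : Type*} (s : Finset ι) (f : ι → Pt m) :
    lin P (∑ i ∈ s, f i) = ∑ i ∈ s, lin P (f i) := by
  classical
  induction s using Finset.induction_on with
  | empty => simp [lin_zero]
  | insert a s ha ih => rw [sum_insert ha, sum_insert ha, lin_add, ih]

lemma lin_inj {g g' : Pt m} (hb : ∀ j, |g j - g' j| < P) (h : lin P g = lin P g') : g = g' := by
  funext j
  have h1 : ((g j : ℤ) : ZMod P) = (g' j : ZMod P) := by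
    have := congrArg (fun r : Row P m => r.2 j) h
    simpa [lin] using this
  have h2 : (P : ℤ) ∣ g' j - g j := (ZMod.intCast_eq_intCast_iff_dvd_sub _ _ _).1 h1
  have h3 : g' j - g j = 0 := Int.eq_zero_of_abs_lt_dvd h2 (by rw [abs_sub_comm]; exact hb j)
  omega

lemma exists_bound (W : Finset (Pt m)) : ∃ R : ℕ, ∀ g ∈ W, ∀ j, |g j| ≤ R := by
  refine ⟨∑ g ∈ W, ∑ j, (g j).natAbs, fun g hg j => ?_⟩
  have h1 : (g j).natAbs ≤ ∑ j, (g j).natAbs :=
    single_le_sum (f := fun j => (g j).natAbs) (fun _ _ => Nat.zero_le _) (mem_univ j)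
  have h2 : ∑ j, (g j).natAbs ≤ ∑ g ∈ W, ∑ j, (g j).natAbs :=
    single_le_sum (f := fun g : Pt m => ∑ j, (g j).natAbs) (fun _ _ => Nat.zero_le _) hg
  rw [Int.abs_eq_natAbs]
  exact_mod_cast h1.trans h2

open scoped Classical in
lemma En_mod [NeZero P] (W : Finset (Pt m)) (q R : ℕ) (hR : ∀ g ∈ W, ∀ j, |g j| ≤ R)
    (hP : 2 * q * R < P) :
    (∑ w : Row P m, ‖S W (lin P) (fun _ => 1) w‖ ^ (2 * q)) = (P : ℝ) ^ (m + 1) * En q W := by
  rw [moment_count]
  congr 2
  unfold En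
  congr 1
  refine filter_congr fun p hp => ?_
  rw [mem_product, Fintype.mem_piFinset, Fintype.mem_piFinset] at hp
  rw [← lin_sum, ← lin_sum]
  constructor
  · intro h
    refine lin_inj (fun j => ?_) h
    have h1 : ∀ x : Fin q → Pt m, (∀ i, x i ∈ W) → |(∑ i, x i) j| ≤ q * R := by
      intro x hx
      rw [Finset.sum_apply]
      refine (abs_sum_le_sum_abs _ _).trans ?_
      refine (sum_le_sum fun i _ => hR _ (hx i) j).trans ?_
      simp
    have h2 := h1 _ hp.1
    have h3 := h1 _ hp.2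
    have h4 : ((2 * q * R : ℕ) : ℤ) < P := by exact_mod_cast hP
    push_cast at h4
    rw [abs_lt]
    rw [abs_le] at h2 h3
    constructor <;> linarith
  · intro h; rw [h]

open scoped Classical in
lemma relCount_le_moment [Fact P.Prime] {k : ℕ} (hk : 0 < k) (W : Finset (Pt m)) (h : Fin k → ℤ)
    (y : Pt m) (h0 : ∀ i, h i ≠ 0) (hP : ∀ i, |h i| < P) :
    (P : ℝ) ^ (m + 1) * relCount W h y ≤
      ∑ w : Row P m, ‖S W (lin P) (fun _ => 1) w‖ ^ k := by
  haveI : Nonempty (Fin k) := ⟨⟨0, hk⟩⟩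
  have hu : ∀ i, IsUnit ((h i : ℤ) : ZMod P) := by
    intro i
    rw [isUnit_iff_ne_zero]
    intro hz
    rw [ZMod.intCast_zmod_eq_zero_iff_dvd] at hz
    exact h0 i (Int.eq_zero_of_abs_lt_dvd hz (hP i))
  have h1 := rel_count_le (ι := Fin k) W (lin P) (fun i => (hu i).unit) (lin P y)
  rw [Fintype.card_fin] at h1
  refine le_trans (mul_le_mul_of_nonneg_left ?_ (by positivity)) h1
  unfold relCount
  refine Nat.cast_le.2 (card_le_card fun z hz => ?_)
  rw [mem_filter] at hz ⊢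
  refine ⟨hz.1, ?_⟩
  rw [← hz.2, lin_sum]
  refine sum_congr rfl fun i _ => ?_
  rw [lin_zsmul, IsUnit.unit_spec]

lemma En_zero (W : Finset (Pt m)) : En 0 W = 1 := by
  classical
  unfold En
  rw [filter_true_of_mem]
  · simp
  · intro p _; simp

lemma relCount_le_card {k : ℕ} (W : Finset (Pt m)) (h : Fin k → ℤ) (y : Pt m) :
    relCount W h y ≤ W.card ^ k := by
  classical
  unfold relCount
  refine (card_filter_le _ _).trans ?_
  rw [Fintype.card_piFinset]
  simp

lemma exists_prime (N : ℕ) : ∃ P : ℕ, N < P ∧ P.Prime := by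
  obtain ⟨P, h1, h2⟩ := Nat.exists_infinite_primes (N + 1)
  exact ⟨P, h1, h2⟩

lemma En_one (W : Finset (Pt m)) : En 1 W = W.card := by
  classical
  unfold En
  refine card_bij (fun p _ => p.1 0) ?_ ?_ ?_
  · intro p hp
    rw [mem_filter, mem_product, Fintype.mem_piFinset] at hp
    exact hp.1.1 0
  · intro p hp p' hp' h
    rw [mem_filter] at hp hp'
    have h1 := hp.2
    have h2 := hp'.2
    simp only [univ_unique, Fin.default_eq_zero, Fin.isValue, sum_singleton] at h1 h2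
    refine Prod.ext (funext fun i => ?_) (funext fun i => ?_)
    · rw [Subsingleton.elim i 0]; exact h
    · rw [Subsingleton.elim i 0, ← h1, ← h2]; exact h
  · intro g hg
    refine ⟨(fun _ => g, fun _ => g), ?_, rfl⟩
    rw [mem_filter, mem_product]
    exact ⟨⟨Fintype.mem_piFinset.2 fun _ => hg, Fintype.mem_piFinset.2 fun _ => hg⟩, rfl⟩

/-- log-convexity of power sums -/
lemma sum_pow_le {ι : Type*} (s : Finset ι) (x : ι → ℝ) (hx : ∀ i ∈ s, 0 ≤ x i) (k q : ℕ)
    (hk : 2 ≤ k) (hkq : k ≤ 2 * q) (hq : 2 ≤ q) :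
    ∑ i ∈ s, x i ^ k ≤ (∑ i ∈ s, x i ^ 2) ^ (((2 * q - k : ℕ) : ℝ) / (2 * q - 2 : ℕ)) *
      (∑ i ∈ s, x i ^ (2 * q)) ^ (((k - 2 : ℕ) : ℝ) / (2 * q - 2 : ℕ)) := by
  set A := ∑ i ∈ s, x i ^ 2
  set B := ∑ i ∈ s, x i ^ (2 * q)
  set t1 : ℝ := ((2 * q - k : ℕ) : ℝ) / (2 * q - 2 : ℕ)
  set t2 : ℝ := ((k - 2 : ℕ) : ℝ) / (2 * q - 2 : ℕ)
  have hden : (0 : ℝ) < ((2 * q - 2 : ℕ) : ℝ) := by
    have : 0 < 2 * q - 2 := by omega
    exact_mod_cast this
  have ht1 : 0 ≤ t1 := by positivity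
  have ht2 : 0 ≤ t2 := by positivity
  have ht : t1 + t2 = 1 := by
    rw [← add_div, div_eq_one_iff_eq hden.ne']
    have : 2 * q - k + (k - 2) = 2 * q - 2 := by omega
    exact_mod_cast this
  have hk' : 2 * t1 + (2 * q : ℕ) * t2 = k := by
    have h1 : ((2 * q - k : ℕ) : ℝ) = 2 * q - k := by push_cast [Nat.cast_sub hkq]; ring
    have h2 : ((k - 2 : ℕ) : ℝ) = k - 2 := by push_cast [Nat.cast_sub hk]; ring
    have h3 : ((2 * q - 2 : ℕ) : ℝ) = 2 * q - 2 := by
      push_cast [Nat.cast_sub (show 2 ≤ 2 * q by omega)]; ring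
    have hd : (2 * (q : ℝ) - 2) ≠ 0 := by rw [← h3]; exact hden.ne'
    simp only [t1, t2, h1, h2, h3]
    push_cast
    rw [mul_div_assoc', mul_div_assoc', ← add_div, div_eq_iff hd]
    ring
  have hA0 : 0 ≤ A := sum_nonneg fun i hi => pow_nonneg (hx i hi) _
  have hB0 : 0 ≤ B := sum_nonneg fun i hi => pow_nonneg (hx i hi) _
  rcases hA0.eq_or_lt with hA | hA
  · -- all zero
    have hz : ∀ i ∈ s, x i = 0 := by
      intro i hi
      have := (sum_eq_zero_iff_of_nonneg fun i hi => pow_nonneg (hx i hi) _).1 hA.symm i hi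
      exact pow_eq_zero_iff (two_ne_zero) |>.1 this
    have : ∑ i ∈ s, x i ^ k = 0 := sum_eq_zero fun i hi => by
      rw [hz i hi, zero_pow (by omega)]
    rw [this]
    positivity
  · have hB : 0 < B := by
      rcases hB0.eq_or_lt with hB | hB
      · exfalso
        have hz : ∀ i ∈ s, x i = 0 := by
          intro i hi
          have := (sum_eq_zero_iff_of_nonneg fun i hi => pow_nonneg (hx i hi) _).1 hB.symm i hi
          exact pow_eq_zero_iff (by omega) |>.1 this
        have : A = 0 := sum_eq_zero fun i hi => by rw [hz i hi]; norm_num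
        exact hA.ne' this
      · exact hB
    have hAB : 0 < A ^ t1 * B ^ t2 := mul_pos (Real.rpow_pos_of_pos hA _) (Real.rpow_pos_of_pos hB _)
    have key : ∀ i ∈ s, x i ^ k ≤ (t1 * (x i ^ 2 / A) + t2 * (x i ^ (2 * q) / B)) *
        (A ^ t1 * B ^ t2) := by
      intro i hi
      have h1 := Real.geom_mean_le_arith_mean2_weighted ht1 ht2
        (div_nonneg (pow_nonneg (hx i hi) 2) hA.le) (div_nonneg (pow_nonneg (hx i hi) (2 * q)) hB.le) ht
      have h2 : (x i ^ 2 / A) ^ t1 * (x i ^ (2 * q) / B) ^ t2 * (A ^ t1 * B ^ t2) = x i ^ k := by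
        rw [Real.div_rpow (pow_nonneg (hx i hi) 2) hA.le,
          Real.div_rpow (pow_nonneg (hx i hi) (2 * q)) hB.le]
        have hA' : A ^ t1 ≠ 0 := (Real.rpow_pos_of_pos hA _).ne'
        have hB' : B ^ t2 ≠ 0 := (Real.rpow_pos_of_pos hB _).ne'
        have h3 : (x i ^ 2) ^ t1 * (x i ^ (2 * q)) ^ t2 = x i ^ k := by
          rw [← Real.rpow_natCast (x i) 2, ← Real.rpow_natCast (x i) (2 * q),
            ← Real.rpow_mul (hx i hi), ← Real.rpow_mul (hx i hi)]
          rcases (hx i hi).eq_or_lt with h0 | h0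
          · -- x i = 0
            rw [← h0]
            have hk0 : k ≠ 0 := by omega
            rw [zero_pow hk0]
            by_cases ht1' : t1 = 0
            · have ht2' : t2 ≠ 0 := by intro h; rw [ht1', h] at ht; norm_num at ht
              rw [Real.zero_rpow (x := ((2 * q : ℕ) : ℝ) * t2), mul_zero]
              refine mul_ne_zero ?_ ht2'
              have : 2 * q ≠ 0 := by omega
              exact_mod_cast this
            · rw [Real.zero_rpow (x := ((2 : ℕ) : ℝ) * t1), zero_mul]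
              exact mul_ne_zero (by norm_num) ht1'
          · rw [← Real.rpow_add h0]
            push_cast at hk' ⊢
            rw [hk', Real.rpow_natCast]
        field_simp
        exact h3
      rw [← h2]
      exact mul_le_mul_of_nonneg_right h1 hAB.le
    refine (sum_le_sum key).trans (le_of_eq ?_)
    rw [← sum_mul, sum_add_distrib, ← mul_sum, ← mul_sum, ← sum_div, ← sum_div]
    change (t1 * (A / A) + t2 * (B / B)) * _ = _
    rw [div_self hA.ne', div_self hB.ne', mul_one, mul_one, ht, one_mul]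

end E12

open E12 Four in
theorem prf_E1 : S_E1 := by
  classical
  intro m k q W h y h0 hk
  rcases Nat.eq_zero_or_pos q with hq | hq
  · subst hq
    rw [En_zero, mul_one, mul_zero, Nat.sub_zero]
    exact relCount_le_card W h y
  have hk0 : 0 < k := by omega
  obtain ⟨R, hR⟩ := exists_bound W
  obtain ⟨P, hPN, hPp⟩ := exists_prime (2 * q * R + ∑ i, (h i).natAbs)
  haveI : Fact P.Prime := ⟨hPp⟩
  have hP1 : 2 * q * R < P := by omega
  have hP2 : ∀ i, |h i| < P := by
    intro i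
    have h1 : (h i).natAbs ≤ ∑ i, (h i).natAbs :=
      single_le_sum (f := fun i => (h i).natAbs) (fun _ _ => Nat.zero_le _) (mem_univ i)
    rw [Int.abs_eq_natAbs]
    have : (h i).natAbs < P := by omega
    exact_mod_cast this
  have h1 := relCount_le_moment hk0 W h y h0 hP2
  have h2 := En_mod W q R hR hP1
  have h3 : ∑ w : Row P m, ‖S W (lin P) (fun _ => 1) w‖ ^ k ≤
      (W.card : ℝ) ^ (k - 2 * q) * ∑ w : Row P m, ‖S W (lin P) (fun _ => 1) w‖ ^ (2 * q) := by
    rw [mul_sum]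
    refine sum_le_sum fun w _ => ?_
    have : k = (k - 2 * q) + 2 * q := by omega
    conv_lhs => rw [this, pow_add]
    refine mul_le_mul_of_nonneg_right ?_ (by positivity)
    exact pow_le_pow_left₀ (norm_nonneg _) (norm_S_one_le _ _ _) _
  rw [h2] at h3
  have hPpos : (0 : ℝ) < (P : ℝ) ^ (m + 1) := by
    have : (0 : ℝ) < P := by exact_mod_cast hPp.pos
    positivity
  have h4 : (P : ℝ) ^ (m + 1) * relCount W h y ≤
      (P : ℝ) ^ (m + 1) * ((W.card : ℝ) ^ (k - 2 * q) * En q W) := by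
    calc _ ≤ _ := h1
      _ ≤ _ := h3
      _ = _ := by ring
  have h5 := le_of_mul_le_mul_left h4 hPpos
  exact_mod_cast h5

open E12 Four in
theorem prf_E2 : S_E2 := by
  classical
  intro m k q W h y h0 hk hkq hq
  have hk0 : 0 < k := by omega
  obtain ⟨R, hR⟩ := exists_bound W
  obtain ⟨P, hPN, hPp⟩ := exists_prime (2 * q * R + 2 * 1 * R + ∑ i, (h i).natAbs)
  haveI : Fact P.Prime := ⟨hPp⟩
  have hP1 : 2 * q * R < P := by omega
  have hP1' : 2 * 1 * R < P := by omega
  have hP2 : ∀ i, |h i| < P := by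
    intro i
    have h1 : (h i).natAbs ≤ ∑ i, (h i).natAbs :=
      single_le_sum (f := fun i => (h i).natAbs) (fun _ _ => Nat.zero_le _) (mem_univ i)
    rw [Int.abs_eq_natAbs]
    have : (h i).natAbs < P := by omega
    exact_mod_cast this
  have h1 := relCount_le_moment hk0 W h y h0 hP2
  have h2 := En_mod W q R hR hP1
  have h2' := En_mod W 1 R hR hP1'
  rw [En_one, mul_one] at h2'
  have h3 := sum_pow_le (univ : Finset (Row P m)) (fun w => ‖S W (lin P) (fun _ => 1) w‖)
    (fun _ _ => norm_nonneg _) k q hk hkq hq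
  rw [h2, h2'] at h3
  have hPpos : (0 : ℝ) < (P : ℝ) ^ (m + 1) := by
    have : (0 : ℝ) < P := by exact_mod_cast hPp.pos
    positivity
  have ht : ((2 * q - k : ℕ) : ℝ) / (2 * q - 2 : ℕ) + ((k - 2 : ℕ) : ℝ) / (2 * q - 2 : ℕ) = 1 := by
    have hden : (0 : ℝ) < ((2 * q - 2 : ℕ) : ℝ) := by
      have : 0 < 2 * q - 2 := by omega
      exact_mod_cast this
    rw [← add_div, div_eq_one_iff_eq hden.ne']
    have : 2 * q - k + (k - 2) = 2 * q - 2 := by omega
    exact_mod_cast this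
  rw [Real.mul_rpow hPpos.le (Nat.cast_nonneg _), Real.mul_rpow hPpos.le (Nat.cast_nonneg _)] at h3
  have h4 : (P : ℝ) ^ (m + 1) * relCount W h y ≤ (P : ℝ) ^ (m + 1) *
      ((W.card : ℝ) ^ (((2 * q - k : ℕ) : ℝ) / (2 * q - 2 : ℕ)) *
        (En q W : ℝ) ^ (((k - 2 : ℕ) : ℝ) / (2 * q - 2 : ℕ))) := by
    refine (h1.trans h3).trans (le_of_eq ?_)
    set a := (P : ℝ) ^ (m + 1)
    have h6 : a ^ (((2 * q - k : ℕ) : ℝ) / (2 * q - 2 : ℕ)) *
        a ^ (((k - 2 : ℕ) : ℝ) / (2 * q - 2 : ℕ)) = a := by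
      rw [← Real.rpow_add hPpos, ht, Real.rpow_one]
    calc _ = (a ^ (((2 * q - k : ℕ) : ℝ) / (2 * q - 2 : ℕ)) *
        a ^ (((k - 2 : ℕ) : ℝ) / (2 * q - 2 : ℕ))) *
        ((W.card : ℝ) ^ (((2 * q - k : ℕ) : ℝ) / (2 * q - 2 : ℕ)) *
        (En q W : ℝ) ^ (((k - 2 : ℕ) : ℝ) / (2 * q - 2 : ℕ))) := by ring
      _ = _ := by rw [h6]
  exact le_of_mul_le_mul_left h4 hPpos

end Crest.Agent.R225
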