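import Crest.Agent.R225.Iface
import Crest.Agent.R225.Four
import Crest.Agent.R225.E12

/-!
# Row 225 (S0347): node E3 (helper863)

Several relations with `2q` disjoint bases of columns: `prf_E3 : S_E3`.
`count ≤ avg_θ ∏_i |S(∑_l H_{l i} θ_l)|`, AM-GM over the `2q` bases, and for each basis the map
`θ ↦ (∑_l H_{l, e(t,j)} θ_l)_j` is a bijection modulo a large prime.
-/

set_option autoImplicit false

open Finset
open scoped BigOperators

namespace Crest.Agent.R225

namespace E3

open Four E12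

variable {P m d : ℕ}

/-- action of a matrix on tuples of rows -/
def act (B : Matrix (Fin d) (Fin d) (ZMod P)) (θ : Fin d → Row P m) : Fin d → Row P m :=
  fun j => ∑ l, B j l • θ l

lemma act_mul (B C : Matrix (Fin d) (Fin d) (ZMod P)) (θ : Fin d → Row P m) :
    act B (act C θ) = act (B * C) θ := by
  funext j
  simp only [act, Matrix.mul_apply, smul_sum, Finset.sum_smul, smul_smul]
  rw [sum_comm]

lemma act_one (θ : Fin d → Row P m) : act (1 : Matrix (Fin d) (Fin d) (ZMod P)) θ = θ := by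
  funext j
  simp only [act, Matrix.one_apply, ite_smul, one_smul, zero_smul]
  simp

lemma act_bijective (B : Matrix (Fin d) (Fin d) (ZMod P)) (hB : IsUnit B.det) :
    Function.Bijective (act (m := m) B) := by
  refine Function.bijective_iff_has_inverse.2 ⟨act B⁻¹, fun θ => ?_, fun θ => ?_⟩
  · rw [act_mul, Matrix.nonsing_inv_mul _ hB, act_one]
  · rw [act_mul, Matrix.mul_nonsing_inv _ hB, act_one]

lemma pair_sum_left {ι : Type*} (s : Finset ι) (b : Row P m) (w : ι → Row P m) :
    pair (∑ a ∈ s, w a) b = ∑ a ∈ s, pair (w a) b := by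
  rw [pair_comm, pair_sum_right]
  exact sum_congr rfl fun a _ => pair_comm _ _

variable [NeZero P]

/-- orthogonality for tuples of rows -/
lemma sum_prod_ee (b : Fin d → Row P m) :
    ∑ θ : Fin d → Row P m, ∏ l, ee (pair (θ l) (b l)) =
      if ∀ l, b l = 0 then ((P : ℂ) ^ (m + 1)) ^ d else 0 := by
  classical
  have h1 : ∑ θ : Fin d → Row P m, ∏ l, ee (pair (θ l) (b l)) =
      ∏ l : Fin d, ∑ w : Row P m, ee (pair w (b l)) := by
    rw [prod_univ_sum, Fintype.piFinset_univ]
  rw [h1]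
  by_cases h : ∀ l, b l = 0
  · rw [if_pos h]
    have : ∀ l ∈ (univ : Finset (Fin d)), ∑ w : Row P m, ee (pair w (b l)) =
        (P : ℂ) ^ (m + 1) := by
      intro l _
      rw [sum_char_pair, if_pos (h l)]
    rw [prod_congr rfl this, prod_const, card_univ, Fintype.card_fin]
  · rw [if_neg h]
    push Not at h
    obtain ⟨l, hl⟩ := h
    refine prod_eq_zero (mem_univ l) ?_
    rw [sum_char_pair, if_neg hl]

open scoped Classical in
/-- Fourier bound for the number of solutions of several relations -/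
lemma count_le {k : ℕ} (W : Finset (Pt m)) (H : Fin d → Fin k → ℤ) :
    ((P : ℝ) ^ (m + 1)) ^ d *
      ((Fintype.piFinset fun _ : Fin k => W).filter fun z => ∀ l, ∑ i, H l i • z i = 0).card ≤
    ∑ θ : Fin d → Row P m, ∏ i : Fin k,
      ‖S W (lin P) (fun _ => 1) (∑ l, ((H l i : ℤ) : ZMod P) • θ l)‖ := by
  set b : (Fin k → Pt m) → Fin d → Row P m := fun z l =>
    ∑ i, ((H l i : ℤ) : ZMod P) • lin P (z i) with hb
  have hlin : ∀ z : Fin k → Pt m, ∀ l, b z l = lin P (∑ i, H l i • z i) := by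
    intro z l
    rw [lin_sum]
    refine sum_congr rfl fun i _ => ?_
    rw [lin_zsmul]
  -- the Fourier identity
  have key : ∑ θ : Fin d → Row P m, ∏ i : Fin k,
      S W (lin P) (fun _ => 1) (∑ l, ((H l i : ℤ) : ZMod P) • θ l) =
      ((P : ℂ) ^ (m + 1)) ^ d *
        ((Fintype.piFinset fun _ : Fin k => W).filter fun z => ∀ l, b z l = 0).card := by
    have h1 : ∀ θ : Fin d → Row P m, ∏ i : Fin k,
        S W (lin P) (fun _ => 1) (∑ l, ((H l i : ℤ) : ZMod P) • θ l) =
        ∑ z ∈ Fintype.piFinset (fun _ : Fin k => W), ∏ l, ee (pair (θ l) (b z l)) := by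
      intro θ
      unfold S
      rw [prod_univ_sum]
      refine sum_congr rfl fun z _ => ?_
      simp only [one_mul]
      rw [← ee_sum, ← ee_sum]
      congr 1
      simp only [hb, pair_sum_right, pair_sum_left, pair_smul_right, pair_smul_left]
      rw [sum_comm]
    rw [sum_congr rfl fun θ _ => h1 θ, sum_comm]
    rw [sum_congr rfl fun z _ => sum_prod_ee (b z)]
    rw [← sum_filter, sum_const, nsmul_eq_mul, mul_comm]
  have h2 : ((P : ℝ) ^ (m + 1)) ^ d *
      ((Fintype.piFinset fun _ : Fin k => W).filter fun z => ∀ l, b z l = 0).card =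
      ‖∑ θ : Fin d → Row P m, ∏ i : Fin k,
        S W (lin P) (fun _ => 1) (∑ l, ((H l i : ℤ) : ZMod P) • θ l)‖ := by
    rw [key, norm_mul, norm_pow, norm_pow, Complex.norm_natCast, Complex.norm_natCast]
  have h3 : ((P : ℝ) ^ (m + 1)) ^ d *
      ((Fintype.piFinset fun _ : Fin k => W).filter fun z => ∀ l, ∑ i, H l i • z i = 0).card ≤
      ((P : ℝ) ^ (m + 1)) ^ d *
      ((Fintype.piFinset fun _ : Fin k => W).filter fun z => ∀ l, b z l = 0).card := by
    refine mul_le_mul_of_nonneg_left (Nat.cast_le.2 (card_le_card fun z hz => ?_)) (by positivity)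
    rw [mem_filter] at hz ⊢
    refine ⟨hz.1, fun l => ?_⟩
    rw [hlin, hz.2 l, lin_zero]
  refine h3.trans ?_
  rw [h2]
  refine (norm_sum_le _ _).trans (le_of_eq (sum_congr rfl fun θ _ => ?_))
  rw [norm_prod]

/-- the average over one basis -/
lemma sum_basis (W : Finset (Pt m)) (B : Matrix (Fin d) (Fin d) (ZMod P)) (hB : IsUnit B.det)
    (q : ℕ) :
    ∑ θ : Fin d → Row P m, (∏ j, ‖S W (lin P) (fun _ => 1) (act B θ j)‖) ^ (2 * q) =
      (∑ w : Row P m, ‖S W (lin P) (fun _ => 1) w‖ ^ (2 * q)) ^ d := by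
  classical
  have h1 : ∑ θ : Fin d → Row P m, (∏ j, ‖S W (lin P) (fun _ => 1) (act B θ j)‖) ^ (2 * q) =
      ∑ θ : Fin d → Row P m, (∏ j, ‖S W (lin P) (fun _ => 1) (θ j)‖) ^ (2 * q) :=
    Function.Bijective.sum_comp (act_bijective B hB)
      (fun θ : Fin d → Row P m => (∏ j, ‖S W (lin P) (fun _ => 1) (θ j)‖) ^ (2 * q))
  rw [h1]
  have h2 : ∀ θ : Fin d → Row P m, (∏ j, ‖S W (lin P) (fun _ => 1) (θ j)‖) ^ (2 * q) =
      ∏ j, ‖S W (lin P) (fun _ => 1) (θ j)‖ ^ (2 * q) := fun θ => (prod_pow _ _ _).symm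
  rw [sum_congr rfl fun θ _ => h2 θ]
  have h3 : ∏ _j : Fin d, ∑ w : Row P m, ‖S W (lin P) (fun _ => 1) w‖ ^ (2 * q) =
      ∑ θ : Fin d → Row P m, ∏ j, ‖S W (lin P) (fun _ => 1) (θ j)‖ ^ (2 * q) := by
    rw [prod_univ_sum, Fintype.piFinset_univ]
  rw [← h3, prod_const, card_univ, Fintype.card_fin]

end E3

open E3 Four E12 in
theorem prf_E3 : S_E3 := by
  classical
  intro m k q d W H e he hdet
  rcases Nat.eq_zero_or_pos q with hq | hq
  · subst hq
    rw [En_zero, one_pow, mul_one, mul_zero, zero_mul, Nat.sub_zero]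
    refine (card_filter_le _ _).trans ?_
    rw [Fintype.card_piFinset]
    simp
  obtain ⟨R, hR⟩ := exists_bound W
  set D : Fin (2 * q) → ℤ := fun t => (Matrix.of fun l j : Fin d => H l (e (t, j))).det with hD
  obtain ⟨P, hPN, hPp⟩ := exists_prime (2 * q * R + ∑ t, (D t).natAbs)
  haveI : Fact P.Prime := ⟨hPp⟩
  have hP1 : 2 * q * R < P := by omega
  have hPpos : (0 : ℝ) < (P : ℝ) ^ (m + 1) := by
    have : (0 : ℝ) < P := by exact_mod_cast hPp.pos
    positivity
  -- the matrices
  set B : Fin (2 * q) → Matrix (Fin d) (Fin d) (ZMod P) := fun t =>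
    Matrix.of fun j l : Fin d => ((H l (e (t, j)) : ℤ) : ZMod P) with hBdef
  have hB : ∀ t, IsUnit (B t).det := by
    intro t
    have h1 : B t = ((Matrix.of fun l j : Fin d => H l (e (t, j))).map
        (Int.castRingHom (ZMod P))).transpose := by
      ext j l
      simp [hBdef, Matrix.transpose_apply, Matrix.map_apply]
    have h2 : (B t).det = ((D t : ℤ) : ZMod P) := by
      rw [h1, Matrix.det_transpose, ← RingHom.mapMatrix_apply, ← RingHom.map_det]
      rfl
    rw [h2, isUnit_iff_ne_zero]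
    intro hz
    rw [ZMod.intCast_zmod_eq_zero_iff_dvd] at hz
    refine hdet t (Int.eq_zero_of_abs_lt_dvd hz ?_)
    have h3 : (D t).natAbs ≤ ∑ t, (D t).natAbs :=
      single_le_sum (f := fun t => (D t).natAbs) (fun _ _ => Nat.zero_le _) (mem_univ t)
    change |D t| < _
    rw [Int.abs_eq_natAbs]
    have : (D t).natAbs < P := by omega
    exact_mod_cast this
  have hcount := count_le (P := P) W H
  -- splitting off the columns outside the bases
  have hsplit : ∀ θ : Fin d → Row P m, ∏ i : Fin k,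
      ‖S W (lin P) (fun _ => 1) (∑ l, ((H l i : ℤ) : ZMod P) • θ l)‖ ≤
      (W.card : ℝ) ^ (k - 2 * q * d) *
        ∏ t : Fin (2 * q), ∏ j, ‖S W (lin P) (fun _ => 1) (act (B t) θ j)‖ := by
    intro θ
    set f : Fin k → ℝ := fun i =>
      ‖S W (lin P) (fun _ => 1) (∑ l, ((H l i : ℤ) : ZMod P) • θ l)‖ with hf
    have h1 : ∏ i, f i = (∏ i ∈ univ \ univ.image e, f i) * ∏ i ∈ univ.image e, f i :=
      (prod_sdiff (subset_univ _)).symm
    have h2 : ∏ i ∈ univ.image e, f i = ∏ t : Fin (2 * q), ∏ j, f (e (t, j)) := by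
      rw [prod_image fun x _ y _ h => he h, ← univ_product_univ, prod_product]
    have h3 : ∏ i ∈ univ \ univ.image e, f i ≤ (W.card : ℝ) ^ (k - 2 * q * d) := by
      have h4 : (univ \ univ.image e).card = k - 2 * q * d := by
        rw [card_sdiff_of_subset (subset_univ _), card_image_of_injective _ he, card_univ,
          card_univ, Fintype.card_prod, Fintype.card_fin, Fintype.card_fin, Fintype.card_fin]
      refine (prod_le_prod (fun i _ => norm_nonneg _) fun i _ => norm_S_one_le W (lin P) _).trans ?_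
      rw [prod_const, h4]
    rw [h1, h2]
    have h5 : ∀ t j, f (e (t, j)) = ‖S W (lin P) (fun _ => 1) (act (B t) θ j)‖ := by
      intro t j
      simp only [hf, act, hBdef, Matrix.of_apply]
    simp only [h5]
    refine mul_le_mul_of_nonneg_right h3 (prod_nonneg fun t _ => prod_nonneg fun j _ =>
      norm_nonneg _)
  haveI : Nonempty (Fin (2 * q)) := ⟨⟨0, by omega⟩⟩
  have hq0 : (0 : ℝ) < ((2 * q : ℕ) : ℝ) := by exact_mod_cast (by omega : 0 < 2 * q)
  have hsum : ∑ θ : Fin d → Row P m, ∏ t : Fin (2 * q), ∏ j,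
      ‖S W (lin P) (fun _ => 1) (act (B t) θ j)‖ ≤ ((P : ℝ) ^ (m + 1) * En q W) ^ d := by
    have h1 : ∀ θ : Fin d → Row P m, ∏ t : Fin (2 * q), ∏ j,
        ‖S W (lin P) (fun _ => 1) (act (B t) θ j)‖ ≤
        (∑ t : Fin (2 * q), (∏ j, ‖S W (lin P) (fun _ => 1) (act (B t) θ j)‖) ^ (2 * q)) /
          ((2 * q : ℕ) : ℝ) := by
      intro θ
      have := prod_le_sum_pow (ι := Fin (2 * q))
        (fun t => ∏ j, ‖S W (lin P) (fun _ => 1) (act (B t) θ j)‖)
        (fun t => prod_nonneg fun j _ => norm_nonneg _)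
      rw [Fintype.card_fin] at this
      exact this
    refine (sum_le_sum fun θ _ => h1 θ).trans (le_of_eq ?_)
    rw [← sum_div, sum_comm]
    rw [sum_congr rfl fun t _ => sum_basis W (B t) (hB t) q]
    rw [sum_const, card_univ, Fintype.card_fin, nsmul_eq_mul, En_mod W q R hR hP1]
    field_simp
  have hfin : ((P : ℝ) ^ (m + 1)) ^ d *
      ((Fintype.piFinset fun _ : Fin k => W).filter fun z => ∀ l, ∑ i, H l i • z i = 0).card ≤
      ((P : ℝ) ^ (m + 1)) ^ d * ((W.card : ℝ) ^ (k - 2 * q * d) * (En q W : ℝ) ^ d) := by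
    refine hcount.trans ((sum_le_sum fun θ _ => hsplit θ).trans ?_)
    rw [← mul_sum]
    refine (mul_le_mul_of_nonneg_left hsum (by positivity)).trans (le_of_eq ?_)
    rw [mul_pow]
    ring
  have hfin' := le_of_mul_le_mul_left hfin (by positivity)
  exact_mod_cast hfin'

end Crest.Agent.R225
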