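import Mathlib

/-!
# Row 225: trigonometric majorants and minorants on `ZMod P`

`exists_trig_bounds`: a real function `f` on `ZMod P` with total variation `V` has trigonometric
majorants / minorants of degree `≤ H` with mean difference `≤ C V / H`.
-/

set_option autoImplicit false

open scoped BigOperators Pointwise
open Finset

namespace Crest.Agent.R225.Maj

section Alg

variable (P : ℕ) [NeZero P]

/-- the character `x ↦ e(kx/P)` -/
noncomputable def ch (k : ℤ) (x : ZMod P) : ℂ := ZMod.stdAddChar ((k : ZMod P) * x)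

/-- trigonometric polynomial with coefficients `c` -/
noncomputable def trig (H : ℕ) (c : ℤ → ℂ) (x : ZMod P) : ℂ :=
  ∑ k ∈ Finset.Icc (-(H:ℤ)) H, c k * ZMod.stdAddChar ((k : ZMod P) * x)

/-- trig polynomials of degree `≤ H` -/
noncomputable def T (H : ℕ) : Submodule ℂ (ZMod P → ℂ) :=
  Submodule.span ℂ {F | ∃ k : ℤ, |k| ≤ H ∧ F = ch P k}

variable {P}

theorem ch_mem {H : ℕ} {k : ℤ} (hk : |k| ≤ H) : ch P k ∈ T P H :=
  Submodule.subset_span ⟨k, hk, rfl⟩

theorem T_mono {H H' : ℕ} (h : H ≤ H') : T P H ≤ T P H' := by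
  refine Submodule.span_mono ?_
  rintro F ⟨k, hk, rfl⟩
  exact ⟨k, le_trans hk (by exact_mod_cast h), rfl⟩

theorem ch_mul (k l : ℤ) : ch P k * ch P l = ch P (k + l) := by
  funext x
  simp only [Pi.mul_apply, ch]
  rw [← AddChar.map_add_eq_mul]
  congr 1
  push_cast
  ring

theorem ch_conj (k : ℤ) (x : ZMod P) : (starRingEnd ℂ) (ch P k x) = ch P (-k) x := by
  simp only [ch]
  rw [← AddChar.map_neg_eq_conj]
  congr 1
  push_cast
  ring

theorem T_mul {H H' : ℕ} {F G : ZMod P → ℂ} (hF : F ∈ T P H) (hG : G ∈ T P H') :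
    F * G ∈ T P (H + H') := by
  have h : F * G ∈ T P H * T P H' := Submodule.mul_mem_mul hF hG
  rw [T, T, Submodule.span_mul_span] at h
  refine Submodule.span_mono ?_ h
  rintro _ ⟨A, ⟨k, hk, rfl⟩, B, ⟨l, hl, rfl⟩, rfl⟩
  refine ⟨k + l, ?_, ch_mul k l⟩
  push_cast
  exact le_trans (abs_add_le k l) (add_le_add hk hl)

theorem T_conj {H : ℕ} {F : ZMod P → ℂ} (hF : F ∈ T P H) :
    (fun x => (starRingEnd ℂ) (F x)) ∈ T P H := by
  rw [T] at hF
  induction hF using Submodule.span_induction with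
  | mem F h =>
    obtain ⟨k, hk, rfl⟩ := h
    have : (fun x => (starRingEnd ℂ) (ch P k x)) = ch P (-k) := by
      funext x; exact ch_conj k x
    rw [this]
    exact ch_mem (by rwa [abs_neg])
  | zero =>
    have : (fun x : ZMod P => (starRingEnd ℂ) ((0 : ZMod P → ℂ) x)) = 0 := by
      funext x; simp
    rw [this]; exact Submodule.zero_mem _
  | add F G _ _ h1 h2 =>
    have : (fun x : ZMod P => (starRingEnd ℂ) ((F + G) x)) =
        (fun x => (starRingEnd ℂ) (F x)) + (fun x => (starRingEnd ℂ) (G x)) := by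
      funext x; simp
    rw [this]; exact Submodule.add_mem _ h1 h2
  | smul a F _ h1 =>
    have : (fun x : ZMod P => (starRingEnd ℂ) ((a • F) x)) =
        (starRingEnd ℂ a) • (fun x => (starRingEnd ℂ) (F x)) := by
      funext x; simp
    rw [this]; exact Submodule.smul_mem _ _ h1

theorem T_shift {H : ℕ} {F : ZMod P → ℂ} (hF : F ∈ T P H) (j : ZMod P) :
    (fun x => F (x - j)) ∈ T P H := by
  rw [T] at hF
  induction hF using Submodule.span_induction with
  | mem F h =>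
    obtain ⟨k, hk, rfl⟩ := h
    have : (fun x => ch P k (x - j)) = (ch P k (-j)) • ch P k := by
      funext x
      simp only [ch, Pi.smul_apply, smul_eq_mul]
      rw [← AddChar.map_add_eq_mul]
      congr 1
      ring
    rw [this]
    exact Submodule.smul_mem _ _ (ch_mem hk)
  | zero =>
    have : (fun x : ZMod P => ((0 : ZMod P → ℂ) (x - j))) = 0 := by
      funext x; simp
    rw [this]; exact Submodule.zero_mem _
  | add F G _ _ h1 h2 => exact Submodule.add_mem _ h1 h2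
  | smul a F _ h1 => exact Submodule.smul_mem _ _ h1

theorem exists_coeff {H : ℕ} {F : ZMod P → ℂ} (hF : F ∈ T P H) :
    ∃ c : ℤ → ℂ, ∀ x, F x = trig P H c x := by
  rw [T] at hF
  induction hF using Submodule.span_induction with
  | mem F h =>
    obtain ⟨k, hk, rfl⟩ := h
    refine ⟨fun l => if l = k then 1 else 0, fun x => ?_⟩
    have hk' : k ∈ Finset.Icc (-(H:ℤ)) H := by
      rw [Finset.mem_Icc]; exact abs_le.1 hk
    simp only [trig, ch, ite_mul, one_mul, zero_mul]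
    rw [Finset.sum_ite_eq' (Finset.Icc (-(H:ℤ)) H) k, if_pos hk']
  | zero => exact ⟨0, fun x => by simp [trig]⟩
  | add F G _ _ h1 h2 =>
    obtain ⟨c, hc⟩ := h1
    obtain ⟨c', hc'⟩ := h2
    refine ⟨c + c', fun x => ?_⟩
    rw [Pi.add_apply, hc, hc']
    simp only [trig, Pi.add_apply, add_mul, Finset.sum_add_distrib]
  | smul a F _ h1 =>
    obtain ⟨c, hc⟩ := h1
    refine ⟨fun k => a * c k, fun x => ?_⟩
    rw [Pi.smul_apply, hc]
    simp only [trig, smul_eq_mul, Finset.mul_sum, mul_assoc]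

theorem sum_ch (k : ℤ) : ∑ x : ZMod P, ch P k x = if (k : ZMod P) = 0 then (P : ℂ) else 0 := by
  have h := AddChar.sum_mulShift (R := ZMod P) (k : ZMod P) (ZMod.isPrimitive_stdAddChar P)
  have h2 : ∑ x : ZMod P, ch P k x = ∑ x : ZMod P, ZMod.stdAddChar (x * (k : ZMod P)) := by
    refine Finset.sum_congr rfl fun x _ => ?_
    rw [ch, mul_comm]
  rw [h2, h, ZMod.card]
  split_ifs <;> simp

omit [NeZero P] in
theorem intCast_eq_zero_of_lt {k : ℤ} (hk : |k| < P) (h : (k : ZMod P) = 0) : k = 0 := by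
  rw [ZMod.intCast_zmod_eq_zero_iff_dvd] at h
  exact Int.eq_zero_of_abs_lt_dvd h hk

theorem coeff_eq {H : ℕ} (hH : 2 * H < P) (c : ℤ → ℂ) (k : ℤ) (hk : |k| ≤ H) :
    ∑ x : ZMod P, trig P H c x * (starRingEnd ℂ) (ch P k x) = P * c k := by
  have hk' : k ∈ Finset.Icc (-(H:ℤ)) H := by
    rw [Finset.mem_Icc]; exact abs_le.1 hk
  have h1 : ∀ x : ZMod P, trig P H c x * (starRingEnd ℂ) (ch P k x) =
      ∑ l ∈ Finset.Icc (-(H:ℤ)) H, c l * ch P (l - k) x := by
    intro x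
    rw [trig, Finset.sum_mul]
    refine Finset.sum_congr rfl fun l _ => ?_
    rw [ch_conj, mul_assoc, sub_eq_add_neg, ← ch_mul]
    rfl
  simp_rw [h1]
  rw [Finset.sum_comm]
  simp_rw [← Finset.mul_sum, sum_ch]
  rw [Finset.sum_eq_single k]
  · simp [mul_comm]
  · intro l hl hlk
    rw [if_neg, mul_zero]
    intro h0
    apply hlk
    have h2 : |l - k| < P := by
      rw [Finset.mem_Icc] at hl
      obtain ⟨a, b⟩ := abs_le.1 hk
      rw [abs_lt]
      have : (2:ℤ) * H < P := by exact_mod_cast hH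
      constructor <;> linarith [hl.1, hl.2]
    have := intCast_eq_zero_of_lt h2 h0
    linarith
  · intro h; exact absurd hk' h

theorem norm_ch (k : ℤ) (x : ZMod P) : ‖ch P k x‖ = 1 := AddChar.norm_apply _ _

/-- Fourier coefficients are bounded by the mean of the absolute value -/
theorem coeff_le {H : ℕ} (hH : 2 * H < P) (c : ℤ → ℂ) (k : ℤ) (hk : |k| ≤ H) :
    ‖c k‖ ≤ (∑ x : ZMod P, ‖trig P H c x‖) / P := by
  have hP : (0:ℝ) < P := by exact_mod_cast Nat.pos_of_ne_zero (NeZero.ne P)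
  rw [le_div_iff₀ hP]
  have h := coeff_eq hH c k hk
  have h2 : ‖c k‖ * P = ‖∑ x : ZMod P, trig P H c x * (starRingEnd ℂ) (ch P k x)‖ := by
    rw [h, norm_mul, Complex.norm_natCast, mul_comm]
  rw [h2]
  refine le_trans (norm_sum_le _ _) (le_of_eq ?_)
  refine Finset.sum_congr rfl fun x _ => ?_
  rw [norm_mul, RCLike.norm_conj, norm_ch, mul_one]

theorem coeff_zero_eq {H : ℕ} (hH : 2 * H < P) (c : ℤ → ℂ) :
    c 0 = (∑ x : ZMod P, trig P H c x) / P := by
  have hP : (P:ℂ) ≠ 0 := by exact_mod_cast NeZero.ne P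
  have h := coeff_eq hH c 0 (by simp)
  rw [eq_div_iff hP, mul_comm, ← h]
  refine Finset.sum_congr rfl fun x _ => ?_
  simp [ch]

end Alg

section Kernel

variable {P : ℕ} [NeZero P]

/-- Dirichlet sum with a phase shift -/
noncomputable def D (m : ℕ) (δ : ℝ) (x : ZMod P) : ℂ :=
  ∑ j ∈ Finset.range m, (Complex.exp (Complex.I * δ) * ZMod.stdAddChar x) ^ j

theorem D_eq (m : ℕ) (δ : ℝ) :
    (D m δ : ZMod P → ℂ) = ∑ j ∈ Finset.range m, (Complex.exp (Complex.I * δ)) ^ j • ch P (j : ℤ) := by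
  funext x
  simp only [D, Finset.sum_apply, Pi.smul_apply, smul_eq_mul, ch]
  refine Finset.sum_congr rfl fun j _ => ?_
  rw [mul_pow, ← AddChar.map_nsmul_eq_pow, nsmul_eq_mul]
  push_cast
  rfl

theorem D_mem (m : ℕ) (δ : ℝ) : (D m δ : ZMod P → ℂ) ∈ T P (m - 1) := by
  rw [D_eq]
  refine Submodule.sum_mem _ fun j hj => Submodule.smul_mem _ _ (ch_mem ?_)
  rw [Finset.mem_range] at hj
  rw [Nat.abs_cast]
  exact_mod_cast (by omega : j ≤ m - 1)

/-- `‖D‖²` as a trigonometric polynomial -/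
theorem D_sq_mem (m : ℕ) (δ : ℝ) :
    (fun x : ZMod P => ((‖D m δ x‖ ^ 2 : ℝ) : ℂ)) ∈ T P (2 * (m - 1)) := by
  have h := T_mul (D_mem (P := P) m δ) (T_conj (D_mem (P := P) m δ))
  have h2 : (fun x : ZMod P => ((‖D m δ x‖ ^ 2 : ℝ) : ℂ)) =
      (D m δ : ZMod P → ℂ) * (fun x => (starRingEnd ℂ) (D m δ x)) := by
    funext x
    rw [Pi.mul_apply, Complex.mul_conj']
    push_cast
    rfl
  rw [h2, two_mul]
  exact h

theorem norm_u (δ : ℝ) : ‖Complex.exp (Complex.I * δ)‖ = 1 := by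
  rw [mul_comm]; exact Complex.norm_exp_ofReal_mul_I δ

theorem sum_D_sq (m : ℕ) (hm : m ≤ P) (δ : ℝ) :
    ∑ x : ZMod P, ‖D m δ x‖ ^ 2 = m * P := by
  set u := Complex.exp (Complex.I * δ) with hu
  have huu : ∀ a : ℕ, u ^ a * (starRingEnd ℂ) (u ^ a) = 1 := by
    intro a
    rw [Complex.mul_conj', norm_pow, hu, norm_u]
    simp
  have h1 : ∀ x : ZMod P, ((‖D m δ x‖ ^ 2 : ℝ) : ℂ) =
      ∑ a ∈ Finset.range m, ∑ b ∈ Finset.range m,
        (u ^ a * (starRingEnd ℂ) (u ^ b)) * ch P ((a : ℤ) - b) x := by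
    intro x
    have : ((‖D m δ x‖ ^ 2 : ℝ) : ℂ) = D m δ x * (starRingEnd ℂ) (D m δ x) := by
      rw [Complex.mul_conj']; push_cast; rfl
    rw [this, D_eq]
    simp only [Finset.sum_apply, Pi.smul_apply, smul_eq_mul, map_sum, map_mul]
    rw [Finset.sum_mul_sum]
    refine Finset.sum_congr rfl fun a _ => Finset.sum_congr rfl fun b _ => ?_
    rw [ch_conj, sub_eq_add_neg, ← ch_mul, Pi.mul_apply]
    ring
  have h2 : ((∑ x : ZMod P, ‖D m δ x‖ ^ 2 : ℝ) : ℂ) = (m * P : ℝ) := by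
    push_cast
    have h3 : ∀ x : ZMod P, ((‖D m δ x‖ : ℂ)) ^ 2 = ((‖D m δ x‖ ^ 2 : ℝ) : ℂ) := by
      intro x; push_cast; rfl
    simp_rw [h3, h1]
    rw [Finset.sum_comm]
    have h4 : ∀ a ∈ Finset.range m, (∑ x : ZMod P, ∑ b ∈ Finset.range m,
        (u ^ a * (starRingEnd ℂ) (u ^ b)) * ch P ((a : ℤ) - b) x) = (P : ℂ) := by
      intro a ha
      rw [Finset.sum_comm]
      simp_rw [← Finset.mul_sum, sum_ch]
      rw [Finset.sum_eq_single a]
      · rw [sub_self, Int.cast_zero, if_pos rfl, huu, one_mul]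
      · intro b hb hba
        rw [if_neg, mul_zero]
        intro h0
        apply hba
        rw [Finset.mem_range] at ha hb
        have h5 : |((a:ℤ) - b)| < P := by
          rw [abs_lt]; constructor <;> omega
        have := intCast_eq_zero_of_lt h5 h0
        omega
      · intro h; exact absurd ha h
    rw [Finset.sum_congr rfl h4]
    simp
  exact_mod_cast h2

/-- distance to `0` in `ZMod P` -/
def d (x : ZMod P) : ℕ := x.valMinAbs.natAbs

theorem stdAddChar_eq (x : ZMod P) :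
    (ZMod.stdAddChar x : ℂ) = Complex.exp (Complex.I * ((2 * Real.pi * x.valMinAbs / P : ℝ) : ℂ)) := by
  conv_lhs => rw [← ZMod.coe_valMinAbs x, ZMod.stdAddChar_coe]
  congr 1
  push_cast
  ring

omit [NeZero P] in
theorem abs_valMinAbs (x : ZMod P) : |(x.valMinAbs : ℝ)| = (d x : ℝ) := by
  rw [d, ← Int.cast_abs, Nat.cast_natAbs]

theorem two_d_le (x : ZMod P) : 2 * d x ≤ P := by
  have := ZMod.natAbs_valMinAbs_le x
  rw [d]; omega

theorem norm_sub_one_le (x : ZMod P) : ‖(ZMod.stdAddChar x : ℂ) - 1‖ ≤ 2 * Real.pi * d x / P := by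
  rw [stdAddChar_eq, Complex.norm_exp_I_mul_ofReal_sub_one, Real.norm_eq_abs, abs_mul]
  have hP : (0:ℝ) < P := by exact_mod_cast Nat.pos_of_ne_zero (NeZero.ne P)
  have h1 : |Real.sin (2 * Real.pi * x.valMinAbs / P / 2)| ≤ |2 * Real.pi * x.valMinAbs / P / 2| :=
    Real.abs_sin_le_abs
  have h2 : |2 * Real.pi * (x.valMinAbs : ℝ) / P / 2| = Real.pi * d x / P := by
    rw [← abs_valMinAbs x]
    rw [show 2 * Real.pi * (x.valMinAbs : ℝ) / P / 2 = (Real.pi / P) * x.valMinAbs by ring, abs_mul,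
      abs_of_pos (by positivity)]
    ring
  rw [h2] at h1
  rw [abs_of_pos (by norm_num : (0:ℝ) < 2)]
  calc 2 * |Real.sin (2 * Real.pi * x.valMinAbs / P / 2)| ≤ 2 * (Real.pi * d x / P) := by linarith
    _ = _ := by ring

theorem le_norm_sub_one (x : ZMod P) : 4 * (d x : ℝ) / P ≤ ‖(ZMod.stdAddChar x : ℂ) - 1‖ := by
  rw [stdAddChar_eq, Complex.norm_exp_I_mul_ofReal_sub_one, Real.norm_eq_abs, abs_mul,
    abs_of_pos (by norm_num : (0:ℝ) < 2)]
  have hP : (0:ℝ) < P := by exact_mod_cast Nat.pos_of_ne_zero (NeZero.ne P)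
  have hd : 2 * (d x : ℝ) ≤ P := by exact_mod_cast two_d_le x
  have h1 : |Real.sin (2 * Real.pi * x.valMinAbs / P / 2)| =
      |Real.sin (Real.pi * d x / P)| := by
    rcases le_total 0 (x.valMinAbs : ℝ) with h | h
    · have : (x.valMinAbs : ℝ) = d x := by rw [← abs_valMinAbs, abs_of_nonneg h]
      rw [this]; congr 2; ring
    · have : (x.valMinAbs : ℝ) = - d x := by rw [← abs_valMinAbs, abs_of_nonpos h]; ring
      rw [this, show 2 * Real.pi * (-(d x : ℝ)) / P / 2 = -(Real.pi * d x / P) by ring,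
        Real.sin_neg, abs_neg]
  rw [h1]
  have h0 : 0 ≤ Real.pi * d x / P := by positivity
  have h2 : Real.pi * d x / P ≤ Real.pi / 2 := by
    rw [div_le_div_iff₀ hP (by norm_num)]
    nlinarith [Real.pi_pos]
  have h3 := Real.mul_le_sin h0 h2
  have h4 : 2 / Real.pi * (Real.pi * d x / P) = 2 * (d x : ℝ) / P := by
    field_simp
  rw [h4] at h3
  have h5 := le_abs_self (Real.sin (Real.pi * d x / P))
  calc 4 * (d x : ℝ) / P = 2 * (2 * (d x : ℝ) / P) := by ring
    _ ≤ 2 * |Real.sin (Real.pi * d x / P)| := by linarith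

theorem D_mul (m : ℕ) (δ : ℝ) (x : ZMod P) :
    ‖D m δ x‖ * ‖Complex.exp (Complex.I * δ) * ZMod.stdAddChar x - 1‖ =
      ‖(Complex.exp (Complex.I * δ) * ZMod.stdAddChar x) ^ m - 1‖ := by
  rw [← norm_mul, D, geom_sum_mul]

/-- decay of the Dirichlet kernel -/
theorem D_d_le (m : ℕ) (x : ZMod P) : ‖D m 0 x‖ * d x ≤ P / 2 := by
  have hP : (0:ℝ) < P := by exact_mod_cast Nat.pos_of_ne_zero (NeZero.ne P)
  have h1 := D_mul m 0 x
  have h2 : Complex.exp (Complex.I * (0:ℝ)) = 1 := by simp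
  rw [h2, one_mul] at h1
  have h3 : ‖(ZMod.stdAddChar x : ℂ) ^ m - 1‖ ≤ 2 := by
    refine le_trans (norm_sub_le _ _) ?_
    rw [norm_pow, AddChar.norm_apply]
    norm_num
  have h4 := le_norm_sub_one x
  have h5 : ‖D m 0 x‖ * (4 * (d x : ℝ) / P) ≤ 2 := by
    refine le_trans (mul_le_mul_of_nonneg_left h4 (norm_nonneg _)) ?_
    rw [h1]; exact h3
  have h6 : ‖D m 0 x‖ * (4 * (d x : ℝ) / P) = (‖D m 0 x‖ * d x) * (4 / P) := by ring
  rw [h6] at h5
  have h7 : (‖D m 0 x‖ * d x) * (4 / P) * (P / 4) ≤ 2 * (P / 4) :=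
    mul_le_mul_of_nonneg_right h5 (by positivity)
  have h8 : (‖D m 0 x‖ * d x) * (4 / P) * (P / 4) = ‖D m 0 x‖ * d x := by
    field_simp
  rw [h8] at h7
  linarith

/-- the pair of shifted Fejér kernels -/
noncomputable def E (m : ℕ) (x : ZMod P) : ℝ := ‖D m 0 x‖ ^ 2 + ‖D m (Real.pi / m) x‖ ^ 2

theorem E_nonneg (m : ℕ) (x : ZMod P) : 0 ≤ E m x := by unfold E; positivity

theorem E_mem (m : ℕ) : (fun x : ZMod P => ((E m x : ℝ) : ℂ)) ∈ T P (2 * (m - 1)) := by
  have := Submodule.add_mem _ (D_sq_mem (P := P) m 0) (D_sq_mem (P := P) m (Real.pi / m))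
  convert this using 1
  funext x
  simp [E]

theorem sum_E (m : ℕ) (hm : m ≤ P) : ∑ x : ZMod P, E m x = 2 * m * P := by
  simp only [E, Finset.sum_add_distrib]
  rw [sum_D_sq m hm, sum_D_sq m hm]
  ring

theorem norm_D_le (m : ℕ) (δ : ℝ) (x : ZMod P) : ‖D m δ x‖ ≤ m := by
  refine le_trans (norm_sum_le _ _) ?_
  have : ∀ j ∈ Finset.range m, ‖(Complex.exp (Complex.I * δ) * ZMod.stdAddChar x) ^ j‖ ≤ 1 := by
    intro j _
    rw [norm_pow, norm_mul, norm_u, AddChar.norm_apply]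
    simp
  refine le_trans (Finset.sum_le_sum this) ?_
  simp

theorem E_le (m : ℕ) (x : ZMod P) : E m x ≤ 2 * m ^ 2 := by
  have h1 := norm_D_le m 0 x
  have h2 := norm_D_le m (Real.pi / m) x
  have h3 : ‖D m 0 x‖ ^ 2 ≤ (m:ℝ) ^ 2 := pow_le_pow_left₀ (norm_nonneg _) h1 2
  have h4 : ‖D m (Real.pi / m) x‖ ^ 2 ≤ (m:ℝ) ^ 2 := pow_le_pow_left₀ (norm_nonneg _) h2 2
  unfold E
  linarith

/-- lower bound for the kernel pair -/
theorem le_E (m : ℕ) (hm : 0 < m) (x : ZMod P) :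
    4 ≤ E m x * (2 * Real.pi * d x / P + Real.pi / m) ^ 2 := by
  have hm' : (0:ℝ) < m := by exact_mod_cast hm
  have hP : (0:ℝ) < P := by exact_mod_cast Nat.pos_of_ne_zero (NeZero.ne P)
  set s : ℂ := ZMod.stdAddChar x with hs
  have hsn : ‖s‖ = 1 := AddChar.norm_apply _ _
  set u : ℂ := Complex.exp (Complex.I * ((Real.pi / m : ℝ) : ℂ)) with hu
  have h1 := D_mul m 0 x
  have h2 : Complex.exp (Complex.I * ((0:ℝ) : ℂ)) = 1 := by simp
  rw [h2, one_mul] at h1
  have h3 := D_mul m (Real.pi / m) x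
  rw [← hu, ← hs] at h3
  rw [← hs] at h1
  have hum : u ^ m = -1 := by
    rw [hu, ← Complex.exp_nat_mul]
    rw [show (m:ℂ) * (Complex.I * ((Real.pi / m : ℝ) : ℂ)) = Real.pi * Complex.I by
      push_cast
      have : (m:ℂ) ≠ 0 := by exact_mod_cast hm'.ne'
      field_simp]
    exact Complex.exp_pi_mul_I
  have h4 : ‖s ^ m - 1‖ ^ 2 + ‖(u * s) ^ m - 1‖ ^ 2 = 4 := by
    rw [mul_pow, hum]
    have h5 : (-1 * s ^ m - 1 : ℂ) = -(s ^ m + 1) := by ring
    rw [h5, norm_neg]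
    have h6 := parallelogram_law_with_norm ℝ (s ^ m) (1:ℂ)
    have h7 : ‖s ^ m‖ = 1 := by rw [norm_pow, hsn, one_pow]
    rw [h7, norm_one] at h6
    nlinarith
  have h8 : ‖s - 1‖ ≤ 2 * Real.pi * d x / P := norm_sub_one_le x
  have h9 : ‖u - 1‖ ≤ Real.pi / m := by
    rw [hu, Complex.norm_exp_I_mul_ofReal_sub_one, Real.norm_eq_abs, abs_mul,
      abs_of_pos (by norm_num : (0:ℝ) < 2)]
    have := @Real.abs_sin_le_abs (Real.pi / m / 2)
    rw [abs_of_pos (by positivity : 0 < Real.pi / m / 2)] at this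
    linarith
  have h10 : ‖u * s - 1‖ ≤ 2 * Real.pi * d x / P + Real.pi / m := by
    have : u * s - 1 = (u - 1) * s + (s - 1) := by ring
    rw [this]
    refine le_trans (norm_add_le _ _) ?_
    rw [norm_mul, hsn, mul_one]
    linarith
  set ρ := 2 * Real.pi * (d x : ℝ) / P + Real.pi / m with hρ
  have hρ0 : 0 ≤ ρ := by positivity
  have h11 : ‖s - 1‖ ≤ ρ := le_trans h8 (by rw [hρ]; linarith [div_pos Real.pi_pos hm'])
  have h12 : ‖s ^ m - 1‖ ^ 2 ≤ ‖D m 0 x‖ ^ 2 * ρ ^ 2 := by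
    rw [← h1, mul_pow]
    exact mul_le_mul_of_nonneg_left (pow_le_pow_left₀ (norm_nonneg _) h11 2) (by positivity)
  have h13 : ‖(u * s) ^ m - 1‖ ^ 2 ≤ ‖D m (Real.pi / m) x‖ ^ 2 * ρ ^ 2 := by
    rw [← h3, mul_pow]
    exact mul_le_mul_of_nonneg_left (pow_le_pow_left₀ (norm_nonneg _) h10 2) (by positivity)
  unfold E
  rw [add_mul]
  linarith

end Kernel

section Tail

variable {P : ℕ} [NeZero P]

/-- the (unnormalised) Jackson kernel -/
noncomputable def q (m : ℕ) (x : ZMod P) : ℝ := ‖D m 0 x‖ ^ 2 * ‖D m 0 x‖ ^ 2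

theorem q_nonneg (m : ℕ) (x : ZMod P) : 0 ≤ q m x := by unfold q; positivity

theorem q_mem (m : ℕ) : (fun x : ZMod P => ((q m x : ℝ) : ℂ)) ∈ T P (4 * (m - 1)) := by
  have := T_mul (D_sq_mem (P := P) m 0) (D_sq_mem (P := P) m 0)
  have h : 2 * (m - 1) + 2 * (m - 1) = 4 * (m - 1) := by ring
  rw [h] at this
  convert this using 1
  funext x
  simp [q]

theorem D_ge (m : ℕ) (hm : 0 < m) (j : ℕ) (hj : j ≤ P / (2 * m)) :
    2 * (m : ℝ) / Real.pi ≤ ‖(D m 0 (j : ZMod P) : ℂ)‖ := by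
  have hm' : (0:ℝ) < m := by exact_mod_cast hm
  have hP : (0:ℝ) < P := by exact_mod_cast Nat.pos_of_ne_zero (NeZero.ne P)
  rcases Nat.eq_zero_or_pos j with rfl | hj0
  · have : (D m 0 ((0 : ℕ) : ZMod P) : ℂ) = m := by
      simp [D]
    rw [this, Complex.norm_natCast, div_le_iff₀ Real.pi_pos]
    nlinarith [Real.pi_gt_three]
  have hj1 : (0:ℝ) < j := by exact_mod_cast hj0
  have hjm : j * (2 * m) ≤ P := le_trans (Nat.mul_le_mul_right _ hj) (Nat.div_mul_le_self P (2 * m))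
  have h1 := D_mul m 0 (j : ZMod P)
  have h2 : Complex.exp (Complex.I * ((0:ℝ) : ℂ)) = 1 := by simp
  rw [h2, one_mul] at h1
  have h3 : (ZMod.stdAddChar ((j : ℕ) : ZMod P) : ℂ) ^ m =
      ZMod.stdAddChar (((m * j : ℕ)) : ZMod P) := by
    rw [← AddChar.map_nsmul_eq_pow, nsmul_eq_mul]
    push_cast
    rfl
  rw [h3] at h1
  have h4 := le_norm_sub_one ((m * j : ℕ) : ZMod P)
  have h5 : d (((m * j : ℕ)) : ZMod P) = m * j := by
    have h50 : m * j ≤ P / 2 := by
      rw [Nat.le_div_iff_mul_le (by norm_num)]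
      calc m * j * 2 = j * (2 * m) := by ring
        _ ≤ P := hjm
    rw [d, ZMod.valMinAbs_natCast_of_le_half h50, Int.natAbs_natCast]
  rw [h5] at h4
  have h6 := norm_sub_one_le ((j : ℕ) : ZMod P)
  have h7 : (d ((j : ℕ) : ZMod P) : ℝ) ≤ j := by
    have h8 := ZMod.natAbs_min_of_le_div_two P (((j : ℕ) : ZMod P)).valMinAbs (j : ℤ)
      (by rw [ZMod.coe_valMinAbs]; push_cast; rfl) (ZMod.natAbs_valMinAbs_le _)
    rw [Int.natAbs_natCast] at h8
    exact_mod_cast h8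
  have h8 : ‖(ZMod.stdAddChar ((j : ℕ) : ZMod P) : ℂ) - 1‖ ≤ 2 * Real.pi * j / P := by
    refine le_trans h6 ?_
    gcongr
  have h9 : 4 * ((m * j : ℕ) : ℝ) / P ≤ ‖(D m 0 (j : ZMod P) : ℂ)‖ * (2 * Real.pi * j / P) := by
    refine le_trans h4 ?_
    rw [← h1]
    exact mul_le_mul_of_nonneg_left h8 (norm_nonneg _)
  have h10 : 2 * (m : ℝ) / Real.pi * (2 * Real.pi * j / P) = 4 * ((m * j : ℕ) : ℝ) / P := by
    push_cast
    field_simp
    ring
  rw [← h10] at h9
  exact le_of_mul_le_mul_right h9 (by positivity)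

theorem sum_q_ge (m : ℕ) (hm : 0 < m) : 2 / 25 * ((P : ℝ) * m ^ 3) ≤ ∑ x : ZMod P, q m x := by
  have hm' : (0:ℝ) < m := by exact_mod_cast hm
  have hP0 : 0 < P := Nat.pos_of_ne_zero (NeZero.ne P)
  have hP : (0:ℝ) < P := by exact_mod_cast hP0
  set n := P / (2 * m) with hn
  have hnP : n < P := Nat.div_lt_self hP0 (by omega)
  have hinj : Set.InjOn (fun j : ℕ => (j : ZMod P)) (Finset.range (n + 1) : Set ℕ) := by
    intro a ha b hb hab
    simp only [Finset.coe_range, Set.mem_Iio] at ha hb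
    have h1 : ((a : ZMod P)).val = a := ZMod.val_natCast_of_lt (by omega)
    have h2 : ((b : ZMod P)).val = b := ZMod.val_natCast_of_lt (by omega)
    rw [← h1, ← h2]
    exact congrArg ZMod.val hab
  have h1 : ∑ x ∈ (Finset.range (n + 1)).image (fun j : ℕ => (j : ZMod P)), q m x ≤
      ∑ x : ZMod P, q m x :=
    Finset.sum_le_sum_of_subset_of_nonneg (Finset.subset_univ _) fun x _ _ => q_nonneg m x
  rw [Finset.sum_image hinj] at h1
  have hpi4 : Real.pi ^ 4 ≤ 100 := by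
    have h := Real.pi_lt_d2
    have h' := Real.pi_pos
    have h2 : Real.pi ^ 2 ≤ 10 := by nlinarith
    calc Real.pi ^ 4 = Real.pi ^ 2 * Real.pi ^ 2 := by ring
      _ ≤ 10 * 10 := mul_le_mul h2 h2 (by positivity) (by norm_num)
      _ = 100 := by norm_num
  have h2 : ∀ j ∈ Finset.range (n + 1), 4 / 25 * (m:ℝ) ^ 4 ≤ q m (j : ZMod P) := by
    intro j hj
    rw [Finset.mem_range] at hj
    have h3 := D_ge (P := P) m hm j (by omega)
    have h4 : (2 * (m : ℝ) / Real.pi) ^ 2 ≤ ‖(D m 0 (j : ZMod P) : ℂ)‖ ^ 2 :=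
      pow_le_pow_left₀ (by positivity) h3 2
    unfold q
    calc 4 / 25 * (m:ℝ) ^ 4 = 16 * (m:ℝ) ^ 4 / 100 := by ring
      _ ≤ 16 * (m:ℝ) ^ 4 / Real.pi ^ 4 :=
          div_le_div_of_nonneg_left (by positivity) (by positivity) hpi4
      _ = (2 * (m : ℝ) / Real.pi) ^ 2 * (2 * (m : ℝ) / Real.pi) ^ 2 := by ring
      _ ≤ _ := mul_le_mul h4 h4 (by positivity) (by positivity)
  have h3 := Finset.sum_le_sum h2
  simp only [Finset.sum_const, Finset.card_range, nsmul_eq_mul] at h3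
  have h4 : (P:ℝ) / (2 * m) ≤ ((n + 1 : ℕ) : ℝ) := by
    rw [div_le_iff₀ (by positivity)]
    have : P < (n + 1) * (2 * m) := by
      have := Nat.lt_div_mul_add (a := P) (b := 2 * m) (by omega)
      rw [← hn] at this
      linarith
    exact_mod_cast this.le
  calc 2 / 25 * ((P : ℝ) * m ^ 3) = (P:ℝ) / (2 * m) * (4 / 25 * (m:ℝ) ^ 4) := by
        field_simp; norm_num
    _ ≤ ((n + 1 : ℕ) : ℝ) * (4 / 25 * (m:ℝ) ^ 4) := mul_le_mul_of_nonneg_right h4 (by positivity)
    _ ≤ _ := le_trans h3 h1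

/-- the tail of the Jackson kernel -/
noncomputable def A (m : ℕ) (t : ZMod P) : ℝ := ∑ y : ZMod P, if d t ≤ d y then q m y else 0

theorem A_nonneg (m : ℕ) (t : ZMod P) : 0 ≤ A m t :=
  Finset.sum_nonneg fun y _ => by split_ifs; exacts [q_nonneg m y, le_rfl]

theorem A_le (m : ℕ) (t : ZMod P) : A m t ≤ ∑ y : ZMod P, q m y :=
  Finset.sum_le_sum fun y _ => by split_ifs; exacts [le_rfl, q_nonneg m y]

theorem A_moment (m : ℕ) (hmP : m ≤ P) (t : ZMod P) :
    (d t : ℝ) ^ 2 * A m t ≤ (P:ℝ) ^ 3 * m / 4 := by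
  rw [A, Finset.mul_sum]
  have h1 : ∀ y ∈ (Finset.univ : Finset (ZMod P)),
      (d t : ℝ) ^ 2 * (if d t ≤ d y then q m y else 0) ≤ (P:ℝ) ^ 2 / 4 * ‖D m 0 y‖ ^ 2 := by
    intro y _
    split_ifs with h
    · have h2 : (d t : ℝ) ^ 2 ≤ (d y : ℝ) ^ 2 :=
        pow_le_pow_left₀ (by positivity) (by exact_mod_cast h) 2
      have h3 := D_d_le m y
      have h4 : (‖D m 0 y‖ * d y) ^ 2 ≤ ((P:ℝ) / 2) ^ 2 := pow_le_pow_left₀ (by positivity) h3 2
      unfold q
      calc (d t : ℝ) ^ 2 * (‖D m 0 y‖ ^ 2 * ‖D m 0 y‖ ^ 2)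
          ≤ (d y : ℝ) ^ 2 * (‖D m 0 y‖ ^ 2 * ‖D m 0 y‖ ^ 2) :=
            mul_le_mul_of_nonneg_right h2 (by positivity)
        _ = (‖D m 0 y‖ * d y) ^ 2 * ‖D m 0 y‖ ^ 2 := by ring
        _ ≤ ((P:ℝ) / 2) ^ 2 * ‖D m 0 y‖ ^ 2 := mul_le_mul_of_nonneg_right h4 (by positivity)
        _ = _ := by ring
    · rw [mul_zero]; positivity
  refine le_trans (Finset.sum_le_sum h1) ?_
  rw [← Finset.mul_sum, sum_D_sq m hmP]
  apply le_of_eq; ring

theorem A_le_E (m : ℕ) (hm : 0 < m) (hmP : m ≤ P) (t : ZMod P) :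
    A m t / (∑ y : ZMod P, q m y) ≤ 52 / (m:ℝ) ^ 2 * E m t := by
  have hm' : (0:ℝ) < m := by exact_mod_cast hm
  have hP : (0:ℝ) < P := by exact_mod_cast Nat.pos_of_ne_zero (NeZero.ne P)
  have hQ := sum_q_ge (P := P) m hm
  set Q := ∑ y : ZMod P, q m y with hQd
  have hQ0 : 0 < Q := lt_of_lt_of_le (by positivity) hQ
  set τ := A m t / Q with hτ
  have hτ0 : 0 ≤ τ := div_nonneg (A_nonneg m t) hQ0.le
  have hτ1 : τ ≤ 1 := (div_le_one hQ0).2 (A_le m t)
  have hAτ : A m t = τ * Q := by rw [hτ]; field_simp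
  set z : ℝ := m * d t / P with hz
  have hz0 : 0 ≤ z := by positivity
  have h1 := A_moment m hmP t
  rw [hAτ] at h1
  have h2 : (d t : ℝ) ^ 2 * (τ * (2 / 25 * ((P : ℝ) * m ^ 3))) ≤ (P:ℝ) ^ 3 * m / 4 :=
    le_trans (mul_le_mul_of_nonneg_left (mul_le_mul_of_nonneg_left hQ hτ0) (by positivity)) h1
  have h3 : τ * z ^ 2 ≤ 25 / 8 := by
    have h4 : (d t : ℝ) = z * P / m := by rw [hz]; field_simp
    rw [h4] at h2
    have h5 : (z * P / m) ^ 2 * (τ * (2 / 25 * ((P : ℝ) * m ^ 3))) =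
        (τ * z ^ 2) * (2 / 25 * ((P:ℝ) ^ 3 * m)) := by
      field_simp
    rw [h5] at h2
    have h6 : (P:ℝ) ^ 3 * m / 4 = 25 / 8 * (2 / 25 * ((P:ℝ) ^ 3 * m)) := by ring
    rw [h6] at h2
    exact le_of_mul_le_mul_right h2 (by positivity)
  have h4 := le_E m hm t
  set ρ := 2 * Real.pi * (d t : ℝ) / P + Real.pi / m with hρ
  have hρz : ρ * m = Real.pi * (2 * z + 1) := by
    rw [hρ, hz]; field_simp
  have hρ0 : 0 < ρ := by positivity
  have hpi : Real.pi ^ 2 ≤ 9.9225 := by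
    have := Real.pi_lt_d2
    have := Real.pi_pos
    nlinarith
  have h5 : τ * (ρ * m) ^ 2 ≤ 208 := by
    rw [hρz, mul_pow]
    have h6 : (2 * z + 1) ^ 2 ≤ 5 * z ^ 2 + 5 := by nlinarith [sq_nonneg (z - 2)]
    calc τ * (Real.pi ^ 2 * (2 * z + 1) ^ 2) = Real.pi ^ 2 * (τ * (2 * z + 1) ^ 2) := by ring
      _ ≤ Real.pi ^ 2 * (τ * (5 * z ^ 2 + 5)) :=
          mul_le_mul_of_nonneg_left (mul_le_mul_of_nonneg_left h6 hτ0) (by positivity)
      _ = Real.pi ^ 2 * (5 * (τ * z ^ 2) + 5 * τ) := by ring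
      _ ≤ Real.pi ^ 2 * (165 / 8) := mul_le_mul_of_nonneg_left (by linarith) (by positivity)
      _ ≤ 9.9225 * (165 / 8) := mul_le_mul_of_nonneg_right hpi (by norm_num)
      _ ≤ 208 := by norm_num
  have h6 : (τ * (m:ℝ) ^ 2) * ρ ^ 2 ≤ (52 * E m t) * ρ ^ 2 := by
    have h7 : τ * (ρ * m) ^ 2 = (τ * (m:ℝ) ^ 2) * ρ ^ 2 := by ring
    rw [h7] at h5
    nlinarith
  have h7 := le_of_mul_le_mul_right h6 (by positivity)
  rw [div_mul_eq_mul_div, le_div_iff₀ (by positivity)]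
  exact h7

end Tail

section Main

variable {P : ℕ} [NeZero P]

/-- total variation density -/
def μ (f : ZMod P → ℝ) (j : ZMod P) : ℝ := |f (j + 1) - f j|

theorem d_natCast_le (i : ℕ) : d (i : ZMod P) ≤ i := by
  have h := ZMod.natAbs_min_of_le_div_two P ((i : ZMod P)).valMinAbs (i : ℤ)
    (by rw [ZMod.coe_valMinAbs]; push_cast; rfl) (ZMod.natAbs_valMinAbs_le _)
  simpa [d] using h

omit [NeZero P] in
theorem d_neg (x : ZMod P) : d (-x) = d x := by
  simp [d, ZMod.natAbs_valMinAbs_neg]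

theorem sum_image_le {f : ZMod P → ℝ} (n : ℕ) (hn : n < P) (x : ZMod P) (y : ZMod P) (hy : d y = n)
    (s : ZMod P) (c : ZMod P)
    (hs : s = 1 ∨ s = -1)
    (hg : ∀ i : ℕ, i < n → d (x - (c + s * (i : ZMod P))) ≤ n) :
    ∑ i ∈ Finset.range n, μ f (c + s * (i : ZMod P)) ≤
      ∑ j : ZMod P, if d (x - j) ≤ d y then μ f j else 0 := by
  have hinj : Set.InjOn (fun i : ℕ => c + s * (i : ZMod P)) (Finset.range n : Set ℕ) := by
    intro a ha b hb hab
    simp only [Finset.coe_range, Set.mem_Iio] at ha hb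
    have h0 : s * (a : ZMod P) = s * (b : ZMod P) := add_left_cancel hab
    have h00 : (a : ZMod P) = (b : ZMod P) := by
      rcases hs with h | h
      · rw [h, one_mul, one_mul] at h0; exact h0
      · rw [h, neg_mul, neg_mul, one_mul, one_mul] at h0; exact neg_injective h0
    have h1 : ((a : ZMod P)).val = a := ZMod.val_natCast_of_lt (by omega)
    have h2 : ((b : ZMod P)).val = b := ZMod.val_natCast_of_lt (by omega)
    rw [← h1, ← h2]
    exact congrArg ZMod.val h00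
  rw [← Finset.sum_image (f := fun j => μ f j) hinj, ← Finset.sum_filter]
  refine Finset.sum_le_sum_of_subset_of_nonneg ?_ fun _ _ _ => abs_nonneg _
  intro j hj
  rw [Finset.mem_image] at hj
  obtain ⟨i, hi, rfl⟩ := hj
  rw [Finset.mem_range] at hi
  rw [Finset.mem_filter]
  exact ⟨Finset.mem_univ _, by rw [hy]; exact hg i hi⟩

theorem path_le (f : ZMod P → ℝ) (x y : ZMod P) :
    |f x - f (x - y)| ≤ ∑ j : ZMod P, if d (x - j) ≤ d y then μ f j else 0 := by
  have hP0 : 0 < P := Nat.pos_of_ne_zero (NeZero.ne P)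
  have hlt : d y < P := by have := two_d_le y; omega
  rcases Int.natAbs_eq y.valMinAbs with h | h
  · have hy : y = ((d y : ℕ) : ZMod P) := by
      have h2 : ((y.valMinAbs : ℤ) : ZMod P) = ((y.valMinAbs.natAbs : ℤ) : ZMod P) :=
        congrArg _ h
      rw [ZMod.coe_valMinAbs, Int.cast_natCast] at h2
      exact h2
    have h1 : ∀ n : ℕ, |f x - f (x - (n : ZMod P))| ≤
        ∑ i ∈ Finset.range n, μ f ((x - 1) + (-1) * (i : ZMod P)) := by
      intro n
      induction n with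
      | zero => simp
      | succ n ih =>
        rw [Finset.sum_range_succ]
        have e1 : x - ((n + 1 : ℕ) : ZMod P) = x - 1 + (-1) * (n : ZMod P) := by push_cast; ring
        have e2 : x - 1 + (-1) * (n : ZMod P) + 1 = x - (n : ZMod P) := by ring
        have h2 : |f x - f (x - ((n + 1 : ℕ) : ZMod P))| ≤ |f x - f (x - (n : ZMod P))| +
            μ f (x - 1 + (-1) * (n : ZMod P)) := by
          rw [μ, e2, e1]
          exact abs_sub_le _ _ _
        linarith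
    have h2 := h1 (d y)
    rw [← hy] at h2
    refine le_trans h2 (sum_image_le (d y) hlt x y rfl (-1) (x - 1) (Or.inr rfl) ?_)
    intro i hi
    have : x - (x - 1 + (-1) * (i : ZMod P)) = ((i + 1 : ℕ) : ZMod P) := by push_cast; ring
    rw [this]
    exact le_trans (d_natCast_le _) hi
  · have hy : y = -((d y : ℕ) : ZMod P) := by
      have h2 : ((y.valMinAbs : ℤ) : ZMod P) = ((-(y.valMinAbs.natAbs : ℤ) : ℤ) : ZMod P) :=
        congrArg _ h
      rw [ZMod.coe_valMinAbs, Int.cast_neg, Int.cast_natCast] at h2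
      exact h2
    have h1 : ∀ n : ℕ, |f x - f (x + (n : ZMod P))| ≤
        ∑ i ∈ Finset.range n, μ f (x + 1 * (i : ZMod P)) := by
      intro n
      induction n with
      | zero => simp
      | succ n ih =>
        rw [Finset.sum_range_succ]
        have e1 : x + ((n + 1 : ℕ) : ZMod P) = x + 1 * (n : ZMod P) + 1 := by push_cast; ring
        have h2 : |f x - f (x + ((n + 1 : ℕ) : ZMod P))| ≤ |f x - f (x + (n : ZMod P))| +
            μ f (x + 1 * (n : ZMod P)) := by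
          rw [μ, e1, abs_sub_comm (f (x + 1 * (n : ZMod P) + 1)), one_mul]
          exact abs_sub_le _ _ _
        linarith
    have h2 := h1 (d y)
    have e : x - y = x + ((d y : ℕ) : ZMod P) := by
      conv_lhs => rw [hy]
      ring
    rw [← e] at h2
    refine le_trans h2 (sum_image_le (d y) hlt x y rfl 1 x (Or.inl rfl) ?_)
    intro i hi
    have : x - (x + 1 * (i : ZMod P)) = -(i : ZMod P) := by ring
    rw [this, d_neg]
    exact le_trans (d_natCast_le _) hi.le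

theorem sum_sub_left (g : ZMod P → ℝ) (y : ZMod P) : ∑ x : ZMod P, g (x - y) = ∑ x : ZMod P, g x :=
  (Equiv.subRight y).sum_comp g

/-- **Trigonometric majorants and minorants on `ZMod P`.** -/
theorem exists_trig_bounds (P : ℕ) [NeZero P] (H : ℕ) (hH : 0 < H) (hHP : 2 * H < P)
    (f : ZMod P → ℝ) (V : ℝ) (hV : ∑ x, |f (x + 1) - f x| ≤ V) :
    ∃ (Fm Fp : ZMod P → ℝ) (cm cp : ℤ → ℂ),
      (∀ x, (Fm x : ℂ) = trig P H cm x) ∧ (∀ x, (Fp x : ℂ) = trig P H cp x) ∧
      (∀ x, Fm x ≤ f x) ∧ (∀ x, f x ≤ Fp x) ∧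
      (∑ x, Fp x) / P ≤ (∑ x, f x) / P + 416 * V / H ∧
      (∑ x, f x) / P - 416 * V / H ≤ (∑ x, Fm x) / P ∧
      cp 0 = (((∑ x, Fp x) / P : ℝ) : ℂ) ∧ cm 0 = (((∑ x, Fm x) / P : ℝ) : ℂ) ∧
      (∀ k : ℤ, (H:ℤ) < |k| → cp k = 0 ∧ cm k = 0) ∧
      (∀ k, ‖cp k‖ ≤ (∑ x, |Fp x|) / P) ∧ (∀ k, ‖cm k‖ ≤ (∑ x, |Fm x|) / P) ∧
      (∀ k, ‖cp k‖ ≤ (∑ x, |f x|) / P + 416 * V / H) ∧
      (∀ k, ‖cm k‖ ≤ (∑ x, |f x|) / P + 416 * V / H) ∧
      (∀ k, ‖cp k - cm k‖ ≤ (∑ x, Fp x) / P - (∑ x, Fm x) / P) ∧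
      ∀ M : ℝ, (∀ x, |f x| ≤ M) → ∀ x, |Fp x| ≤ M + 104 * V ∧ |Fm x| ≤ M + 104 * V := by
  have hP0 : 0 < P := Nat.pos_of_ne_zero (NeZero.ne P)
  have hP : (0:ℝ) < P := by exact_mod_cast hP0
  have hH' : (0:ℝ) < H := by exact_mod_cast hH
  set m := H / 4 + 1 with hm
  have hm0 : 0 < m := Nat.succ_pos _
  have hm' : (0:ℝ) < m := by exact_mod_cast hm0
  have hmP : m ≤ P := by omega
  have hdeg : 4 * (m - 1) ≤ H := by omega
  have hdeg2 : 2 * (m - 1) ≤ H := by omega
  have hHm : (H:ℝ) ≤ 4 * m := by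
    have : H ≤ 4 * m := by omega
    exact_mod_cast this
  set Q := ∑ y : ZMod P, q m y with hQd
  have hQ0 : 0 < Q := lt_of_lt_of_le (by positivity) (sum_q_ge (P := P) m hm0)
  set v := ∑ x, |f (x + 1) - f x| with hv
  have hv0 : 0 ≤ v := Finset.sum_nonneg fun _ _ => abs_nonneg _
  have hvμ : v = ∑ j : ZMod P, μ f j := rfl
  -- the smoothed function
  set g : ZMod P → ℝ := fun x => ∑ j : ZMod P, f j / Q * q m (x - j) with hg
  have hg' : ∀ x, g x = ∑ y : ZMod P, f (x - y) * q m y / Q := by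
    intro x
    rw [hg]
    simp only
    rw [← (Equiv.subLeft x).sum_comp]
    refine Finset.sum_congr rfl fun y _ => ?_
    simp only [Equiv.subLeft_apply]
    rw [sub_sub_cancel]
    ring
  set R : ZMod P → ℝ := fun x => ∑ j : ZMod P, (52 / (m:ℝ) ^ 2 * μ f j) * E m (x - j) with hR
  have hR0 : ∀ x, 0 ≤ R x := fun x =>
    Finset.sum_nonneg fun j _ => mul_nonneg (mul_nonneg (by positivity) (abs_nonneg _)) (E_nonneg _ _)
  -- main estimate
  have hmain : ∀ x, |f x - g x| ≤ R x := by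
    intro x
    have h1 : f x - g x = ∑ y : ZMod P, (f x - f (x - y)) * (q m y / Q) := by
      rw [hg' x]
      have : f x = ∑ y : ZMod P, f x * (q m y / Q) := by
        rw [← Finset.mul_sum, ← Finset.sum_div, ← hQd, div_self hQ0.ne', mul_one]
      conv_lhs => rw [this]
      rw [← Finset.sum_sub_distrib]
      refine Finset.sum_congr rfl fun y _ => ?_
      ring
    rw [h1]
    refine le_trans (Finset.abs_sum_le_sum_abs _ _) ?_
    have h2 : ∀ y ∈ (Finset.univ : Finset (ZMod P)), |(f x - f (x - y)) * (q m y / Q)| ≤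
        ∑ j : ZMod P, (if d (x - j) ≤ d y then q m y else 0) / Q * μ f j := by
      intro y _
      have h3 : 0 ≤ q m y / Q := div_nonneg (q_nonneg m y) hQ0.le
      rw [abs_mul, abs_of_nonneg h3]
      refine le_trans (mul_le_mul_of_nonneg_right (path_le f x y) h3) (le_of_eq ?_)
      rw [Finset.sum_mul]
      refine Finset.sum_congr rfl fun j _ => ?_
      split_ifs
      · ring
      · simp
    refine le_trans (Finset.sum_le_sum h2) ?_
    rw [Finset.sum_comm]
    refine Finset.sum_le_sum fun j _ => ?_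
    rw [← Finset.sum_mul, ← Finset.sum_div]
    have h3 := A_le_E (P := P) m hm0 hmP (x - j)
    rw [A] at h3
    calc (∑ y : ZMod P, if d (x - j) ≤ d y then q m y else 0) / Q * μ f j
        ≤ 52 / (m:ℝ) ^ 2 * E m (x - j) * μ f j := mul_le_mul_of_nonneg_right h3 (abs_nonneg _)
      _ = _ := by ring
  -- sums
  have hsumg : ∑ x, g x = ∑ x, f x := by
    rw [hg]
    rw [Finset.sum_comm]
    refine Finset.sum_congr rfl fun j _ => ?_
    rw [← Finset.mul_sum, sum_sub_left (q m) j, ← hQd]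
    field_simp
  have hsumR : ∑ x, R x = 104 * v / m * P := by
    rw [hR, Finset.sum_comm]
    have : ∀ j ∈ (Finset.univ : Finset (ZMod P)),
        ∑ x : ZMod P, (52 / (m:ℝ) ^ 2 * μ f j) * E m (x - j) =
          μ f j * (104 / m * P) := by
      intro j _
      rw [← Finset.mul_sum, sum_sub_left (E m) j, sum_E m hmP]
      field_simp
      ring
    rw [Finset.sum_congr rfl this, ← Finset.sum_mul, ← hvμ]
    ring
  have hRV : 104 * v / m ≤ 416 * V / H := by
    rw [div_le_div_iff₀ hm' hH']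
    have hV0 : 0 ≤ V := le_trans hv0 hV
    calc 104 * v * H ≤ 104 * V * (4 * m) := by
          apply mul_le_mul (by linarith) hHm hH'.le (by linarith)
      _ = 416 * V * m := by ring
  have hRsup : ∀ x, R x ≤ 104 * V := by
    intro x
    rw [hR]
    calc ∑ j : ZMod P, (52 / (m:ℝ) ^ 2 * μ f j) * E m (x - j)
        ≤ ∑ j : ZMod P, (52 / (m:ℝ) ^ 2 * μ f j) * (2 * (m:ℝ) ^ 2) :=
          Finset.sum_le_sum fun j _ => mul_le_mul_of_nonneg_left (E_le m _)
            (mul_nonneg (by positivity) (abs_nonneg _))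
      _ = 104 * v := by
          rw [← Finset.sum_mul, ← Finset.mul_sum, ← hvμ]
          field_simp
          ring
      _ ≤ 104 * V := by linarith
  have hgsup : ∀ M : ℝ, (∀ x, |f x| ≤ M) → ∀ x, |g x| ≤ M := by
    intro M hM x
    rw [hg' x]
    refine le_trans (Finset.abs_sum_le_sum_abs _ _) ?_
    calc ∑ y : ZMod P, |f (x - y) * q m y / Q| ≤ ∑ y : ZMod P, M * (q m y / Q) := by
          refine Finset.sum_le_sum fun y _ => ?_
          rw [mul_div_assoc, abs_mul, abs_of_nonneg (div_nonneg (q_nonneg m y) hQ0.le)]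
          exact mul_le_mul_of_nonneg_right (hM _) (div_nonneg (q_nonneg m y) hQ0.le)
      _ = M := by
          rw [← Finset.mul_sum, ← Finset.sum_div, ← hQd, div_self hQ0.ne', mul_one]
  -- membership
  have hgT : (fun x => ((g x : ℝ) : ℂ)) ∈ T P H := by
    have : (fun x => ((g x : ℝ) : ℂ)) =
        ∑ j : ZMod P, ((f j / Q : ℝ) : ℂ) • (fun x : ZMod P => ((q m (x - j) : ℝ) : ℂ)) := by
      funext x
      rw [hg]
      simp [Finset.sum_apply]
    rw [this]
    refine Submodule.sum_mem _ fun j _ => Submodule.smul_mem _ _ ?_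
    exact T_mono hdeg (T_shift (q_mem m) j)
  have hRT : (fun x => ((R x : ℝ) : ℂ)) ∈ T P H := by
    have : (fun x => ((R x : ℝ) : ℂ)) =
        ∑ j : ZMod P, ((52 / (m:ℝ) ^ 2 * μ f j : ℝ) : ℂ) •
          (fun x : ZMod P => ((E m (x - j) : ℝ) : ℂ)) := by
      funext x
      rw [hR]
      simp [Finset.sum_apply]
    rw [this]
    refine Submodule.sum_mem _ fun j _ => Submodule.smul_mem _ _ ?_
    exact T_mono hdeg2 (T_shift (E_mem m) j)
  obtain ⟨cg, hcg⟩ := exists_coeff hgT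
  obtain ⟨cR, hcR⟩ := exists_coeff hRT
  -- truncated coefficients
  have htrunc : ∀ (c : ℤ → ℂ) (x : ZMod P),
      trig P H (fun k => if |k| ≤ (H:ℤ) then c k else 0) x = trig P H c x := by
    intro c x
    refine Finset.sum_congr rfl fun k hk => ?_
    rw [Finset.mem_Icc] at hk
    simp only
    rw [if_pos (abs_le.2 hk)]
  set cp : ℤ → ℂ := fun k => if |k| ≤ (H:ℤ) then cg k + cR k else 0 with hcp
  set cm : ℤ → ℂ := fun k => if |k| ≤ (H:ℤ) then cg k - cR k else 0 with hcm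
  have hFp : ∀ x, ((g x + R x : ℝ) : ℂ) = trig P H cp x := by
    intro x
    rw [hcp, htrunc (fun k => cg k + cR k)]
    push_cast
    have h1 : ((g x : ℝ) : ℂ) = _ := hcg x
    have h2 : ((R x : ℝ) : ℂ) = _ := hcR x
    rw [h1, h2]
    simp only [trig, add_mul, Finset.sum_add_distrib]
  have hFm : ∀ x, ((g x - R x : ℝ) : ℂ) = trig P H cm x := by
    intro x
    rw [hcm, htrunc (fun k => cg k - cR k)]
    push_cast
    have h1 : ((g x : ℝ) : ℂ) = _ := hcg x
    have h2 : ((R x : ℝ) : ℂ) = _ := hcR x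
    rw [h1, h2]
    simp only [trig, sub_mul, Finset.sum_sub_distrib]
  have hbound : ∀ (F : ZMod P → ℝ) (c : ℤ → ℂ), (∀ x, (F x : ℂ) = trig P H c x) →
      (∀ k : ℤ, (H:ℤ) < |k| → c k = 0) → ∀ k, ‖c k‖ ≤ (∑ x, |F x|) / P := by
    intro F c hF hc k
    rcases lt_or_ge (H:ℤ) |k| with hk | hk
    · rw [hc k hk, norm_zero]
      exact div_nonneg (Finset.sum_nonneg fun _ _ => abs_nonneg _) hP.le
    · refine le_trans (coeff_le hHP c k hk) (le_of_eq ?_)
      congr 1
      refine Finset.sum_congr rfl fun x _ => ?_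
      rw [← hF x, Complex.norm_real, Real.norm_eq_abs]
  have hzero : ∀ (F : ZMod P → ℝ) (c : ℤ → ℂ), (∀ x, (F x : ℂ) = trig P H c x) →
      c 0 = (((∑ x, F x) / P : ℝ) : ℂ) := by
    intro F c hF
    rw [coeff_zero_eq hHP c]
    push_cast
    congr 1
    exact Finset.sum_congr rfl fun x _ => (hF x).symm
  have hcp0 : ∀ k : ℤ, (H:ℤ) < |k| → cp k = 0 := fun k hk => by
    rw [hcp]; simp only; rw [if_neg (not_le.2 hk)]
  have hcm0 : ∀ k : ℤ, (H:ℤ) < |k| → cm k = 0 := fun k hk => by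
    rw [hcm]; simp only; rw [if_neg (not_le.2 hk)]
  have hgabs : (∑ x, |g x|) / P ≤ (∑ x, |f x|) / P := by
    refine div_le_div_of_nonneg_right ?_ hP.le
    calc ∑ x, |g x| ≤ ∑ x, ∑ y : ZMod P, |f (x - y)| * (q m y / Q) := by
          refine Finset.sum_le_sum fun x _ => ?_
          rw [hg' x]
          refine le_trans (Finset.abs_sum_le_sum_abs _ _) (le_of_eq ?_)
          refine Finset.sum_congr rfl fun y _ => ?_
          rw [mul_div_assoc, abs_mul, abs_of_nonneg (div_nonneg (q_nonneg m y) hQ0.le)]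
      _ = ∑ x, |f x| := by
          rw [Finset.sum_comm]
          have : ∀ y ∈ (Finset.univ : Finset (ZMod P)),
              ∑ x : ZMod P, |f (x - y)| * (q m y / Q) = (∑ x, |f x|) * (q m y / Q) := by
            intro y _
            rw [← Finset.sum_mul, sum_sub_left (fun x => |f x|) y]
          rw [Finset.sum_congr rfl this, ← Finset.mul_sum, ← Finset.sum_div, ← hQd,
            div_self hQ0.ne', mul_one]
  have hcgb : ∀ k : ℤ, |k| ≤ (H:ℤ) → ‖cg k‖ ≤ (∑ x, |f x|) / P := by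
    intro k hk
    refine le_trans (coeff_le hHP cg k hk) (le_trans (le_of_eq ?_) hgabs)
    congr 1
    refine Finset.sum_congr rfl fun x _ => ?_
    have h1 : ((g x : ℝ) : ℂ) = _ := hcg x
    rw [← h1, Complex.norm_real, Real.norm_eq_abs]
  have hcRb : ∀ k : ℤ, |k| ≤ (H:ℤ) → ‖cR k‖ ≤ 416 * V / H := by
    intro k hk
    refine le_trans (coeff_le hHP cR k hk) (le_trans (le_of_eq ?_) hRV)
    have : ∑ x : ZMod P, ‖trig P H cR x‖ = ∑ x, R x := by
      refine Finset.sum_congr rfl fun x _ => ?_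
      have h1 : ((R x : ℝ) : ℂ) = _ := hcR x
      rw [← h1, Complex.norm_real, Real.norm_eq_abs, abs_of_nonneg (hR0 x)]
    rw [this, hsumR, mul_div_assoc, div_self hP.ne', mul_one]
  have hf0 : 0 ≤ (∑ x, |f x|) / P + 416 * V / H := by
    have h1 : 0 ≤ (∑ x, |f x|) / P := div_nonneg (Finset.sum_nonneg fun _ _ => abs_nonneg _) hP.le
    have h2 : 0 ≤ 104 * v / m := by positivity
    linarith
  refine ⟨fun x => g x - R x, fun x => g x + R x, cm, cp, hFm, hFp, ?_, ?_, ?_, ?_, ?_, ?_, ?_, ?_,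
    ?_, ?_, ?_, ?_, ?_⟩
  · intro x
    have := (abs_le.1 (hmain x)).1
    simp only; linarith
  · intro x
    have := (abs_le.1 (hmain x)).2
    simp only; linarith
  · rw [Finset.sum_add_distrib, hsumg, hsumR, add_div, mul_div_assoc (104 * v / m), div_self hP.ne',
      mul_one]
    linarith
  · rw [Finset.sum_sub_distrib, hsumg, hsumR, sub_div, mul_div_assoc (104 * v / m), div_self hP.ne',
      mul_one]
    linarith
  · exact hzero _ cp hFp
  · exact hzero _ cm hFm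
  · exact fun k hk => ⟨hcp0 k hk, hcm0 k hk⟩
  · exact hbound _ cp hFp hcp0
  · exact hbound _ cm hFm hcm0
  · intro k
    rcases lt_or_ge (H:ℤ) |k| with hk | hk
    · rw [hcp0 k hk, norm_zero]; exact hf0
    · rw [hcp]; simp only; rw [if_pos hk]
      exact le_trans (norm_add_le _ _) (add_le_add (hcgb k hk) (hcRb k hk))
  · intro k
    rcases lt_or_ge (H:ℤ) |k| with hk | hk
    · rw [hcm0 k hk, norm_zero]; exact hf0
    · rw [hcm]; simp only; rw [if_pos hk]
      exact le_trans (norm_sub_le _ _) (add_le_add (hcgb k hk) (hcRb k hk))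
  · intro k
    have h := hbound (fun x => (g x + R x) - (g x - R x)) (fun k => cp k - cm k) (fun x => by
      rw [Complex.ofReal_sub, hFp, hFm]
      simp only [trig, sub_mul, Finset.sum_sub_distrib]) (fun k hk => by
      rw [hcp0 k hk, hcm0 k hk, sub_zero]) k
    refine le_trans h (le_of_eq ?_)
    rw [← sub_div, ← Finset.sum_sub_distrib]
    congr 1
    refine Finset.sum_congr rfl fun x _ => ?_
    rw [abs_of_nonneg]
    have := hR0 x
    linarith
  · intro M hM x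
    have h1 := hgsup M hM x
    have h2 := hRsup x
    have h3 := hR0 x
    rw [abs_le] at h1
    constructor
    · rw [abs_le]; constructor <;> linarith [h1.1, h1.2]
    · rw [abs_le]; constructor <;> linarith [h1.1, h1.2]

end Main

end Crest.Agent.R225.Maj
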