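import Crest.Agent.R225.Iface
import Crest.Agent.R225.Maj

/-!
# Row 225, node F1: trigonometric majorants and minorants
-/

set_option autoImplicit false

open Finset
open scoped BigOperators

namespace Crest.Agent.R225

theorem expect_zmod {P : ℕ} [NeZero P] (f : ZMod P → ℝ) : 𝔼 x, f x = (∑ x, f x) / P := by
  rw [Finset.expect_eq_sum_div_card, Finset.card_univ, ZMod.card]

theorem prf_F1 : S_F1 := by
  intro H P _ δ α f hδ hδ1 hH hHP hα hf
  have hP0 : 0 < P := Nat.pos_of_ne_zero (NeZero.ne P)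
  have hP : (0:ℝ) < P := by exact_mod_cast hP0
  have hH' : (0:ℝ) < H := lt_of_lt_of_le (by positivity) hH
  have hH0 : 0 < H := by exact_mod_cast hH'
  have h2 : 2 * H < P := by
    have h3 : δ * P ≤ P := by nlinarith
    have h4 : (2:ℝ) * H < P := by linarith
    exact_mod_cast h4
  obtain ⟨Fm, Fp, cm, cp, hFm, hFp, hm, hp, hmp, hmm, hcp0, hcm0, -, -, -, hcpb, hcmb, -, -⟩ :=
    Maj.exists_trig_bounds P H hH0 h2 f (2 * α) hf.2
  have hsmall : 416 * (2 * α) / H ≤ δ * α := by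
    rw [div_le_iff₀ hH']
    have h5 : 1000 ≤ H * δ ^ 2 := by rwa [div_le_iff₀ (by positivity)] at hH
    have h6 : H * δ ^ 2 ≤ H * δ := by
      apply mul_le_mul_of_nonneg_left _ hH'.le
      nlinarith
    nlinarith
  have hfm : (∑ x, |f x|) / P ≤ α := by
    rw [div_le_iff₀ hP]
    have h5 : ∀ x ∈ (Finset.univ : Finset (ZMod P)), |f x| ≤ α := fun x _ => by
      rw [abs_of_nonneg (hf.1 x).1]; exact (hf.1 x).2
    refine le_trans (Finset.sum_le_sum h5) ?_
    rw [Finset.sum_const, Finset.card_univ, ZMod.card, nsmul_eq_mul, mul_comm]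
  have hδα : δ * α ≤ α := by nlinarith
  refine ⟨Fp, Fm, ⟨cp, fun u => ?_, ?_, hFp⟩, ⟨cm, fun u => ?_, ?_, hFm⟩, fun x => ⟨hm x, hp x⟩,
    ?_, ?_⟩
  · have := hcpb u
    linarith
  · rw [hcp0, expect_zmod]
  · have := hcmb u
    linarith
  · rw [hcm0, expect_zmod]
  · rw [expect_zmod, expect_zmod]; linarith
  · rw [expect_zmod, expect_zmod]; linarith

end Crest.Agent.R225
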