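import Crest.Agent.R225.Iface
import Crest.Agent.R225.UB.Row

/-!
# Row 225, nodes F2 and F3 (helper728): row survival and row deviation
-/

set_option autoImplicit false

namespace Crest.Agent.R225

open Finset ZMod UB
open scoped BigOperators

variable {P : ℕ} [NeZero P] {m : ℕ}

omit [NeZero P] in
lemma res_eq_xi (r : Row P m) (g : Pt m) : res r g = xi r g := rfl

lemma card_Row : (Fintype.card (Row P m) : ℝ) = (P : ℝ) ^ (m + 1) := by
  rw [Fintype.card_prod, ZMod.card, Fintype.card_fun, ZMod.card, Fintype.card_fin]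
  push_cast
  ring

lemma expect_Row (F : Row P m → ℝ) : 𝔼 r : Row P m, F r = avg F := by
  rw [Fintype.expect_eq_sum_div_card, card_Row]
  rfl

/-- Exact evaluation of `E ∏ F_a (xi g_a)` when there are no bounded relations. -/
theorem avg_prod_eq {ι : Type*} [Fintype ι] [DecidableEq ι] (g : ι → Pt m) (g0 : Pt m) {H R : ℕ}
    (hR : ∀ a i, |g a i - g0 i| ≤ R)
    (hP : Fintype.card ι * (H * (R + 1)) < P)
    (F : ι → ZMod P → ℝ) (c : ι → ℤ → ℂ)
    (hF : ∀ a x, (F a x : ℂ) = ∑ k ∈ Icc (-(H : ℤ)) H, c a k * stdAddChar ((k : ZMod P) * x))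
    (hrel : ∀ k : ι → ℤ, (∀ a, |k a| ≤ H) → ∑ a, k a = 0 → (∀ i, ∑ a, k a * g a i = 0) → k = 0) :
    ((avg (fun ω : RowΩ P m => ∏ a, F a (xi ω (g a))) : ℝ) : ℂ) = ∏ a, c a 0 := by
  have hP0 : (P : ℂ) ≠ 0 := by exact_mod_cast NeZero.ne P
  have h2 : ((∑ ω : RowΩ P m, ∏ a, F a (xi ω (g a)) : ℝ) : ℂ) =
      ∑ k ∈ Fintype.piFinset (fun _ : ι => Icc (-(H : ℤ)) H), (∏ a, c a (k a)) *
        (if ((∑ a, k a : ℤ) : ZMod P) = 0 ∧ ∀ i, ((∑ a, k a * g a i : ℤ) : ZMod P) = 0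
          then (P : ℂ) ^ (m + 1) else 0) := by
    push_cast
    have h3 : ∀ ω : RowΩ P m, ∏ a, (F a (xi ω (g a)) : ℂ) =
        ∑ k ∈ Fintype.piFinset (fun _ : ι => Icc (-(H : ℤ)) H), (∏ a, c a (k a)) *
          stdAddChar (ω.1 * ((∑ a, k a : ℤ) : ZMod P) +
            ∑ i, ω.2 i * ((∑ a, k a * g a i : ℤ) : ZMod P)) := by
      intro ω
      rw [prod_congr rfl fun a _ => hF a _, prod_univ_sum]
      refine sum_congr rfl fun k _ => ?_
      rw [prod_mul_distrib, ← addChar_sum]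
      congr 2
      unfold xi
      push_cast
      simp only [mul_add, sum_add_distrib, mul_sum]
      congr 1
      · exact sum_congr rfl fun a _ => by ring
      · rw [sum_comm]
        refine sum_congr rfl fun i _ => sum_congr rfl fun a _ => by ring
    rw [sum_congr rfl fun ω _ => h3 ω, sum_comm]
    refine sum_congr rfl fun k _ => ?_
    rw [← mul_sum, sum_char_row]
    push_cast
    rfl
  have h4 : ∀ k ∈ Fintype.piFinset (fun _ : ι => Icc (-(H : ℤ)) H), k ≠ 0 →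
      (∏ a, c a (k a)) *
        (if ((∑ a, k a : ℤ) : ZMod P) = 0 ∧ ∀ i, ((∑ a, k a * g a i : ℤ) : ZMod P) = 0
          then (P : ℂ) ^ (m + 1) else 0) = 0 := by
    intro k hk hk0
    have hk' : ∀ a, |k a| ≤ (H : ℤ) := by
      intro a
      rw [Fintype.mem_piFinset] at hk
      have := hk a
      rw [mem_Icc] at this
      exact abs_le.2 this
    rw [if_neg, mul_zero]
    rintro ⟨hm1, hm2⟩
    apply hk0
    have e0 : ∑ a, k a = 0 := by
      have := sum_eq_zero_of_mod (P := P) (R := R + 1) k hk' (fun _ => 1)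
        (fun a => by rw [abs_one]; push_cast; linarith [Nat.cast_nonneg (α := ℤ) R]) hP
        (by simpa using hm1)
      simpa using this
    refine hrel k hk' e0 fun i => ?_
    have e1 : ((∑ a, k a * (g a i - g0 i) : ℤ) : ZMod P) = 0 := by
      have : ∑ a, k a * (g a i - g0 i) = ∑ a, k a * g a i - (∑ a, k a) * g0 i := by
        rw [sum_mul, ← sum_sub_distrib]; exact sum_congr rfl fun a _ => by ring
      rw [this, e0, zero_mul, sub_zero]
      exact hm2 i
    have e2 := sum_eq_zero_of_mod (P := P) (R := R + 1) k hk' (fun a => g a i - g0 i)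
      (fun a => (hR a i).trans (by push_cast; linarith)) hP e1
    have : ∑ a, k a * g a i = ∑ a, k a * (g a i - g0 i) + (∑ a, k a) * g0 i := by
      rw [sum_mul, ← sum_add_distrib]; exact sum_congr rfl fun a _ => by ring
    rw [this, e2, e0]; ring
  have h5 : ((∑ ω : RowΩ P m, ∏ a, F a (xi ω (g a)) : ℝ) : ℂ) = (∏ a, c a 0) * (P : ℂ) ^ (m + 1) := by
    rw [h2, sum_eq_single (0 : ι → ℤ) (fun k hk hk0 => h4 k hk hk0)]
    · simp
    · intro h
      exfalso
      apply h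
      rw [Fintype.mem_piFinset]
      intro a
      rw [mem_Icc]
      simp
  unfold avg
  rw [Complex.ofReal_div, h5]
  push_cast
  field_simp

theorem prf_F2 (hF1 : S_F1) : S_F2 := by
  intro m H P rX _ δ α Z g0 f hδ hδ1 hH hHP hP hα hbox hTV hrel
  classical
  choose! Fp Fm hp using fun (g : Pt m) (hg : g ∈ Z) => hF1 H P δ α (f g) hδ hδ1 hH hHP hα (hTV g hg)
  choose! c hc using fun (g : Pt m) (hg : g ∈ Z) => (hp g hg).1
  rw [expect_Row]
  have h1 : avg (fun r : Row P m => ∏ g ∈ Z, f g (res r g)) ≤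
      avg (fun r : Row P m => ∏ a : Z, Fp a (xi r (a : Pt m))) := by
    unfold avg
    gcongr with r _
    show ∏ g ∈ Z, f g (res r g) ≤ ∏ a : Z, Fp a (xi r (a : Pt m))
    rw [← prod_coe_sort Z (fun g => f g (res r g))]
    refine prod_le_prod (fun a _ => ((hTV a a.2).1 _).1) (fun a _ => ?_)
    exact ((hp a a.2).2.2.1 _).2
  have h2 := avg_prod_eq (P := P) (ι := Z) (fun a => (a : Pt m)) g0 (H := H) (R := rX)
    (fun a i => hbox a a.2 i) (by
      rw [Fintype.card_coe]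
      have h3 : Z.card * (H * (rX + 1)) ≤ 4 * H * (Z.card + 1) * (rX + 1) := by
        have : Z.card * (H * (rX + 1)) = H * Z.card * (rX + 1) := by ring
        rw [this]
        gcongr
        · omega
        · omega
      exact lt_of_le_of_lt h3 hP)
    (fun a => Fp a) (fun a => c a) (fun a x => (hc a a.2).2.2 x) (by
      intro k hk h0 hi
      set h : Pt m → ℤ := fun g => if hg : g ∈ Z then k ⟨g, hg⟩ else 0 with hh
      have hval : ∀ a : Z, h a = k a := fun a => by rw [hh]; simp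
      have hbr : BRel Z H h := by
        refine ⟨⟨fun g hg => by rw [hh]; simp [hg], ?_, ?_⟩, ?_⟩
        · rw [← sum_coe_sort Z, ← h0]
          exact sum_congr rfl fun a _ => hval a
        · rw [← sum_coe_sort Z]
          funext i
          rw [Finset.sum_apply, Pi.zero_apply, ← hi i]
          exact sum_congr rfl fun a _ => by rw [Pi.smul_apply, hval, smul_eq_mul]
        · intro g
          rw [hh]
          by_cases hg : g ∈ Z
          · simp only [hg, dite_true]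
            have := hk ⟨g, hg⟩
            exact_mod_cast this
          · simp [hg]
      have := hrel h hbr
      funext a
      rw [← hval a, this]
      rfl)
  have h3 : avg (fun r : Row P m => ∏ a : Z, Fp a (xi r (a : Pt m))) =
      ∏ a : Z, 𝔼 x, Fp a x := by
    have : ((avg (fun r : Row P m => ∏ a : Z, Fp a (xi r (a : Pt m))) : ℝ) : ℂ) =
        ((∏ a : Z, 𝔼 x, Fp a x : ℝ) : ℂ) := by
      rw [h2]
      push_cast
      refine prod_congr rfl fun a _ => ?_
      rw [(hc a a.2).2.1]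
      push_cast
      rfl
    exact_mod_cast this
  rw [h3] at h1
  refine h1.trans ?_
  rw [← prod_coe_sort Z (fun g => (𝔼 x, f g x) + δ * α)]
  refine prod_le_prod (fun a _ => ?_) (fun a _ => (hp a a.2).2.2.2.1)
  refine expect_nonneg fun x _ => ?_
  exact ((hTV a a.2).1 x).1.trans ((hp a a.2).2.2.1 x).2

lemma UBEn_shift {ι : Type*} [Fintype ι] (g : ι → Pt m) (g0 : Pt m) (w : ι → ℝ) (s : ℕ) :
    UB.En (fun a => g a - g0) w s = UB.En g w s := by
  unfold UB.En
  refine sum_congr rfl fun x _ => sum_congr rfl fun y _ => ?_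
  have : (∀ i, ∑ j, (g (x j) - g0) i = ∑ j, (g (y j) - g0) i) ↔
      (∀ i, ∑ j, g (x j) i = ∑ j, g (y j) i) := by
    refine forall_congr' fun i => ?_
    rw [Finset.sum_congr rfl fun j _ => Pi.sub_apply (g (x j)) g0 i,
      Finset.sum_congr rfl fun j _ => Pi.sub_apply (g (y j)) g0 i,
      Finset.sum_sub_distrib, Finset.sum_sub_distrib]
    constructor
    · intro h; linarith
    · intro h; linarith
  exact if_congr this rfl rfl

omit [NeZero P] in
lemma xi_shift (ω : RowΩ P m) (g g0 : Pt m) :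
    xi ω g = (∑ i, ω.2 i * (g0 i : ZMod P)) + xi ω (g - g0) := by
  unfold xi
  have : ∀ i, ω.2 i * (((g - g0) i : ℤ) : ZMod P) =
      ω.2 i * (g i : ZMod P) - ω.2 i * (g0 i : ZMod P) := by
    intro i; rw [Pi.sub_apply, Int.cast_sub, mul_sub]
  rw [Finset.sum_congr rfl fun i _ => this i, Finset.sum_sub_distrib]
  ring

lemma norm_sum_shift {ι : Type*} [Fintype ι] (g : ι → Pt m) (g0 : Pt m) (c : ι → ℂ) (k : ZMod P)
    (ω : RowΩ P m) : ‖∑ a, c a * stdAddChar (k * xi ω (g a))‖ =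
      ‖∑ a, c a * stdAddChar (k * xi ω (g a - g0))‖ := by
  have h4 : ∑ a, c a * stdAddChar (k * xi ω (g a)) =
      stdAddChar (k * ∑ i, ω.2 i * (g0 i : ZMod P)) *
        ∑ a, c a * stdAddChar (k * xi ω (g a - g0)) := by
    rw [mul_sum]
    refine sum_congr rfl fun a _ => ?_
    rw [xi_shift ω (g a) g0, mul_add, AddChar.map_add_eq_mul]; ring
  rw [h4, norm_mul, norm_stdAddChar, one_mul]

/-- `moment_le` with a base point. -/
theorem moment_le_shift {ι : Type*} [Fintype ι] [Fact P.Prime] (g : ι → Pt m) (g0 : Pt m)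
    {R s : ℕ} (hR : ∀ a i, |g a i - g0 i| ≤ R)
    (hP : 2 * s * R < P) (c : ι → ℂ) (w : ι → ℝ) (hc : ∀ a, ‖c a‖ ≤ w a)
    (k : ℤ) (hk0 : k ≠ 0) (hk : |k| < P) :
    avg (fun ω : RowΩ P m => ‖∑ a, c a * stdAddChar ((k : ZMod P) * xi ω (g a))‖ ^ (2 * s)) ≤
      UB.En g w s := by
  have h1 := moment_le (P := P) (fun a => g a - g0) (R := R) (s := s) hR hP c w hc k hk0 hk
  rw [UBEn_shift] at h1
  refine le_trans (le_of_eq ?_) h1
  unfold avg
  congr 1
  refine sum_congr rfl fun ω _ => ?_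
  exact congrArg (fun z : ℝ => z ^ (2 * s)) (norm_sum_shift g g0 c (k : ZMod P) ω)

/-- `osc_tail` with a base point. -/
theorem osc_tail_shift {ι : Type*} [Fintype ι] [Fact P.Prime] (g : ι → Pt m) (g0 : Pt m)
    {R s H : ℕ} (hR : ∀ a i, |g a i - g0 i| ≤ R)
    (hP : 2 * s * R < P) (hH : H < P) (hs : 0 < s)
    (F : ι → ZMod P → ℝ) (c : ι → ℤ → ℂ) (c0 w : ι → ℝ)
    (hF : ∀ a x, (F a x : ℂ) = ∑ k ∈ Icc (-(H : ℤ)) H, c a k * stdAddChar ((k : ZMod P) * x))
    (hc0 : ∀ a, c a 0 = c0 a) (hc : ∀ a k, k ≠ 0 → ‖c a k‖ ≤ w a) {t : ℝ} (ht : 0 < t) :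
    pr (fun ω : RowΩ P m => t ≤ |∑ a, F a (xi ω (g a)) - ∑ a, c0 a|) ≤
      (2 * H / t) ^ (2 * s) * UB.En g w s := by
  have hP0 : (0 : ℝ) < P := by exact_mod_cast Nat.pos_of_ne_zero (NeZero.ne P)
  set S : Finset ℤ := (Icc (-(H : ℤ)) H).erase 0 with hSdef
  have hScard : #S = 2 * H := by
    rw [hSdef, card_erase_of_mem (by rw [mem_Icc]; omega), Int.card_Icc]; omega
  set Z : ℤ → RowΩ P m → ℂ := fun k ω => ∑ a, c a k * stdAddChar ((k : ZMod P) * xi ω (g a)) with hZ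
  have hosc : ∀ ω : RowΩ P m, ((∑ a, F a (xi ω (g a)) - ∑ a, c0 a : ℝ) : ℂ) = ∑ k ∈ S, Z k ω := by
    intro ω
    push_cast
    rw [sum_congr rfl fun a _ => hF a _, sum_comm,
      ← add_sum_erase (Icc (-(H : ℤ)) H) _ (show (0 : ℤ) ∈ Icc (-(H : ℤ)) H by rw [mem_Icc]; omega)]
    have : ∑ a, c a 0 * (stdAddChar (((0 : ℤ) : ZMod P) * xi ω (g a)) : ℂ) = ∑ a, (c0 a : ℂ) := by
      refine sum_congr rfl fun a _ => ?_
      rw [hc0]; simp
    rw [this]
    ring
  obtain ⟨n, hn⟩ : ∃ n, 2 * s = n + 1 := ⟨2 * s - 1, by omega⟩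
  have h1 : pr (fun ω : RowΩ P m => t ≤ |∑ a, F a (xi ω (g a)) - ∑ a, c0 a|) ≤
      avg (fun ω : RowΩ P m => (2 * H : ℝ) ^ n * ∑ k ∈ S, ‖Z k ω‖ ^ (2 * s)) / t ^ (2 * s) := by
    refine pr_le_avg_div (fun ω => by positivity) (by positivity) fun ω hω => ?_
    have h2 : |∑ a, F a (xi ω (g a)) - ∑ a, c0 a| = ‖∑ k ∈ S, Z k ω‖ := by
      rw [← hosc, Complex.norm_real, Real.norm_eq_abs]
    rw [h2] at hω
    calc t ^ (2 * s) ≤ ‖∑ k ∈ S, Z k ω‖ ^ (2 * s) := by gcongr
      _ = ‖∑ k ∈ S, Z k ω‖ ^ (n + 1) := by rw [hn]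
      _ ≤ (#S : ℝ) ^ n * ∑ k ∈ S, ‖Z k ω‖ ^ (n + 1) := norm_sum_pow_le _ _ _
      _ = _ := by rw [hScard, ← hn]; push_cast; rfl
  have h3 : avg (fun ω : RowΩ P m => (2 * H : ℝ) ^ n * ∑ k ∈ S, ‖Z k ω‖ ^ (2 * s)) =
      (2 * H : ℝ) ^ n * ∑ k ∈ S, avg (fun ω : RowΩ P m => ‖Z k ω‖ ^ (2 * s)) := by
    unfold avg
    rw [← mul_sum, sum_comm, ← sum_div]
    ring
  have h4 : ∀ k ∈ S, avg (fun ω : RowΩ P m => ‖Z k ω‖ ^ (2 * s)) ≤ UB.En g w s := by
    intro k hk
    rw [hSdef, mem_erase, mem_Icc] at hk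
    refine moment_le_shift g g0 hR hP (fun a => c a k) w (fun a => hc a k hk.1) k hk.1 ?_
    rw [abs_lt]; constructor <;> omega
  refine h1.trans ?_
  rw [h3]
  have h5 : ∑ k ∈ S, avg (fun ω : RowΩ P m => ‖Z k ω‖ ^ (2 * s)) ≤ (2 * H : ℝ) * UB.En g w s := by
    refine (sum_le_sum h4).trans (le_of_eq ?_)
    rw [sum_const, hScard, nsmul_eq_mul]; push_cast; ring
  have h6 : (2 * H : ℝ) ^ (2 * s) = (2 * H : ℝ) ^ n * (2 * H) := by rw [hn, pow_succ]
  rw [div_pow, h6, div_mul_eq_mul_div, mul_assoc]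
  gcongr

lemma UBEn_const (W : Finset (Pt m)) (q : ℕ) (A : ℝ) :
    UB.En (fun a : W => (a : Pt m)) (fun _ => A) q = A ^ (2 * q) * (En q W : ℝ) := by
  classical
  unfold UB.En En
  have h1 : ∀ x y : Fin q → W, (if (∀ i, ∑ j, (x j : Pt m) i = ∑ j, (y j : Pt m) i)
      then (∏ _j : Fin q, A) * ∏ _j : Fin q, A else 0) =
      A ^ (2 * q) * (if (∑ j, (x j : Pt m) = ∑ j, (y j : Pt m)) then (1 : ℝ) else 0) := by
    intro x y
    have : (∀ i, ∑ j, (x j : Pt m) i = ∑ j, (y j : Pt m) i) ↔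
        (∑ j, (x j : Pt m) = ∑ j, (y j : Pt m)) := by
      rw [funext_iff]
      simp only [Finset.sum_apply]
    rw [if_congr this rfl rfl]
    split_ifs
    · rw [prod_const, card_univ, Fintype.card_fin, mul_one]; ring
    · simp
  rw [sum_congr rfl fun x _ => sum_congr rfl fun y _ => h1 x y]
  simp_rw [← mul_sum]
  congr 1
  rw [← Fintype.sum_prod_type' (f := fun x y : Fin q → W =>
    if (∑ j, (x j : Pt m) = ∑ j, (y j : Pt m)) then (1 : ℝ) else 0), sum_boole]
  congr 1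
  refine card_bij' (fun p _ => (fun j => (p.1 j : Pt m), fun j => (p.2 j : Pt m)))
    (fun p hp => (fun j => ⟨p.1 j, by
        rw [mem_filter, mem_product, Fintype.mem_piFinset, Fintype.mem_piFinset] at hp
        exact hp.1.1 j⟩,
      fun j => ⟨p.2 j, by
        rw [mem_filter, mem_product, Fintype.mem_piFinset, Fintype.mem_piFinset] at hp
        exact hp.1.2 j⟩)) ?_ ?_ ?_ ?_
  · intro p hp
    rw [mem_filter] at hp
    rw [mem_filter, mem_product, Fintype.mem_piFinset, Fintype.mem_piFinset]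
    exact ⟨⟨fun j => (p.1 j).2, fun j => (p.2 j).2⟩, hp.2⟩
  · intro p hp
    rw [mem_filter] at hp ⊢
    exact ⟨mem_univ _, hp.2⟩
  · intro p hp
    rfl
  · intro p hp
    rfl

theorem prf_F3 (hF1 : S_F1) : S_F3 := by
  intro m H P rX q _ δ α t W g0 f hδ hδ1 hH hHP hP hq hα ht hbox hTV
  classical
  choose! Fp Fm hp using fun (g : Pt m) (hg : g ∈ W) => hF1 H P δ α (f g) hδ hδ1 hH hHP hα (hTV g hg)
  choose! c hc using fun (g : Pt m) (hg : g ∈ W) => (hp g hg).1
  choose! c' hc' using fun (g : Pt m) (hg : g ∈ W) => (hp g hg).2.1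
  have hHr : (0 : ℝ) < H := lt_of_lt_of_le (by positivity) hH
  have hH0 : 0 < H := by exact_mod_cast hHr
  have hHP' : H < P := by
    have h1 : H ≤ 4 * H * (2 * q + 1) * (rX + 1) := by
      have h2 : H * 1 ≤ H * (4 * (2 * q + 1) * (rX + 1)) := by
        gcongr
        nlinarith [Nat.zero_le q, Nat.zero_le rX, Nat.zero_le (q * rX)]
      calc H = H * 1 := (mul_one H).symm
        _ ≤ H * (4 * (2 * q + 1) * (rX + 1)) := h2
        _ = _ := by ring
    exact lt_of_le_of_lt h1 hP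
  have hqR : 2 * q * rX < P := by
    have h1 : 2 * q * rX ≤ 4 * H * (2 * q + 1) * (rX + 1) := by
      have h2 : 1 * (2 * q) * rX ≤ (4 * H) * (2 * q + 1) * (rX + 1) := by
        gcongr <;> omega
      simpa using h2
    exact lt_of_le_of_lt h1 hP
  have hup := osc_tail_shift (P := P) (ι := W) (fun a => (a : Pt m)) g0 (H := H) (R := rX) (s := q)
    (fun a i => hbox a a.2 i) hqR hHP' hq (fun a => Fp a) (fun a => c a)
    (fun a => 𝔼 x, Fp a x) (fun _ => 2 * α) (fun a x => (hc a a.2).2.2 x)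
    (fun a => (hc a a.2).2.1) (fun a k _ => (hc a a.2).1 k) ht
  have hlo := osc_tail_shift (P := P) (ι := W) (fun a => (a : Pt m)) g0 (H := H) (R := rX) (s := q)
    (fun a i => hbox a a.2 i) hqR hHP' hq (fun a => Fm a) (fun a => c' a)
    (fun a => 𝔼 x, Fm a x) (fun _ => 2 * α) (fun a x => (hc' a a.2).2.2 x)
    (fun a => (hc' a a.2).2.1) (fun a k _ => (hc' a a.2).1 k) ht
  rw [UBEn_const] at hup hlo
  rw [expect_Row]
  have key : avg (fun r : Row P m => if δ * α * W.card + t <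
        |∑ g ∈ W, f g (res r g) - ∑ g ∈ W, 𝔼 x, f g x| then (1 : ℝ) else 0) ≤
      pr (fun ω : RowΩ P m => t ≤ |∑ a : W, Fp a (xi ω (a : Pt m)) - ∑ a : W, 𝔼 x, Fp a x|) +
      pr (fun ω : RowΩ P m => t ≤ |∑ a : W, Fm a (xi ω (a : Pt m)) - ∑ a : W, 𝔼 x, Fm a x|) := by
    unfold avg pr
    rw [← add_div]
    gcongr
    rw [sum_boole, ← Nat.cast_add]
    norm_cast
    refine le_trans (card_le_card ?_) (card_union_le _ _)
    intro r hr
    rw [mem_filter] at hr
    rw [mem_union, mem_filter, mem_filter]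
    by_contra hcon
    push Not at hcon
    have h1 := hcon.1 (mem_univ _)
    have h2 := hcon.2 (mem_univ _)
    have h3 := hr.2
    rw [← sum_coe_sort W (fun g => f g (res r g)), ← sum_coe_sort W (fun g => 𝔼 x, f g x)] at h3
    have u1 : ∑ a : W, f a (res r (a : Pt m)) ≤ ∑ a : W, Fp a (xi r (a : Pt m)) :=
      sum_le_sum fun a _ => ((hp a a.2).2.2.1 _).2
    have l1 : ∑ a : W, Fm a (xi r (a : Pt m)) ≤ ∑ a : W, f a (res r (a : Pt m)) :=
      sum_le_sum fun a _ => ((hp a a.2).2.2.1 _).1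
    have u2 : ∑ a : W, 𝔼 x, Fp a x ≤ ∑ a : W, 𝔼 x, f a x + δ * α * W.card := by
      calc ∑ a : W, 𝔼 x, Fp a x ≤ ∑ a : W, ((𝔼 x, f a x) + δ * α) :=
            sum_le_sum fun a _ => (hp a a.2).2.2.2.1
        _ = _ := by
          rw [sum_add_distrib, sum_const, card_univ, Fintype.card_coe, nsmul_eq_mul]; ring
    have l2 : ∑ a : W, 𝔼 x, f a x - δ * α * W.card ≤ ∑ a : W, 𝔼 x, Fm a x := by
      calc ∑ a : W, 𝔼 x, f a x - δ * α * W.card = ∑ a : W, ((𝔼 x, f a x) - δ * α) := by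
            rw [sum_sub_distrib, sum_const, card_univ, Fintype.card_coe, nsmul_eq_mul]; ring
        _ ≤ _ := sum_le_sum fun a _ => (hp a a.2).2.2.2.2
    rw [abs_lt] at h1 h2
    rw [lt_abs] at h3
    rcases h3 with h3 | h3
    · linarith [h1.2]
    · linarith [h2.1]
  refine key.trans ((add_le_add hup hlo).trans ?_)
  have hE : (0 : ℝ) ≤ (En q W : ℝ) := by positivity
  have e1 : (2 * (H : ℝ) / t) ^ (2 * q) * ((2 * α) ^ (2 * q) * (En q W : ℝ)) =
      (4 * H * α / t) ^ (2 * q) * En q W := by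
    rw [← mul_assoc, ← mul_pow]; congr 2; ring
  rw [e1]
  have e2 : (4 * (H : ℝ) * α / t) ^ (2 * q) ≤ (8 * H * α / t) ^ (2 * q) := by
    gcongr; norm_num
  nlinarith [mul_le_mul_of_nonneg_right e2 hE]

end Crest.Agent.R225
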