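import Crest.Agent.R225.Iface

/-!
# Row 225: nodes G1, G2 (linear algebra of bounded affine relations)
-/

set_option autoImplicit false

open Finset
open scoped BigOperators

namespace Crest.Agent.R225

lemma BRel.mono_left {m : ℕ} {Z Z' : Finset (Pt m)} {B : ℝ} {h : Pt m → ℤ} (hZ : Z ⊆ Z')
    (H : BRel Z B h) : BRel Z' B h := by
  obtain ⟨⟨h1, h2, h3⟩, h4⟩ := H
  refine ⟨⟨fun g hg => h1 g fun hg' => hg (hZ hg'), ?_, ?_⟩, h4⟩
  · rw [← h2]
    exact (Finset.sum_subset hZ fun g _ hg => h1 g hg).symm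
  · rw [← h3]
    exact (Finset.sum_subset hZ fun g _ hg => by rw [h1 g hg, zero_smul]).symm

lemma BRel.mono_right {m : ℕ} {Z : Finset (Pt m)} {B B' : ℝ} {h : Pt m → ℤ} (hB : B ≤ B')
    (H : BRel Z B h) : BRel Z B' h := ⟨H.1, fun g => (H.2 g).trans hB⟩

lemma ARel.erase_of_eq_zero {m : ℕ} {Z : Finset (Pt m)} {z : Pt m} {h : Pt m → ℤ}
    (H : ARel Z h) (hz : h z = 0) : ARel (Z.erase z) h := by
  obtain ⟨h1, h2, h3⟩ := H
  refine ⟨fun g hg => ?_, ?_, ?_⟩
  · by_cases hgz : g = z
    · rw [hgz, hz]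
    · exact h1 g fun hg' => hg (Finset.mem_erase.2 ⟨hgz, hg'⟩)
  · rw [← h2]
    exact Finset.sum_erase _ hz
  · rw [← h3]
    exact Finset.sum_erase _ (by rw [hz, zero_smul])

lemma ARel.comb {m : ℕ} {Z : Finset (Pt m)} {h h' : Pt m → ℤ} (H : ARel Z h) (H' : ARel Z h')
    (a b : ℤ) : ARel Z (fun g => h g * a - h' g * b) := by
  obtain ⟨h1, h2, h3⟩ := H
  obtain ⟨h1', h2', h3'⟩ := H'
  refine ⟨fun g hg => by simp only [h1 g hg, h1' g hg, zero_mul, sub_zero], ?_, ?_⟩
  · rw [Finset.sum_sub_distrib, ← Finset.sum_mul, ← Finset.sum_mul, h2, h2']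
    simp
  · have : ∀ g ∈ Z, (h g * a - h' g * b) • g = a • (h g • g) - b • (h' g • g) := fun g _ => by
      rw [sub_smul, mul_comm (h g), mul_comm (h' g), mul_smul, mul_smul]
    rw [Finset.sum_congr rfl this, Finset.sum_sub_distrib, ← Finset.smul_sum, ← Finset.smul_sum,
      h3, h3']
    simp

theorem prf_G1 : S_G1 := by
  intro m k Z B z hB hz H
  obtain ⟨v, hv, hli⟩ := H
  have hB2 : B ≤ 2 * B ^ 2 := by nlinarith
  by_cases h0 : ∃ l0, v l0 z ≠ 0
  · obtain ⟨l0, hl0⟩ := h0
    refine ⟨fun l g => v (l0.succAbove l) g * v l0 z - v l0 g * v (l0.succAbove l) z,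
      fun l => ⟨?_, fun g => ?_⟩, ?_⟩
    · refine ARel.erase_of_eq_zero ((hv _).1.comb (hv _).1 _ _) ?_
      show v (l0.succAbove l) z * v l0 z - v l0 z * v (l0.succAbove l) z = 0
      ring
    · have e1 := (hv (l0.succAbove l)).2 g
      have e2 := (hv l0).2 z
      have e3 := (hv l0).2 g
      have e4 := (hv (l0.succAbove l)).2 z
      push_cast
      have hB0 : 0 ≤ B := by linarith
      have f1 : |(v (l0.succAbove l) g : ℝ) * v l0 z| ≤ B * B := by
        rw [abs_mul]; exact mul_le_mul e1 e2 (abs_nonneg _) hB0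
      have f2 : |(v l0 g : ℝ) * v (l0.succAbove l) z| ≤ B * B := by
        rw [abs_mul]; exact mul_le_mul e3 e4 (abs_nonneg _) hB0
      calc |(v (l0.succAbove l) g : ℝ) * v l0 z - v l0 g * v (l0.succAbove l) z|
          ≤ |(v (l0.succAbove l) g : ℝ) * v l0 z| + |(v l0 g : ℝ) * v (l0.succAbove l) z| :=
            abs_sub _ _
        _ ≤ 2 * B ^ 2 := by nlinarith
    · rw [Fintype.linearIndependent_iff] at hli ⊢
      intro c hc
      have key := hli (l0.insertNth (-∑ l, c l * (v (l0.succAbove l) z : ℚ))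
        (fun l => c l * (v l0 z : ℚ))) (by
          rw [Fin.sum_univ_succAbove _ l0]
          simp only [Fin.insertNth_apply_same, Fin.insertNth_apply_succAbove]
          funext g
          have hg := congrFun hc g
          simp only [Finset.sum_apply, Pi.smul_apply, smul_eq_mul, Pi.zero_apply,
            Pi.add_apply] at hg ⊢
          rw [← hg, neg_mul, Finset.sum_mul, neg_add_eq_sub, ← Finset.sum_sub_distrib]
          refine Finset.sum_congr rfl fun l _ => ?_
          push_cast
          ring)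
      intro l
      have h1 := key (l0.succAbove l)
      rw [Fin.insertNth_apply_succAbove] at h1
      rcases mul_eq_zero.1 h1 with h2 | h2
      · exact h2
      · exact absurd (by exact_mod_cast h2) hl0
  · push Not at h0
    refine ⟨fun l => v l.castSucc, fun l => ⟨ARel.erase_of_eq_zero (hv _).1 (h0 _), fun g =>
      ((hv _).2 g).trans hB2⟩, ?_⟩
    exact hli.comp _ (Fin.castSucc_injective k)

lemma RkGe.succ_of_erase {m : ℕ} {Z : Finset (Pt m)} {B : ℝ} {k : ℕ} {z : Pt m}
    {h : Pt m → ℤ} (H : RkGe (Z.erase z) B k) (hh : BRel Z B h) (hz : h z ≠ 0) :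
    RkGe Z B (k + 1) := by
  obtain ⟨v, hv, hli⟩ := H
  refine ⟨Fin.cons h v, fun l => ?_, ?_⟩
  · refine Fin.cases ?_ (fun l => ?_) l
    · simpa using hh
    · simpa using (hv l).mono_left (Finset.erase_subset z Z)
  · rw [Fintype.linearIndependent_iff] at hli ⊢
    intro c hc
    rw [Fin.sum_univ_succ] at hc
    simp only [Fin.cons_zero, Fin.cons_succ] at hc
    have hc0 : c 0 = 0 := by
      have := congrFun hc z
      simp only [Finset.sum_apply, Pi.smul_apply, smul_eq_mul, Pi.zero_apply, Pi.add_apply] at this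
      have hv0 : ∀ l : Fin k, v l z = 0 := fun l => (hv l).1.1 z (Finset.notMem_erase z Z)
      simp only [hv0, Int.cast_zero, mul_zero, Finset.sum_const_zero, add_zero] at this
      rcases mul_eq_zero.1 this with h2 | h2
      · exact h2
      · exact absurd (by exact_mod_cast h2) hz
    rw [hc0, zero_smul, zero_add] at hc
    intro l
    refine Fin.cases hc0 (fun l => ?_) l
    exact hli (fun l => c l.succ) hc l

theorem prf_G2 : S_G2 := by
  intro m k Z B
  induction k generalizing Z with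
  | zero =>
    intro hk
    refine ⟨Z, Finset.Subset.refl _, by simp, fun h hh => ?_⟩
    by_contra hne
    refine hk ?_
    obtain ⟨z, hz⟩ : ∃ z, h z ≠ 0 := by
      by_contra hcon
      push Not at hcon
      exact hne (funext hcon)
    refine RkGe.succ_of_erase (z := z) ⟨fun l => Fin.elim0 l, fun l => Fin.elim0 l, ?_⟩ hh hz
    exact linearIndependent_empty_type
  | succ k ih =>
    intro hk
    by_cases hne : ∀ h, BRel Z B h → h = 0
    · exact ⟨Z, Finset.Subset.refl _, by omega, hne⟩
    · push Not at hne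
      obtain ⟨h, hh, hne⟩ := hne
      obtain ⟨z, hz⟩ : ∃ z, h z ≠ 0 := by
        by_contra hcon
        push Not at hcon
        exact hne (funext hcon)
      have hzZ : z ∈ Z := by
        by_contra hcon
        exact hz (hh.1.1 z hcon)
      obtain ⟨Z0, hZ0, hcard, hrel⟩ := ih (Z.erase z) fun H => hk (H.succ_of_erase hh hz)
      refine ⟨Z0, hZ0.trans (Finset.erase_subset _ _), ?_, hrel⟩
      have := Finset.card_erase_add_one hzZ
      omega

end Crest.Agent.R225

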