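import Crest.Agent.R225.Iface

/-!
# Row 225 (S0347): node G3 (helper16)

Greedy disjoint column bases, or a nonzero relation of small support (Cramer's rule).
-/

set_option autoImplicit false

open Finset
open scoped BigOperators

namespace Crest.Agent.R225
namespace G3n

variable {m d : ℕ}

/-- column of the relation matrix at the point `g` -/
def col (v : Fin d → Pt m → ℤ) (g : Pt m) : Fin d → ℚ := fun l => (v l g : ℚ)

/-- the columns on `Z` span the whole space -/
theorem span_col (Z : Finset (Pt m)) (v : Fin d → Pt m → ℤ)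
    (hZ : ∀ l g, g ∉ Z → v l g = 0)
    (hv : LinearIndependent ℚ (fun l : Fin d => fun g : Pt m => ((v l g : ℤ) : ℚ))) :
    Submodule.span ℚ (col v '' (Z : Set (Pt m))) = ⊤ := by
  by_contra hne
  obtain ⟨f, hf0, hf⟩ := Submodule.exists_le_ker_of_lt_top _ (lt_top_iff_ne_top.2 hne)
  have hrel : ∑ l, (f (fun j => if l = j then 1 else 0)) • (fun g : Pt m => (v l g : ℚ)) = 0 := by
    funext g
    simp only [Finset.sum_apply, Pi.smul_apply, Pi.zero_apply, smul_eq_mul]
    by_cases hg : g ∈ Z
    · have h1 : f (col v g) = 0 := hf (Submodule.subset_span ⟨g, hg, rfl⟩)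
      rw [LinearMap.pi_apply_eq_sum_univ f (col v g)] at h1
      refine Eq.trans ?_ h1
      refine Finset.sum_congr rfl fun l _ => ?_
      simp only [col, smul_eq_mul]; ring
    · refine Finset.sum_eq_zero fun l _ => ?_
      simp [hZ l g hg]
  have h0 := Fintype.linearIndependent_iff.1 hv _ hrel
  apply hf0
  refine LinearMap.ext fun x => ?_
  rw [LinearMap.pi_apply_eq_sum_univ f x]
  simp [h0]

/-- a set of points whose columns form a basis can be enumerated by `Fin d` -/
theorem exists_enum (v : Fin d → Pt m → ℤ) (s : Set (Pt m)) (hs : LinearIndepOn ℚ (col v) s)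
    (hsp : Submodule.span ℚ (col v '' s) = ⊤) :
    ∃ g : Fin d → Pt m, Function.Injective g ∧ Set.range g = s ∧
      (Matrix.of fun l j : Fin d => v l (g j)).det ≠ 0 := by
  have hs' : LinearIndependent ℚ (fun x : s => col v x) := hs
  have hsp' : ⊤ ≤ Submodule.span ℚ (Set.range fun x : s => col v x) := by
    rw [← hsp]
    apply Submodule.span_mono
    rintro _ ⟨x, hx, rfl⟩
    exact ⟨⟨x, hx⟩, rfl⟩
  let b := Module.Basis.mk hs' hsp'
  let e : s ≃ Fin d := b.indexEquiv (Pi.basisFun ℚ (Fin d))
  refine ⟨fun j => (e.symm j : Pt m), fun i j h => e.symm.injective (Subtype.ext h), ?_, ?_⟩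
  · ext x
    constructor
    · rintro ⟨j, rfl⟩
      exact (e.symm j).2
    · intro hx
      exact ⟨e ⟨x, hx⟩, by simp⟩
  · have hli : LinearIndependent ℚ (fun j : Fin d => col v (e.symm j : Pt m)) :=
      hs'.comp e.symm e.symm.injective
    set A : Matrix (Fin d) (Fin d) ℚ := Matrix.of fun l j => ((v l (e.symm j : Pt m) : ℤ) : ℚ) with hA
    have hcol : LinearIndependent ℚ A.col := hli
    have hu := Matrix.linearIndependent_cols_iff_isUnit.1 hcol
    have hd : A.det ≠ 0 := ((Matrix.isUnit_iff_isUnit_det A).1 hu).ne_zero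
    intro h0
    apply hd
    have h1 := RingHom.map_det (Int.castRingHom ℚ) (Matrix.of fun l j : Fin d => v l (e.symm j : Pt m))
    rw [h0, map_zero] at h1
    rw [hA]
    exact h1.symm

/-- the Cramer relation -/
theorem exists_cramer (Z U : Finset (Pt m)) (B : ℝ) (v : Fin d → Pt m → ℤ)
    (hB : ∀ l, BRel Z B (v l)) (g : Fin d → Pt m) (hg : ∀ j, g j ∈ Z) (j0 : Fin d)
    (hdet : (Matrix.of fun l j : Fin d => v l (g j)).det ≠ 0)
    (hU : ∀ x ∈ Z, x ∉ U → col v x ∈ Submodule.span ℚ ((fun j => col v (g j)) '' {j | j ≠ j0})) :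
    ∃ h, h ≠ 0 ∧ BRel Z ((d * B) ^ d) h ∧ ∀ x, h x ≠ 0 → x ∈ U := by
  classical
  set M : Matrix (Fin d) (Fin d) ℤ := Matrix.of fun l j : Fin d => v l (g j) with hM
  set c : Fin d → ℤ := fun l => M.cramer (Pi.single l 1) j0 with hc
  have key : ∀ x, ∑ l, c l * v l x = (M.updateCol j0 (fun l => v l x)).det := by
    intro x
    rw [← Matrix.cramer_apply]
    have h1 : (fun l => v l x) = ∑ l, v l x • (Pi.single l (1 : ℤ) : Fin d → ℤ) := by
      funext k
      simp [Finset.sum_apply, Pi.single_apply]
    rw [h1, map_sum, Finset.sum_apply]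
    refine Finset.sum_congr rfl fun l _ => ?_
    rw [map_smul, Pi.smul_apply, smul_eq_mul]
    ring
  refine ⟨fun x => ∑ l, c l * v l x, ?_, ⟨⟨?_, ?_, ?_⟩, ?_⟩, ?_⟩
  · intro h0
    have h1 := congrFun h0 (g j0)
    simp only [Pi.zero_apply] at h1
    rw [key] at h1
    apply hdet
    rw [← h1]
    congr 1
    ext l j
    by_cases hj : j = j0
    · subst hj; simp [hM]
    · simp [Matrix.updateCol_ne hj]
  · intro x hx
    refine Finset.sum_eq_zero fun l _ => ?_
    rw [(hB l).1.1 x hx, mul_zero]
  · rw [Finset.sum_comm]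
    refine Finset.sum_eq_zero fun l _ => ?_
    rw [← Finset.mul_sum, (hB l).1.2.1, mul_zero]
  · have : ∀ x ∈ Z, (∑ l, c l * v l x) • x = ∑ l, c l • (v l x • x) := by
      intro x _
      rw [Finset.sum_smul]
      refine Finset.sum_congr rfl fun l _ => ?_
      rw [mul_smul]
    rw [Finset.sum_congr rfl this, Finset.sum_comm]
    refine Finset.sum_eq_zero fun l _ => ?_
    rw [← Finset.smul_sum, (hB l).1.2.2, smul_zero]
  · intro x
    show |((∑ l, c l * v l x : ℤ) : ℝ)| ≤ _
    rw [key]
    set N : Matrix (Fin d) (Fin d) ℝ := (M.updateCol j0 (fun l => v l x)).map (Int.cast : ℤ → ℝ) with hN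
    have h1 : (((M.updateCol j0 (fun l => v l x)).det : ℤ) : ℝ) = N.det := by
      rw [hN]
      exact RingHom.map_det (Int.castRingHom ℝ) _
    rw [h1]
    have h2 : ∀ i j, AbsoluteValue.abs (N i j) ≤ B := by
      intro i j
      show |N i j| ≤ B
      rw [hN, Matrix.map_apply]
      by_cases hj : j = j0
      · subst hj; rw [Matrix.updateCol_self]; exact (hB i).2 x
      · rw [Matrix.updateCol_ne hj]; exact (hB i).2 (g j)
    have h3 := Matrix.det_le (A := N) (abv := AbsoluteValue.abs) (x := B) h2
    have h4 : |N.det| ≤ (Nat.factorial d : ℝ) * B ^ d := by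
      simpa [nsmul_eq_mul] using h3
    have hB0 : 0 ≤ B := (abs_nonneg _).trans ((hB j0).2 x)
    calc |N.det| ≤ (Nat.factorial d : ℝ) * B ^ d := h4
      _ ≤ (d : ℝ) ^ d * B ^ d := by
        have : (Nat.factorial d : ℝ) ≤ (d : ℝ) ^ d := by exact_mod_cast Nat.factorial_le_pow d
        gcongr
      _ = (d * B) ^ d := (mul_pow _ _ _).symm
  · intro x hx
    by_contra hxU
    apply hx
    by_cases hxZ : x ∈ Z
    · show ∑ l, c l * v l x = 0
      rw [key]
      set Mq : Matrix (Fin d) (Fin d) ℚ := M.map (Int.cast : ℤ → ℚ) with hMq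
      have h1 : (((M.updateCol j0 (fun l => v l x)).det : ℤ) : ℚ) = (Mq.updateCol j0 (col v x)).det := by
        rw [show (((M.updateCol j0 (fun l => v l x)).det : ℤ) : ℚ)
          = ((M.updateCol j0 (fun l => v l x)).map (Int.cast : ℤ → ℚ)).det from
            RingHom.map_det (Int.castRingHom ℚ) _]
        congr 1
        ext l j
        by_cases hj : j = j0
        · subst hj; simp [col]
        · simp [Matrix.updateCol_ne hj, hMq]
      let φ : (Fin d → ℚ) →ₗ[ℚ] ℚ := (LinearMap.proj j0).comp (Matrix.cramer Mq)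
      have hφ : ∀ y, φ y = (Mq.updateCol j0 y).det := by
        intro y
        simp only [φ, LinearMap.comp_apply, LinearMap.proj_apply, Matrix.cramer_apply]
      have h2 : Submodule.span ℚ ((fun j => col v (g j)) '' {j | j ≠ j0}) ≤ LinearMap.ker φ := by
        rw [Submodule.span_le]
        rintro _ ⟨j, hj, rfl⟩
        show φ (col v (g j)) = 0
        rw [hφ]
        apply Matrix.det_zero_of_column_eq (i := j0) (j := j) (Ne.symm hj)
        intro l
        rw [Matrix.updateCol_self, Matrix.updateCol_ne hj]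
        simp [col, hMq, hM]
      have h3 : φ (col v x) = 0 := h2 (hU x hxZ hxU)
      rw [hφ, ← h1] at h3
      exact_mod_cast h3
    · refine Finset.sum_eq_zero fun l _ => ?_
      rw [(hB l).1.1 x hxZ, mul_zero]

end G3n

open G3n in
/-- node G3 -/
theorem prf_G3 : S_G3 := by
  classical
  intro m d N Z B v hd hB1 hB hv
  have hZ : ∀ l g, g ∉ Z → v l g = 0 := fun l g hg => (hB l).1.1 g hg
  induction N with
  | zero =>
    left
    refine ⟨fun p => p.1.elim0, fun p => p.1.elim0, fun p => p.1.elim0, fun t => t.elim0⟩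
  | succ N ih =>
    rcases ih with ⟨e, he, heZ, hedet⟩ | ⟨h, h0, hBh, hcard⟩
    swap
    · right
      refine ⟨h, h0, hBh, lt_of_lt_of_le hcard (Nat.mul_le_mul_right d (Nat.le_succ N))⟩
    set U : Finset (Pt m) := univ.image e with hUdef
    have hUcard : U.card ≤ N * d := by
      calc U.card ≤ (univ : Finset (Fin N × Fin d)).card := card_image_le
        _ = N * d := by simp
    -- maximal independent sets of columns
    obtain ⟨s, hsub, -, hsp, hsl⟩ := exists_linearIndepOn_extension
      (K := ℚ) (v := col v) (s := ∅) (t := {x | x ∈ Z ∧ x ∉ U}) (linearIndepOn_empty ℚ _) (Set.empty_subset _)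
    by_cases htop : Submodule.span ℚ (col v '' s) = ⊤
    · left
      obtain ⟨gn, gninj, gnrange, gndet⟩ := exists_enum v s hsl htop
      have hgn : ∀ j, gn j ∈ Z ∧ gn j ∉ U := by
        intro j
        have : gn j ∈ s := by rw [← gnrange]; exact ⟨j, rfl⟩
        exact hsub this
      refine ⟨fun p => if h : p.1.val < N then e (⟨p.1.val, h⟩, p.2) else gn p.2, ?_, ?_, ?_⟩
      · intro p q hpq
        simp only at hpq
        by_cases hp : p.1.val < N <;> by_cases hq : q.1.val < N
        · rw [dif_pos hp, dif_pos hq] at hpq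
          have h1 := he hpq
          have h2 : p.1.val = q.1.val := by
            have := congrArg (fun z => z.1.val) h1
            simpa using this
          have h3 : p.2 = q.2 := by
            have := congrArg (fun z => z.2) h1
            simpa using this
          exact Prod.ext (Fin.ext h2) h3
        · rw [dif_pos hp, dif_neg hq] at hpq
          exact absurd (mem_image_of_mem e (mem_univ _)) (by rw [hpq]; exact (hgn q.2).2)
        · rw [dif_neg hp, dif_pos hq] at hpq
          exact absurd (mem_image_of_mem e (mem_univ _)) (by rw [← hpq]; exact (hgn p.2).2)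
        · rw [dif_neg hp, dif_neg hq] at hpq
          have h2 : p.1.val = q.1.val := by
            have := p.1.isLt; have := q.1.isLt; omega
          exact Prod.ext (Fin.ext h2) (gninj hpq)
      · intro p
        by_cases hp : p.1.val < N
        · simp only [dif_pos hp]; exact heZ _
        · simp only [dif_neg hp]; exact (hgn p.2).1
      · intro t
        by_cases ht : t.val < N
        · simp only [dif_pos ht]; exact hedet ⟨t.val, ht⟩
        · simp only [dif_neg ht]; exact gndet
    · right
      obtain ⟨b, hbZ, hsb, hbsp, hbl⟩ := exists_linearIndepOn_extension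
        (K := ℚ) (v := col v) (s := s) (t := (Z : Set (Pt m))) hsl (fun x hx => (hsub hx).1)
      have hbtop : Submodule.span ℚ (col v '' b) = ⊤ := by
        rw [eq_top_iff, ← span_col Z v hZ hv]
        exact Submodule.span_le.2 hbsp
      obtain ⟨g, ginj, grange, gdet⟩ := exists_enum v b hbl hbtop
      have hne : ∃ x ∈ b, x ∉ s := by
        by_contra hcon
        push Not at hcon
        have : b = s := Set.Subset.antisymm hcon hsb
        rw [this] at hbtop
        exact htop hbtop
      obtain ⟨x0, hx0b, hx0s⟩ := hne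
      obtain ⟨j0, hj0⟩ : ∃ j0, g j0 = x0 := by
        have : x0 ∈ Set.range g := by rw [grange]; exact hx0b
        exact this
      have hgZ : ∀ j, g j ∈ Z := by
        intro j
        have : g j ∈ b := by rw [← grange]; exact ⟨j, rfl⟩
        exact hbZ this
      have hspan : ∀ x ∈ Z, x ∉ U →
          col v x ∈ Submodule.span ℚ ((fun j => col v (g j)) '' {j | j ≠ j0}) := by
        intro x hx hxU
        have h1 : col v x ∈ Submodule.span ℚ (col v '' s) := hsp ⟨x, ⟨hx, hxU⟩, rfl⟩
        refine Submodule.span_mono ?_ h1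
        rintro _ ⟨y, hy, rfl⟩
        have hyb : y ∈ Set.range g := by rw [grange]; exact hsb hy
        obtain ⟨j, hj⟩ := hyb
        refine ⟨j, ?_, by simp only; rw [hj]⟩
        rintro rfl
        apply hx0s
        rw [← hj0, hj]
        exact hy
      obtain ⟨h, h0, hBh, hsupp⟩ := exists_cramer Z U B v hB g hgZ j0 gdet hspan
      refine ⟨h, h0, hBh, ?_⟩
      have hsub2 : (Z.filter fun g => h g ≠ 0) ⊆ U := by
        intro x hx
        exact hsupp x (mem_filter.1 hx).2
      calc (Z.filter fun g => h g ≠ 0).card ≤ U.card := card_le_card hsub2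
        _ ≤ N * d := hUcard
        _ < (N + 1) * d := by nlinarith

end Crest.Agent.R225
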