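import Crest.Agent.R225.Iface

/-!
# Row 225 (S0347), node Grid: the r-dimensional region lemma
-/

set_option autoImplicit false

open Finset MeasureTheory
open scoped BigOperators ENNReal

namespace Crest.Agent.R225

namespace GridR

variable {r : ℕ}

theorem level_convex {F : (Fin r → ℝ) → ℝ≥0∞} (hLC : LC F) {c : ℝ} (hc : 0 < c) :
    Convex ℝ {x | ENNReal.ofReal c < F x} := by
  intro x hx y hy a b ha hb hab
  rcases eq_or_lt_of_le ha with h | ha'
  · subst h
    have : b = 1 := by linarith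
    subst this
    simpa using hy
  rcases eq_or_lt_of_le hb with h | hb'
  · subst h
    have : a = 1 := by linarith
    subst this
    simpa using hx
  have h1 := hLC x y b hb' (by linarith)
  have h2 : a = 1 - b := by linarith
  have hx' : ENNReal.ofReal c < F x := hx
  have hy' : ENNReal.ofReal c < F y := hy
  have hc0 : ENNReal.ofReal c ≠ 0 := by
    rw [Ne, ENNReal.ofReal_eq_zero]; linarith
  rw [h2]
  refine lt_of_lt_of_le ?_ h1
  have e : ENNReal.ofReal c = ENNReal.ofReal c ^ (1 - b) * ENNReal.ofReal c ^ b := by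
    rw [← ENNReal.rpow_add _ _ hc0 ENNReal.ofReal_ne_top]
    simp
  calc ENNReal.ofReal c = ENNReal.ofReal c ^ (1 - b) * ENNReal.ofReal c ^ b := e
    _ < F x ^ (1 - b) * F y ^ b :=
        ENNReal.mul_lt_mul (ENNReal.rpow_lt_rpow hx' (by linarith)) (ENNReal.rpow_lt_rpow hy' hb')

theorem exists_level {F : (Fin r → ℝ) → ℝ≥0∞} (hint : ∫⁻ x, F x ≠ 0) :
    ∃ δ : ℝ, 0 < δ ∧ volume {x | ENNReal.ofReal δ < F x} ≠ 0 := by
  by_contra hcon
  push Not at hcon
  apply hint
  have h1 : volume (⋃ k : ℕ, {x | ENNReal.ofReal (1 / ((k : ℝ) + 1)) < F x}) = 0 :=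
    measure_iUnion_null fun k => hcon _ (by positivity)
  rw [lintegral_eq_zero_of_ae_eq_zero]
  refine measure_mono_null ?_ h1
  intro x hx
  have hx' : 0 < F x := pos_iff_ne_zero.2 hx
  rw [Set.mem_iUnion]
  obtain ⟨c, hc0, hc1⟩ := ENNReal.lt_iff_exists_real_btwn.1 hx'
  obtain ⟨hc2, hc3⟩ := hc1
  have hcpos : 0 < c := by
    by_contra h
    rw [ENNReal.ofReal_of_nonpos (not_lt.1 h)] at hc2
    exact lt_irrefl _ hc2
  obtain ⟨k, hk⟩ := exists_nat_one_div_lt hcpos
  exact ⟨k, lt_of_le_of_lt (ENNReal.ofReal_le_ofReal hk.le) hc3⟩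

theorem homothety_mem (w x : Fin r → ℝ) (c : ℝ) :
    AffineMap.homothety w c x = (1 - c) • w + c • x := by
  rw [AffineMap.homothety_apply]
  simp only [vsub_eq_sub, vadd_eq_add]
  module

/-- key interpolation of levels -/
theorem level_interp {F : (Fin r → ℝ) → ℝ≥0∞} (hLC : LC F) {a b t : ℝ} (ha : 0 < a) (hb : 0 < b)
    (ht0 : 0 < t) (ht1 : t < 1) {w x : Fin r → ℝ} (hw : ENNReal.ofReal a < F w)
    (hx : ENNReal.ofReal b < F x) :
    ENNReal.ofReal (a ^ (1 - t) * b ^ t) < F ((1 - t) • w + t • x) := by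
  refine lt_of_lt_of_le ?_ (hLC w x t ht0 ht1)
  rw [ENNReal.ofReal_mul (by positivity), ← ENNReal.ofReal_rpow_of_pos ha,
    ← ENNReal.ofReal_rpow_of_pos hb]
  exact ENNReal.mul_lt_mul (ENNReal.rpow_lt_rpow hw (by linarith)) (ENNReal.rpow_lt_rpow hx ht0)

theorem level_pos {F : (Fin r → ℝ) → ℝ≥0∞} (hLC : LC F) (hint : ∫⁻ x, F x ≠ 0) {a c : ℝ}
    (ha : 0 < a) (hca : c < a) {w : Fin r → ℝ} (hw : ENNReal.ofReal a < F w) :
    volume {x | ENNReal.ofReal c < F x} ≠ 0 := by
  obtain ⟨δ, hδ, hvol⟩ := exists_level hint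
  have hcont : Filter.Tendsto (fun t : ℝ => a ^ (1 - t) * δ ^ t) (nhdsWithin 0 (Set.Ioi 0))
      (nhds (a ^ (1 - 0 : ℝ) * δ ^ (0 : ℝ))) := by
    have : ContinuousAt (fun t : ℝ => a ^ (1 - t) * δ ^ t) 0 := by
      apply ContinuousAt.mul
      · exact ContinuousAt.comp (g := fun s : ℝ => a ^ s) (f := fun t : ℝ => 1 - t)
          (Real.continuousAt_const_rpow ha.ne') (by fun_prop)
      · exact Real.continuousAt_const_rpow hδ.ne'
    exact this.tendsto.mono_left nhdsWithin_le_nhds
  rw [sub_zero, Real.rpow_one, Real.rpow_zero, mul_one] at hcont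
  have hev := hcont.eventually (lt_mem_nhds hca)
  have hev2 : ∀ᶠ t : ℝ in nhdsWithin 0 (Set.Ioi 0), t < 1 := by
    have : ∀ᶠ t : ℝ in nhds 0, t < 1 := gt_mem_nhds (by norm_num)
    exact this.filter_mono nhdsWithin_le_nhds
  have hev3 : ∀ᶠ t : ℝ in nhdsWithin 0 (Set.Ioi 0), 0 < t := self_mem_nhdsWithin
  obtain ⟨t, ht1, ht2, ht3⟩ := (hev.and (hev2.and hev3)).exists
  have hsub : AffineMap.homothety w t '' {x | ENNReal.ofReal δ < F x} ⊆
      {x | ENNReal.ofReal c < F x} := by
    rintro _ ⟨x, hx, rfl⟩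
    rw [homothety_mem]
    exact lt_of_le_of_lt (ENNReal.ofReal_le_ofReal ht1.le) (level_interp hLC ha hδ ht3 ht2 hw hx)
  intro h0
  have h1 := measure_mono_null hsub h0
  rw [Measure.addHaar_image_homothety, mul_eq_zero] at h1
  rcases h1 with h1 | h1
  · rw [ENNReal.ofReal_eq_zero] at h1
    have : 0 < |t ^ Module.finrank ℝ (Fin r → ℝ)| := by positivity
    linarith
  · exact hvol h1

/-- decay: `{F > a q^j}` is contained in a homothetic copy of `{F > a q}`. -/
theorem level_decay {F : (Fin r → ℝ) → ℝ≥0∞} (hLC : LC F) {M q : ℝ} (hM : 0 < M) (hq : 0 < q)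
    (hq1 : q < 1) {w : Fin r → ℝ} (hw : ENNReal.ofReal (M * q) < F w) (j : ℕ) :
    {x | ENNReal.ofReal (M * q ^ (j + 1)) < F x} ⊆
      AffineMap.homothety w ((j : ℝ) + 1) '' {x | ENNReal.ofReal (M * q ^ 2) < F x} := by
  intro x hx
  rcases Nat.eq_zero_or_pos j with rfl | hj
  · refine ⟨x, ?_, by simp⟩
    have hx' : ENNReal.ofReal (M * q ^ (0 + 1)) < F x := hx
    refine lt_of_le_of_lt ?_ hx'
    apply ENNReal.ofReal_le_ofReal
    have : q ^ 2 ≤ q ^ (0 + 1) := pow_le_pow_of_le_one hq.le hq1.le (by norm_num)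
    gcongr
  · have hj0 : (0 : ℝ) < (j : ℝ) + 1 := by positivity
    have hj1 : (1 : ℝ) < (j : ℝ) + 1 := by
      have : (0 : ℝ) < j := by exact_mod_cast hj
      linarith
    set t : ℝ := ((j : ℝ) + 1)⁻¹ with ht
    have ht0 : 0 < t := by positivity
    have ht1 : t < 1 := inv_lt_one_of_one_lt₀ hj1
    have htj : t * ((j : ℝ) + 1) = 1 := inv_mul_cancel₀ hj0.ne'
    refine ⟨(1 - t) • w + t • x, ?_, ?_⟩
    · have h1 := level_interp hLC (by positivity) (by positivity) ht0 ht1 hw hx
      refine lt_of_le_of_lt ?_ h1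
      apply ENNReal.ofReal_le_ofReal
      rw [Real.mul_rpow hM.le hq.le, Real.mul_rpow hM.le (by positivity), ← Real.rpow_natCast q (j+1),
        ← Real.rpow_mul hq.le]
      have e1 : (((j + 1 : ℕ) : ℝ)) * t = 1 := by push_cast; rw [mul_comm]; exact htj
      rw [e1]
      have e2 : M ^ (1 - t) * q ^ (1 - t) * (M ^ t * q ^ (1 : ℝ)) = M * q ^ (2 - t) := by
        have e3 : M ^ (1 - t) * M ^ t = M := by
          rw [← Real.rpow_add hM]; simp
        have e4 : q ^ (1 - t) * q ^ (1 : ℝ) = q ^ (2 - t) := by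
          rw [← Real.rpow_add hq]; congr 1; ring
        calc _ = (M ^ (1 - t) * M ^ t) * (q ^ (1 - t) * q ^ (1 : ℝ)) := by ring
          _ = _ := by rw [e3, e4]
      rw [e2]
      have e5 : q ^ 2 ≤ q ^ (2 - t) := by
        rw [← Real.rpow_natCast q 2]
        apply Real.rpow_le_rpow_of_exponent_ge hq hq1.le
        push_cast; linarith
      gcongr
    · rw [homothety_mem]
      have : ((j : ℝ) + 1) • ((1 - t) • w + t • x) = (((j : ℝ) + 1) * (1 - t)) • w +
          (((j : ℝ) + 1) * t) • x := by module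
      rw [this, mul_comm ((j : ℝ) + 1) t, htj]
      have h2 : ((j : ℝ) + 1) * (1 - t) = j := by
        rw [mul_sub, mul_comm ((j : ℝ) + 1) t, htj]; ring
      rw [h2]
      module

end GridR

open GridR in
/-- GM. central parallelepiped of a log-concave function on `ℝ^r` (r = 0 allowed). -/
theorem grid_region (hD1 : S_D1) (r : ℕ) : ∃ C : ℝ, 1 ≤ C ∧ ∀ F : (Fin r → ℝ) → ℝ≥0∞,
    LC F → Measurable F → BddSupp F → (∃ A : ℝ≥0∞, A ≠ ∞ ∧ ∀ x, F x ≤ A) → ∫⁻ x, F x ≠ 0 →
    ∃ (M : ℝ) (B : Matrix (Fin r) (Fin r) ℝ) (t : Fin r → ℝ), 0 < M ∧ B.det ≠ 0 ∧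
      (∀ x, F x ≤ ENNReal.ofReal M) ∧
      (∀ y : Fin r → ℝ, (∀ l, 0 ≤ y l ∧ y l ≤ 2) → ENNReal.ofReal (M / 2) ≤ F (t + B.mulVec y)) ∧
      ∫⁻ x, F x ≤ ENNReal.ofReal (C * M * |B.det|) := by
  obtain ⟨q, hq0, hq1, hq2⟩ : ∃ q : ℝ, 0 < q ∧ q < 1 ∧ q ^ 2 = 1 / 2 := by
    refine ⟨Real.sqrt (1 / 2), by positivity, ?_, Real.sq_sqrt (by norm_num)⟩
    rw [Real.sqrt_lt' (by norm_num)]; norm_num
  have hsum : Summable (fun j : ℕ => q ^ j * ((j : ℝ) + 1) ^ r) := by
    have h1 : Summable (fun n : ℕ => (n : ℝ) ^ r * q ^ n) :=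
      summable_pow_mul_geometric_of_norm_lt_one r (by rwa [Real.norm_of_nonneg hq0.le])
    have h2 := ((summable_nat_add_iff 1).2 h1).mul_left q⁻¹
    refine h2.congr fun j => ?_
    push_cast
    rw [pow_succ]
    field_simp
  set T : ℝ := ∑' j : ℕ, q ^ j * ((j : ℝ) + 1) ^ r with hT
  have hT0 : 0 ≤ T := tsum_nonneg fun j => by positivity
  refine ⟨T * 4 ^ r * (2 * ((r : ℝ) + 1)) ^ r + 1, ?_, ?_⟩
  · have : 0 ≤ T * 4 ^ r * (2 * ((r : ℝ) + 1)) ^ r := by positivity
    linarith
  intro F hLC hFm hbdd ⟨A, hA, hFA⟩ hint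
  -- the maximum
  set Ms : ℝ≥0∞ := ⨆ x, F x with hMs
  have hMstop : Ms ≠ ∞ := ne_top_of_le_ne_top hA (iSup_le hFA)
  have hMs0 : Ms ≠ 0 := by
    intro h0
    apply hint
    have : ∀ x, F x = 0 := fun x => by
      have := le_iSup F x
      rw [← hMs, h0, nonpos_iff_eq_zero] at this
      exact this
    simp [this]
  set M : ℝ := Ms.toReal with hMdef
  have hM : 0 < M := ENNReal.toReal_pos hMs0 hMstop
  have hMof : ENNReal.ofReal M = Ms := ENNReal.ofReal_toReal hMstop
  have hFM : ∀ x, F x ≤ ENNReal.ofReal M := fun x => by rw [hMof]; exact le_iSup F x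
  obtain ⟨w, hw⟩ : ∃ w, ENNReal.ofReal (M * q) < F w := by
    apply lt_iSup_iff.1
    rw [← hMs, ← hMof]
    rw [ENNReal.ofReal_lt_ofReal_iff hM]
    nlinarith
  set L : Set (Fin r → ℝ) := {x | ENNReal.ofReal (M * q ^ 2) < F x} with hL
  have hMq2 : 0 < M * q ^ 2 := by positivity
  have hLconv : Convex ℝ L := level_convex hLC hMq2
  have hLpos : volume L ≠ 0 := level_pos hLC hint (a := M * q) (by positivity) (by
    have : q ^ 2 < q := by nlinarith
    gcongr) hw
  have hLint : (interior L).Nonempty := by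
    by_contra hcon
    rw [Set.not_nonempty_iff_eq_empty] at hcon
    apply hLpos
    refine measure_mono_null ?_ (hLconv.addHaar_frontier volume)
    intro x hx
    rw [frontier, Set.mem_sdiff, hcon]
    exact ⟨subset_closure hx, fun h => h⟩
  have hLbdd : Bornology.IsBounded L := by
    obtain ⟨R, hR⟩ := hbdd
    refine (isCompact_Icc (a := fun _ : Fin r => -R) (b := fun _ => R)).isBounded.subset ?_
    intro x hx
    have hx0 : F x ≠ 0 := (lt_of_le_of_lt zero_le hx).ne'
    have := hR x hx0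
    exact ⟨fun i => (abs_le.1 (this i)).1, fun i => (abs_le.1 (this i)).2⟩
  obtain ⟨A0, p, hdet, hcube, hbox⟩ := hD1 r L hLconv hLbdd hLint
  -- volume of L
  have hLvol : volume L ≤ ENNReal.ofReal (|A0.det| * 4 ^ r) := by
    have hsub : L ⊆ (fun z : Fin r → ℝ => p + z) ''
        ((Matrix.toLin' A0) '' (Set.Icc (fun _ : Fin r => (-2:ℝ)) (fun _ => 2))) := by
      intro x hx
      obtain ⟨z, hz, he⟩ := hbox x hx
      refine ⟨A0.mulVec z, ⟨z, ⟨fun i => (abs_le.1 (hz i)).1, fun i => (abs_le.1 (hz i)).2⟩, ?_⟩,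
        he.symm⟩
      rw [Matrix.toLin'_apply]
    calc volume L ≤ _ := measure_mono hsub
      _ = volume ((Matrix.toLin' A0) '' (Set.Icc (fun _ : Fin r => (-2:ℝ)) (fun _ => 2))) := by
          rw [Set.image_add_left, measure_preimage_add]
      _ = ENNReal.ofReal (|A0.det| * 4 ^ r) := by
          rw [Measure.addHaar_image_linearMap, LinearMap.det_toLin', Real.volume_Icc_pi,
            ENNReal.ofReal_mul (abs_nonneg _)]
          congr 1
          simp only [Finset.prod_const, Finset.card_univ, Fintype.card_fin]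
          rw [← ENNReal.ofReal_pow (by norm_num)]
          norm_num
  have hr1 : (0 : ℝ) < (r : ℝ) + 1 := by positivity
  refine ⟨M, (1 / (2 * ((r : ℝ) + 1))) • A0, p, hM, ?_, hFM, ?_, ?_⟩
  · rw [Matrix.det_smul]
    exact mul_ne_zero (by positivity) hdet
  · intro y hy
    have h1 := hcube ((1 / (2 * ((r : ℝ) + 1))) • y) (fun k => by
      rw [Pi.smul_apply, smul_eq_mul]
      have := hy k
      constructor
      · exact mul_nonneg (by positivity) this.1
      · rw [one_div_mul_eq_div, div_le_div_iff₀ (by positivity) (by positivity)]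
        nlinarith)
    rw [Matrix.mulVec_smul, ← Matrix.smul_mulVec] at h1
    have h2 : ENNReal.ofReal (M * q ^ 2) < F (p + ((1 / (2 * ((r : ℝ) + 1))) • A0).mulVec y) := h1
    rw [hq2, mul_one_div] at h2
    exact h2.le
  · -- the integral
    have hE : ∀ j : ℕ, volume {x | ENNReal.ofReal (M * q ^ (j + 1)) < F x} ≤
        ENNReal.ofReal (((j : ℝ) + 1) ^ r * (|A0.det| * 4 ^ r)) := by
      intro j
      calc volume {x | ENNReal.ofReal (M * q ^ (j + 1)) < F x}
          ≤ volume (AffineMap.homothety w ((j : ℝ) + 1) '' L) :=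
            measure_mono (level_decay hLC hM hq0 hq1 hw j)
        _ = ENNReal.ofReal (((j : ℝ) + 1) ^ r) * volume L := by
            rw [Measure.addHaar_image_homothety, Module.finrank_fin_fun, abs_of_pos (by positivity)]
        _ ≤ ENNReal.ofReal (((j : ℝ) + 1) ^ r) * ENNReal.ofReal (|A0.det| * 4 ^ r) := by gcongr
        _ = _ := by rw [← ENNReal.ofReal_mul (by positivity)]
    have hmeasE : ∀ j : ℕ, MeasurableSet {x | ENNReal.ofReal (M * q ^ (j + 1)) < F x} := fun j =>
      measurableSet_lt measurable_const hFm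
    have hpt : ∀ x, F x ≤ ∑' j : ℕ, ({x | ENNReal.ofReal (M * q ^ (j + 1)) < F x}).indicator
        (fun _ => ENNReal.ofReal (M * q ^ j)) x := by
      intro x
      by_cases hx : F x = 0
      · rw [hx]; exact zero_le
      · -- smallest j with F x > M q^(j+1)
        have hex : ∃ j : ℕ, ENNReal.ofReal (M * q ^ (j + 1)) < F x := by
          have hx' : 0 < F x := pos_iff_ne_zero.2 hx
          obtain ⟨c, hc0, hc1⟩ := ENNReal.lt_iff_exists_real_btwn.1 hx'
          obtain ⟨hc2, hc3⟩ := hc1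
          have hcpos : 0 < c := by
            by_contra h
            rw [ENNReal.ofReal_of_nonpos (not_lt.1 h)] at hc2
            exact lt_irrefl _ hc2
          obtain ⟨j, hj⟩ := exists_pow_lt_of_lt_one (show 0 < c / M by positivity) hq1
          refine ⟨j, lt_of_le_of_lt (ENNReal.ofReal_le_ofReal ?_) hc3⟩
          have h3 : q ^ (j + 1) ≤ q ^ j := pow_le_pow_of_le_one hq0.le hq1.le (by omega)
          have h4 : q ^ (j + 1) < c / M := lt_of_le_of_lt h3 hj
          rw [lt_div_iff₀ hM] at h4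
          linarith
        classical
        set j := Nat.find hex with hj
        have hj1 : ENNReal.ofReal (M * q ^ (j + 1)) < F x := Nat.find_spec hex
        have hj2 : F x ≤ ENNReal.ofReal (M * q ^ j) := by
          rcases Nat.eq_zero_or_pos j with h0 | h0
          · rw [h0, pow_zero, mul_one]; exact hFM x
          · have := Nat.find_min hex (m := j - 1) (by omega)
            rw [Nat.sub_add_cancel h0] at this
            exact not_lt.1 this
        calc F x ≤ ENNReal.ofReal (M * q ^ j) := hj2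
          _ = ({x | ENNReal.ofReal (M * q ^ (j + 1)) < F x}).indicator
              (fun _ => ENNReal.ofReal (M * q ^ j)) x := by
              rw [Set.indicator_of_mem]; exact hj1
          _ ≤ _ := ENNReal.le_tsum j
    calc ∫⁻ x, F x ≤ ∫⁻ x, ∑' j : ℕ, ({x | ENNReal.ofReal (M * q ^ (j + 1)) < F x}).indicator
          (fun _ => ENNReal.ofReal (M * q ^ j)) x := lintegral_mono hpt
      _ = ∑' j : ℕ, ENNReal.ofReal (M * q ^ j) *
          volume {x | ENNReal.ofReal (M * q ^ (j + 1)) < F x} := by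
          rw [lintegral_tsum]
          · congr 1
            funext j
            rw [lintegral_indicator (hmeasE j), setLIntegral_const]
          · intro j
            exact (measurable_const.indicator (hmeasE j)).aemeasurable
      _ ≤ ∑' j : ℕ, ENNReal.ofReal (M * |A0.det| * 4 ^ r * (q ^ j * ((j : ℝ) + 1) ^ r)) := by
          apply ENNReal.tsum_le_tsum
          intro j
          calc _ ≤ ENNReal.ofReal (M * q ^ j) *
                ENNReal.ofReal (((j : ℝ) + 1) ^ r * (|A0.det| * 4 ^ r)) := by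
                gcongr; exact hE j
            _ = _ := by
                rw [← ENNReal.ofReal_mul (by positivity)]
                congr 1; ring
      _ = ENNReal.ofReal (M * |A0.det| * 4 ^ r * T) := by
          rw [← ENNReal.ofReal_tsum_of_nonneg (fun j => by positivity) (hsum.mul_left _),
            tsum_mul_left]
      _ ≤ _ := by
          apply ENNReal.ofReal_le_ofReal
          have habs : |(1 / (2 * ((r : ℝ) + 1))) ^ r| = 1 / (2 * ((r : ℝ) + 1)) ^ r := by
            rw [abs_of_pos (by positivity), one_div_pow]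
          rw [Matrix.det_smul, abs_mul, Fintype.card_fin, habs]
          have h2r : (0:ℝ) < (2 * ((r : ℝ) + 1)) ^ r := by positivity
          have e1 : (T * 4 ^ r * (2 * ((r : ℝ) + 1)) ^ r + 1) * M *
              (1 / (2 * ((r : ℝ) + 1)) ^ r * |A0.det|) = M * |A0.det| * 4 ^ r * T +
              M * (1 / (2 * ((r : ℝ) + 1)) ^ r * |A0.det|) := by
            field_simp
          rw [e1]
          have : 0 ≤ M * (1 / (2 * ((r : ℝ) + 1)) ^ r * |A0.det|) := by positivity
          linarith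

end Crest.Agent.R225
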