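import Crest.Agent.R225.GridB
import Crest.Agent.R225.GridRegion

/-!
# Row 225 (S0347), node Grid: `prf_Grid : S_GridConvex → S_D1 → S_Grid`
-/

set_option autoImplicit false

namespace Crest.Agent.R225

theorem prf_Grid (hGC : S_GridConvex) (hD1 : S_D1) : S_Grid :=
  prf_Grid_of hGC hD1 (grid_region hD1)

end Crest.Agent.R225
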