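import Crest.Agent.R225.GridConvexD

/-!
# Row 225, node GridConvex: assembly
-/

set_option autoImplicit false

open Finset MeasureTheory
open scoped BigOperators ENNReal

namespace Crest.Agent.R225

namespace GridE

variable {m : ℕ}

open GridB

/-- the enlarged body -/
noncomputable def enl (S : Set (Fin m → ℝ)) (p : Fin m → ℝ) (r : ℝ) : Set (Fin m → ℝ) :=
  closure (AffineMap.homothety p r '' S)

lemma enl_convex {S : Set (Fin m → ℝ)} (hS : Convex ℝ S) (p : Fin m → ℝ) (r : ℝ) :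
    Convex ℝ (enl S p r) := (hS.affine_image _).closure

lemma enl_meas (S : Set (Fin m → ℝ)) (p : Fin m → ℝ) (r : ℝ) : MeasurableSet (enl S p r) :=
  isClosed_closure.measurableSet

lemma enl_vol {S : Set (Fin m → ℝ)} (hS : Convex ℝ S) (p : Fin m → ℝ) (r : ℝ) (hr : 0 ≤ r) :
    volume (enl S p r) ≤ ENNReal.ofReal (r ^ m) * volume S := by
  unfold enl
  rw [closure_eq_self_union_frontier]
  refine (measure_union_le _ _).trans ?_
  rw [Convex.addHaar_frontier volume (hS.affine_image _), add_zero,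
    Measure.addHaar_image_homothety]
  simp [abs_of_nonneg (pow_nonneg hr m)]

lemma mem_enl {S : Set (Fin m → ℝ)} (hS : Convex ℝ S) (p : Fin m → ℝ) (ε B : ℝ) (hε : 0 < ε)
    (hp : ∀ x : Fin m → ℝ, (∀ k, 0 ≤ x k - p k ∧ x k - p k ≤ B) → x ∈ S)
    (g w : Fin m → ℝ) (hg : g ∈ S) (hw : ∀ k, 0 ≤ w k ∧ w k ≤ ε * B) :
    g + w ∈ enl S p (1 + ε) := by
  refine subset_closure ?_
  have hpos : 0 < 1 + ε := by linarith
  -- the point x with homothety p (1+ε) x = g + w
  have hw' : p + ε⁻¹ • w ∈ S := by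
    refine hp _ fun k => ?_
    simp only [Pi.add_apply, Pi.smul_apply, smul_eq_mul, add_sub_cancel_left]
    constructor
    · exact mul_nonneg (by positivity) (hw k).1
    · rw [inv_mul_le_iff₀ hε]; exact (hw k).2
  have hx := hS hg hw' (by positivity : (0 : ℝ) ≤ 1 / (1 + ε)) (by positivity : (0 : ℝ) ≤ ε / (1 + ε))
    (by field_simp)
  refine ⟨_, hx, ?_⟩
  rw [AffineMap.homothety_apply]
  funext k
  simp only [vsub_eq_sub, vadd_eq_add, Pi.add_apply, Pi.smul_apply, Pi.sub_apply, smul_eq_mul]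
  field_simp
  ring

lemma shrink {S : Set (Fin m → ℝ)} (hS : Convex ℝ S) (p : Fin m → ℝ) (ε : ℝ) (hε : 0 < ε)
    (hε1 : ε < 1) (G : Finset (Pt m)) (hG : ∀ g, g ∈ G ↔ (fun k => (g k : ℝ)) ∈ S)
    (hp : ∀ x : Fin m → ℝ, (∀ k, 0 ≤ x k - p k ∧ x k - p k ≤ 1 / ε) → x ∈ S) :
    ENNReal.ofReal ((1 - ε) ^ m) * volume S ≤ (G.card : ℝ≥0∞) := by
  have h1 : volume (AffineMap.homothety p (1 - ε) '' S) = ENNReal.ofReal ((1 - ε) ^ m) * volume S := by
    rw [Measure.addHaar_image_homothety]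
    have : 0 ≤ (1 - ε) ^ m := by
      have : 0 < 1 - ε := by linarith
      positivity
    simp [abs_of_nonneg this]
  rw [← h1]
  have hsub : AffineMap.homothety p (1 - ε) '' S ⊆
      ⋃ z ∈ G, Set.pi Set.univ (fun k => Set.Ioc ((z k : ℝ) - 1) (z k)) := by
    rintro x ⟨s, hs, rfl⟩
    set x : Fin m → ℝ := AffineMap.homothety p (1 - ε) s with hx
    have hxk : ∀ k, x k = (1 - ε) * (s k - p k) + p k := by
      intro k
      rw [hx, AffineMap.homothety_apply]
      simp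
    simp only [Set.mem_iUnion]
    refine ⟨fun k => ⌈x k⌉, ?_, ?_⟩
    · rw [hG]
      -- z = (1-ε) s + ε (p + w/ε)
      have hw : p + ε⁻¹ • (fun k => (⌈x k⌉ : ℝ) - x k) ∈ S := by
        refine hp _ fun k => ?_
        simp only [Pi.add_apply, Pi.smul_apply, smul_eq_mul, add_sub_cancel_left]
        have h1 := Int.le_ceil (x k)
        have h2 := Int.ceil_lt_add_one (x k)
        constructor
        · exact mul_nonneg (by positivity) (by linarith)
        · rw [inv_mul_le_iff₀ hε]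
          have : ε * (1 / ε) = 1 := by field_simp
          rw [this]; linarith
      have hz := hS hs hw (by linarith : (0 : ℝ) ≤ 1 - ε) hε.le (by ring)
      convert hz using 1
      funext k
      simp only [Pi.add_apply, Pi.smul_apply, smul_eq_mul]
      rw [hxk k]
      field_simp
      ring
    · intro k _
      have h1 := Int.le_ceil (x k)
      have h2 := Int.ceil_lt_add_one (x k)
      constructor
      · show ((⌈x k⌉ : ℤ) : ℝ) - 1 < x k
        linarith
      · exact h1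
  refine (measure_mono hsub).trans ?_
  refine (measure_biUnion_finset_le _ _).trans ?_
  have : ∀ z : Pt m, volume (Set.pi Set.univ (fun k => Set.Ioc ((z k : ℝ) - 1) (z k))) = 1 := by
    intro z
    rw [Real.volume_pi_Ioc]
    simp
  simp [this]

lemma pow_cmp (m : ℕ) (ε : ℝ) (hε : 0 < ε) (h : m * ε ≤ 1 / 8) :
    (1 + 2 * ε) ^ m ≤ 2 * (1 - ε) ^ m := by
  rcases Nat.eq_zero_or_pos m with rfl | hm
  · norm_num
  have hm1 : (1 : ℝ) ≤ m := by exact_mod_cast hm
  have hε8 : ε ≤ 1 / 8 := by nlinarith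
  have h1 : 1 + (m : ℝ) * (-ε) ≤ (1 + -ε) ^ m := one_add_mul_le_pow (by linarith) m
  have h2 : 1 + (m : ℝ) * (-(2 * ε)) ≤ (1 + -(2 * ε)) ^ m := one_add_mul_le_pow (by linarith) m
  have h3 : (1 + 2 * ε) ^ m * (1 + -(2 * ε)) ^ m ≤ 1 := by
    rw [← mul_pow]
    refine pow_le_one₀ ?_ ?_
    · nlinarith
    · nlinarith
  have h4 : 7 / 8 ≤ (1 - ε) ^ m := by
    have : (1 - ε) ^ m = (1 + -ε) ^ m := by ring
    rw [this]; nlinarith
  have h5 : 3 / 4 ≤ (1 + -(2 * ε)) ^ m := by nlinarith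
  have h6 : 0 ≤ (1 + 2 * ε) ^ m := by positivity
  nlinarith

end GridE

open GridE in
theorem prf_GridConvex (hA3 : S_A3) (hA4 : S_A4) (hE1 : S_E1) (hE2 : S_E2) : S_GridConvex := by
  obtain ⟨c1, hc1, hc20, n1, h1⟩ := grid_rel hA3 hE1 hE2
  obtain ⟨n2, h2⟩ := grid_pair hA4
  refine ⟨c1, hc1, by linarith, max (max n1 n2) 2, fun n hn m hm hmn S G hS hpex hqex hG => ?_⟩
  obtain ⟨p, hp⟩ := hpex
  obtain ⟨q, hq⟩ := hqex
  have hn1 : n1 ≤ n := ((le_max_left _ _).trans (le_max_left _ _)).trans hn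
  have hn2 : n2 ≤ n := ((le_max_right _ _).trans (le_max_left _ _)).trans hn
  have hn3 : 2 ≤ n := (le_max_right _ _).trans hn
  have hn3' : (2 : ℝ) ≤ n := by exact_mod_cast hn3
  have hnpos : (0 : ℝ) < n := by linarith
  set ε : ℝ := 1 / (n : ℝ) ^ 7 with hε
  have hεpos : 0 < ε := by rw [hε]; positivity
  have hn7 : (128 : ℝ) ≤ (n : ℝ) ^ 7 := by
    calc (128 : ℝ) = 2 ^ 7 := by norm_num
      _ ≤ (n : ℝ) ^ 7 := by gcongr
  have hε1 : ε < 1 := by
    rw [hε, div_lt_one (by positivity)]; linarith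
  have hmε : (m : ℝ) * ε ≤ 1 / 8 := by
    have hmn' : (m : ℝ) ≤ n := by exact_mod_cast hmn
    rw [hε, mul_one_div, div_le_iff₀ (by positivity)]
    have : (n : ℝ) * 64 ≤ (n : ℝ) ^ 7 := by
      calc (n : ℝ) * 64 = n * 2 ^ 6 := by norm_num
        _ ≤ n * (n : ℝ) ^ 6 := by gcongr
        _ = (n : ℝ) ^ 7 := by ring
    linarith
  set Sp := enl S p (1 + 2 * ε) with hSp
  have hconv : Convex ℝ Sp := enl_convex hS _ _
  have hmeas : MeasurableSet Sp := enl_meas _ _ _
  have hcub : ∀ g ∈ G, ∀ x : Fin m → ℝ, (∀ k, (g k : ℝ) ≤ x k ∧ x k < g k + 2) → x ∈ Sp := by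
    intro g hg x hx
    have hgS := (hG g).mp hg
    have := mem_enl hS p (2 * ε) ((n : ℝ) ^ 7) (by positivity) hp (fun k => (g k : ℝ))
      (fun k => x k - g k) hgS (fun k => by
        constructor
        · linarith [(hx k).1]
        · have : 2 * ε * (n : ℝ) ^ 7 = 2 := by rw [hε]; field_simp
          rw [this]; linarith [(hx k).2])
    have e : ((fun k => (g k : ℝ)) + fun k => x k - g k) = x := by
      funext k; simp
    rwa [e] at this
  have hvol : volume Sp ≤ 2 * (G.card : ℝ≥0∞) := by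
    have a1 : volume Sp ≤ ENNReal.ofReal ((1 + 2 * ε) ^ m) * volume S :=
      enl_vol hS p _ (by positivity)
    have a2 := shrink hS p ε hεpos hε1 G hG (by
      intro x hx
      refine hp x fun k => ⟨(hx k).1, ?_⟩
      have := (hx k).2
      rw [hε] at this
      simpa using this)
    calc volume Sp ≤ ENNReal.ofReal ((1 + 2 * ε) ^ m) * volume S := a1
      _ ≤ ENNReal.ofReal (2 * (1 - ε) ^ m) * volume S := by
          gcongr
          exact pow_cmp m ε hεpos hmε
      _ = 2 * (ENNReal.ofReal ((1 - ε) ^ m) * volume S) := by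
          rw [ENNReal.ofReal_mul (by norm_num), mul_assoc]
          norm_num
      _ ≤ 2 * (G.card : ℝ≥0∞) := by gcongr
  obtain ⟨hr3, hrL⟩ := h1 n hn1 m hm hmn G Sp hconv hmeas hcub hvol
  have hpair := h2 n hn2 m hm hmn G Sp hconv hmeas hcub hvol c1 hc20
  refine ⟨?_, hr3, hrL, hpair⟩
  refine ⟨fun k => ⌊q k⌋, fun g hg k => ?_⟩
  have hgS := (hG g).mp hg
  have h3 := hq _ hgS k
  have h4 := Int.floor_le (q k)
  have h5 := Int.lt_floor_add_one (q k)
  have h6 : (n : ℝ) ^ 15 + 1 ≤ (n : ℝ) ^ 16 := by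
    have : (1 : ℝ) ≤ (n : ℝ) ^ 15 := one_le_pow₀ (by linarith)
    have e : (n : ℝ) ^ 16 = n * (n : ℝ) ^ 15 := by ring
    nlinarith
  have h7 : |((g k : ℝ)) - (⌊q k⌋ : ℝ)| ≤ (n : ℝ) ^ 16 := by
    rw [abs_le] at h3 ⊢
    constructor <;> linarith [h3.1, h3.2]
  exact_mod_cast h7

end Crest.Agent.R225
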