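import Crest.Agent.R225.Iface

/-!
# Row 225 (S0347), node HP1
-/

set_option autoImplicit false

open Finset MeasureTheory
open scoped BigOperators ENNReal

namespace Crest.Agent.R225
namespace HP1

/-! ## `Ex` -/

theorem Ex_mono {P m : ℕ} [NeZero P] (k : ℕ) (F F' : List (Row P m) → ℝ)
    (rows : List (Row P m)) (h : ∀ l : List (Row P m), l.length = k → F (l ++ rows) ≤ F' (l ++ rows)) :
    Ex k F rows ≤ Ex k F' rows := by
  induction k generalizing rows with
  | zero => simpa [Ex] using h [] rfl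
  | succ k ih =>
    simp only [Ex]
    refine Finset.expect_le_expect fun r _ => ih (r :: rows) fun l hl => ?_
    have := h (l ++ [r]) (by simp [hl])
    simpa using this

theorem Ex_sum {P m : ℕ} [NeZero P] {ι : Type*} (k : ℕ) (s : Finset ι)
    (F : ι → List (Row P m) → ℝ) (rows : List (Row P m)) :
    Ex k (fun l => ∑ a ∈ s, F a l) rows = ∑ a ∈ s, Ex k (F a) rows := by
  induction k generalizing rows with
  | zero => simp [Ex]
  | succ k ih =>
    simp only [Ex, ih]
    exact Finset.expect_sum_comm _ _ _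

theorem xl_pos {X : ℝ} (hX : 0 < X) (i : ℕ) : 0 < xl X i := by
  unfold xl theta; positivity

theorem tau_pos (X : ℝ) (i : ℕ) : 0 < tau X i := by
  unfold tau lam
  exact Finset.prod_pos fun j _ => by positivity

theorem al_pos (X : ℝ) (i : ℕ) : 0 < al X i := Real.exp_pos _

/-! ## monotonicity of `alive` -/

theorem alive_cons_subset {P m I rX : ℕ} [NeZero P] {X : ℝ} {w : Pt m → List (ZMod P) → ℝ}
    {G : Finset (Pt m)} (hC : Ctx P m I rX X w G) (r : Row P m) (rows : List (Row P m))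
    (hl : rows.length ≤ I) :
    alive w G (r :: rows) ⊆ alive w G rows := by
  classical
  intro g hg
  simp only [alive, Finset.mem_filter] at hg ⊢
  refine ⟨hg.1, ?_⟩
  have h1 := hg.2
  unfold wt at h1 ⊢
  rcases hC.hw.rng g (hist rows g) (by simpa [hist] using hl) with h0 | h0
  · exfalso
    have := hC.hw.dead g (hist rows g) (res r g) h0
    have h2 : hist (r :: rows) g = res r g :: hist rows g := by simp [hist]
    rw [h2, this] at h1
    exact lt_irrefl _ h1
  · exact lt_of_lt_of_le (mul_pos (tau_pos _ _) (al_pos _ _)) h0.1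

theorem alive_append_subset {P m I rX : ℕ} [NeZero P] {X : ℝ} {w : Pt m → List (ZMod P) → ℝ}
    {G : Finset (Pt m)} (hC : Ctx P m I rX X w G) (l rows : List (Row P m))
    (hl : l.length + rows.length ≤ I) :
    alive w G (l ++ rows) ⊆ alive w G rows := by
  induction l with
  | nil => simp
  | cons r l ih =>
    simp only [List.length_cons] at hl
    refine subset_trans ?_ (ih (by omega))
    exact alive_cons_subset hC r (l ++ rows) (by simp; omega)

/-! ## minimal relations -/

/-- sets `Z` supporting a `B`-bounded relation with full support, such that deleting any point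
kills all `B'`-bounded relations -/
def BadSet {m : ℕ} (B B' : ℝ) (Z : Finset (Pt m)) : Prop :=
  Z.Nonempty ∧ (∃ h, BRel Z B h ∧ ∀ g ∈ Z, h g ≠ 0) ∧
    ∀ z ∈ Z, ∀ h, BRel (Z.erase z) B' h → h = 0

theorem exists_bad {m : ℕ} {W : Finset (Pt m)} {B B' s : ℝ} (hB : B' ≤ B)
    (h : ¬ NoRel W B s) : ∃ Z ⊆ W, (Z.card : ℝ) ≤ s ∧ BadSet B B' Z := by
  classical
  have hex : ∃ k : ℕ, ∃ Z : Finset (Pt m), Z ⊆ W ∧ Z.card = k ∧ (Z.card : ℝ) ≤ s ∧
      ∃ h, BRel Z B h ∧ h ≠ 0 := by
    unfold NoRel at h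
    push Not at h
    obtain ⟨Z, hZ, hs, h', hb, hne⟩ := h
    exact ⟨Z.card, Z, hZ, rfl, hs, h', hb, hne⟩
  obtain ⟨Z, hZW, hZk, hZs, h', hb, hne⟩ := Nat.find_spec hex
  have hmin : ∀ Z' ⊆ W, Z'.card < Z.card → ∀ h, BRel Z' B h → h = 0 := by
    intro Z' hZ' hlt h hh
    by_contra hc
    refine Nat.find_min hex (m := Z'.card) (by omega) ⟨Z', hZ', rfl, ?_, h, hh, hc⟩
    exact le_trans (by exact_mod_cast hlt.le) hZs
  refine ⟨Z, hZW, hZs, ?_, ⟨h', hb, ?_⟩, ?_⟩
  · by_contra hc
    rw [Finset.not_nonempty_iff_eq_empty] at hc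
    apply hne
    funext g
    exact hb.1.1 g (by simp [hc])
  · intro g hg hg0
    apply hne
    refine hmin (Z.erase g) ((Finset.erase_subset _ _).trans hZW) (Finset.card_erase_lt_of_mem hg)
      h' ⟨⟨?_, ?_, ?_⟩, hb.2⟩
    · intro g' hg'
      by_cases h1 : g' = g
      · rw [h1, hg0]
      · exact hb.1.1 g' fun hc => hg' (Finset.mem_erase.2 ⟨h1, hc⟩)
    · have := hb.1.2.1
      rw [← Finset.add_sum_erase _ _ hg, hg0, zero_add] at this
      exact this
    · have := hb.1.2.2
      rw [← Finset.add_sum_erase _ _ hg, hg0, zero_smul, zero_add] at this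
      exact this
  · intro z hz h1 h1b
    refine hmin (Z.erase z) ((Finset.erase_subset _ _).trans hZW) (Finset.card_erase_lt_of_mem hz)
      h1 ⟨h1b.1, fun g => (h1b.2 g).trans hB⟩

/-! ## counting bad sets -/

open scoped Classical in
/-- an enumeration of a set of cardinality `s` -/
noncomputable def enum {m : ℕ} (s : ℕ) (Z : Finset (Pt m)) : Fin s → Pt m :=
  fun i => if h : Z.card = s then (Z.equivFin.symm (Fin.cast h.symm i) : Pt m) else 0

theorem enum_inj {m s : ℕ} {Z : Finset (Pt m)} (h : Z.card = s) :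
    Function.Injective (enum s Z) := by
  intro i j hij
  simp only [enum, dif_pos h] at hij
  have := Z.equivFin.symm.injective (Subtype.ext hij)
  exact Fin.cast_injective _ this

theorem enum_mem {m s : ℕ} {Z : Finset (Pt m)} (h : Z.card = s) (i : Fin s) :
    enum s Z i ∈ Z := by
  simp only [enum, dif_pos h]
  exact Subtype.property _

theorem enum_image {m s : ℕ} {Z : Finset (Pt m)} (h : Z.card = s) (σ : Equiv.Perm (Fin s)) :
    (univ : Finset (Fin s)).image (fun i => enum s Z (σ i)) = Z := by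
  classical
  apply Finset.eq_of_subset_of_card_le
  · intro g hg
    simp only [Finset.mem_image, Finset.mem_univ, true_and] at hg
    obtain ⟨i, rfl⟩ := hg
    exact enum_mem h _
  · have hinj : Function.Injective (fun i => enum s Z (σ i)) :=
      fun i j hij => σ.injective (enum_inj h hij)
    rw [Finset.card_image_of_injective _ hinj]
    simp [h]

open scoped Classical in
theorem card_bad_le {m : ℕ} (W : Finset (Pt m)) (B B' R : ℝ) (s : ℕ) (hB : 0 ≤ B)
    (hR : ∀ h : Fin s → ℤ, (∀ i, h i ≠ 0) → (relCount W h 0 : ℝ) ≤ R) (hR0 : 0 ≤ R) :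
    (((W.powersetCard s).filter fun Z => BadSet B B' Z).card : ℝ) * (s.factorial : ℝ)
      ≤ (2 * B + 1) ^ s * R := by
  set Bi : ℤ := ⌊B⌋ with hBi
  have hBi0 : 0 ≤ Bi := Int.floor_nonneg.2 hB
  set Hs : Finset (Fin s → ℤ) := Fintype.piFinset fun _ : Fin s => Finset.Icc (-Bi) Bi with hHs
  set T : Finset (Fin s → Pt m) :=
    (Fintype.piFinset fun _ : Fin s => W).filter fun z => ∃ h ∈ Hs, (∀ i, h i ≠ 0) ∧
      ∑ i, h i • z i = 0 with hT
  have h1 : ((W.powersetCard s).filter fun Z => BadSet B B' Z).card * s.factorial ≤ T.card := by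
    have : ((W.powersetCard s).filter fun Z => BadSet B B' Z).card * s.factorial =
        (((W.powersetCard s).filter fun Z => BadSet B B' Z) ×ˢ
          (univ : Finset (Equiv.Perm (Fin s)))).card := by
      rw [Finset.card_product, Finset.card_univ, Fintype.card_perm, Fintype.card_fin]
    rw [this]
    refine Finset.card_le_card_of_injOn (fun p => fun i => enum s p.1 (p.2 i)) ?_ ?_
    · rintro ⟨Z, σ⟩ hp
      simp only [Finset.coe_product, Set.mem_prod, Finset.mem_coe, Finset.mem_filter,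
        Finset.mem_powersetCard] at hp
      obtain ⟨⟨⟨hZW, hZs⟩, hne, ⟨h0, hb, hnz⟩, -⟩, -⟩ := hp
      simp only [hT, Finset.coe_filter, Set.mem_ofPred_eq, Fintype.mem_piFinset]
      refine ⟨fun i => hZW (enum_mem hZs _), fun i => h0 (enum s Z (σ i)), ?_, ?_, ?_⟩
      · simp only [hHs, Fintype.mem_piFinset, Finset.mem_Icc]
        intro i
        have := hb.2 (enum s Z (σ i))
        rw [← Int.cast_abs] at this
        have h2 : |h0 (enum s Z (σ i))| ≤ Bi := Int.le_floor.2 this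
        exact abs_le.1 h2
      · intro i
        exact hnz _ (enum_mem hZs _)
      · have := hb.1.2.2
        rw [← enum_image hZs σ, Finset.sum_image] at this
        · exact this
        · intro i _ j _ hij
          exact ((enum_inj hZs).comp σ.injective) hij
    · rintro ⟨Z, σ⟩ hp ⟨Z', σ'⟩ hp' heq
      simp only [Finset.coe_product, Set.mem_prod, Finset.mem_coe, Finset.mem_filter,
        Finset.mem_powersetCard] at hp hp'
      have e1 := enum_image hp.1.1.2 σ
      have e2 := enum_image hp'.1.1.2 σ'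
      simp only at heq
      rw [heq, e2] at e1
      subst e1
      have : σ = σ' := by
        ext i
        have h5 : enum s Z' (σ i) = enum s Z' (σ' i) := congrFun heq i
        rw [enum_inj hp.1.1.2 h5]
      rw [this]
  have h2 : (T.card : ℝ) ≤ Hs.card * R := by
    have hsub : T ⊆ (Hs.filter fun h => ∀ i, h i ≠ 0).biUnion fun h =>
        (Fintype.piFinset fun _ : Fin s => W).filter fun z => ∑ i, h i • z i = 0 := by
      intro z hz
      simp only [hT, Finset.mem_filter] at hz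
      obtain ⟨hzW, h, hh, hnz, hsum⟩ := hz
      simp only [Finset.mem_biUnion, Finset.mem_filter]
      exact ⟨h, ⟨hh, hnz⟩, hzW, hsum⟩
    calc (T.card : ℝ) ≤ (((Hs.filter fun h => ∀ i, h i ≠ 0).biUnion fun h =>
        (Fintype.piFinset fun _ : Fin s => W).filter fun z => ∑ i, h i • z i = 0).card : ℝ) := by
          exact_mod_cast Finset.card_le_card hsub
      _ ≤ ∑ h ∈ Hs.filter (fun h => ∀ i, h i ≠ 0), (relCount W h 0 : ℝ) := by
          exact_mod_cast Finset.card_biUnion_le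
      _ ≤ ∑ h ∈ Hs.filter (fun h => ∀ i, h i ≠ 0), R := by
          refine Finset.sum_le_sum fun h hh => hR h (Finset.mem_filter.1 hh).2
      _ = ((Hs.filter fun h => ∀ i, h i ≠ 0).card : ℝ) * R := by simp
      _ ≤ Hs.card * R := by
          refine mul_le_mul_of_nonneg_right ?_ hR0
          exact_mod_cast Finset.card_filter_le _ _
  have h3 : (Hs.card : ℝ) ≤ (2 * B + 1) ^ s := by
    rw [hHs, Fintype.card_piFinset]
    simp only [Int.card_Icc, Finset.prod_const, Finset.card_univ, Fintype.card_fin]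
    push_cast
    refine pow_le_pow_left₀ (by positivity) ?_ s
    have : ((Bi + 1 - -Bi).toNat : ℝ) = 2 * Bi + 1 := by
      have h4 : ((Bi + 1 - -Bi).toNat : ℤ) = 2 * Bi + 1 := by
        rw [Int.toNat_of_nonneg (by omega)]; ring
      exact_mod_cast h4
    rw [this]
    have := Int.floor_le B
    linarith
  calc (((W.powersetCard s).filter fun Z => BadSet B B' Z).card : ℝ) * (s.factorial : ℝ)
      ≤ T.card := by exact_mod_cast h1
    _ ≤ Hs.card * R := h2
    _ ≤ (2 * B + 1) ^ s * R := mul_le_mul_of_nonneg_right h3 hR0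

/-! ## bounds for `relCount` -/

theorem relCount_bound (hE1 : S_E1) (hE2 : S_E2) {m : ℕ} (W : Finset (Pt m)) (q s : ℕ) (M Γ : ℝ)
    (hq : 2 ≤ q) (hs : 2 ≤ s) (hM : 1 ≤ M) (hW : (W.card : ℝ) ≤ M)
    (hEn : (En q W : ℝ) ≤ M ^ (2 * q) * Real.exp (-Γ)) (h : Fin s → ℤ) (hh : ∀ i, h i ≠ 0) :
    (relCount W h 0 : ℝ) ≤ M ^ s * Real.exp (-(min Γ (Γ * ((s - 2 : ℕ) / (2 * q - 2 : ℕ))))) := by
  have hM0 : 0 < M := by linarith
  by_cases hsq : 2 * q ≤ s
  · have h1 := hE1 m s q W h 0 hh hsq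
    have h2 : (relCount W h 0 : ℝ) ≤ (W.card : ℝ) ^ (s - 2 * q) * (En q W : ℝ) := by
      exact_mod_cast h1
    calc (relCount W h 0 : ℝ) ≤ (W.card : ℝ) ^ (s - 2 * q) * (En q W : ℝ) := h2
      _ ≤ M ^ (s - 2 * q) * (M ^ (2 * q) * Real.exp (-Γ)) := by
          gcongr
      _ = M ^ s * Real.exp (-Γ) := by
          rw [← mul_assoc, ← pow_add]; congr 2; omega
      _ ≤ M ^ s * Real.exp (-(min Γ (Γ * ((s - 2 : ℕ) / (2 * q - 2 : ℕ))))) := by
          gcongr
          exact min_le_left _ _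
  · push Not at hsq
    have h1 := hE2 m s q W h 0 hh hs hsq.le hq
    have hd : (0 : ℝ) < ((2 * q - 2 : ℕ) : ℝ) := by
      have : 0 < 2 * q - 2 := by omega
      exact_mod_cast this
    set a : ℝ := ((2 * q - s : ℕ) : ℝ) / (2 * q - 2 : ℕ) with ha
    set b : ℝ := ((s - 2 : ℕ) : ℝ) / (2 * q - 2 : ℕ) with hb
    have ha0 : 0 ≤ a := by positivity
    have hb0 : 0 ≤ b := by positivity
    calc (relCount W h 0 : ℝ) ≤ (W.card : ℝ) ^ a * (En q W : ℝ) ^ b := h1
      _ ≤ M ^ a * (M ^ (2 * q) * Real.exp (-Γ)) ^ b := by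
          refine mul_le_mul ?_ ?_ (by positivity) (by positivity)
          · exact Real.rpow_le_rpow (by positivity) hW ha0
          · exact Real.rpow_le_rpow (by positivity) hEn hb0
      _ = M ^ (a + 2 * q * b) * Real.exp (-(Γ * b)) := by
          rw [Real.mul_rpow (by positivity) (by positivity), ← Real.exp_mul,
            ← Real.rpow_natCast M (2 * q), ← Real.rpow_mul hM0.le, ← mul_assoc,
            ← Real.rpow_add hM0]
          push_cast
          congr 2
          ring
      _ ≤ M ^ (s : ℝ) * Real.exp (-(Γ * b)) := by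
          refine mul_le_mul_of_nonneg_right ?_ (Real.exp_pos _).le
          refine Real.rpow_le_rpow_of_exponent_le hM ?_
          rw [ha, hb, mul_div_assoc', ← add_div, div_le_iff₀ hd]
          have e1 : ((2 * q - s : ℕ) : ℝ) = 2 * q - s := by
            rw [Nat.cast_sub hsq.le]; push_cast; ring
          have e2 : ((s - 2 : ℕ) : ℝ) = s - 2 := by
            rw [Nat.cast_sub hs]; push_cast; ring
          have e3 : ((2 * q - 2 : ℕ) : ℝ) = 2 * q - 2 := by
            rw [Nat.cast_sub (by omega)]; push_cast; ring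
          rw [e1, e2, e3]
          have : (s : ℝ) ≤ 2 * q := by exact_mod_cast hsq.le
          nlinarith
      _ ≤ M ^ s * Real.exp (-(min Γ (Γ * ((s - 2 : ℕ) / (2 * q - 2 : ℕ))))) := by
          rw [Real.rpow_natCast]
          gcongr
          exact min_le_right _ _

/-! ## numerics -/

theorem term_bound (c0 N x y B p M Nz : ℝ) (q s : ℕ) (hc : 0 < c0) (hN : 1 ≤ N) (hy : 1 ≤ y)
    (hxy : 600 * y ≤ x) (hq2 : 2 ≤ q) (hq : q = ⌈c0 * N / x⌉₊) (hs : 2 ≤ s)
    (hs1 : c0 / 16 * N / x < s) (hs2 : (s : ℝ) ≤ c0 / 16 * N / y) (hp : 0 < p) (hM : 0 < M)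
    (hB : 0 ≤ B) (hpx : 1 / p ≤ Real.exp x)
    (hmain : Real.exp 1 * (2 * B + 1) * (M * p) * (16 * x / (c0 * N)) ≤ Real.exp (14 / 10 * y))
    (hNz : Nz * (s.factorial : ℝ) ≤ (2 * B + 1) ^ s * (M ^ s *
      Real.exp (-(min (c0 / 4 * N) (c0 / 4 * N * ((s - 2 : ℕ) / (2 * q - 2 : ℕ))))))) :
    Nz * p ^ (s - 1) ≤ Real.exp (-(c0 * N / 131) + 5 / 4 * x) := by
  have hx : 0 < x := by linarith
  have hs0 : (0 : ℝ) < s := by exact_mod_cast (by omega : 0 < s)
  have hcN : 0 < c0 * N := by positivity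
  set g : ℝ := Real.exp (-(min (c0 / 4 * N) (c0 / 4 * N * ((s - 2 : ℕ) / (2 * q - 2 : ℕ)))))
    with hg
  have hf : (0 : ℝ) < (s.factorial : ℝ) := by exact_mod_cast Nat.factorial_pos s
  have h1 : (s : ℝ) ^ s / (s.factorial : ℝ) ≤ Real.exp s := Real.pow_div_factorial_le_exp s hs0.le s
  have h2 : 1 / (s.factorial : ℝ) ≤ (Real.exp 1 * (16 * x / (c0 * N))) ^ s := by
    have h3 : (1 : ℝ) / s ≤ 16 * x / (c0 * N) := by
      rw [div_le_div_iff₀ hs0 hcN]
      have : c0 / 16 * N / x * x < s * x := by gcongr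
      rw [div_mul_cancel₀ _ hx.ne'] at this
      nlinarith
    have h4 : 1 / (s.factorial : ℝ) ≤ Real.exp s * (1 / s) ^ s := by
      rw [one_div_pow, mul_one_div, div_le_div_iff₀ hf (by positivity)]
      rw [div_le_iff₀ hf] at h1
      linarith
    calc 1 / (s.factorial : ℝ) ≤ Real.exp s * (1 / s) ^ s := h4
      _ = (Real.exp 1) ^ s * (1 / s) ^ s := by rw [← Real.exp_nat_mul, mul_one]
      _ ≤ (Real.exp 1) ^ s * (16 * x / (c0 * N)) ^ s := by gcongr
      _ = (Real.exp 1 * (16 * x / (c0 * N))) ^ s := by rw [mul_pow]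
  have hpow : p ^ (s - 1) ≤ p ^ s * Real.exp x := by
    have : p ^ s = p ^ (s - 1) * p := by
      rw [← pow_succ]; congr 1; omega
    rw [this, mul_assoc]
    have h5 : 1 ≤ p * Real.exp x := by
      rw [div_le_iff₀ hp] at hpx; linarith
    nlinarith [pow_pos hp (s - 1)]
  have hgpos : 0 < g := Real.exp_pos _
  have h6 : Nz ≤ (2 * B + 1) ^ s * (M ^ s * g) * (1 / (s.factorial : ℝ)) := by
    rw [mul_one_div, le_div_iff₀ hf]; exact hNz
  have h7 : Nz * p ^ (s - 1) ≤ Real.exp (14 / 10 * y * s) * g * Real.exp x := by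
    calc Nz * p ^ (s - 1) ≤ ((2 * B + 1) ^ s * (M ^ s * g) * (1 / (s.factorial : ℝ)))
          * p ^ (s - 1) := by gcongr
      _ ≤ ((2 * B + 1) ^ s * (M ^ s * g) * (Real.exp 1 * (16 * x / (c0 * N))) ^ s)
          * (p ^ s * Real.exp x) := by
          gcongr
      _ = (Real.exp 1 * (2 * B + 1) * (M * p) * (16 * x / (c0 * N))) ^ s * g * Real.exp x := by
          rw [mul_pow, mul_pow, mul_pow, mul_pow, mul_pow]; ring
      _ ≤ (Real.exp (14 / 10 * y)) ^ s * g * Real.exp x := by
          gcongr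
      _ = Real.exp (14 / 10 * y * s) * g * Real.exp x := by
          rw [← Real.exp_nat_mul]; ring_nf
  refine h7.trans ?_
  rw [hg, ← Real.exp_add, ← Real.exp_add, Real.exp_le_exp]
  have hys : y * s ≤ c0 * N / 16 := by
    rw [le_div_iff₀ (by linarith)] at hs2
    linarith
  have hxs : c0 * N / 16 ≤ x * s := by
    have : c0 / 16 * N / x * x < s * x := by gcongr
    rw [div_mul_cancel₀ _ hx.ne'] at this
    linarith
  rcases min_choice (c0 / 4 * N) (c0 / 4 * N * ((s - 2 : ℕ) / (2 * q - 2 : ℕ))) with h8 | h8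
  · rw [h8]
    have h12 : 14 / 10 * y * (s : ℝ) = 14 / 10 * (y * s) := by ring
    rw [h12]
    linarith
  · rw [h8]
    have hd : (0 : ℝ) < ((2 * q - 2 : ℕ) : ℝ) := by
      have : 0 < 2 * q - 2 := by omega
      exact_mod_cast this
    have e3 : ((2 * q - 2 : ℕ) : ℝ) = 2 * q - 2 := by
      rw [Nat.cast_sub (by omega)]; push_cast; ring
    have e2 : ((s - 2 : ℕ) : ℝ) = s - 2 := by
      rw [Nat.cast_sub hs]; push_cast; ring
    have hqlt : (q : ℝ) < c0 * N / x + 1 := by
      rw [hq]; exact Nat.ceil_lt_add_one (by positivity)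
    have hq' : ((2 * q - 2 : ℕ) : ℝ) * x ≤ 2 * (c0 * N) := by
      rw [e3]
      have : (q : ℝ) * x < (c0 * N / x + 1) * x := by gcongr
      rw [add_mul, div_mul_cancel₀ _ hx.ne'] at this
      linarith
    have h9 : ((s : ℝ) - 2) * x / 8 ≤ c0 / 4 * N * ((s - 2 : ℕ) / (2 * q - 2 : ℕ)) := by
      rw [e2, mul_div_assoc', le_div_iff₀ hd]
      have hs2' : (0 : ℝ) ≤ s - 2 := by
        have : (2 : ℝ) ≤ s := by exact_mod_cast hs
        linarith
      have h13 := mul_le_mul_of_nonneg_left hq' hs2'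
      calc ((s : ℝ) - 2) * x / 8 * ((2 * q - 2 : ℕ) : ℝ)
          = ((s : ℝ) - 2) * (((2 * q - 2 : ℕ) : ℝ) * x) / 8 := by ring
        _ ≤ ((s : ℝ) - 2) * (2 * (c0 * N)) / 8 := by gcongr
        _ = c0 / 4 * N * ((s : ℝ) - 2) := by ring
    have h10 : y * s ≤ x * s / 600 := by
      have := mul_le_mul_of_nonneg_right hxy hs0.le
      linarith
    have h11 : ((s : ℝ) - 2) * x / 8 = x * s / 8 - x / 4 := by ring
    rw [h11] at h9
    have h12 : 14 / 10 * y * (s : ℝ) = 14 / 10 * (y * s) := by ring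
    rw [h12]
    linarith

theorem tau_le_one (X : ℝ) (i : ℕ) : tau X i ≤ 1 := by
  unfold tau lam
  refine Finset.prod_le_one (fun j _ => by positivity) fun j _ => ?_
  rw [div_le_one (by positivity)]
  have : 1 ≤ Real.exp (Real.sqrt (xl X j)) := Real.one_le_exp (Real.sqrt_nonneg _)
  nlinarith

theorem xl_mono {X : ℝ} (hX : 0 ≤ X) {i j : ℕ} (hij : i ≤ j) : xl X i ≤ xl X j := by
  unfold xl
  refine mul_le_mul_of_nonneg_left ?_ hX
  exact pow_le_pow_right₀ (by unfold theta; norm_num) hij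

theorem num_facts (hNum : S_Num) (c0 Crat : ℝ) (hc : 0 < c0) (hCr : 1 ≤ Crat) :
    ∃ X1 : ℝ, 1 ≤ X1 ∧ ∀ X ≥ X1, ∀ i : ℕ, 1 ≤ xl X i ∧ 600 * xl X i ≤ xl X (i + Rst) ∧
      (Hd X (i + Rst) : ℝ) ≤ Bh X i ∧
      Real.exp 1 * (2 * Bh X i + 1) *
        (4 * Crat * Real.exp (xl X i) / (tau X i * tau X (i + Rst))) *
        (16 * xl X (i + Rst) / c0) ≤ Real.exp (14 / 10 * xl X i) := by
  set C2 : ℝ := Real.exp 1 * 3 * 4 * Crat * 16 / c0 with hC2
  have hC2pos : 0 < C2 := by positivity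
  obtain ⟨X0, hX01, hX0⟩ := hNum (|Real.log C2| + 3000001)
  refine ⟨X0, hX01, fun X hX i => ?_⟩
  obtain ⟨a1, a2, -, -, a5, a6, -, -⟩ := hX0 X hX i
  obtain ⟨-, b2, b3, b4, -, -, b7, -⟩ := hX0 X hX (i + Rst)
  set x := xl X (i + Rst) with hx
  set y := xl X i with hy
  set K : ℝ := |Real.log C2| + 3000001 with hK
  have hK1 : 3000001 ≤ K := by have := abs_nonneg (Real.log C2); linarith
  have hy1 : 1 ≤ y := by linarith
  have hx1 : 1 ≤ x := by linarith
  have hx0 : 0 < x := by linarith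
  have hsq : 1 ≤ Real.sqrt x := Real.one_le_sqrt.2 hx1
  have hlog : 0 ≤ Real.log x := Real.log_nonneg hx1
  have hKθ : K * Real.sqrt x * (1 + Real.log x) ≤ theta * x := by
    have h34 : 0 ≤ x ^ (3 / 4 : ℝ) := by positivity
    nlinarith
  have hθ : theta * x ≤ 1 / 10 * y := by unfold theta; linarith
  refine ⟨hy1, a5, ?_, ?_⟩
  · have h1 : Real.log (Hd X (i + Rst)) ≤ 3 / 10 * y := by
      refine b7.trans ?_
      have : 22 / 10 * theta * x ≤ 22 / 10 * (1 / 10 * y) := by nlinarith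
      linarith
    rcases Nat.eq_zero_or_pos (Hd X (i + Rst)) with h0 | h0
    · rw [h0]; simp only [Nat.cast_zero]; exact (Real.exp_pos _).le
    · have h0' : (0 : ℝ) < (Hd X (i + Rst) : ℝ) := by exact_mod_cast h0
      rw [← Real.exp_log h0']
      exact Real.exp_le_exp.2 h1
  · have hB1 : 1 ≤ Bh X i := by
      unfold Bh; exact Real.one_le_exp (by rw [← hy]; positivity)
    have t1 := tau_pos X i
    have t2 := tau_pos X (i + Rst)
    have e1 : 1 / tau X i = Real.exp (Real.log (1 / tau X i)) :=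
      (Real.exp_log (by positivity)).symm
    have e2 : 1 / tau X (i + Rst) = Real.exp (Real.log (1 / tau X (i + Rst))) :=
      (Real.exp_log (by positivity)).symm
    have hBh : Bh X i = Real.exp (3 / 10 * y) := rfl
    calc Real.exp 1 * (2 * Bh X i + 1) *
        (4 * Crat * Real.exp y / (tau X i * tau X (i + Rst))) * (16 * x / c0)
        ≤ Real.exp 1 * (3 * Bh X i) *
        (4 * Crat * Real.exp y / (tau X i * tau X (i + Rst))) * (16 * x / c0) := by
          gcongr
          linarith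
      _ = C2 * Real.exp (3 / 10 * y) * Real.exp y * (1 / tau X i) * (1 / tau X (i + Rst)) * x := by
          rw [hC2, hBh]; field_simp
      _ = Real.exp (Real.log C2) * Real.exp (3 / 10 * y) * Real.exp y *
          Real.exp (Real.log (1 / tau X i)) * Real.exp (Real.log (1 / tau X (i + Rst))) *
          Real.exp (Real.log x) := by
          rw [← e1, ← e2, Real.exp_log hC2pos, Real.exp_log hx0]
      _ = Real.exp (Real.log C2 + 3 / 10 * y + y + Real.log (1 / tau X i) +
          Real.log (1 / tau X (i + Rst)) + Real.log x) := by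
          rw [Real.exp_add, Real.exp_add, Real.exp_add, Real.exp_add, Real.exp_add]
      _ ≤ Real.exp (14 / 10 * y) := by
          rw [Real.exp_le_exp]
          have hsy : Real.sqrt y ≤ Real.sqrt x := Real.sqrt_le_sqrt (by linarith)
          have h1 : Real.log C2 + Real.log (1 / tau X i) + Real.log (1 / tau X (i + Rst)) +
              Real.log x ≤ K * Real.sqrt x * (1 + Real.log x) := by
            have h2 : Real.log C2 ≤ |Real.log C2| * (Real.sqrt x * (1 + Real.log x)) := by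
              have h3 : 1 ≤ Real.sqrt x * (1 + Real.log x) := by nlinarith
              have := le_abs_self (Real.log C2)
              have h4 := abs_nonneg (Real.log C2)
              nlinarith
            have h5 : Real.log (1 / tau X i) + Real.log (1 / tau X (i + Rst)) ≤
                3000000 * (Real.sqrt x * (1 + Real.log x)) := by
              have : 0 ≤ Real.sqrt x * Real.log x := by positivity
              nlinarith
            have h6 : Real.log x ≤ Real.sqrt x * (1 + Real.log x) := by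
              nlinarith
            calc _ ≤ |Real.log C2| * (Real.sqrt x * (1 + Real.log x)) +
                3000000 * (Real.sqrt x * (1 + Real.log x)) +
                Real.sqrt x * (1 + Real.log x) := by linarith
              _ = K * Real.sqrt x * (1 + Real.log x) := by rw [hK]; ring
          linarith

theorem asym (A : ℝ) : ∃ n0 : ℕ, ∀ n ≥ n0, A * (n : ℝ) ^ (9 / 10 : ℝ) ≤ NN n ∧
    Real.log (NN n) ≤ (n : ℝ) ^ (9 / 10 : ℝ) ∧ 1 ≤ NN n := by
  have h1 : ∀ᶠ x : ℝ in Filter.atTop, A ≤ x ^ (1 / 10 : ℝ) :=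
    (tendsto_rpow_atTop (by norm_num : (0 : ℝ) < 1 / 10)).eventually_ge_atTop A
  have h2 : ∀ᶠ x : ℝ in Filter.atTop, Real.log x ≤ 1 / 2 * x ^ (9 / 10 : ℝ) := by
    have := (isLittleO_log_rpow_atTop (by norm_num : (0 : ℝ) < 9 / 10)).bound
      (by norm_num : (0 : ℝ) < 1 / 2)
    filter_upwards [this, Filter.eventually_ge_atTop 1] with x hx hx1
    rw [Real.norm_of_nonneg (Real.log_nonneg hx1), Real.norm_of_nonneg (by positivity)] at hx
    exact hx
  have h3 : ∀ᶠ x : ℝ in Filter.atTop, Real.exp 1 ≤ x := Filter.eventually_ge_atTop _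
  obtain ⟨n0, hn0⟩ := Filter.eventually_atTop.1
    (tendsto_natCast_atTop_atTop.eventually ((h1.and h2).and h3))
  refine ⟨n0, fun n hn => ?_⟩
  obtain ⟨⟨g1, g2⟩, g3⟩ := hn0 n hn
  have hn0' : (0 : ℝ) < n := lt_of_lt_of_le (Real.exp_pos 1) g3
  have hn1 : (1 : ℝ) ≤ n := le_trans (Real.one_le_exp zero_le_one) g3
  have hlog : 1 ≤ Real.log n := by
    rw [← Real.log_exp 1]; exact Real.log_le_log (Real.exp_pos 1) g3
  have hN : (n : ℝ) ≤ NN n := by unfold NN; nlinarith
  refine ⟨?_, ?_, by linarith⟩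
  · have : (n : ℝ) = (n : ℝ) ^ (1 / 10 : ℝ) * (n : ℝ) ^ (9 / 10 : ℝ) := by
      rw [← Real.rpow_add hn0']; norm_num
    have h9 : (0 : ℝ) ≤ (n : ℝ) ^ (9 / 10 : ℝ) := by positivity
    calc A * (n : ℝ) ^ (9 / 10 : ℝ) ≤ (n : ℝ) ^ (1 / 10 : ℝ) * (n : ℝ) ^ (9 / 10 : ℝ) := by
          gcongr
      _ = n := this.symm
      _ ≤ NN n := hN
  · unfold NN
    rw [Real.log_mul hn0'.ne' (by linarith)]
    have : Real.log (Real.log n) ≤ Real.log n := by
      exact Real.log_le_log (by linarith) (Real.log_le_self hn0'.le)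
    linarith

/-- a point of a nonempty set -/
noncomputable def pick {m : ℕ} (Z : Finset (Pt m)) : Pt m :=
  open scoped Classical in if h : Z.Nonempty then h.choose else 0

theorem pick_mem {m : ℕ} {Z : Finset (Pt m)} (h : Z.Nonempty) : pick Z ∈ Z := by
  unfold pick; rw [dif_pos h]; exact h.choose_spec

end HP1

open HP1 in
theorem prf_HP1 : S_Surv → S_E1 → S_E2 → S_Num → S_HP1 := by
  classical
  intro hSurv hE1 hE2 hNum c0 Crat hc0 hc1 hCr
  obtain ⟨X1, hX11, hX1⟩ := num_facts hNum c0 Crat hc0 hCr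
  obtain ⟨X2, hX2⟩ := hSurv
  refine ⟨max X1 X2, fun X hX => ?_⟩
  obtain ⟨n0, hn0⟩ := asym (2000 / c0)
  refine ⟨n0, fun n hn m i rX hxn => ?_⟩
  obtain ⟨P0, hP0⟩ := hX2 X (le_trans (le_max_right _ _) hX) m i Rst rX ⌊sp X c0 n i⌋₊ le_rfl
  refine ⟨P0, fun P hP _ I w G rows hC hlen hcard hNR hEn => ?_⟩
  obtain ⟨hy1, hxy, hHd, hmain⟩ := hX1 X (le_trans (le_max_left _ _) hX) i
  obtain ⟨hA, hlogN, hN1⟩ := hn0 n hn
  have hXpos : 0 < X := by have := le_max_left X1 X2; linarith
  set x := xl X (i + Rst) with hx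
  set y := xl X i with hy
  set W := alive w G rows with hW
  set N := NN n with hN
  set M := Mb X Crat n (i + Rst) with hM
  set q := kk X c0 n (i + Rst) with hq
  set p : ℝ := 2 * al X (i + Rst) / (tau X i * al X i) with hp
  have hx0 : 0 < x := by linarith
  have h9 : (0 : ℝ) ≤ (n : ℝ) ^ (9 / 10 : ℝ) := by positivity
  have hcN : 2000 * (n : ℝ) ^ (9 / 10 : ℝ) ≤ c0 * N := by
    have := mul_le_mul_of_nonneg_left hA hc0.le
    calc 2000 * (n : ℝ) ^ (9 / 10 : ℝ) = c0 * (2000 / c0 * (n : ℝ) ^ (9 / 10 : ℝ)) := by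
          field_simp
      _ ≤ c0 * N := this
  have hcNx : 1000 * x ≤ c0 * N := by linarith
  have hτi := tau_pos X i
  have hτj := tau_pos X (i + Rst)
  have hali := al_pos X i
  have halj := al_pos X (i + Rst)
  have hp0 : 0 < p := by positivity
  have hM0 : 0 < M := by rw [hM]; unfold Mb; positivity
  have hM1 : 1 ≤ M := by
    rw [hM]; unfold Mb
    rw [le_div_iff₀ hτj]
    have h1 : 1 ≤ Real.exp (xl X (i + Rst)) := Real.one_le_exp (by rw [← hx]; exact hx0.le)
    have h2 := tau_le_one X (i + Rst)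
    have h3 : 1 ≤ Crat * NN n * Real.exp (xl X (i + Rst)) := by
      have : 1 ≤ Crat * NN n := one_le_mul_of_one_le_of_one_le hCr hN1
      exact one_le_mul_of_one_le_of_one_le this h1
    nlinarith
  have hq2 : 2 ≤ q := by
    rw [hq]; unfold kk
    have : 1 < c0 * NN n / xl X (i + Rst) := by
      rw [← hx, lt_div_iff₀ hx0]; linarith
    have h2 : 1 < ⌈c0 * NN n / xl X (i + Rst)⌉₊ := Nat.lt_ceil.2 (by simpa using this)
    omega
  have hratio : al X (i + Rst) / al X i = Real.exp (y - x) := by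
    unfold al; rw [← Real.exp_sub]; congr 1; rw [hx, hy]; ring
  have hpeq : p = 2 * Real.exp (y - x) / tau X i := by
    rw [hp, ← hratio]; field_simp
  have hMp : M * p = 4 * Crat * Real.exp y / (tau X i * tau X (i + Rst)) * N := by
    rw [hpeq, hM]; unfold Mb
    rw [← hx, ← hN, Real.exp_sub]
    field_simp
    ring
  have hpx : 1 / p ≤ Real.exp x := by
    rw [hpeq, one_div_div, div_le_iff₀ (by positivity), Real.exp_sub]
    have h2 := tau_le_one X i
    have h3 : 1 ≤ Real.exp y := Real.one_le_exp (by linarith)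
    have h4 : Real.exp x * (2 * (Real.exp y / Real.exp x)) = 2 * Real.exp y := by
      field_simp
    rw [h4]; linarith
  have hB0 : 0 ≤ Bh X i := by unfold Bh; positivity
  have hmain' : Real.exp 1 * (2 * Bh X i + 1) * (M * p) * (16 * x / (c0 * N)) ≤
      Real.exp (14 / 10 * y) := by
    refine le_trans (le_of_eq ?_) hmain
    rw [hMp]; field_simp
  -- the family of bad sets
  set 𝒵 : ℕ → Finset (Finset (Pt m)) := fun s => (W.powersetCard s).filter fun Z =>
    BadSet (Bh X i) (Hd X (i + Rst)) Z with h𝒵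
  set 𝒮 : Finset ℕ := (Finset.Icc 1 ⌊sp X c0 n i⌋₊).filter fun s =>
    sp X c0 n (i + Rst) < (s : ℝ) with h𝒮
  have hBB : Bh X i ≤ Bh X (i + Rst) := by
    unfold Bh
    rw [Real.exp_le_exp]
    have := xl_mono hXpos.le (Nat.le_add_right i Rst)
    linarith
  have hpt : ∀ l : List (Row P m), l.length = Rst →
      (if NoRel (alive w G (l ++ rows)) (Bh X i) (sp X c0 n i) then (0 : ℝ) else 1) ≤
        ∑ s ∈ 𝒮, ∑ Z ∈ 𝒵 s, (if Z.erase (pick Z) ⊆ alive w G (l ++ rows) then (1 : ℝ) else 0) := by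
    intro l hl
    split_ifs with hnr
    · exact Finset.sum_nonneg fun s _ => Finset.sum_nonneg fun Z _ => by split_ifs <;> norm_num
    · obtain ⟨Z, hZW', hZs, hbad⟩ := exists_bad hHd hnr
      have hZW : Z ⊆ W := hZW'.trans (alive_append_subset hC l rows (by omega))
      have hZ𝒵 : Z ∈ 𝒵 Z.card := by
        simp only [h𝒵, Finset.mem_filter, Finset.mem_powersetCard]
        exact ⟨⟨hZW, trivial⟩, hbad⟩
      have hZ𝒮 : Z.card ∈ 𝒮 := by
        simp only [h𝒮, Finset.mem_filter, Finset.mem_Icc]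
        refine ⟨⟨hbad.1.card_pos, Nat.le_floor hZs⟩, ?_⟩
        by_contra hcon
        push Not at hcon
        obtain ⟨hne, ⟨h0, hb, hnz⟩, -⟩ := hbad
        have := hNR Z hZW hcon h0 ⟨hb.1, fun g => (hb.2 g).trans hBB⟩
        obtain ⟨g, hg⟩ := hne
        exact hnz g hg (by rw [this]; rfl)
      calc (1 : ℝ) = (if Z.erase (pick Z) ⊆ alive w G (l ++ rows) then (1 : ℝ) else 0) := by
            rw [if_pos ((Finset.erase_subset _ _).trans hZW')]
        _ ≤ ∑ Z ∈ 𝒵 Z.card, (if Z.erase (pick Z) ⊆ alive w G (l ++ rows) then (1 : ℝ) else 0) :=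
            Finset.single_le_sum (f := fun Z => if Z.erase (pick Z) ⊆ alive w G (l ++ rows)
              then (1 : ℝ) else 0) (fun Z _ => by positivity) hZ𝒵
        _ ≤ _ := Finset.single_le_sum (f := fun s => ∑ Z ∈ 𝒵 s,
              (if Z.erase (pick Z) ⊆ alive w G (l ++ rows) then (1 : ℝ) else 0))
              (fun s _ => Finset.sum_nonneg fun Z _ => by positivity) hZ𝒮
  have hterm : ∀ s ∈ 𝒮, ((𝒵 s).card : ℝ) * p ^ (s - 1) ≤
      Real.exp (-(c0 * N / 131) + 5 / 4 * x) := by
    intro s hs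
    simp only [h𝒮, Finset.mem_filter, Finset.mem_Icc] at hs
    obtain ⟨⟨hs1, hs2⟩, hs3⟩ := hs
    have hs2' : (s : ℝ) ≤ c0 / 16 * N / y := by
      have := (Nat.le_floor_iff' (by omega)).1 hs2
      unfold sp at this
      exact this
    have hs3' : c0 / 16 * N / x < s := by
      unfold sp at hs3
      exact hs3
    have hs4 : 2 ≤ s := by
      have h1 : (62 : ℝ) < s := by
        refine lt_of_le_of_lt ?_ hs3'
        rw [le_div_iff₀ hx0]; linarith
      have : 62 < s := by exact_mod_cast h1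
      omega
    refine term_bound c0 N x y (Bh X i) p M ((𝒵 s).card : ℝ) q s hc0 hN1 hy1 hxy hq2 rfl hs4
      hs3' hs2' hp0 hM0 hB0 hpx hmain' ?_
    refine card_bad_le W (Bh X i) (Hd X (i + Rst)) _ s hB0 ?_ (by positivity)
    intro h hh
    refine relCount_bound hE1 hE2 W q s M (c0 / 4 * N) hq2 hs4 hM1 hcard ?_ h hh
    exact hEn
  calc (Ex Rst (fun rows' => if NoRel (alive w G rows') (Bh X i) (sp X c0 n i) then (0 : ℝ) else 1)
      rows) ≤ (Ex Rst (fun rows' => (∑ s ∈ 𝒮, ∑ Z ∈ 𝒵 s,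
        (if Z.erase (pick Z) ⊆ alive w G rows' then (1 : ℝ) else 0))) rows) :=
        Ex_mono _ _ _ _ hpt
    _ = ∑ s ∈ 𝒮, ∑ Z ∈ 𝒵 s, (Ex Rst (fun rows' =>
        (if Z.erase (pick Z) ⊆ alive w G rows' then (1 : ℝ) else 0)) rows) := by
        rw [Ex_sum]
        exact Finset.sum_congr rfl fun s _ => Ex_sum _ _ _ _
    _ ≤ ∑ s ∈ 𝒮, ∑ Z ∈ 𝒵 s, p ^ (s - 1) := by
        refine Finset.sum_le_sum fun s hs => Finset.sum_le_sum fun Z hZ => ?_
        simp only [h𝒵, Finset.mem_filter, Finset.mem_powersetCard] at hZ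
        simp only [h𝒮, Finset.mem_filter, Finset.mem_Icc] at hs
        obtain ⟨⟨hZW, hZc⟩, hne, -, hkill⟩ := hZ
        have hcard' : (Z.erase (pick Z)).card = s - 1 := by
          rw [Finset.card_erase_of_mem (pick_mem hne), hZc]
        rw [← hcard']
        refine hP0 P hP I w G _ rows hC hlen ?_ ((Finset.erase_subset _ _).trans hZW) ?_
        · rw [hcard']; omega
        · exact hkill _ (pick_mem hne)
    _ = ∑ s ∈ 𝒮, ((𝒵 s).card : ℝ) * p ^ (s - 1) := by simp
    _ ≤ ∑ s ∈ 𝒮, Real.exp (-(c0 * N / 131) + 5 / 4 * x) := Finset.sum_le_sum hterm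
    _ = (𝒮.card : ℝ) * Real.exp (-(c0 * N / 131) + 5 / 4 * x) := by simp
    _ ≤ N * Real.exp (-(c0 * N / 131) + 5 / 4 * x) := by
        gcongr
        have h1 : 𝒮.card ≤ ⌊sp X c0 n i⌋₊ := by
          refine (Finset.card_filter_le _ _).trans ?_
          simp
        have h2 : ((⌊sp X c0 n i⌋₊ : ℕ) : ℝ) ≤ sp X c0 n i := by
          refine Nat.floor_le ?_
          unfold sp; rw [← hy]; positivity
        have h3 : sp X c0 n i ≤ N := by
          unfold sp
          rw [← hy, ← hN, div_le_iff₀ (by linarith)]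
          have : c0 / 16 ≤ 1 := by linarith
          nlinarith
        have h4 : (𝒮.card : ℝ) ≤ (⌊sp X c0 n i⌋₊ : ℕ) := by exact_mod_cast h1
        linarith
    _ = Real.exp (Real.log N + (-(c0 * N / 131) + 5 / 4 * x)) := by
        rw [Real.exp_add (Real.log N), Real.exp_log (by linarith)]
    _ ≤ Real.exp (-(c0 / 200 * N)) := by
        rw [Real.exp_le_exp]
        linarith

end Crest.Agent.R225
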