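import Crest.Agent.R225.Iface

/-!
# Row 225 (S0347), node HP2 (helper514): averaged energies at level `i` from level `i + t`.
-/

set_option autoImplicit false

open Finset MeasureTheory
open scoped BigOperators ENNReal

namespace Crest.Agent.R225

namespace HP2

variable {P m : ℕ}

/-! ### Elementary facts on `Ex` -/

theorem Ex_mono [NeZero P] (t : ℕ) (F G : List (Row P m) → ℝ) :
    ∀ rows : List (Row P m), (∀ l : List (Row P m), l.length = t → F (l ++ rows) ≤ G (l ++ rows)) →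
      Ex t F rows ≤ Ex t G rows := by
  induction t with
  | zero =>
    intro rows h
    exact h [] rfl
  | succ t ih =>
    intro rows h
    refine Finset.expect_le_expect fun r _ => ih (r :: rows) fun l hl => ?_
    have := h (l ++ [r]) (by simp [hl])
    simpa using this

theorem Ex_sum [NeZero P] {ι : Type*} (s : Finset ι) (t : ℕ) (F : ι → List (Row P m) → ℝ) :
    ∀ rows : List (Row P m),
      Ex t (fun rows' => ∑ i ∈ s, F i rows') rows = ∑ i ∈ s, Ex t (F i) rows := by
  induction t with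
  | zero => intro rows; rfl
  | succ t ih =>
    intro rows
    simp only [Ex]
    simp_rw [ih]
    exact Finset.expect_sum_comm _ _ _

theorem alive_append_subset {w : Pt m → List (ZMod P) → ℝ} [NeZero P] {b : ℕ} {α τ : ℕ → ℝ}
    {ε : ℝ} (hw : WHyp w b α τ ε) (h0 : ∀ j, 0 ≤ τ j * α j) (G : Finset (Pt m)) :
    ∀ (l rows : List (Row P m)), (l ++ rows).length ≤ b →
      alive w G (l ++ rows) ⊆ alive w G rows := by
  intro l
  induction l with
  | nil => intro rows _; simp
  | cons r l ih =>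
    intro rows hl
    have hl' : (l ++ rows).length ≤ b := by simp at hl ⊢; omega
    refine Finset.Subset.trans ?_ (ih rows hl')
    intro g hg
    classical
    simp only [alive, Finset.mem_filter] at hg ⊢
    refine ⟨hg.1, ?_⟩
    have h1 : wt w (r :: l ++ rows) g = w g (res r g :: hist (l ++ rows) g) := rfl
    have hlen : (hist (l ++ rows) g).length ≤ b := by simpa [hist] using hl'
    have h2 : wt w (l ++ rows) g = w g (hist (l ++ rows) g) := rfl
    rcases hw.rng g (hist (l ++ rows) g) hlen with h | h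
    · have := hw.dead g (hist (l ++ rows) g) (res r g) h
      rw [h1, this] at hg
      exact absurd hg.2 (lt_irrefl _)
    · have h3 : 0 ≤ w g (hist (l ++ rows) g) := le_trans (h0 _) h.1
      rcases h3.lt_or_eq with h4 | h4
      · rw [h2]; exact h4
      · have := hw.dead g (hist (l ++ rows) g) (res r g) h4.symm
        rw [h1, this] at hg
        exact absurd hg.2 (lt_irrefl _)

/-! ### Relation tuples -/

open scoped Classical in
/-- the relation tuples in `W` -/
noncomputable def Tup (k : ℕ) (W : Finset (Pt m)) : Finset ((Fin k → Pt m) × (Fin k → Pt m)) :=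
  ((Fintype.piFinset fun _ : Fin k => W) ×ˢ (Fintype.piFinset fun _ : Fin k => W)).filter
    fun p => ∑ i, p.1 i = ∑ i, p.2 i

open scoped Classical in
/-- support of a pair of tuples -/
noncomputable def supp {k : ℕ} (T : (Fin k → Pt m) × (Fin k → Pt m)) : Finset (Pt m) :=
  univ.image T.1 ∪ univ.image T.2

theorem En_eq (k : ℕ) (W : Finset (Pt m)) : En k W = (Tup k W).card := rfl

theorem supp_subset_iff {k : ℕ} (T : (Fin k → Pt m) × (Fin k → Pt m)) (W : Finset (Pt m)) :
    supp T ⊆ W ↔ (∀ i, T.1 i ∈ W) ∧ ∀ i, T.2 i ∈ W := by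
  classical
  simp only [supp, Finset.union_subset_iff, Finset.image_subset_iff, Finset.mem_univ,
    forall_const]

theorem supp_card_le {k : ℕ} (T : (Fin k → Pt m) × (Fin k → Pt m)) : (supp T).card ≤ 2 * k := by
  classical
  unfold supp
  refine (Finset.card_union_le _ _).trans ?_
  have h1 := Finset.card_image_le (s := (univ : Finset (Fin k))) (f := T.1)
  have h2 := Finset.card_image_le (s := (univ : Finset (Fin k))) (f := T.2)
  simp only [Finset.card_univ, Fintype.card_fin] at h1 h2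
  omega

theorem mem_Tup {k : ℕ} {W : Finset (Pt m)} {T : (Fin k → Pt m) × (Fin k → Pt m)} :
    T ∈ Tup k W ↔ supp T ⊆ W ∧ ∑ i, T.1 i = ∑ i, T.2 i := by
  classical
  rw [supp_subset_iff]
  simp [Tup, Finset.mem_filter, Finset.mem_product, Fintype.mem_piFinset]

theorem Tup_sub {k : ℕ} {W W' : Finset (Pt m)} (h : W' ⊆ W) :
    Tup k W' = (Tup k W).filter (fun T => supp T ⊆ W') := by
  classical
  ext T
  simp only [Finset.mem_filter, mem_Tup]
  constructor
  · rintro ⟨h1, h2⟩; exact ⟨⟨h1.trans h, h2⟩, h1⟩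
  · rintro ⟨⟨_, h2⟩, h1⟩; exact ⟨h1, h2⟩

open scoped Classical in
/-- energies of a subset, on an event that only allows supports satisfying `Q`. -/
theorem En_le_sum {k : ℕ} {W W' : Finset (Pt m)} (h : W' ⊆ W) (Q : Finset (Pt m) → Prop)
    (hQ : ∀ Z ⊆ W', Z.card ≤ 2 * k → Q Z) :
    (En k W' : ℝ) ≤ ∑ T ∈ (Tup k W).filter (fun T => Q (supp T)),
      if supp T ⊆ W' then (1 : ℝ) else 0 := by
  rw [En_eq, Tup_sub h]
  have : ((Tup k W).filter (fun T => supp T ⊆ W')).card =
      (((Tup k W).filter (fun T => Q (supp T))).filter (fun T => supp T ⊆ W')).card := by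
    congr 1
    ext T
    simp only [Finset.mem_filter]
    constructor
    · rintro ⟨h1, h2⟩; exact ⟨⟨h1, hQ _ h2 (supp_card_le T)⟩, h2⟩
    · rintro ⟨⟨h1, _⟩, h2⟩; exact ⟨h1, h2⟩
  rw [this, Finset.sum_ite, Finset.sum_const_zero, add_zero, Finset.sum_const, nsmul_eq_mul,
    mul_one]

/-- one tuple: survival probability -/
theorem surv_one (hG2 : S_G2) {p : ℝ} (hp0 : 0 < p) (hp1 : p ≤ 1) [NeZero P]
    (w : Pt m → List (ZMod P) → ℝ) (G : Finset (Pt m)) (rows : List (Row P m)) (t : ℕ) (B : ℝ)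
    (z : ℕ)
    (hS : ∀ Z : Finset (Pt m), Z.card ≤ z → Z ⊆ alive w G rows → (∀ h, BRel Z B h → h = 0) →
      Ex t (fun rows' => by classical exact if Z ⊆ alive w G rows' then (1 : ℝ) else 0) rows
        ≤ p ^ Z.card)
    (Z : Finset (Pt m)) (hZ : Z.card ≤ z) (hZW : Z ⊆ alive w G rows) (hR : ¬ RkGe Z B 16) :
    Ex t (fun rows' => by classical exact if Z ⊆ alive w G rows' then (1 : ℝ) else 0) rows
        ≤ p ^ Z.card / p ^ 15 := by
  classical
  obtain ⟨Z0, hZ0, hc, hrel⟩ := hG2 m 15 Z B hR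
  have h1 := hS Z0 ((Finset.card_le_card hZ0).trans hZ) (hZ0.trans hZW) hrel
  have h2 : Ex t (fun rows' => by classical exact if Z ⊆ alive w G rows' then (1 : ℝ) else 0) rows
      ≤ Ex t (fun rows' => by classical exact if Z0 ⊆ alive w G rows' then (1 : ℝ) else 0) rows := by
    refine Ex_mono t _ _ rows fun l _ => ?_
    by_cases h : Z ⊆ alive w G (l ++ rows)
    · simp [h, hZ0.trans h]
    · simp only [h, if_false]; split_ifs <;> norm_num
  refine h2.trans (h1.trans ?_)
  rw [le_div_iff₀ (by positivity), ← pow_add]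
  exact pow_le_pow_of_le_one hp0.le hp1 hc

/-! ### Monotonicity of energies -/

theorem En_le_relCount (k : ℕ) (W : Finset (Pt m)) :
    En k W ≤ relCount W (Fin.append (fun _ : Fin k => (1 : ℤ)) (fun _ : Fin k => (-1 : ℤ))) 0 := by
  classical
  rw [En_eq]
  unfold relCount
  refine Finset.card_le_card_of_injOn (fun T => Fin.append T.1 T.2) ?_ ?_
  · intro T hT
    rw [Finset.mem_coe, mem_Tup, supp_subset_iff] at hT
    obtain ⟨⟨h1, h2⟩, h3⟩ := hT
    rw [Finset.mem_coe, Finset.mem_filter, Fintype.mem_piFinset]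
    refine ⟨fun i => ?_, ?_⟩
    · refine Fin.addCases (fun i => ?_) (fun i => ?_) i
      · show Fin.append T.1 T.2 _ ∈ W
        rw [Fin.append_left]; exact h1 i
      · show Fin.append T.1 T.2 _ ∈ W
        rw [Fin.append_right]; exact h2 i
    · rw [Fin.sum_univ_add]
      simp only [Fin.append_left, Fin.append_right, one_smul, neg_smul, Finset.sum_neg_distrib, h3]
      exact add_neg_cancel _
  · intro T _ T' _ h
    have h' : Fin.append T.1 T.2 = Fin.append T'.1 T'.2 := h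
    refine Prod.ext ?_ ?_
    · funext i
      have := congrFun h' (Fin.castAdd k i)
      rwa [Fin.append_left, Fin.append_left] at this
    · funext i
      have := congrFun h' (Fin.natAdd k i)
      rwa [Fin.append_right, Fin.append_right] at this

theorem En_mono (hE1 : S_E1) {k K : ℕ} (hK : K ≤ k) (W : Finset (Pt m)) :
    En k W ≤ W.card ^ (k + k - 2 * K) * En K W := by
  refine (En_le_relCount k W).trans (hE1 m (k + k) K W _ 0 ?_ (by omega))
  intro i
  refine Fin.addCases (fun i => ?_) (fun i => ?_) i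
  · rw [Fin.append_left]; norm_num
  · rw [Fin.append_right]; norm_num

open scoped Classical in
/-- the probabilistic core of HP2 -/
theorem core (hG2 : S_G2) {C : ℝ}
    (hThin : ∀ (m q : ℕ) (W : Finset (Pt m)) (p M : ℝ),
      0 ≤ p → p ≤ 1 → 1 ≤ q → (W.card : ℝ) * p ≤ M → 2 * (q : ℝ) ≤ M →
      ∑ T ∈ ((Fintype.piFinset fun _ : Fin q => W) ×ˢ (Fintype.piFinset fun _ : Fin q => W)).filter
          (fun T => ∑ i, T.1 i = ∑ i, T.2 i),
          p ^ (univ.image T.1 ∪ univ.image T.2).card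
        ≤ C ^ q * (p ^ (2 * q) * En q W + ((q : ℝ) * M) ^ q))
    {p : ℝ} (hp0 : 0 < p) (hp1 : p ≤ 1) [NeZero P]
    {w : Pt m → List (ZMod P) → ℝ} {b : ℕ} {α τ : ℕ → ℝ} {ε : ℝ} (hw : WHyp w b α τ ε)
    (h0 : ∀ j, 0 ≤ τ j * α j) (G : Finset (Pt m)) (rows : List (Row P m)) (t : ℕ) (B : ℝ)
    (hlen : t + rows.length ≤ b) (k : ℕ) (hk : 1 ≤ k) (M : ℝ)
    (hM1 : ((alive w G rows).card : ℝ) * p ≤ M) (hM2 : 2 * (k : ℝ) ≤ M)
    (hS : ∀ Z : Finset (Pt m), Z.card ≤ 2 * k → Z ⊆ alive w G rows →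
      (∀ h, BRel Z B h → h = 0) →
      Ex t (fun rows' => if Z ⊆ alive w G rows' then (1 : ℝ) else 0) rows ≤ p ^ Z.card) :
    Ex t (fun rows' => if ∀ Z ⊆ alive w G rows', Z.card ≤ 2 * k →
          ¬ RkGe Z B 16 then (En k (alive w G rows') : ℝ) else 0) rows
      ≤ C ^ k * (p ^ (2 * k) * En k (alive w G rows) + ((k : ℝ) * M) ^ k) / p ^ 15 := by
  set W := alive w G rows with hW
  have step1 : Ex t (fun rows' => if ∀ Z ⊆ alive w G rows', Z.card ≤ 2 * k →
          ¬ RkGe Z B 16 then (En k (alive w G rows') : ℝ) else 0) rows ≤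
      Ex t (fun rows' => ∑ T ∈ (Tup k W).filter (fun T => ¬ RkGe (supp T) B 16),
        if supp T ⊆ alive w G rows' then (1 : ℝ) else 0) rows := by
    refine Ex_mono t _ _ rows fun l hl => ?_
    have hsub : alive w G (l ++ rows) ⊆ W :=
      alive_append_subset hw h0 G l rows (by simp [hl]; omega)
    by_cases h : ∀ Z ⊆ alive w G (l ++ rows), Z.card ≤ 2 * k → ¬ RkGe Z B 16
    · rw [if_pos h]
      convert En_le_sum hsub (fun Z => ¬ RkGe Z B 16) h
    · rw [if_neg h]
      exact Finset.sum_nonneg fun T _ => by split_ifs <;> norm_num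
  refine step1.trans ?_
  rw [Ex_sum]
  have step2 : ∀ T ∈ (Tup k W).filter (fun T => ¬ RkGe (supp T) B 16),
      Ex t (fun rows' => if supp T ⊆ alive w G rows' then (1 : ℝ) else 0) rows ≤
        p ^ (supp T).card / p ^ 15 := by
    intro T hT
    rw [Finset.mem_filter] at hT
    have := surv_one hG2 hp0 hp1 w G rows t B (2 * k)
      (fun Z h1 h2 h3 => by convert hS Z h1 h2 h3) (supp T) (supp_card_le T)
      ((mem_Tup.1 hT.1).1) hT.2
    convert this
  refine (Finset.sum_le_sum step2).trans ?_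
  rw [← Finset.sum_div]
  have hp15 : (0 : ℝ) < p ^ 15 := by positivity
  refine div_le_div_of_nonneg_right ?_ hp15.le
  refine le_trans ?_ (hThin m k W p M hp0.le hp1 hk hM1 hM2)
  refine (Finset.sum_le_sum_of_subset_of_nonneg (Finset.filter_subset _ _) ?_).trans (le_of_eq ?_)
  · intro T _ _; positivity
  · refine Finset.sum_congr ?_ fun T _ => ?_
    · ext T
      simp [Tup]
    · simp only [supp]

/-! ### Numerics -/

theorem lam_ge_one (X : ℝ) (i : ℕ) : 1 ≤ lam X i := by
  unfold lam; exact Real.one_le_exp (Real.sqrt_nonneg _)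

theorem tau_pos (X : ℝ) (i : ℕ) : 0 < tau X i := by
  unfold tau
  refine Finset.prod_pos fun j _ => ?_
  have := lam_ge_one X j
  positivity

theorem tau_le_one (X : ℝ) (i : ℕ) : tau X i ≤ 1 := by
  unfold tau
  refine Finset.prod_le_one (fun j _ => ?_) fun j _ => ?_
  · have := lam_ge_one X j
    positivity
  · have := lam_ge_one X j
    rw [div_le_one (by positivity)]
    nlinarith

theorem xl_mono {X : ℝ} (hX : 0 ≤ X) {i j : ℕ} (h : i ≤ j) : xl X i ≤ xl X j := by
  unfold xl theta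
  refine mul_le_mul_of_nonneg_left (pow_le_pow_right₀ (by norm_num) h) hX

theorem xl_step {X : ℝ} (hX : 0 ≤ X) {i t : ℕ} (h : 1 ≤ t) :
    (1 + theta) * xl X i ≤ xl X (i + t) := by
  have h1 : (1 + theta) * xl X i = xl X (i + 1) := by unfold xl; rw [pow_succ]; ring
  rw [h1]
  exact xl_mono hX (by omega)

set_option maxHeartbeats 2000000 in
/-- the purely real part of the estimate -/
theorem real_part {x y T T' c0 N C A Crat n9 : ℝ} {k : ℕ} (hx1 : 1 ≤ x) (hxy : x ≤ y)
    (hT0 : 0 ≤ T) (hT0' : 0 ≤ T') (hy : y ≤ 601 * x) (hT' : T' ≤ 1500000 * √y)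
    (hC : 1 ≤ C) (hA : Real.log C + 80000000 ≤ A)
    (hA1 : A * √x * (1 + Real.log x) ≤ x ^ (3 / 4 : ℝ)) (hA2 : A * x ^ (3 / 4 : ℝ) ≤ theta * x)
    (hc0 : 0 < c0) (hc1 : c0 ≤ 1 / 100) (hN : 2 ≤ N) (hk1 : c0 * N / x ≤ k)
    (hk2 : (k : ℝ) ≤ c0 * N / x + 1) (hCrat : 1 ≤ Crat) (hyn : y ≤ 2 * n9)
    (hn9 : 32 * n9 ≤ 4 / 100 * c0 * N) :
    2 * (k : ℝ) ≤ (2 * Crat * N * Real.exp x * Real.exp T) * (2 * Real.exp T') ∧
    C ^ k * (2 * Real.exp T') ^ (2 * k) / (2 * Real.exp T * Real.exp (x - y)) ^ 15 ≤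
      Real.exp (c0 * N / x ^ (1 / 4 : ℝ) + 16 * y) ∧
    C ^ k * ((k : ℝ) * ((2 * Crat * N * Real.exp x * Real.exp T) * (2 * Real.exp T'))) ^ k /
        (2 * Real.exp T * Real.exp (x - y)) ^ 15 ≤
      (2 * Crat * N * Real.exp x * Real.exp T) ^ (2 * k) * Real.exp (-(95 / 100 * c0 * N)) := by
  have hx0 : 0 < x := by linarith
  have hlogC : 0 ≤ Real.log C := Real.log_nonneg hC
  have hC0 : 0 < C := by linarith
  have hsx : 1 ≤ √x := by rw [Real.one_le_sqrt]; exact hx1
  have hlx : 0 ≤ Real.log x := Real.log_nonneg hx1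
  have hA0 : 0 < A := by linarith
  have hx34 : 0 < x ^ (3 / 4 : ℝ) := Real.rpow_pos_of_pos hx0 _
  have hx14 : 0 < x ^ (1 / 4 : ℝ) := Real.rpow_pos_of_pos hx0 _
  have hmul : x ^ (3 / 4 : ℝ) * x ^ (1 / 4 : ℝ) = x := by
    rw [← Real.rpow_add hx0]; norm_num
  -- `√y ≤ 25 √x`
  have hsy : √y ≤ 25 * √x := by
    rw [show (25 : ℝ) * √x = √(625 * x) by
      rw [Real.sqrt_mul (by norm_num), show (625 : ℝ) = 25 ^ 2 by norm_num,
        Real.sqrt_sq (by norm_num)]]
    exact Real.sqrt_le_sqrt (by linarith)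
  -- the basic quantity
  have hlog2 : Real.log 2 ≤ 1 := by
    have := Real.log_two_lt_d9; linarith
  have hlog2' : 0 ≤ Real.log 2 := Real.log_nonneg (by norm_num)
  have hbasic : Real.log C + 2 * (Real.log 2 + T') ≤ x ^ (3 / 4 : ℝ) := by
    refine le_trans ?_ hA1
    have h1 : Real.log C + 2 * (Real.log 2 + T') ≤ A * √x := by
      have : T' ≤ 37500000 * √x := by nlinarith
      nlinarith
    have h2 : A * √x ≤ A * √x * (1 + Real.log x) := by
      have : 0 ≤ A * √x := by positivity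
      nlinarith
    linarith
  have h34x : x ^ (3 / 4 : ℝ) ≤ x := by
    have : x ^ (3 / 4 : ℝ) ≤ x ^ (1 : ℝ) := Real.rpow_le_rpow_of_exponent_le hx1 (by norm_num)
    simpa using this
  have hinv : 1 / x ^ (1 / 4 : ℝ) ≤ 1 / 100 := by
    rw [div_le_div_iff₀ hx14 (by norm_num)]
    have h1 : A * x ^ (3 / 4 : ℝ) ≤ theta * (x ^ (3 / 4 : ℝ) * x ^ (1 / 4 : ℝ)) := by
      rw [hmul]; exact hA2
    have h2 : A ≤ theta * x ^ (1 / 4 : ℝ) := by
      by_contra hcon
      rw [not_le] at hcon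
      have : theta * x ^ (1 / 4 : ℝ) * x ^ (3 / 4 : ℝ) < A * x ^ (3 / 4 : ℝ) :=
        mul_lt_mul_of_pos_right hcon hx34
      nlinarith
    unfold theta at h2
    nlinarith
  have hkx : (k : ℝ) * x ^ (3 / 4 : ℝ) ≤ c0 * N / x ^ (1 / 4 : ℝ) + y := by
    have h1 : (k : ℝ) * x ^ (3 / 4 : ℝ) ≤ (c0 * N / x + 1) * x ^ (3 / 4 : ℝ) :=
      mul_le_mul_of_nonneg_right hk2 hx34.le
    have h2 : (c0 * N / x + 1) * x ^ (3 / 4 : ℝ) = c0 * N / x ^ (1 / 4 : ℝ) + x ^ (3 / 4 : ℝ) := by
      have : c0 * N / x * x ^ (3 / 4 : ℝ) = c0 * N / x ^ (1 / 4 : ℝ) := by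
        rw [div_mul_eq_mul_div, div_eq_div_iff hx0.ne' hx14.ne', mul_assoc, hmul]
      rw [add_mul, this, one_mul]
    linarith
  have hNpos : 0 < N := by linarith
  have hkN : (k : ℝ) ≤ N := by
    have : c0 * N / x ≤ 1 / 100 * N := by
      rw [div_le_iff₀ hx0]
      have : c0 * N ≤ 1 / 100 * N := mul_le_mul_of_nonneg_right hc1 hNpos.le
      nlinarith
    linarith
  have hden : 0 < (2 * Real.exp T * Real.exp (x - y)) ^ 15 := by positivity
  have hden' : Real.exp (-(15 * y)) ≤ (2 * Real.exp T * Real.exp (x - y)) ^ 15 := by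
    have h1 : Real.exp (-y) ≤ 2 * Real.exp T * Real.exp (x - y) := by
      have h2 : (1 : ℝ) ≤ 2 * Real.exp T := by
        have := Real.one_le_exp hT0; linarith
      have h3 : Real.exp (-y) ≤ Real.exp (x - y) := Real.exp_le_exp.2 (by linarith)
      have h4 := Real.exp_pos (x - y)
      nlinarith
    have h5 : Real.exp (-(15 * y)) = Real.exp (-y) ^ 15 := by
      rw [← Real.exp_nat_mul]; congr 1; push_cast; ring
    rw [h5]
    exact pow_le_pow_left₀ (Real.exp_pos _).le h1 15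
  have hCk : C ^ k = Real.exp (k * Real.log C) := by
    rw [Real.exp_nat_mul, Real.exp_log hC0]
  have h2T : 2 * Real.exp T' = Real.exp (Real.log 2 + T') := by
    rw [Real.exp_add, Real.exp_log (by norm_num)]
  have hMpos : 0 < 2 * Crat * N * Real.exp x * Real.exp T := by positivity
  have hMN : N * Real.exp x ≤ 2 * Crat * N * Real.exp x * Real.exp T := by
    have h1 := Real.one_le_exp hT0
    have h2 : (1 : ℝ) ≤ 2 * Crat * Real.exp T := by nlinarith
    have h3 : 0 < N * Real.exp x := by positivity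
    calc N * Real.exp x = N * Real.exp x * 1 := by ring
      _ ≤ N * Real.exp x * (2 * Crat * Real.exp T) := mul_le_mul_of_nonneg_left h2 h3.le
      _ = _ := by ring
  refine ⟨?_, ?_, ?_⟩
  · have h1 := Real.one_le_exp hT0'
    have h2 := Real.one_le_exp hx0.le
    have h3 : N ≤ N * Real.exp x := by nlinarith
    nlinarith
  · rw [div_le_iff₀ hden]
    have hR : Real.exp (c0 * N / x ^ (1 / 4 : ℝ) + 16 * y) * Real.exp (-(15 * y)) ≤
        Real.exp (c0 * N / x ^ (1 / 4 : ℝ) + 16 * y) *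
          (2 * Real.exp T * Real.exp (x - y)) ^ 15 :=
      mul_le_mul_of_nonneg_left hden' (Real.exp_pos _).le
    refine le_trans ?_ hR
    rw [hCk, h2T, ← Real.exp_nat_mul, ← Real.exp_add, ← Real.exp_add]
    refine Real.exp_le_exp.2 ?_
    push_cast
    have : (k : ℝ) * Real.log C + 2 * k * (Real.log 2 + T') =
        k * (Real.log C + 2 * (Real.log 2 + T')) := by ring
    rw [this]
    have h1 : (k : ℝ) * (Real.log C + 2 * (Real.log 2 + T')) ≤ k * x ^ (3 / 4 : ℝ) :=
      mul_le_mul_of_nonneg_left hbasic (Nat.cast_nonneg k)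
    linarith
  · set M := 2 * Crat * N * Real.exp x * Real.exp T with hM
    rw [div_le_iff₀ hden]
    -- `k ≤ M e^{-x}`
    have hkM : (k : ℝ) ≤ M * Real.exp (-x) := by
      have : N ≤ M * Real.exp (-x) := by
        calc N = N * Real.exp x * Real.exp (-x) := by
              rw [mul_assoc, ← Real.exp_add]; simp
          _ ≤ M * Real.exp (-x) := mul_le_mul_of_nonneg_right hMN (Real.exp_pos _).le
      linarith
    have hk0 : (0 : ℝ) ≤ k := Nat.cast_nonneg k
    have h1 : C ^ k * ((k : ℝ) * (M * (2 * Real.exp T'))) ^ k ≤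
        M ^ (2 * k) * Real.exp (k * (x ^ (3 / 4 : ℝ) - x)) := by
      rw [← mul_pow, pow_mul, Real.exp_nat_mul, ← mul_pow]
      refine pow_le_pow_left₀ (by positivity) ?_ k
      have h2 : C * (2 * Real.exp T') ≤ Real.exp (x ^ (3 / 4 : ℝ)) := by
        rw [h2T]
        nth_rewrite 1 [← Real.exp_log hC0]
        rw [← Real.exp_add]
        refine Real.exp_le_exp.2 ?_
        linarith
      calc C * ((k : ℝ) * (M * (2 * Real.exp T')))
          = (C * (2 * Real.exp T')) * ((k : ℝ) * M) := by ring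
        _ ≤ Real.exp (x ^ (3 / 4 : ℝ)) * ((M * Real.exp (-x)) * M) := by
            refine mul_le_mul h2 (mul_le_mul_of_nonneg_right hkM hMpos.le) (by positivity)
              (Real.exp_pos _).le
        _ = M ^ 2 * Real.exp (x ^ (3 / 4 : ℝ) - x) := by
            rw [sub_eq_add_neg, Real.exp_add]; ring
    refine h1.trans ?_
    rw [mul_assoc]
    refine mul_le_mul_of_nonneg_left ?_ (by positivity)
    have hR : Real.exp (-(95 / 100 * c0 * N)) * Real.exp (-(15 * y)) ≤
        Real.exp (-(95 / 100 * c0 * N)) *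
          (2 * Real.exp T * Real.exp (x - y)) ^ 15 :=
      mul_le_mul_of_nonneg_left hden' (Real.exp_pos _).le
    refine le_trans ?_ hR
    rw [← Real.exp_add]
    refine Real.exp_le_exp.2 ?_
    have h3 : (k : ℝ) * (x ^ (3 / 4 : ℝ) - x) ≤ c0 * N / x * (x ^ (3 / 4 : ℝ) - x) :=
      mul_le_mul_of_nonpos_right hk1 (by linarith)
    have h4 : c0 * N / x * (x ^ (3 / 4 : ℝ) - x) = c0 * N * (1 / x ^ (1 / 4 : ℝ)) - c0 * N := by
      have : c0 * N / x * x ^ (3 / 4 : ℝ) = c0 * N * (1 / x ^ (1 / 4 : ℝ)) := by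
        rw [div_mul_eq_mul_div, mul_one_div, div_eq_div_iff hx0.ne' hx14.ne', mul_assoc, hmul]
      rw [mul_sub, this, div_mul_cancel₀ _ hx0.ne']
    have h5 : c0 * N * (1 / x ^ (1 / 4 : ℝ)) ≤ c0 * N * (1 / 100) :=
      mul_le_mul_of_nonneg_left hinv (by positivity)
    nlinarith

theorem exists_n0 (c0 : ℝ) (hc0 : 0 < c0) : ∃ n0 : ℕ, ∀ n ≥ n0,
    2 ≤ NN n ∧ 32 * (n : ℝ) ^ (9 / 10 : ℝ) ≤ 4 / 100 * c0 * NN n := by
  refine ⟨max 3 ⌈(800 / c0) ^ (10 : ℕ)⌉₊, fun n hn => ?_⟩
  have h3 : 3 ≤ n := (le_max_left _ _).trans hn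
  have h3' : (3 : ℝ) ≤ n := by exact_mod_cast h3
  have hn0 : (0 : ℝ) < n := by linarith
  have hlog : 1 ≤ Real.log n := by
    rw [← Real.log_exp 1]
    refine Real.log_le_log (Real.exp_pos 1) ?_
    have := Real.exp_one_lt_d9
    linarith
  have hNN : (n : ℝ) ≤ NN n := by unfold NN; nlinarith
  refine ⟨by linarith, ?_⟩
  have h4 : (800 / c0) ^ (10 : ℕ) ≤ n :=
    (Nat.le_ceil _).trans (by exact_mod_cast (le_max_right _ _).trans hn)
  have h5 : 800 / c0 ≤ (n : ℝ) ^ (1 / 10 : ℝ) := by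
    have h6 : ((800 / c0) ^ (10 : ℕ)) ^ (1 / 10 : ℝ) = 800 / c0 := by
      rw [← Real.rpow_natCast, ← Real.rpow_mul (by positivity)]
      norm_num
    rw [← h6]
    exact Real.rpow_le_rpow (by positivity) h4 (by norm_num)
  have h6 : (n : ℝ) ^ (9 / 10 : ℝ) * (n : ℝ) ^ (1 / 10 : ℝ) = n := by
    rw [← Real.rpow_add hn0]; norm_num
  have h7 : 0 < (n : ℝ) ^ (9 / 10 : ℝ) := Real.rpow_pos_of_pos hn0 _
  have h8 : (n : ℝ) ^ (9 / 10 : ℝ) * (800 / c0) ≤ n := by
    calc (n : ℝ) ^ (9 / 10 : ℝ) * (800 / c0) ≤ (n : ℝ) ^ (9 / 10 : ℝ) * (n : ℝ) ^ (1 / 10 : ℝ) :=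
          mul_le_mul_of_nonneg_left h5 h7.le
      _ = n := h6
  have h9 : 800 * (n : ℝ) ^ (9 / 10 : ℝ) ≤ c0 * n := by
    have : (n : ℝ) ^ (9 / 10 : ℝ) * (800 / c0) = 800 * (n : ℝ) ^ (9 / 10 : ℝ) / c0 := by ring
    rw [this, div_le_iff₀ hc0] at h8
    linarith
  have h10 : c0 * n ≤ c0 * NN n := mul_le_mul_of_nonneg_left hNN hc0.le
  linarith

end HP2

set_option maxHeartbeats 2000000 in
open HP2 in
/-- Node HP2. -/
theorem prf_HP2 (hE1 : S_E1) (hG2 : S_G2) (hThin : S_Thin) (hSurv : S_Surv) (hNum : S_Num) :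
    S_HP2 := by
  classical
  obtain ⟨C, hC, hT⟩ := hThin
  obtain ⟨Xs, hXs⟩ := hSurv
  intro c0 Crat hc0 hc1 hCrat
  obtain ⟨Xn, hXn1, hXn⟩ := hNum (Real.log C + 80000000)
  refine ⟨max Xs Xn, fun X hX => ?_⟩
  have hXs' := hXs X ((le_max_left _ _).trans hX)
  have hXn' := hXn X ((le_max_right _ _).trans hX)
  have hX1 : 1 ≤ X := hXn1.trans ((le_max_right _ _).trans hX)
  have hX0 : 0 ≤ X := by linarith
  obtain ⟨n0, hn0⟩ := exists_n0 c0 hc0
  refine ⟨n0, fun n hn m i t rX ht1 htR hxn => ?_⟩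
  obtain ⟨P0, hP0⟩ := hXs' m i t rX (2 * kk X c0 n i) htR
  refine ⟨P0, fun P hP _ I w G rows hctx hlen hcard => ?_⟩
  obtain ⟨hN2, hn9⟩ := hn0 n hn
  -- notation
  set x := xl X i with hxdef
  set y := xl X (i + t) with hydef
  set N := NN n with hNdef
  set k := kk X c0 n i with hkdef
  set K := kk X c0 n (i + t) with hKdef
  set W := alive w G rows with hWdef
  have hlogC : 0 ≤ Real.log C := Real.log_nonneg hC
  obtain ⟨hx0, hT1, hA1, hA2, h600, h601, -, -⟩ := hXn' i
  obtain ⟨-, hT2, -, -, -, -, -, -⟩ := hXn' (i + t)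
  have hx1 : 1 ≤ x := by linarith
  have hxpos : 0 < x := by linarith
  have hxy : x ≤ y := xl_mono hX0 (by omega)
  have hstep : (1 + theta) * x ≤ y := xl_step hX0 ht1
  have hy601 : y ≤ 601 * x := (xl_mono hX0 (by omega)).trans h601
  have hτ := tau_pos X i
  have hτ' := tau_pos X (i + t)
  set T := Real.log (1 / tau X i) with hTdef
  set T' := Real.log (1 / tau X (i + t)) with hTdef'
  have hT0 : 0 ≤ T := Real.log_nonneg (by rw [le_div_iff₀ hτ]; linarith [tau_le_one X i])
  have hT0' : 0 ≤ T' := Real.log_nonneg (by rw [le_div_iff₀ hτ']; linarith [tau_le_one X (i + t)])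
  have hexpT : Real.exp T = 1 / tau X i := Real.exp_log (by positivity)
  have hexpT' : Real.exp T' = 1 / tau X (i + t) := Real.exp_log (by positivity)
  have hNpos : 0 < N := by linarith
  have hk1 : c0 * N / x ≤ k := Nat.le_ceil _
  have hk2 : (k : ℝ) ≤ c0 * N / x + 1 := (Nat.ceil_lt_add_one (by positivity)).le
  have hkpos : 1 ≤ k := by
    have : (0 : ℝ) < k := lt_of_lt_of_le (by positivity) hk1
    exact_mod_cast this
  have hKk : K ≤ k := by
    refine Nat.ceil_le_ceil ?_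
    exact div_le_div_of_nonneg_left (by positivity) hxpos hxy
  obtain ⟨hr1, hr2, hr3⟩ := real_part (x := x) (y := y) (T := T) (T' := T') (c0 := c0) (N := N)
    (C := C) (A := Real.log C + 80000000) (Crat := Crat) (n9 := (n : ℝ) ^ (9 / 10 : ℝ)) (k := k)
    hx1 hxy hT0 hT0' hy601 hT2 hC le_rfl hA1 hA2 hc0 hc1 hN2 hk1 hk2 hCrat hxn hn9
  -- the survival probability
  set p := 2 * Real.exp T * Real.exp (x - y) with hpdef
  have hp0 : 0 < p := by positivity
  have hpal : 2 * al X (i + t) / (tau X i * al X i) = p := by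
    have h1 : al X (i + t) = Real.exp (x - y) * al X i := by
      unfold al
      rw [← Real.exp_add]
      congr 1
      ring
    have h2 : 0 < al X i := Real.exp_pos _
    rw [h1, hpdef, hexpT]
    field_simp
  have hp1 : p ≤ 1 := by
    have h2 : p = Real.exp (Real.log 2 + T + (x - y)) := by
      rw [Real.exp_add, Real.exp_add, Real.exp_log (by norm_num)]
    rw [h2]
    refine Real.exp_le_one_iff.2 ?_
    have hsx : 1 ≤ √x := by rw [Real.one_le_sqrt]; exact hx1
    have hlx : 0 ≤ Real.log x := Real.log_nonneg hx1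
    have hlog2 : Real.log 2 ≤ 1 := by
      have := Real.log_two_lt_d9; linarith
    have hx34 : 0 < x ^ (3 / 4 : ℝ) := Real.rpow_pos_of_pos hxpos _
    have h3 : (Real.log C + 80000000) * √x ≤ x ^ (3 / 4 : ℝ) := by
      refine le_trans ?_ hA1
      have : 0 ≤ (Real.log C + 80000000) * √x := by positivity
      nlinarith
    have h4 : x ^ (3 / 4 : ℝ) ≤ theta * x := by
      refine le_trans ?_ hA2
      nlinarith
    have h5 : Real.log 2 + T ≤ theta * x := by nlinarith
    have h6 : theta * x ≤ y - x := by linarith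
    linarith
  -- Mb
  have hMi : Mb X Crat n i = 2 * Crat * N * Real.exp x * Real.exp T := by
    rw [hexpT]; unfold Mb; rw [← hNdef, ← hxdef]; ring
  have hMit : p * Mb X Crat n (i + t) = Mb X Crat n i * (2 * Real.exp T') := by
    rw [hMi, hexpT', hpdef]
    unfold Mb
    rw [← hNdef, ← hydef]
    have : Real.exp x = Real.exp (x - y) * Real.exp y := by rw [← Real.exp_add]; congr 1; ring
    rw [this]
    field_simp
  have hMipos : 0 < Mb X Crat n i := by rw [hMi]; positivity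
  have hMitpos : 0 < Mb X Crat n (i + t) := by
    unfold Mb
    have := Real.exp_pos (xl X (i + t))
    positivity
  set M := Mb X Crat n i with hMdef
  set M' := Mb X Crat n (i + t) with hMdef'
  have h0 : ∀ j, 0 ≤ (fun j => tau X (I - j)) j * (fun j => al X (I - j)) j := by
    intro j
    have h1 := tau_pos X (I - j)
    have h2 : 0 < al X (I - j) := Real.exp_pos _
    positivity
  have hcore := core hG2 hT (p := p) hp0 hp1 hctx.hw h0 G rows t (Hd X (i + t)) (by omega) k
    hkpos (M * (2 * Real.exp T')) (by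
      rw [← hMit, mul_comm]
      exact mul_le_mul_of_nonneg_left hcard hp0.le) (by rw [hMi]; exact hr1)
    (fun Z h1 h2 h3 => by
      have := hP0 P hP I w G Z rows hctx hlen h1 h2 h3
      rw [hpal] at this
      exact this)
  refine hcore.trans ?_
  -- first term
  have hEn : (En k W : ℝ) ≤ M' ^ (k + k - 2 * K) * En K W := by
    have h1 : (En k W : ℝ) ≤ (W.card : ℝ) ^ (k + k - 2 * K) * En K W := by
      exact_mod_cast En_mono hE1 hKk W
    refine h1.trans ?_
    exact mul_le_mul_of_nonneg_right (pow_le_pow_left₀ (by positivity) hcard _) (by positivity)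
  have hfirst : p ^ (2 * k) * (En k W : ℝ) ≤
      M ^ (2 * k) * (2 * Real.exp T') ^ (2 * k) * ((En K W : ℝ) / M' ^ (2 * K)) := by
    have h1 : p ^ (2 * k) * (En k W : ℝ) ≤ p ^ (2 * k) * (M' ^ (k + k - 2 * K) * En K W) :=
      mul_le_mul_of_nonneg_left hEn (by positivity)
    refine h1.trans (le_of_eq ?_)
    have h2 : M' ^ (2 * k) = M' ^ (k + k - 2 * K) * M' ^ (2 * K) := by
      rw [← pow_add]; congr 1; omega
    have h3 : M ^ (2 * k) * (2 * Real.exp T') ^ (2 * k) = p ^ (2 * k) * M' ^ (2 * k) := by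
      rw [← mul_pow, ← mul_pow, hMit]
    rw [h3, h2]
    field_simp
  have hCk : 0 < C ^ k := by positivity
  have hp15 : 0 < p ^ 15 := by positivity
  have hEK : 0 ≤ (En K W : ℝ) / M' ^ (2 * K) := by positivity
  have key1 : C ^ k * (p ^ (2 * k) * (En k W : ℝ)) / p ^ 15 ≤
      M ^ (2 * k) * (Real.exp (c0 * N / x ^ (1 / 4 : ℝ) + 16 * y) *
        ((En K W : ℝ) / M' ^ (2 * K))) := by
    calc C ^ k * (p ^ (2 * k) * (En k W : ℝ)) / p ^ 15
        ≤ C ^ k * (M ^ (2 * k) * (2 * Real.exp T') ^ (2 * k) *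
            ((En K W : ℝ) / M' ^ (2 * K))) / p ^ 15 := by
          refine div_le_div_of_nonneg_right ?_ hp15.le
          exact mul_le_mul_of_nonneg_left hfirst hCk.le
      _ = M ^ (2 * k) * ((C ^ k * (2 * Real.exp T') ^ (2 * k) / p ^ 15) *
            ((En K W : ℝ) / M' ^ (2 * K))) := by ring
      _ ≤ _ := by
          refine mul_le_mul_of_nonneg_left ?_ (by positivity)
          exact mul_le_mul_of_nonneg_right hr2 hEK
  have key2 : C ^ k * ((k : ℝ) * (M * (2 * Real.exp T'))) ^ k / p ^ 15 ≤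
      M ^ (2 * k) * Real.exp (-(95 / 100 * c0 * N)) := by
    rw [hMi]; exact hr3
  calc C ^ k * (p ^ (2 * k) * (En k W : ℝ) + ((k : ℝ) * (M * (2 * Real.exp T'))) ^ k) / p ^ 15
      = C ^ k * (p ^ (2 * k) * (En k W : ℝ)) / p ^ 15 +
        C ^ k * ((k : ℝ) * (M * (2 * Real.exp T'))) ^ k / p ^ 15 := by ring
    _ ≤ M ^ (2 * k) * (Real.exp (c0 * N / x ^ (1 / 4 : ℝ) + 16 * y) *
        ((En K W : ℝ) / M' ^ (2 * K))) + M ^ (2 * k) * Real.exp (-(95 / 100 * c0 * N)) :=
        add_le_add key1 key2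
    _ = _ := by ring

end Crest.Agent.R225
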