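import Crest.Agent.R225.Iface

/-!
# Row 225: node HRC (rank control at level `i` from level `i + Rst`)
-/

set_option autoImplicit false

open Finset
open scoped BigOperators

namespace Crest.Agent.R225.HRC

open Crest.Agent.R225

/-! ## Expectations over further rows -/

lemma Ex_mono {P m : ℕ} [NeZero P] (F F' : List (Row P m) → ℝ) : ∀ (k : ℕ) (rows : List (Row P m)),
    (∀ l : List (Row P m), l.length = k → F (l ++ rows) ≤ F' (l ++ rows)) →
    Ex k F rows ≤ Ex k F' rows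
  | 0, rows, h => by simpa [Ex] using h [] rfl
  | k + 1, rows, h => by
      simp only [Ex]
      refine Finset.expect_le_expect fun r _ => Ex_mono F F' k (r :: rows) fun l hl => ?_
      have := h (l ++ [r]) (by simp [hl])
      simpa using this

lemma Ex_sum {P m : ℕ} [NeZero P] {ι : Type*} (s : Finset ι) (F : ι → List (Row P m) → ℝ) :
    ∀ (k : ℕ) (rows : List (Row P m)),
    Ex k (fun r => ∑ i ∈ s, F i r) rows = ∑ i ∈ s, Ex k (F i) rows
  | 0, rows => by simp [Ex]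
  | k + 1, rows => by
      simp only [Ex]
      rw [← Finset.expect_sum_comm]
      exact Finset.expect_congr rfl fun r _ => Ex_sum s F k (r :: rows)

lemma al_pos (X : ℝ) (i : ℕ) : 0 < al X i := Real.exp_pos _

lemma lam_pos (X : ℝ) (i : ℕ) : 0 < lam X i := Real.exp_pos _

lemma tau_pos (X : ℝ) (i : ℕ) : 0 < tau X i :=
  Finset.prod_pos fun j _ => by have := lam_pos X j; positivity

lemma tau_le_one (X : ℝ) (i : ℕ) : tau X i ≤ 1 := by
  refine Finset.prod_le_one (fun j _ => by have := lam_pos X j; positivity) fun j _ => ?_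
  have h1 : 1 ≤ lam X j := Real.one_le_exp (Real.sqrt_nonneg _)
  rw [div_le_one (by positivity)]
  nlinarith

/-- a dead atom stays dead -/
lemma alive_sub {P m I rX : ℕ} [NeZero P] {X : ℝ} {w : Pt m → List (ZMod P) → ℝ}
    {G : Finset (Pt m)} (hC : Ctx P m I rX X w G) (rows : List (Row P m)) :
    ∀ l : List (Row P m), (l ++ rows).length ≤ I → alive w G (l ++ rows) ⊆ alive w G rows
  | [], _ => by simp
  | r :: l, h => by
      have h' : (l ++ rows).length ≤ I := by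
        simp only [List.cons_append, List.length_cons] at h; omega
      refine Finset.Subset.trans ?_ (alive_sub hC rows l h')
      intro g hg
      simp only [alive, Finset.mem_filter] at hg ⊢
      refine ⟨hg.1, ?_⟩
      have h2 := hg.2
      simp only [wt, hist, List.cons_append, List.map_cons] at h2
      have hne : w g (hist (l ++ rows) g) ≠ 0 := by
        intro h0
        have := hC.hw.dead g _ (res r g) h0
        simp only [hist] at this
        rw [this] at h2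
        exact lt_irrefl _ h2
      have hlen : (hist (l ++ rows) g).length ≤ I := by simpa [hist] using h'
      rcases hC.hw.rng g _ hlen with h0 | h1
      · exact absurd h0 hne
      · exact lt_of_lt_of_le (mul_pos (tau_pos _ _) (al_pos _ _)) h1.1

/-! ## The structure of a minimal bad set -/

/-- what is used of a minimal bad set -/
def Str {m : ℕ} (b q Hn : ℕ) (Z : Finset (Pt m)) : Prop :=
  (∃ Z0 ⊆ Z, Z.card ≤ Z0.card + 16 ∧ ∀ h, BRel Z0 (Hn : ℝ) h → h = 0) ∧
  ∃ v : Fin 16 → Pt m → ℤ, (∀ l, BRel Z (b : ℝ) (v l)) ∧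
    ∃ e : Fin (2 * q) × Fin 16 → Pt m, Function.Injective e ∧ (∀ p, e p ∈ Z) ∧
      ∀ t, (Matrix.of fun l j : Fin 16 => v l (e (t, j))).det ≠ 0

lemma ARel.filter_ne {m : ℕ} {Z : Finset (Pt m)} {h : Pt m → ℤ} (H : ARel Z h)
    [DecidablePred fun g => h g ≠ 0] : ARel (Z.filter fun g => h g ≠ 0) h := by
  obtain ⟨h1, h2, h3⟩ := H
  refine ⟨fun g hg => ?_, ?_, ?_⟩
  · by_contra h0
    exact hg (Finset.mem_filter.2 ⟨by by_contra hgZ; exact h0 (h1 g hgZ), h0⟩)
  · refine (Finset.sum_subset (Finset.filter_subset _ _) fun g hg hg' => ?_).trans h2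
    by_contra h0
    exact hg' (Finset.mem_filter.2 ⟨hg, h0⟩)
  · refine (Finset.sum_subset (Finset.filter_subset _ _) fun g hg hg' => ?_).trans h3
    have : h g = 0 := by
      by_contra h0
      exact hg' (Finset.mem_filter.2 ⟨hg, h0⟩)
    rw [this, zero_smul]

lemma select (G1 : S_G1) (G2 : S_G2) (G3 : S_G3) {m q Hn K : ℕ} {Bi si : ℝ}
    (W' Z : Finset (Pt m)) (hH : 1 ≤ Hn) (hsi : (2 * q * 16 : ℝ) ≤ si)
    (hBi : ((16 : ℝ) * (2 * (Hn : ℝ) ^ 2)) ^ 16 ≤ Bi) (hN : NoRel W' Bi si)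
    (hZ : Z ⊆ W') (hK : Z.card ≤ K) (hR : RkGe Z (2 * (Hn : ℝ) ^ 2) 16) :
    ∃ Z1 ⊆ W', Z1.card ≤ K ∧ Str (2 * Hn ^ 2) q Hn Z1 := by
  classical
  have hH' : (1 : ℝ) ≤ Hn := by exact_mod_cast hH
  obtain ⟨Z1, hZ1, hmin⟩ := Finset.exists_min_image
    (Z.powerset.filter fun Y => RkGe Y (2 * (Hn : ℝ) ^ 2) 16) Finset.card
    ⟨Z, Finset.mem_filter.2 ⟨Finset.mem_powerset.2 (Finset.Subset.refl _), hR⟩⟩
  rw [Finset.mem_filter, Finset.mem_powerset] at hZ1
  obtain ⟨hZ1Z, hR1⟩ := hZ1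
  refine ⟨Z1, hZ1Z.trans hZ, (Finset.card_le_card hZ1Z).trans hK, ?_, ?_⟩
  · apply G2 m 16 Z1 (Hn : ℝ)
    intro h17
    by_cases hne : Z1.Nonempty
    · obtain ⟨z, hz⟩ := hne
      have h16 := G1 m 16 Z1 (Hn : ℝ) z hH' hz h17
      have hle := hmin (Z1.erase z) (Finset.mem_filter.2
        ⟨Finset.mem_powerset.2 ((Finset.erase_subset _ _).trans hZ1Z), h16⟩)
      have := Finset.card_erase_lt_of_mem hz
      omega
    · rw [Finset.not_nonempty_iff_eq_empty] at hne
      obtain ⟨v, hv, hli⟩ := h17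
      refine hli.ne_zero 0 ?_
      funext g
      have := (hv 0).1.1 g (by simp [hne])
      simp [this]
  · obtain ⟨v, hv, hli⟩ := hR1
    have hB1 : (1 : ℝ) ≤ 2 * (Hn : ℝ) ^ 2 := by nlinarith
    refine ⟨v, by simpa using hv, ?_⟩
    rcases G3 m 16 (2 * q) Z1 (2 * (Hn : ℝ) ^ 2) v (by norm_num) hB1 hv hli with h | h
    · exact h
    · exfalso
      obtain ⟨h, h0, hB, hc⟩ := h
      refine h0 (hN (Z1.filter fun g => h g ≠ 0)
        ((Finset.filter_subset _ _).trans (hZ1Z.trans hZ)) ?_ h ⟨ARel.filter_ne hB.1, fun g => ?_⟩)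
      · refine le_trans ?_ hsi
        have : ((Z1.filter fun g => h g ≠ 0).card : ℝ) ≤ ((2 * q * 16 : ℕ) : ℝ) := by
          refine Nat.cast_le.2 (le_of_lt ?_)
          convert hc
        refine this.trans (le_of_eq (by push_cast; ring))
      · refine (hB.2 g).trans (le_trans (le_of_eq ?_) hBi)
        norm_num

/-! ## Counting -/

open scoped Classical in
lemma count (E3 : S_E3) {m : ℕ} (b q Hn s : ℕ) (W : Finset (Pt m)) :
    (W.powerset.filter fun Z => Z.card = s ∧ Str b q Hn Z).card * s.factorial ≤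
      ((2 * b + 1) ^ s) ^ 16 * (W.card ^ (s - 2 * q * 16) * En q W ^ 16) := by
  set ZZ : Finset (Finset (Pt m)) := W.powerset.filter fun Z => Z.card = s ∧ Str b q Hn Z with hZZ
  set HH : Finset (Fin 16 → Fin s → ℤ) :=
    Fintype.piFinset fun _ => Fintype.piFinset fun _ => Finset.Icc (-(b : ℤ)) b with hHH
  set HG : Finset (Fin 16 → Fin s → ℤ) := HH.filter fun H =>
    ∃ e : Fin (2 * q) × Fin 16 → Fin s, Function.Injective e ∧
      ∀ t, (Matrix.of fun l j : Fin 16 => H l (e (t, j))).det ≠ 0 with hHG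
  set T : Finset (Fin s → Pt m) := HG.biUnion fun H =>
    (Fintype.piFinset fun _ : Fin s => W).filter fun z => ∀ l, ∑ i, H l i • z i = 0 with hT
  have hHHc : HH.card = ((2 * b + 1) ^ s) ^ 16 := by
    rw [hHH, Fintype.card_piFinset_const, Fintype.card_piFinset_const, Int.card_Icc]
    congr 2
    omega
  have hTc : T.card ≤ ((2 * b + 1) ^ s) ^ 16 * (W.card ^ (s - 2 * q * 16) * En q W ^ 16) := by
    refine Finset.card_biUnion_le.trans ?_
    have h1 : ∀ H ∈ HG, ((Fintype.piFinset fun _ : Fin s => W).filter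
        fun z => ∀ l, ∑ i, H l i • z i = 0).card ≤ W.card ^ (s - 2 * q * 16) * En q W ^ 16 := by
      intro H hH
      obtain ⟨-, e, he, hdet⟩ := Finset.mem_filter.1 hH
      have := E3 m s q 16 W H e he hdet
      convert this
    refine (Finset.sum_le_card_nsmul _ _ _ h1).trans ?_
    rw [smul_eq_mul]
    exact Nat.mul_le_mul_right _ ((Finset.card_filter_le _ _).trans hHHc.le)
  refine le_trans ?_ hTc
  have hfib : T.card ≥ (T.filter fun z => Finset.univ.image z ∈ ZZ).card :=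
    Finset.card_filter_le _ _
  refine le_trans ?_ hfib
  have hfs := Finset.card_eq_sum_card_fiberwise
    (f := fun z : Fin s → Pt m => Finset.univ.image z) (s := T.filter fun z => Finset.univ.image z ∈ ZZ)
    (t := ZZ) (fun z hz => (Finset.mem_filter.1 hz).2)
  rw [hfs]
  refine (Finset.card_nsmul_le_sum ZZ _ s.factorial fun Z hZ => ?_)
  obtain ⟨hZW, hZs, -, v, hv, e, he, heZ, hdet⟩ := Finset.mem_filter.1 hZ
  rw [Finset.mem_powerset] at hZW
  have hcard : Fintype.card (Fin s) = Fintype.card Z := by simp [hZs]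
  obtain ⟨e0⟩ : Nonempty (Fin s ≃ Z) := ⟨Fintype.equivOfCardEq hcard⟩
  have hfac : s.factorial = (Finset.univ : Finset (Fin s ≃ Z)).card := by
    rw [Finset.card_univ, Fintype.card_equiv e0, Fintype.card_fin]
  rw [hfac]
  refine Finset.card_le_card_of_injOn (fun σ : Fin s ≃ Z => fun i => (σ i : Pt m)) ?_ ?_
  · intro σ _
    have himg : (Finset.univ.image fun i => (σ i : Pt m)) = Z := by
      ext g
      simp only [Finset.mem_image, Finset.mem_univ, true_and]
      constructor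
      · rintro ⟨i, rfl⟩
        exact (σ i).2
      · intro hg
        exact ⟨σ.symm ⟨g, hg⟩, by simp⟩
    simp only [Finset.coe_filter, Set.mem_ofPred_eq, Finset.mem_filter]
    refine ⟨⟨?_, by rw [himg]; exact hZ⟩, himg⟩
    rw [hT, Finset.mem_biUnion]
    refine ⟨fun l i => v l (σ i), ?_, ?_⟩
    · rw [hHG, Finset.mem_filter]
      refine ⟨?_, fun p => σ.symm ⟨e p, heZ p⟩, ?_, ?_⟩
      · rw [hHH, Fintype.mem_piFinset]
        intro l
        rw [Fintype.mem_piFinset]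
        intro i
        have := (hv l).2 (σ i)
        rw [Finset.mem_Icc]
        have h2 : |v l (σ i)| ≤ (b : ℤ) := by exact_mod_cast this
        exact abs_le.1 h2
      · intro p p' hpp
        have h2 := σ.symm.injective hpp
        exact he (by simpa using h2)
      · intro t
        simpa using hdet t
    · rw [Finset.mem_filter]
      refine ⟨Fintype.mem_piFinset.2 fun i => hZW (σ i).2, fun l => ?_⟩
      have h3 := (hv l).1.2.2
      rw [← h3, ← Finset.sum_coe_sort Z (fun g => v l g • g)]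
      exact Equiv.sum_comp σ (fun g : Z => v l (g : Pt m) • (g : Pt m))
  · intro σ _ σ' _ h
    ext1 i
    exact Subtype.ext (congrFun h i)

/-! ## Numerics -/


/-- numerical facts at one level -/
structure NF (c0 Crat X xi xA tA ti : ℝ) (Hn : ℕ) : Prop where
  c0p : 0 < c0
  c0l : c0 ≤ 1 / 100
  Crp : 1 ≤ Crat
  xi1 : 1000 + 100 * (8 * Crat / c0) ≤ xi
  Xx : 0 ≤ X
  h5 : 600 * xi ≤ xA
  h6 : xA ≤ 601 * xi
  tAp : 0 < tA
  tip : 0 < ti
  tA1 : tA ≤ 1
  ti1 : ti ≤ 1
  tAl : 1 / tA ≤ Real.exp (1 / 1000 * xi)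
  til : 1 / ti ≤ Real.exp (1 / 1000 * xi)
  H1 : 1 ≤ Hn
  H2 : (Hn : ℝ) ≤ Real.exp (22 / 10 * theta * xA)

lemma NF.big {c0 Crat X xi xA tA ti : ℝ} {Hn : ℕ} (h : NF c0 Crat X xi xA tA ti Hn) :
    1000 ≤ xi := by
  have := h.xi1
  have h2 : 0 ≤ 100 * (8 * Crat / c0) := by
    have := h.c0p; have := h.Crp; positivity
  linarith

lemma NF.H3 {c0 Crat X xi xA tA ti : ℝ} {Hn : ℕ} (h : NF c0 Crat X xi xA tA ti Hn) :
    (Hn : ℝ) ≤ Real.exp (662 / 100000 * xi) := by
  refine h.H2.trans (Real.exp_le_exp.2 ?_)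
  have h6 := h.h6
  have hb := h.big
  unfold theta
  nlinarith

/-- the height bound -/
lemma NF.height {c0 Crat X xi xA tA ti : ℝ} {Hn : ℕ} (h : NF c0 Crat X xi xA tA ti Hn) :
    ((16 : ℝ) * (2 * (Hn : ℝ) ^ 2)) ^ 16 ≤ Real.exp (3 / 10 * xi) := by
  have hb := h.big
  have h3 := h.H3
  have h0 : (0 : ℝ) ≤ Hn := Nat.cast_nonneg _
  have h32 : (32 : ℝ) ≤ Real.exp 4 := by
    have h1 : (2.7 : ℝ) < Real.exp 1 := by have := Real.exp_one_gt_d9; linarith
    have h2 : Real.exp 4 = Real.exp 1 ^ 4 := by rw [← Real.exp_nat_mul]; norm_num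
    rw [h2]
    have : (2.7 : ℝ) ^ 4 ≤ Real.exp 1 ^ 4 := by gcongr
    norm_num at this ⊢
    linarith
  have h1 : (16 : ℝ) * (2 * (Hn : ℝ) ^ 2) ≤ Real.exp (4 + 2 * (662 / 100000 * xi)) := by
    rw [Real.exp_add, two_mul (662 / 100000 * xi), Real.exp_add]
    calc (16 : ℝ) * (2 * (Hn : ℝ) ^ 2) = 32 * (Hn * Hn) := by ring
      _ ≤ _ := by gcongr
  calc ((16 : ℝ) * (2 * (Hn : ℝ) ^ 2)) ^ 16 ≤ Real.exp (4 + 2 * (662 / 100000 * xi)) ^ 16 := by
        gcongr
    _ = Real.exp (16 * (4 + 2 * (662 / 100000 * xi))) := by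
        rw [← Real.exp_nat_mul]; norm_num
    _ ≤ _ := Real.exp_le_exp.2 (by linarith)

/-- survival probability per atom -/
noncomputable def phh (X xi xA ti : ℝ) : ℝ :=
  2 * Real.exp (-(xA - X)) / (ti * Real.exp (-(xi - X)))

lemma phh_eq {X xi xA ti : ℝ} (hti : 0 < ti) :
    phh X xi xA ti = 2 / ti * Real.exp (-(xA - xi)) := by
  unfold phh
  have h1 : Real.exp (-(xA - X)) = Real.exp (-(xA - xi)) * Real.exp (-(xi - X)) := by
    rw [← Real.exp_add]; ring_nf
  rw [h1]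
  have h2 := Real.exp_pos (-(xi - X))
  field_simp

lemma phh_pos {X xi xA ti : ℝ} (hti : 0 < ti) : 0 < phh X xi xA ti := by
  unfold phh; positivity

lemma NF.ph_le {c0 Crat X xi xA tA ti : ℝ} {Hn : ℕ} (h : NF c0 Crat X xi xA tA ti Hn) :
    phh X xi xA ti ≤ 1 := by
  rw [phh_eq h.tip]
  have hb := h.big
  have h5 := h.h5
  have h1 := h.til
  have h2 : (2 : ℝ) ≤ Real.exp 1 := by have := Real.exp_one_gt_d9; linarith
  calc 2 / ti * Real.exp (-(xA - xi)) = 2 * (1 / ti) * Real.exp (-(xA - xi)) := by ring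
    _ ≤ Real.exp 1 * Real.exp (1 / 1000 * xi) * Real.exp (-(xA - xi)) := by
        have := h.tip
        gcongr
    _ = Real.exp (1 + 1 / 1000 * xi + -(xA - xi)) := by rw [← Real.exp_add, ← Real.exp_add]
    _ ≤ 1 := Real.exp_le_one_iff.2 (by linarith)

lemma NF.le_ph {c0 Crat X xi xA tA ti : ℝ} {Hn : ℕ} (h : NF c0 Crat X xi xA tA ti Hn) :
    Real.exp (-xA) ≤ phh X xi xA ti := by
  rw [phh_eq h.tip]
  have hb := h.big
  have h1 : (1 : ℝ) ≤ 2 / ti := by
    rw [le_div_iff₀ h.tip]; have := h.ti1; linarith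
  calc Real.exp (-xA) = 1 * Real.exp (-xA) := by ring
    _ ≤ 2 / ti * Real.exp (-(xA - xi)) := by
        gcongr
        linarith

/-- one term of the union bound -/
lemma NF.term {c0 Crat X xi xA tA ti : ℝ} {Hn : ℕ} (h : NF c0 Crat X xi xA tA ti Hn)
    {L : ℝ} (hL : 0 ≤ L) (s : ℕ) (hs : 16 ≤ s) :
    (((2 * ((2 * Hn ^ 2 : ℕ) : ℝ) + 1) ^ s) ^ 16 *
      ((2 * Crat * L * Real.exp xA / tA) ^ s * Real.exp (-(4 * c0 * L)))) / (s.factorial : ℝ) *
      phh X xi xA ti ^ (s - 16)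
    ≤ Real.exp (5 / 4 * xi * s + c0 / 2 * L + 16 * xA - 4 * c0 * L) := by
  have hb := h.big
  have h0 : (1 : ℝ) ≤ Hn := by exact_mod_cast h.H1
  have hc0 := h.c0p
  have hCr := h.Crp
  have htA := h.tAp
  have hti := h.tip
  have hph := phh_pos (X := X) (xi := xi) (xA := xA) h.tip
  set ph := phh X xi xA ti with hphd
  set D : ℝ := (2 * ((2 * Hn ^ 2 : ℕ) : ℝ) + 1) ^ 16 with hD
  set E : ℝ := D * (8 * Crat / c0) * Real.exp xi * (1 / tA) * (1 / ti) with hE
  have hDb : D ≤ Real.exp (26 + 212 / 1000 * xi) := by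
    have h5 : (5 : ℝ) ≤ Real.exp (13 / 8) := by
      have h1 : (2.718 : ℝ) < Real.exp 1 := by have := Real.exp_one_gt_d9; linarith
      have h2 : Real.exp (13 / 8) ^ 8 = Real.exp 1 ^ 13 := by
        rw [← Real.exp_nat_mul, ← Real.exp_nat_mul]; norm_num
      have h3 : (5 : ℝ) ^ 8 ≤ Real.exp (13 / 8) ^ 8 := by
        rw [h2]
        have : (2.718 : ℝ) ^ 13 ≤ Real.exp 1 ^ 13 := by gcongr
        norm_num at this ⊢
        linarith
      exact le_of_pow_le_pow_left₀ (by norm_num) (Real.exp_pos _).le h3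
    have h1 : (2 * ((2 * Hn ^ 2 : ℕ) : ℝ) + 1) ≤ Real.exp (13 / 8 + 2 * (662 / 100000 * xi)) := by
      rw [Real.exp_add, two_mul (662 / 100000 * xi), Real.exp_add]
      have h3 := h.H3
      calc (2 * ((2 * Hn ^ 2 : ℕ) : ℝ) + 1) ≤ 5 * (Hn * Hn) := by push_cast; nlinarith
        _ ≤ _ := by gcongr
    calc D ≤ Real.exp (13 / 8 + 2 * (662 / 100000 * xi)) ^ 16 := by
          rw [hD]; gcongr
      _ = Real.exp (16 * (13 / 8 + 2 * (662 / 100000 * xi))) := by
          rw [← Real.exp_nat_mul]; norm_num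
      _ ≤ _ := Real.exp_le_exp.2 (by linarith)
  have hEb : E ≤ Real.exp (5 / 4 * xi) := by
    have h1 : 8 * Crat / c0 ≤ Real.exp (8 * Crat / c0) := by
      have := Real.add_one_le_exp (8 * Crat / c0); linarith
    calc E ≤ Real.exp (26 + 212 / 1000 * xi) * Real.exp (8 * Crat / c0) * Real.exp xi *
          Real.exp (1 / 1000 * xi) * Real.exp (1 / 1000 * xi) := by
          rw [hE]
          have := h.tAl
          have := h.til
          gcongr
      _ = Real.exp (26 + 212 / 1000 * xi + 8 * Crat / c0 + xi + 1 / 1000 * xi +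
          1 / 1000 * xi) := by
          simp only [Real.exp_add]
      _ ≤ _ := Real.exp_le_exp.2 (by
          have := h.xi1
          have h2 : 0 ≤ 8 * Crat / c0 := by positivity
          linarith)
  have hE0 : 0 ≤ E := by positivity
  have hprod : D * (2 * Crat * L * Real.exp xA / tA) * ph = E * (c0 / 2 * L) := by
    rw [hphd, phh_eq h.tip, hE]
    have h1 : Real.exp xA = Real.exp (xA - xi) * Real.exp xi := by
      rw [← Real.exp_add]; ring_nf
    have h2 : Real.exp (-(xA - xi)) = (Real.exp (xA - xi))⁻¹ := Real.exp_neg _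
    rw [h1, h2]
    have h3 := Real.exp_pos (xA - xi)
    field_simp
    ring
  have hfac : (0 : ℝ) < s.factorial := by exact_mod_cast s.factorial_pos
  have hpow : (c0 / 2 * L) ^ s / (s.factorial : ℝ) ≤ Real.exp (c0 / 2 * L) :=
    Real.pow_div_factorial_le_exp _ (by positivity) s
  have hph16 : (ph ^ 16)⁻¹ ≤ Real.exp (16 * xA) := by
    have h1 := h.le_ph
    have h2 : Real.exp (-xA) ^ 16 ≤ ph ^ 16 := by gcongr
    have h3 : Real.exp (16 * xA) = (Real.exp (-xA) ^ 16)⁻¹ := by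
      rw [← Real.exp_nat_mul, ← Real.exp_neg]; norm_num
    rw [h3]
    exact inv_anti₀ (by positivity) h2
  have hsub : ph ^ (s - 16) = ph ^ s * (ph ^ 16)⁻¹ := by
    rw [pow_sub₀ _ hph.ne' hs]
  have hreorder : (((2 * ((2 * Hn ^ 2 : ℕ) : ℝ) + 1) ^ s) ^ 16 *
      ((2 * Crat * L * Real.exp xA / tA) ^ s * Real.exp (-(4 * c0 * L)))) / (s.factorial : ℝ) *
      ph ^ (s - 16) = E ^ s * ((c0 / 2 * L) ^ s / (s.factorial : ℝ)) * (ph ^ 16)⁻¹ *
        Real.exp (-(4 * c0 * L)) := by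
    have h1 : ((2 * ((2 * Hn ^ 2 : ℕ) : ℝ) + 1) ^ s) ^ 16 = D ^ s := by
      rw [hD, ← pow_mul, ← pow_mul, mul_comm s 16]
    rw [hsub, h1]
    calc D ^ s * ((2 * Crat * L * Real.exp xA / tA) ^ s * Real.exp (-(4 * c0 * L))) /
          (s.factorial : ℝ) * (ph ^ s * (ph ^ 16)⁻¹)
        = (D * (2 * Crat * L * Real.exp xA / tA) * ph) ^ s / (s.factorial : ℝ) * (ph ^ 16)⁻¹ *
          Real.exp (-(4 * c0 * L)) := by rw [mul_pow, mul_pow]; ring
      _ = _ := by rw [hprod, mul_pow]; ring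
  rw [hreorder]
  calc E ^ s * ((c0 / 2 * L) ^ s / (s.factorial : ℝ)) * (ph ^ 16)⁻¹ * Real.exp (-(4 * c0 * L))
      ≤ Real.exp (5 / 4 * xi) ^ s * Real.exp (c0 / 2 * L) * Real.exp (16 * xA) *
        Real.exp (-(4 * c0 * L)) := by gcongr
    _ = _ := by
      rw [← Real.exp_nat_mul, ← Real.exp_add, ← Real.exp_add, ← Real.exp_add]
      congr 1
      ring


lemma dl_pos (X : ℝ) (i : ℕ) : 0 < dl X i := by
  unfold dl
  have := tau_pos X (i + 1)
  have := lam_pos X i
  positivity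

lemma Hd_pos (X : ℝ) (i : ℕ) : 1 ≤ Hd X i := by
  unfold Hd
  have := dl_pos X i
  exact Nat.one_le_ceil_iff.2 (by positivity)

lemma NF_exists (Num : S_Num) {c0 Crat : ℝ} (hc0 : 0 < c0) (hc1 : c0 ≤ 1 / 100) (hCr : 1 ≤ Crat) :
    ∃ X0 : ℝ, ∀ X ≥ X0, ∀ i : ℕ, NF c0 Crat X (xl X i) (xl X (i + Rst)) (tau X (i + Rst))
      (tau X i) (Hd X (i + Rst)) := by
  obtain ⟨X0, hX0, h⟩ := Num (1000 + 100 * (8 * Crat / c0))
  refine ⟨X0, fun X hX i => ?_⟩
  obtain ⟨h1, h2, h3, h4, h5, h6, -, -⟩ := h X hX i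
  obtain ⟨-, h2A, -, -, -, -, h7A, -⟩ := h X hX (i + Rst)
  have hr : 0 ≤ 8 * Crat / c0 := by positivity
  set K := 1000 + 100 * (8 * Crat / c0) with hK
  set xi := xl X i with hxi
  set xA := xl X (i + Rst) with hxA
  have hK1 : 1000 ≤ K := by rw [hK]; linarith
  have hxi1 : 1000 ≤ xi := hK1.trans h1
  have hlog : 0 ≤ Real.log xi := Real.log_nonneg (by linarith)
  have hsq0 : 0 ≤ Real.sqrt xi := Real.sqrt_nonneg _
  have hsqs : 1000000 * Real.sqrt xi ≤ 1 / 200000 * xi := by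
    have e1 : K * Real.sqrt xi ≤ xi ^ (3 / 4 : ℝ) := by
      refine le_trans ?_ h3
      have : 0 ≤ K * Real.sqrt xi := by positivity
      nlinarith
    have e2 : K * (K * Real.sqrt xi) ≤ theta * xi := by
      refine le_trans ?_ h4
      exact mul_le_mul_of_nonneg_left e1 (by linarith)
    have e3 : 1000 * (1000 * Real.sqrt xi) ≤ K * (K * Real.sqrt xi) := by gcongr
    unfold theta at e2
    linarith
  have hsqA : Real.sqrt xA ≤ 25 * Real.sqrt xi := by
    have e1 : Real.sqrt xA ≤ Real.sqrt (25 ^ 2 * xi) := Real.sqrt_le_sqrt (by linarith)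
    rwa [Real.sqrt_mul (by norm_num), Real.sqrt_sq (by norm_num)] at e1
  have htA := tau_pos X (i + Rst)
  have hti := tau_pos X i
  refine ⟨hc0, hc1, hCr, h1, by linarith, h5, h6, htA, hti, tau_le_one _ _, tau_le_one _ _,
    ?_, ?_, Hd_pos _ _, ?_⟩
  · rw [← Real.log_le_iff_le_exp (by positivity)]
    linarith
  · rw [← Real.log_le_iff_le_exp (by positivity)]
    linarith
  · rw [← Real.log_le_iff_le_exp (by exact_mod_cast Hd_pos X (i + Rst))]
    exact h7A

lemma asym {c0 : ℝ} (hc0 : 0 < c0) (hc1 : c0 ≤ 1 / 100) :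
    ∃ n0 : ℕ, ∀ n ≥ n0, ∀ xA : ℝ, xA ≤ 2 * (n : ℝ) ^ (9 / 10 : ℝ) → 1000 * xA + 1000 ≤ c0 * NN n := by
  refine ⟨⌈(4000 / c0) ^ 10⌉₊, fun n hn xA hx => ?_⟩
  have h4 : 4000 / c0 ≤ (4000 / c0) ^ 10 := by
    refine le_self_pow₀ ?_ (by norm_num)
    rw [le_div_iff₀ hc0]; linarith
  have hn1 : (4000 / c0) ^ 10 ≤ n := (Nat.le_ceil _).trans (by exact_mod_cast hn)
  have hn2 : 4000 ≤ c0 * n := by
    have := h4.trans hn1
    rw [div_le_iff₀ hc0] at this
    linarith
  have hn3 : (400000 : ℝ) ≤ n := by nlinarith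
  have hn0 : (0 : ℝ) < n := by linarith
  have hlog : 1 ≤ Real.log n := by
    rw [Real.le_log_iff_exp_le hn0]
    have := Real.exp_one_lt_d9
    linarith
  have hpow : 4000 / c0 ≤ (n : ℝ) ^ (1 / 10 : ℝ) := by
    have h5 : (4000 / c0) = ((4000 / c0) ^ 10) ^ (1 / 10 : ℝ) := by
      rw [← Real.rpow_natCast, ← Real.rpow_mul (by positivity)]
      norm_num
    rw [h5]
    exact Real.rpow_le_rpow (by positivity) hn1 (by norm_num)
  have hsplit : (n : ℝ) = (n : ℝ) ^ (1 / 10 : ℝ) * (n : ℝ) ^ (9 / 10 : ℝ) := by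
    rw [← Real.rpow_add hn0]; norm_num
  have h9 : 0 ≤ (n : ℝ) ^ (9 / 10 : ℝ) := by positivity
  have h10 : 4000 * (n : ℝ) ^ (9 / 10 : ℝ) ≤ c0 * n := by
    have h11 : 4000 ≤ c0 * (n : ℝ) ^ (1 / 10 : ℝ) := by
      rw [div_le_iff₀ hc0] at hpow
      linarith
    calc 4000 * (n : ℝ) ^ (9 / 10 : ℝ) ≤ (c0 * (n : ℝ) ^ (1 / 10 : ℝ)) * (n : ℝ) ^ (9 / 10 : ℝ) := by
          gcongr
      _ = c0 * n := by rw [mul_assoc, ← hsplit]
  have h12 : c0 * n ≤ c0 * NN n := by
    unfold NN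
    have : 0 ≤ c0 * n := by positivity
    nlinarith
  linarith

/-! ## Assembly -/

open scoped Classical in
/-- the union bound over the minimal bad sets -/
lemma union_bound {P m : ℕ} [NeZero P] (I : ℕ) {rX : ℕ} {X : ℝ} {w : Pt m → List (ZMod P) → ℝ}
    {G : Finset (Pt m)} (hC : Ctx P m I rX X w G) (rows : List (Row P m)) (t : ℕ)
    (hI : rows.length + t ≤ I) (Ev : List (Row P m) → Prop) [DecidablePred Ev]
    (Z : Finset (Finset (Pt m)))
    (hsel : ∀ rows' : List (Row P m), alive w G rows' ⊆ alive w G rows → Ev rows' →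
      ∃ Y ∈ Z, Y ⊆ alive w G rows') :
    Ex t (fun rows' => if Ev rows' then (1 : ℝ) else 0) rows ≤
      ∑ Y ∈ Z, Ex t (fun rows' => if Y ⊆ alive w G rows' then (1 : ℝ) else 0) rows := by
  rw [← Ex_sum]
  refine Ex_mono _ _ t rows fun l hl => ?_
  have hsub := alive_sub hC rows l (by rw [List.length_append]; omega)
  by_cases hE : Ev (l ++ rows)
  · rw [if_pos hE]
    obtain ⟨Y, hY, hYa⟩ := hsel _ hsub hE
    have h1 : (1 : ℝ) = if Y ⊆ alive w G (l ++ rows) then (1 : ℝ) else 0 := by rw [if_pos hYa]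
    refine (le_of_eq h1).trans ?_
    exact Finset.single_le_sum (f := fun Y => if Y ⊆ alive w G (l ++ rows) then (1 : ℝ) else 0)
      (fun Y _ => by split_ifs <;> norm_num) hY
  · rw [if_neg hE]
    exact Finset.sum_nonneg fun Y _ => by split_ifs <;> norm_num

open scoped Classical in
/-- the sum over the bad sets -/
lemma sum_bound (E3 : S_E3) {m : ℕ} {c0 Crat X xi xA tA ti : ℝ} {Hn : ℕ}
    (h : NF c0 Crat X xi xA tA ti Hn) {L : ℝ} (hL : 0 ≤ L) (q K : ℕ) (hq : 1 ≤ q)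
    (W : Finset (Pt m))
    (hW : (W.card : ℝ) ≤ 2 * Crat * L * Real.exp xA / tA)
    (hE : (En q W : ℝ) ≤ (2 * Crat * L * Real.exp xA / tA) ^ (2 * q) * Real.exp (-(c0 / 4 * L))) :
    ∑ Z ∈ W.powerset.filter (fun Z => Z.card ≤ K ∧ Str (2 * Hn ^ 2) q Hn Z),
      phh X xi xA ti ^ (Z.card - 16) ≤
    (K + 1) * Real.exp (5 / 4 * xi * K + c0 / 2 * L + 16 * xA - 4 * c0 * L) := by
  set ph := phh X xi xA ti with hph
  have hphp : 0 < ph := phh_pos h.tip
  have hb := h.big
  set M := 2 * Crat * L * Real.exp xA / tA with hM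
  have hM0 : 0 ≤ M := by
    have := h.Crp; have := h.tAp; positivity
  have hmaps : ∀ Z ∈ W.powerset.filter (fun Z => Z.card ≤ K ∧ Str (2 * Hn ^ 2) q Hn Z),
      Z.card ∈ Finset.range (K + 1) := fun Z hZ => by
    rw [Finset.mem_range]; have := (Finset.mem_filter.1 hZ).2.1; omega
  rw [← Finset.sum_fiberwise_of_maps_to hmaps]
  have hterm : ∀ s ∈ Finset.range (K + 1),
      ∑ Z ∈ (W.powerset.filter (fun Z => Z.card ≤ K ∧ Str (2 * Hn ^ 2) q Hn Z)).filter
        (fun Z => Z.card = s), ph ^ (Z.card - 16) ≤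
      Real.exp (5 / 4 * xi * K + c0 / 2 * L + 16 * xA - 4 * c0 * L) := by
    intro s hs
    rw [Finset.mem_range] at hs
    set ZZ := W.powerset.filter fun Z => Z.card = s ∧ Str (2 * Hn ^ 2) q Hn Z with hZZ
    have hle : ∑ Z ∈ (W.powerset.filter (fun Z => Z.card ≤ K ∧ Str (2 * Hn ^ 2) q Hn Z)).filter
        (fun Z => Z.card = s), ph ^ (Z.card - 16) ≤ ∑ Z ∈ ZZ, ph ^ (s - 16) := by
      refine (Finset.sum_le_sum (g := fun _ => ph ^ (s - 16)) fun Z hZ => ?_).trans ?_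
      · rw [(Finset.mem_filter.1 hZ).2]
      · refine Finset.sum_le_sum_of_subset_of_nonneg ?_ fun _ _ _ => by positivity
        intro Z hZ
        obtain ⟨hZ1, hZ2⟩ := Finset.mem_filter.1 hZ
        obtain ⟨hZ3, hZ4⟩ := Finset.mem_filter.1 hZ1
        exact Finset.mem_filter.2 ⟨hZ3, hZ2, hZ4.2⟩
    refine hle.trans ?_
    rw [Finset.sum_const, nsmul_eq_mul]
    by_cases hem : ZZ = ∅
    · rw [hem]
      simp only [Finset.card_empty, Nat.cast_zero, zero_mul]
      positivity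
    · obtain ⟨Z0, hZ0⟩ := Finset.nonempty_iff_ne_empty.2 hem
      obtain ⟨-, hZs, -, v, hv, e, he, heZ, -⟩ := Finset.mem_filter.1 hZ0
      have hs32 : 2 * q * 16 ≤ s := by
        have h1 : (Finset.univ.image e).card = 2 * q * 16 := by
          rw [Finset.card_image_of_injective _ he]
          simp
        rw [← h1, ← hZs]
        refine Finset.card_le_card fun g hg => ?_
        obtain ⟨p, -, rfl⟩ := Finset.mem_image.1 hg
        exact heZ p
      have hs16 : 16 ≤ s := by omega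
      have hcount := count E3 (2 * Hn ^ 2) q Hn s W
      have hfac : (0 : ℝ) < s.factorial := by exact_mod_cast s.factorial_pos
      have hcount' : (ZZ.card : ℝ) * s.factorial ≤
          ((2 * ((2 * Hn ^ 2 : ℕ) : ℝ) + 1) ^ s) ^ 16 *
            (M ^ s * Real.exp (-(4 * c0 * L))) := by
        have h1 : (ZZ.card : ℝ) * s.factorial ≤ (((2 * (2 * Hn ^ 2) + 1) ^ s) ^ 16 *
            (W.card ^ (s - 2 * q * 16) * En q W ^ 16) : ℕ) := by
          exact_mod_cast hcount
        refine h1.trans ?_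
        push_cast
        have h2 : (W.card : ℝ) ^ (s - 2 * q * 16) * (En q W : ℝ) ^ 16 ≤
            M ^ s * Real.exp (-(4 * c0 * L)) := by
          calc (W.card : ℝ) ^ (s - 2 * q * 16) * (En q W : ℝ) ^ 16
              ≤ M ^ (s - 2 * q * 16) * (M ^ (2 * q) * Real.exp (-(c0 / 4 * L))) ^ 16 := by gcongr
            _ = M ^ (s - 2 * q * 16) * M ^ (2 * q * 16) * Real.exp (-(c0 / 4 * L)) ^ 16 := by
                rw [mul_pow, ← pow_mul]; ring
            _ = M ^ s * Real.exp (-(4 * c0 * L)) := by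
                rw [← pow_add, Nat.sub_add_cancel hs32, ← Real.exp_nat_mul]
                congr 2
                push_cast
                ring
        gcongr
      calc (ZZ.card : ℝ) * ph ^ (s - 16)
          = ((ZZ.card : ℝ) * s.factorial) / s.factorial * ph ^ (s - 16) := by
            field_simp
        _ ≤ (((2 * ((2 * Hn ^ 2 : ℕ) : ℝ) + 1) ^ s) ^ 16 *
            (M ^ s * Real.exp (-(4 * c0 * L)))) / (s.factorial : ℝ) * ph ^ (s - 16) := by
            gcongr
        _ ≤ Real.exp (5 / 4 * xi * s + c0 / 2 * L + 16 * xA - 4 * c0 * L) :=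
            h.term hL s hs16
        _ ≤ _ := by
            refine Real.exp_le_exp.2 ?_
            have : (s : ℝ) ≤ K := by exact_mod_cast (by omega : s ≤ K)
            nlinarith
  refine (Finset.sum_le_sum hterm).trans ?_
  rw [Finset.sum_const, Finset.card_range, nsmul_eq_mul]
  push_cast
  exact le_rfl

end Crest.Agent.R225.HRC

namespace Crest.Agent.R225

theorem prf_HRC (E3 : S_E3) (G1 : S_G1) (G2 : S_G2) (G3 : S_G3) (Num : S_Num) (Surv : S_Surv) :
    S_HRC := by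
  classical
  intro c0 Crat hc0 hc1 hCr
  obtain ⟨X1, hX1⟩ := HRC.NF_exists Num hc0 hc1 hCr
  obtain ⟨X2, hX2⟩ := Surv
  refine ⟨max X1 X2, fun X hX => ?_⟩
  have hXX1 : X ≥ X1 := le_trans (le_max_left _ _) hX
  have hXX2 : X ≥ X2 := le_trans (le_max_right _ _) hX
  obtain ⟨n0, hn0⟩ := HRC.asym hc0 hc1
  refine ⟨n0, fun n hn m i rX hx => ?_⟩
  obtain ⟨P0, hP0⟩ := hX2 X hXX2 m i Rst rX (2 * kk X c0 n i) le_rfl
  refine ⟨P0, fun P hP hPp I w G rows hC hI hcard hEn => ?_⟩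
  have nf := hX1 X hXX1 i
  have hb := nf.big
  have hasy := hn0 n hn _ hx
  have h5 := nf.h5
  set xi := xl X i with hxi
  set xA := xl X (i + Rst) with hxA
  set L := NN n with hLd
  set q := kk X c0 n (i + Rst) with hq
  set K := 2 * kk X c0 n i with hK
  have hL : 0 ≤ L := by nlinarith
  have hxi0 : 0 < xi := by linarith
  have hxA0 : 0 < xA := by linarith
  have hq1 : 1 ≤ q := by
    rw [hq]; unfold kk
    refine Nat.one_le_ceil_iff.2 ?_
    have : 0 < c0 * NN n := by rw [← hLd]; nlinarith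
    positivity
  have hqle : (q : ℝ) ≤ c0 * L / xA + 1 := by
    rw [hq]; unfold kk
    exact (Nat.ceil_lt_add_one (by positivity)).le
  have hKle : (K : ℝ) ≤ 2 * (c0 * L / xi + 1) := by
    rw [hK]; push_cast
    unfold kk
    have := (Nat.ceil_lt_add_one (a := c0 * NN n / xl X i) (by positivity)).le
    linarith
  -- the selection
  have hcA : c0 * L / xA ≤ c0 * L / (600 * xi) := by gcongr
  have hsp : (2 * q * 16 : ℝ) ≤ sp X c0 n i := by
    unfold sp
    rw [← hLd, ← hxi]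
    have e1 : c0 / 16 * L / xi = 1 / 16 * (c0 * L / xi) := by ring
    have e2 : c0 * L / (600 * xi) = 1 / 600 * (c0 * L / xi) := by
      field_simp
    have e3 : 10000 ≤ c0 * L / xi := by
      rw [le_div_iff₀ hxi0]; nlinarith
    rw [e1]
    rw [e2] at hcA
    linarith
  have hsel : ∀ rows' : List (Row P m), alive w G rows' ⊆ alive w G rows →
      (NoRel (alive w G rows') (Bh X i) (sp X c0 n i) ∧
        ∃ Z ⊆ alive w G rows', Z.card ≤ 2 * kk X c0 n i ∧
          RkGe Z (2 * (Hd X (i + Rst) : ℝ) ^ 2) 16) →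
      ∃ Y ∈ (alive w G rows).powerset.filter
        (fun Z => Z.card ≤ K ∧ HRC.Str (2 * Hd X (i + Rst) ^ 2) q (Hd X (i + Rst)) Z),
        Y ⊆ alive w G rows' := by
    rintro rows' hsub ⟨hNo, Z, hZ, hZK, hR⟩
    obtain ⟨Y, hY, hYK, hStr⟩ := HRC.select G1 G2 G3 (alive w G rows') Z nf.H1 hsp nf.height hNo
      hZ hZK hR
    exact ⟨Y, Finset.mem_filter.2 ⟨Finset.mem_powerset.2 (hY.trans hsub), hYK, hStr⟩, hY⟩
  refine (HRC.union_bound I hC rows Rst (by omega) _ _ hsel).trans ?_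
  have hsurv : ∀ Y ∈ (alive w G rows).powerset.filter
        (fun Z => Z.card ≤ K ∧ HRC.Str (2 * Hd X (i + Rst) ^ 2) q (Hd X (i + Rst)) Z),
      Ex Rst (fun rows' => if Y ⊆ alive w G rows' then (1 : ℝ) else 0) rows ≤
        HRC.phh X xi xA (tau X i) ^ (Y.card - 16) := by
    intro Y hY
    obtain ⟨hYW, hYK, ⟨Z0, hZ0Y, hZ0c, hZ0⟩, -⟩ := Finset.mem_filter.1 hY
    rw [Finset.mem_powerset] at hYW
    have h1 : Ex Rst (fun rows' => if Y ⊆ alive w G rows' then (1 : ℝ) else 0) rows ≤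
        Ex Rst (fun rows' => if Z0 ⊆ alive w G rows' then (1 : ℝ) else 0) rows := by
      refine HRC.Ex_mono _ _ Rst rows fun l _ => ?_
      by_cases hYa : Y ⊆ alive w G (l ++ rows)
      · rw [if_pos hYa, if_pos (hZ0Y.trans hYa)]
      · rw [if_neg hYa]
        split_ifs <;> norm_num
    refine h1.trans ?_
    have h2 := hP0 P hP I w G Z0 rows hC hI ((Finset.card_le_card hZ0Y).trans hYK)
      (hZ0Y.trans hYW) hZ0
    refine h2.trans ?_
    have h3 : 2 * al X (i + Rst) / (tau X i * al X i) = HRC.phh X xi xA (tau X i) := rfl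
    rw [h3]
    exact pow_le_pow_of_le_one (HRC.phh_pos nf.tip).le nf.ph_le (by omega)
  refine (Finset.sum_le_sum hsurv).trans ?_
  refine (HRC.sum_bound E3 nf hL q K hq1 (alive w G rows) hcard hEn).trans ?_
  have hK1 : (K : ℝ) + 1 ≤ Real.exp K := by
    have := Real.add_one_le_exp (K : ℝ); linarith
  have hKx : xi * K ≤ 2 * c0 * L + 2 * xi := by
    have : xi * K ≤ xi * (2 * (c0 * L / xi + 1)) := by gcongr
    refine this.trans (le_of_eq ?_)
    field_simp
  have hKs : (K : ℝ) ≤ 1 / 100 * (c0 * L) + 2 := by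
    have : c0 * L / xi ≤ c0 * L / 1000 := by gcongr
    linarith
  calc ((K : ℝ) + 1) * Real.exp (5 / 4 * xi * K + c0 / 2 * L + 16 * xA - 4 * c0 * L)
      ≤ Real.exp K * Real.exp (5 / 4 * xi * K + c0 / 2 * L + 16 * xA - 4 * c0 * L) := by gcongr
    _ = Real.exp (K + (5 / 4 * xi * K + c0 / 2 * L + 16 * xA - 4 * c0 * L)) := by
        rw [← Real.exp_add]
    _ ≤ _ := Real.exp_le_exp.2 (by nlinarith)

end Crest.Agent.R225
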