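import Crest.Agent.R225.Iface

/-!
Row 225 (S0347), node PMain: condition on the first row, then use the multi-level theorem.
-/

set_option autoImplicit false

open Finset
open scoped BigOperators

namespace Crest.Agent.R225

namespace PMainAux

lemma Ex_mono {P m : ℕ} [NeZero P] (k : ℕ) {F F' : List (Row P m) → ℝ}
    (h : ∀ rows, F rows ≤ F' rows) : ∀ rows, Ex k F rows ≤ Ex k F' rows := by
  induction k with
  | zero => exact h
  | succ k ih =>
    intro rows
    simp only [Ex]
    exact Finset.expect_le_expect fun r _ => ih (r :: rows)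

lemma Ex_const {P m : ℕ} [NeZero P] (k : ℕ) (c : ℝ) :
    ∀ rows : List (Row P m), Ex k (fun _ => c) rows = c := by
  induction k with
  | zero => intro rows; rfl
  | succ k ih =>
    intro rows
    simp only [Ex]
    rw [Finset.expect_congr rfl (fun r _ => ih (r :: rows))]
    exact Finset.expect_const Finset.univ_nonempty c

lemma Ex_append {P m : ℕ} [NeZero P] (k : ℕ) (F : List (Row P m) → ℝ) (s : List (Row P m)) :
    ∀ rows, Ex k F (rows ++ s) = Ex k (fun rows' => F (rows' ++ s)) rows := by
  induction k with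
  | zero => intro rows; rfl
  | succ k ih =>
    intro rows
    simp only [Ex]
    refine Finset.expect_congr rfl fun r _ => ?_
    exact ih (r :: rows)

lemma wt_append {P m : ℕ} (w : Pt m → List (ZMod P) → ℝ) (rows : List (Row P m)) (r : Row P m)
    (g : Pt m) : wt w (rows ++ [r]) g = wt (shiftw w r) rows g := by
  simp [wt, shiftw, hist]

lemma alive_append {P m : ℕ} (w : Pt m → List (ZMod P) → ℝ) (G : Finset (Pt m))
    (rows : List (Row P m)) (r : Row P m) :
    alive w G (rows ++ [r]) = alive (shiftw w r) G rows := by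
  unfold alive
  congr 1
  funext g
  rw [wt_append]

lemma alive_mono {P m : ℕ} (w : Pt m → List (ZMod P) → ℝ) {G G' : Finset (Pt m)} (h : G' ⊆ G)
    (rows : List (Row P m)) : alive w G' rows ⊆ alive w G rows := by
  unfold alive
  exact Finset.filter_subset_filter _ h

lemma ctx_shift {P m I rX : ℕ} [NeZero P] {X α0 : ℝ} {w : Pt m → List (ZMod P) → ℝ}
    (hw : WHyp w (I + 1) (alf X α0 I) (tauf X I) (4 / P)) (r : Row P m) (G : Finset (Pt m))
    (hbox : ∃ g0 : Pt m, ∀ g ∈ G, ∀ k, |g k - g0 k| ≤ rX) :
    Ctx P m I rX X (shiftw w r) G := by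
  have e1 : ∀ j : ℕ, alf X α0 I (j + 1) = al X (I - j) := by
    intro j
    simp [alf]
  have e2 : ∀ j : ℕ, tauf X I (j + 1) = tau X (I - j) := by
    intro j
    simp [tauf]
  refine ⟨⟨?_, ?_, ?_, ?_⟩, hbox⟩
  · intro g l ξ h
    exact hw.dead g (l ++ [res r g]) ξ h
  · intro g l hl
    have h := hw.rng g (l ++ [res r g]) (by simp; omega)
    rw [List.length_append, List.length_singleton, e1, e2] at h
    exact h
  · intro g l hl
    have h := hw.mart g (l ++ [res r g]) (by simp; omega)
    rw [List.length_append, List.length_singleton, e1] at h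
    exact h
  · intro g l hl
    have h := hw.tv g (l ++ [res r g]) (by simp; omega)
    rw [List.length_append, List.length_singleton, e1] at h
    exact h

end PMainAux

open PMainAux

open scoped Classical in
theorem prf_PMain (hBase : S_Base) (hMulti : S_Multi) : S_PMain := by
  intro c1 Crat hc1 hc11 hCrat
  obtain ⟨X1, hX1⟩ := hBase c1 Crat hc1 hc11 hCrat
  obtain ⟨X2, hX2⟩ := hMulti (c1 / 400) Crat (by positivity) (by linarith) hCrat
  refine ⟨max X1 X2, fun X hX => ?_⟩
  obtain ⟨n1, hn1⟩ := hX1 X ((le_max_left _ _).trans hX)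
  obtain ⟨n2, hn2⟩ := hX2 X ((le_max_right _ _).trans hX)
  refine ⟨max (max n1 n2) (max 3 ⌈800000 / c1⌉₊), fun n hn => ?_⟩
  have hna : n1 ≤ n := (le_max_left _ _).trans ((le_max_left _ _).trans hn)
  have hnb : n2 ≤ n := (le_max_right _ _).trans ((le_max_left _ _).trans hn)
  have hnc : 3 ≤ n := (le_max_left _ _).trans ((le_max_right _ _).trans hn)
  have hnd : ⌈800000 / c1⌉₊ ≤ n := (le_max_right _ _).trans ((le_max_right _ _).trans hn)
  intro m I hI1 hI2 hm1 hm2 G
  obtain ⟨P1, hP1⟩ := hn1 n hna m I hI1 hI2 hm1 hm2 G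
  obtain ⟨P2, hP2⟩ := hn2 n hnb m I (n ^ 16) hI1 hI2
  refine ⟨max P1 P2, fun P hP => ?_⟩
  intro _ α0 w hctx
  have hb := hP1 P ((le_max_left _ _).trans hP) α0 w hctx
  have hmulti := hP2 P ((le_max_right _ _).trans hP)
  set N := NN n with hN
  -- condition on the first row
  have key : ∀ r : Row P m,
      Ex I (fun rows => if alive w G rows = ∅ then (1 : ℝ) else 0) [r] ≤
        (if ∃ G' ⊆ alive w G [r],
          GoodStart n m I (n ^ 16) X (c1 / 400) Crat G' (shiftw w r) then (0 : ℝ) else 1) +
        Real.exp (-(c1 / 400 / 400 * N)) := by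
    intro r
    by_cases hg : ∃ G' ⊆ alive w G [r],
          GoodStart n m I (n ^ 16) X (c1 / 400) Crat G' (shiftw w r)
    · rw [if_pos hg, zero_add]
      obtain ⟨G', hG', hgood⟩ := hg
      have hG'G : G' ⊆ G := hG'.trans (Finset.filter_subset _ _)
      have h1 := hmulti (shiftw w r) G' (ctx_shift hctx.hw r G' hgood.box) hgood
      refine le_trans ?_ h1
      have h2 : ([r] : List (Row P m)) = [] ++ [r] := rfl
      rw [h2, Ex_append]
      refine Ex_mono I ?_ []
      intro rows
      rw [alive_append]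
      by_cases h3 : alive (shiftw w r) G rows = ∅
      · have h4 : alive (shiftw w r) G' rows = ∅ :=
          Finset.subset_empty.mp (h3 ▸ alive_mono (shiftw w r) hG'G rows)
        rw [if_pos h3, if_pos h4]
      · rw [if_neg h3]
        split_ifs <;> norm_num
    · rw [if_neg hg]
      have h1 : Ex I (fun rows => if alive w G rows = ∅ then (1 : ℝ) else 0) [r] ≤
          Ex I (fun _ => (1 : ℝ)) [r] := by
        refine Ex_mono I ?_ [r]
        intro rows
        split_ifs <;> norm_num
      rw [Ex_const] at h1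
      have := Real.exp_pos (-(c1 / 400 / 400 * N))
      linarith
  have h5 : Ex (I + 1) (fun rows => if alive w G rows = ∅ then (1 : ℝ) else 0) [] ≤
      Real.exp (-(c1 / 4 * N)) + Real.exp (-(c1 / 400 / 400 * N)) := by
    simp only [Ex]
    refine (Finset.expect_le_expect fun r _ => key r).trans ?_
    rw [Finset.expect_add_distrib, Finset.expect_const Finset.univ_nonempty]
    exact add_le_add_left hb _
  refine h5.trans ?_
  -- numerics
  have hn3 : (3 : ℝ) ≤ n := by exact_mod_cast hnc
  have hnC : 800000 / c1 ≤ n := (Nat.le_ceil _).trans (by exact_mod_cast hnd)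
  have hlog1 : 1 ≤ Real.log n := by
    rw [Real.le_log_iff_exp_le (by linarith)]
    exact (Real.exp_one_lt_d9.le.trans (by norm_num)).trans hn3
  have hNn : (n : ℝ) ≤ N := by
    rw [hN]; unfold NN; nlinarith
  have hcN : 800000 ≤ c1 * N := by
    rw [div_le_iff₀ hc1] at hnC
    nlinarith
  have e1 : Real.exp (-1) ≤ 1 / 2 := by
    have := Real.exp_neg_one_lt_d9
    linarith
  have e2 : Real.exp (-(c1 / 4 * N)) ≤ Real.exp (-(c1 / 200000 * N)) * Real.exp (-1) := by
    rw [← Real.exp_add]
    apply Real.exp_le_exp.mpr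
    nlinarith
  have e3 : Real.exp (-(c1 / 400 / 400 * N)) ≤
      Real.exp (-(c1 / 200000 * N)) * Real.exp (-1) := by
    rw [← Real.exp_add]
    apply Real.exp_le_exp.mpr
    nlinarith
  have e4 := Real.exp_pos (-(c1 / 200000 * N))
  nlinarith

end Crest.Agent.R225
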