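import Crest.Agent.R225.Iface

/-!
# Row 225 (S0347): node Surv

`prf_Surv : S_F2 → S_Num → S_Surv`.
-/

set_option autoImplicit false

open Finset MeasureTheory
open scoped BigOperators ENNReal

namespace Crest.Agent.R225

namespace Surv

/-! ### elementary facts on the parameters -/

lemma theta_pos : 0 < theta := by norm_num [theta]

lemma xl_nonneg {X : ℝ} (hX : 0 ≤ X) (i : ℕ) : 0 ≤ xl X i :=
  mul_nonneg hX (pow_nonneg (by linarith [theta_pos]) _)

lemma xl_succ (X : ℝ) (i : ℕ) : xl X (i + 1) = (1 + theta) * xl X i := by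
  simp only [xl, pow_succ]; ring

lemma xl_le_succ {X : ℝ} (hX : 0 ≤ X) (i : ℕ) : xl X i ≤ xl X (i + 1) := by
  rw [xl_succ]
  nlinarith [xl_nonneg hX i, theta_pos]

lemma lam_ge_one (X : ℝ) (i : ℕ) : 1 ≤ lam X i := Real.one_le_exp (Real.sqrt_nonneg _)

lemma lam_pos (X : ℝ) (i : ℕ) : 0 < lam X i := Real.exp_pos _

lemma lam_le_succ {X : ℝ} (hX : 0 ≤ X) (i : ℕ) : lam X i ≤ lam X (i + 1) := by
  unfold lam
  exact Real.exp_le_exp.mpr (Real.sqrt_le_sqrt (xl_le_succ hX i))

lemma tau_pos (X : ℝ) (i : ℕ) : 0 < tau X i := by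
  unfold tau
  apply Finset.prod_pos
  intro j _
  have := lam_pos X j
  positivity

lemma tau_succ (X : ℝ) (i : ℕ) : tau X (i + 1) = tau X i * (1 / (2 * (lam X i) ^ 2)) := by
  unfold tau
  rw [Finset.prod_range_succ]

lemma tau_succ_le (X : ℝ) (i : ℕ) : tau X (i + 1) ≤ tau X i := by
  rw [tau_succ]
  have h1 := tau_pos X i
  have h2 := lam_ge_one X i
  have h3 : 1 / (2 * (lam X i) ^ 2) ≤ 1 := by
    rw [div_le_one (by positivity)]
    nlinarith
  nlinarith

lemma tau_le_one (X : ℝ) (i : ℕ) : tau X i ≤ 1 := by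
  induction i with
  | zero => simp [tau]
  | succ i ih => exact (tau_succ_le X i).trans ih

lemma al_pos (X : ℝ) (i : ℕ) : 0 < al X i := Real.exp_pos _

lemma dl_pos (X : ℝ) (i : ℕ) : 0 < dl X i := by
  unfold dl
  have h1 := tau_pos X (i + 1)
  have h2 := lam_pos X i
  positivity

lemma dl_le_one {X : ℝ} (hX : 0 ≤ X) (i : ℕ) : dl X i ≤ 1 := by
  unfold dl
  have h2 := lam_ge_one X i
  rw [div_le_one (by positivity)]
  have h3 : Real.exp (-(theta * xl X i)) ≤ 1 := by
    rw [Real.exp_le_one_iff]
    have := mul_nonneg theta_pos.le (xl_nonneg hX i)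
    linarith
  have h4 : tau X (i + 1) * Real.exp (-(theta * xl X i)) ≤ 1 :=
    mul_le_one₀ (tau_le_one X _) (Real.exp_pos _).le h3
  linarith

lemma dl_succ_le {X : ℝ} (hX : 0 ≤ X) (i : ℕ) : dl X (i + 1) ≤ dl X i := by
  unfold dl
  have h1 := tau_pos X (i + 1 + 1)
  have h1' := tau_pos X (i + 1)
  have h2 := lam_pos X i
  have h3 := lam_pos X (i + 1)
  apply div_le_div₀ (by positivity)
  · apply mul_le_mul (tau_succ_le X (i + 1)) _ (Real.exp_pos _).le h1'.le
    apply Real.exp_le_exp.mpr
    have := mul_le_mul_of_nonneg_left (xl_le_succ hX i) theta_pos.le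
    linarith
  · positivity
  · have := lam_le_succ hX i
    linarith

lemma Hd_le_succ {X : ℝ} (hX : 0 ≤ X) (i : ℕ) : Hd X i ≤ Hd X (i + 1) := by
  unfold Hd
  apply Nat.ceil_le_ceil
  have h1 := dl_pos X i
  have h2 := dl_pos X (i + 1)
  have h3 := dl_succ_le hX i
  gcongr

lemma Hd_mono {X : ℝ} (hX : 0 ≤ X) : Monotone (Hd X) := monotone_nat_of_le_succ (Hd_le_succ hX)

/-- the accuracy times the new bound is the old lower bound over `8λ` -/
lemma dl_mul_al (X : ℝ) (i : ℕ) :
    dl X i * al X i = tau X (i + 1) * al X (i + 1) / (8 * lam X i) := by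
  unfold dl al
  rw [xl_succ]
  have h : Real.exp (-((1 + theta) * xl X i - X))
      = Real.exp (-(theta * xl X i)) * Real.exp (-(xl X i - X)) := by
    rw [← Real.exp_add]; congr 1; ring
  rw [h]
  ring

/-! ### largeness of `P` -/

/-- `P` is large enough for the row from level `j+1` to level `j` -/
def Pok (X : ℝ) (rX z P j : ℕ) : Prop :=
  1000 * (Hd X j : ℝ) ≤ dl X j * P ∧ 4 * Hd X j * (z + 1) * (rX + 1) < P ∧
    4 / P * al X j ≤ tau X (j + 1) * al X (j + 1) / (8 * lam X j)

lemma exists_Pok (X : ℝ) (rX z j : ℕ) : ∃ P0 : ℕ, ∀ P ≥ P0, Pok X rX z P j := by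
  have h1 := dl_pos X j
  set c := tau X (j + 1) * al X (j + 1) / (8 * lam X j) with hc
  have hc0 : 0 < c := by
    rw [hc]
    have h1 := tau_pos X (j + 1)
    have h2 := lam_pos X j
    have h3 := al_pos X (j + 1)
    positivity
  refine ⟨max (max ⌈1000 * (Hd X j : ℝ) / dl X j⌉₊ (4 * Hd X j * (z + 1) * (rX + 1) + 1))
    (max 1 ⌈4 * al X j / c⌉₊), ?_⟩
  intro P hP
  have hP1 : ⌈1000 * (Hd X j : ℝ) / dl X j⌉₊ ≤ P :=
    (le_max_left _ _).trans ((le_max_left _ _).trans hP)
  have hP2 : 4 * Hd X j * (z + 1) * (rX + 1) + 1 ≤ P :=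
    (le_max_right _ _).trans ((le_max_left _ _).trans hP)
  have hP3 : 1 ≤ P := (le_max_left _ _).trans ((le_max_right _ _).trans hP)
  have hP4 : ⌈4 * al X j / c⌉₊ ≤ P := (le_max_right _ _).trans ((le_max_right _ _).trans hP)
  refine ⟨?_, by omega, ?_⟩
  · have := Nat.ceil_le.mp hP1
    rw [div_le_iff₀ h1] at this
    linarith
  · have := Nat.ceil_le.mp hP4
    rw [div_le_iff₀ hc0] at this
    have hPpos : (0:ℝ) < P := by exact_mod_cast hP3
    rw [div_mul_eq_mul_div, div_le_iff₀ hPpos]
    linarith

lemma exists_Pok_all (X : ℝ) (rX z N : ℕ) : ∃ P0 : ℕ, ∀ P ≥ P0, ∀ j < N, Pok X rX z P j := by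
  induction N with
  | zero => exact ⟨0, fun P _ j hj => absurd hj (Nat.not_lt_zero _)⟩
  | succ N ih =>
    obtain ⟨P0, h0⟩ := ih
    obtain ⟨P1, h1⟩ := exists_Pok X rX z N
    refine ⟨max P0 P1, fun P hP j hj => ?_⟩
    rcases Nat.lt_succ_iff_lt_or_eq.mp hj with h | h
    · exact h0 P ((le_max_left _ _).trans hP) j h
    · rw [h]; exact h1 P ((le_max_right _ _).trans hP)

/-! ### monotonicity of `Ex` -/

lemma Ex_mono {P m : ℕ} [NeZero P] (k : ℕ) {F F' : List (Row P m) → ℝ} (h : ∀ l, F l ≤ F' l) :
    ∀ rows, Ex k F rows ≤ Ex k F' rows := by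
  induction k with
  | zero => intro rows; exact h rows
  | succ k ih =>
    intro rows
    simp only [Ex]
    exact Finset.expect_le_expect fun r _ => ih (r :: rows)

/-- monotonicity, only for lists of the right form -/
lemma Ex_mono_of {P m : ℕ} [NeZero P] (k : ℕ) {F F' : List (Row P m) → ℝ} :
    ∀ rows, (∀ l : List (Row P m), l.length = k → F (l ++ rows) ≤ F' (l ++ rows)) →
      Ex k F rows ≤ Ex k F' rows := by
  induction k with
  | zero => intro rows h; exact h [] rfl
  | succ k ih =>
    intro rows h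
    simp only [Ex]
    refine Finset.expect_le_expect fun r _ => ih (r :: rows) ?_
    intro l hl
    have := h (l ++ [r]) (by simp [hl])
    simpa using this

/-! ### one row -/

/-- `BRel` is monotone in the height -/
lemma BRel.mono {m : ℕ} {Z : Finset (Pt m)} {B B' : ℝ} (h : B ≤ B') {v : Pt m → ℤ}
    (hv : BRel Z B v) : BRel Z B' v := ⟨hv.1, fun g => (hv.2 g).trans h⟩

/-- one row, from level `j+1` to level `j` -/
lemma one_row (hF2 : S_F2) {P m I rX z : ℕ} [Fact P.Prime] {X : ℝ} (hX : 0 ≤ X)
    {w : Pt m → List (ZMod P) → ℝ} {G Z : Finset (Pt m)} (hctx : Ctx P m I rX X w G)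
    (hZG : Z ⊆ G) (hz : Z.card ≤ z) {j : ℕ} (hP : Pok X rX z P j) (rows : List (Row P m))
    (hlen : rows.length + (j + 1) = I) (hrel : ∀ h, BRel Z (Hd X j) h → h = 0) :
    𝔼 r : Row P m, ∏ g ∈ Z, wt w (r :: rows) g
      ≤ (1 + 1 / (4 * lam X j)) ^ Z.card * ∏ g ∈ Z, wt w rows g := by
  classical
  have hP0 : 0 < P := (Fact.out : P.Prime).pos
  have hlenlt : rows.length < I := by omega
  have hhist : ∀ g, (hist rows g).length = rows.length := by
    intro g; simp [hist]
  have hIj : I - (rows.length + 1) = j := by omega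
  have hIj1 : I - rows.length = j + 1 := by omega
  have hlam := lam_pos X j
  have halpos := al_pos X j
  -- weights are nonnegative
  have hwnn : ∀ g, 0 ≤ wt w rows g := by
    intro g
    unfold wt
    rcases hctx.hw.rng g (hist rows g) (by rw [hhist]; omega) with h | h
    · rw [h]
    · refine le_trans ?_ h.1
      rw [hhist]
      exact mul_nonneg (tau_pos _ _).le (al_pos _ _).le
  by_cases hdead : ∃ g ∈ Z, wt w rows g = 0
  · obtain ⟨g, hg, hg0⟩ := hdead
    have h1 : ∏ g ∈ Z, wt w rows g = 0 := Finset.prod_eq_zero hg hg0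
    have h2 : ∀ r : Row P m, ∏ g ∈ Z, wt w (r :: rows) g = 0 := by
      intro r
      apply Finset.prod_eq_zero hg
      unfold wt
      simp only [hist, List.map_cons]
      exact hctx.hw.dead g _ _ hg0
    rw [h1, mul_zero]
    simp only [h2]
    simp
  push Not at hdead
  obtain ⟨g0, hg0⟩ := hctx.box
  have hF := hF2 m (Hd X j) P rX (dl X j) (al X j) Z g0 (fun g x => w g (x :: hist rows g))
    (dl_pos X j) (dl_le_one hX j) (Nat.le_ceil _) hP.1 ?_ halpos
    (fun g hg k => hg0 g (hZG hg) k) ?_ hrel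
  · -- main estimate
    have e1 : (𝔼 r : Row P m, ∏ g ∈ Z, wt w (r :: rows) g)
        = 𝔼 r : Row P m, ∏ g ∈ Z, w g (res r g :: hist rows g) := rfl
    rw [e1]
    refine hF.trans ?_
    rw [← Finset.prod_const, ← Finset.prod_mul_distrib]
    apply Finset.prod_le_prod
    · intro g hg
      have : 0 ≤ 𝔼 x, w g (x :: hist rows g) := by
        apply Finset.expect_nonneg
        intro x _
        rcases hctx.hw.rng g (x :: hist rows g) (by simp [hhist]; omega) with h | h
        · rw [h]
        · refine le_trans ?_ h.1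
          exact mul_nonneg (tau_pos _ _).le (al_pos _ _).le
      have := mul_nonneg (dl_pos X j).le halpos.le
      linarith
    · intro g hg
      have hw0 : wt w rows g ≠ 0 := hdead g hg
      have hmart := hctx.hw.mart g (hist rows g) (by rw [hhist]; exact hlenlt)
      rw [hhist, hIj, abs_le] at hmart
      have hlow : tau X (j + 1) * al X (j + 1) ≤ wt w rows g := by
        rcases hctx.hw.rng g (hist rows g) (by rw [hhist]; omega) with h | h
        · exact absurd h hw0
        · have := h.1
          rw [hhist, hIj1] at this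
          exact this
      have h3 := hP.2.2
      have h4 := dl_mul_al X j
      have h5 : tau X (j + 1) * al X (j + 1) / (8 * lam X j) ≤ wt w rows g / (8 * lam X j) := by
        gcongr
      have h6 : (1 + 1 / (4 * lam X j)) * wt w rows g
          = wt w rows g + wt w rows g / (8 * lam X j) + wt w rows g / (8 * lam X j) := by
        field_simp
        ring
      rw [h6]
      have h7 : w g (hist rows g) = wt w rows g := rfl
      rw [h7] at hmart
      linarith [hmart.2]
  · calc 4 * Hd X j * (Z.card + 1) * (rX + 1) ≤ 4 * Hd X j * (z + 1) * (rX + 1) := by gcongr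
      _ < P := hP.2.1
  · intro g hg
    constructor
    · intro x
      show 0 ≤ w g (x :: hist rows g) ∧ w g (x :: hist rows g) ≤ al X j
      rcases hctx.hw.rng g (x :: hist rows g) (by simp [hhist]; omega) with h | h
      · rw [h]; exact ⟨le_rfl, halpos.le⟩
      · simp only [List.length_cons, hhist, hIj] at h
        exact ⟨le_trans (mul_nonneg (tau_pos _ _).le (al_pos _ _).le) h.1, h.2⟩
    · have := hctx.hw.tv g (hist rows g) (by rw [hhist]; exact hlenlt)
      rw [hhist, hIj] at this
      exact this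

/-- iteration of `one_row` -/
lemma many_rows (hF2 : S_F2) {P m I rX z : ℕ} [Fact P.Prime] {X : ℝ} (hX : 0 ≤ X)
    {w : Pt m → List (ZMod P) → ℝ} {G Z : Finset (Pt m)} (hctx : Ctx P m I rX X w G)
    (hZG : Z ⊆ G) (hz : Z.card ≤ z) (i : ℕ) : ∀ (k : ℕ) (_ : ∀ j < i + k, Pok X rX z P j)
    (rows : List (Row P m)) (_ : rows.length + (i + k) = I)
    (_ : ∀ h, BRel Z (Hd X (i + k)) h → h = 0),
    Ex k (fun rows' => ∏ g ∈ Z, wt w rows' g) rows
      ≤ (∏ j ∈ Finset.Ico i (i + k), (1 + 1 / (4 * lam X j))) ^ Z.card * ∏ g ∈ Z, wt w rows g := by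
  intro k
  induction k with
  | zero =>
    intro _ rows _ _
    simp [Ex]
  | succ k ih =>
    intro hP rows hlen hrel
    have hrel' : ∀ j ≤ i + (k + 1), ∀ h, BRel Z (Hd X j) h → h = 0 := by
      intro j hj h hh
      refine hrel h (BRel.mono ?_ hh)
      exact_mod_cast Hd_mono hX hj
    have h1 := one_row hF2 hX hctx hZG hz (hP (i + k) (by omega)) rows (by omega)
      (hrel' (i + k) (by omega))
    have hCnn : 0 ≤ (∏ j ∈ Finset.Ico i (i + k), (1 + 1 / (4 * lam X j))) ^ Z.card := by
      apply pow_nonneg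
      apply Finset.prod_nonneg
      intro j _
      have := lam_pos X j
      positivity
    calc Ex (k + 1) (fun rows' => ∏ g ∈ Z, wt w rows' g) rows
        = 𝔼 r : Row P m, Ex k (fun rows' => ∏ g ∈ Z, wt w rows' g) (r :: rows) := rfl
      _ ≤ 𝔼 r : Row P m, (∏ j ∈ Finset.Ico i (i + k), (1 + 1 / (4 * lam X j))) ^ Z.card
            * ∏ g ∈ Z, wt w (r :: rows) g := by
          refine Finset.expect_le_expect fun r _ => ih (fun j hj => hP j (by omega)) (r :: rows)
            (by simp only [List.length_cons]; omega) (hrel' (i + k) (by omega))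
      _ = (∏ j ∈ Finset.Ico i (i + k), (1 + 1 / (4 * lam X j))) ^ Z.card
            * 𝔼 r : Row P m, ∏ g ∈ Z, wt w (r :: rows) g := by
          rw [Finset.mul_expect]
      _ ≤ (∏ j ∈ Finset.Ico i (i + k), (1 + 1 / (4 * lam X j))) ^ Z.card
            * ((1 + 1 / (4 * lam X (i + k))) ^ Z.card * ∏ g ∈ Z, wt w rows g) := by
          gcongr
      _ = _ := by
          rw [← mul_assoc, ← mul_pow, ← add_assoc, Finset.prod_Ico_succ_top (by omega)]

end Surv

open Surv in
theorem prf_Surv (hF2 : S_F2) (hNum : S_Num) : S_Surv := by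
  classical
  obtain ⟨X0, hX01, hX0⟩ := hNum 0
  refine ⟨X0, fun X hX m i t rX z ht => ?_⟩
  have hXnn : 0 ≤ X := by linarith
  obtain ⟨P0, hP0⟩ := exists_Pok_all X rX z (i + t)
  refine ⟨P0, fun P hP _ I w G Z rows hctx hlen hz hZ hrel => ?_⟩
  have hZG : Z ⊆ G := fun g hg => (Finset.mem_filter.mp (hZ hg)).1
  have hmr := many_rows hF2 hXnn hctx hZG hz i t (hP0 P hP) rows hlen hrel
  have hti := mul_pos (tau_pos X i) (al_pos X i)
  -- the product of the losses is at most 2
  have hprod : ∏ j ∈ Finset.Ico i (i + t), (1 + 1 / (4 * lam X j)) ≤ 2 := by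
    have hsum := (hX0 X hX (i + t)).2.2.2.2.2.2.2
    simp only [abs_zero, add_zero, div_one] at hsum
    calc ∏ j ∈ Finset.Ico i (i + t), (1 + 1 / (4 * lam X j))
        ≤ ∏ j ∈ Finset.Ico i (i + t), Real.exp (1 / (4 * lam X j)) := by
          apply Finset.prod_le_prod
          · intro j _
            have := lam_pos X j
            positivity
          · intro j _
            have := Real.add_one_le_exp (1 / (4 * lam X j))
            linarith
      _ = Real.exp (∑ j ∈ Finset.Ico i (i + t), 1 / (4 * lam X j)) := by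
          rw [Real.exp_sum]
      _ ≤ Real.exp (1 / 4) := by
          apply Real.exp_le_exp.mpr
          calc ∑ j ∈ Finset.Ico i (i + t), 1 / (4 * lam X j)
              ≤ ∑ j ∈ Finset.range (i + t), 1 / (4 * lam X j) := by
                apply Finset.sum_le_sum_of_subset_of_nonneg
                · intro j hj
                  rw [Finset.mem_Ico] at hj
                  exact Finset.mem_range.mpr hj.2
                · intro j _ _
                  have := lam_pos X j
                  positivity
            _ = 1 / 4 * ∑ j ∈ Finset.range (i + t), 1 / lam X j := by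
                rw [Finset.mul_sum]
                apply Finset.sum_congr rfl
                intro j _
                have := lam_pos X j
                field_simp
            _ ≤ 1 / 4 * 1 := by gcongr
            _ = 1 / 4 := by ring
      _ ≤ 2 := by
          have h1 : Real.exp (1 / 4) ≤ Real.exp 1 ^ (1 / 4 : ℝ) := by
            rw [← Real.exp_mul]; simp
          have h2 : Real.exp 1 ^ (1 / 4 : ℝ) ≤ (16 : ℝ) ^ (1 / 4 : ℝ) := by
            apply Real.rpow_le_rpow (Real.exp_pos _).le _ (by norm_num)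
            have := Real.exp_one_lt_d9
            linarith
          have h3 : (16 : ℝ) ^ (1 / 4 : ℝ) = 2 := by
            rw [show (16 : ℝ) = 2 ^ (4 : ℝ) by norm_num, ← Real.rpow_mul (by norm_num)]
            norm_num
          linarith
  have hwt : ∏ g ∈ Z, wt w rows g ≤ al X (i + t) ^ Z.card := by
    rw [← Finset.prod_const]
    apply Finset.prod_le_prod
    · intro g hg
      exact (Finset.mem_filter.mp (hZ hg)).2.le
    · intro g hg
      have h0 : 0 < wt w rows g := (Finset.mem_filter.mp (hZ hg)).2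
      rcases hctx.hw.rng g (hist rows g) (by simp [hist]; omega) with h | h
      · exact absurd h h0.ne'
      · have h2 := h.2
        have : I - (hist rows g).length = i + t := by simp [hist]; omega
        rw [this] at h2
        exact h2
  -- indicator bound
  have hind : Ex t (fun rows' => if Z ⊆ alive w G rows' then (1 : ℝ) else 0) rows
      ≤ Ex t (fun rows' => (1 / (tau X i * al X i)) ^ Z.card * ∏ g ∈ Z, wt w rows' g) rows := by
    apply Ex_mono_of
    intro l hl
    have hlen' : ∀ g, (hist (l ++ rows) g).length = l.length + rows.length := by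
      intro g; simp [hist]
    have hIi : I - (l.length + rows.length) = i := by omega
    have hnn : ∀ g, 0 ≤ wt w (l ++ rows) g := by
      intro g
      unfold wt
      rcases hctx.hw.rng g (hist (l ++ rows) g) (by rw [hlen']; omega) with h | h
      · rw [h]
      · refine le_trans ?_ h.1
        exact mul_nonneg (tau_pos _ _).le (al_pos _ _).le
    split_ifs with hsub
    · rw [← Finset.prod_const, ← Finset.prod_mul_distrib]
      have : ∀ g ∈ Z, 1 ≤ 1 / (tau X i * al X i) * wt w (l ++ rows) g := by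
        intro g hg
        have h0 : 0 < wt w (l ++ rows) g := (Finset.mem_filter.mp (hsub hg)).2
        rcases hctx.hw.rng g (hist (l ++ rows) g) (by rw [hlen']; omega) with h | h
        · exact absurd h h0.ne'
        · have h2 := h.1
          rw [hlen', hIi] at h2
          rw [div_mul_eq_mul_div, one_mul, one_le_div hti]
          exact h2
      calc (1:ℝ) = ∏ g ∈ Z, (1:ℝ) := by simp
        _ ≤ _ := Finset.prod_le_prod (fun _ _ => zero_le_one) this
    · exact mul_nonneg (pow_nonneg (by positivity) _) (Finset.prod_nonneg fun g _ => hnn g)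
  have hmul : ∀ (c : ℝ) (F : List (Row P m) → ℝ) (k : ℕ) (l : List (Row P m)),
      Ex k (fun r => c * F r) l = c * Ex k F l := by
    intro c F k
    induction k with
    | zero => intro l; rfl
    | succ k ih =>
      intro l
      simp only [Ex, ih]
      rw [Finset.mul_expect]
  have hprodnn : 0 ≤ ∏ j ∈ Finset.Ico i (i + t), (1 + 1 / (4 * lam X j)) := by
    apply Finset.prod_nonneg
    intro j _
    have := lam_pos X j
    positivity
  calc Ex t (fun rows' => if Z ⊆ alive w G rows' then (1 : ℝ) else 0) rows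
      ≤ Ex t (fun rows' => (1 / (tau X i * al X i)) ^ Z.card * ∏ g ∈ Z, wt w rows' g) rows := hind
    _ = (1 / (tau X i * al X i)) ^ Z.card * Ex t (fun rows' => ∏ g ∈ Z, wt w rows' g) rows :=
        hmul _ _ _ _
    _ ≤ (1 / (tau X i * al X i)) ^ Z.card *
        ((∏ j ∈ Finset.Ico i (i + t), (1 + 1 / (4 * lam X j))) ^ Z.card
          * ∏ g ∈ Z, wt w rows g) := by gcongr
    _ ≤ (1 / (tau X i * al X i)) ^ Z.card * (2 ^ Z.card * al X (i + t) ^ Z.card) := by
        have : 0 ≤ ∏ g ∈ Z, wt w rows g :=
          Finset.prod_nonneg fun g hg => (Finset.mem_filter.mp (hZ hg)).2.le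
        gcongr
    _ = (2 * al X (i + t) / (tau X i * al X i)) ^ Z.card := by
        rw [div_pow, div_pow, mul_pow, one_pow]
        ring

end Crest.Agent.R225
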