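import Crest.Agent.R225.Iface
import Crest.Agent.R225.Four
import Crest.Agent.R225.E12

/-!
# Row 225 (S0347): node Thin (helper863)

Energy of an independent `p`-thinning: `prf_Thin : S_Thin`.
`E[En q A] = avg_θ E|∑_{g∈A} e(θ g)|^{2q}`, split `1_A = p + (1_A - p)` and bound the even moments of
the centred sum by its exponential moments.
-/

set_option autoImplicit false

open Finset
open scoped BigOperators

namespace Crest.Agent.R225

namespace Thin

section prob

variable {α : Type*} [DecidableEq α]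

/-- probability of the subset `A` of `W` under independent `p`-thinning -/
noncomputable def mu (W : Finset α) (p : ℝ) (A : Finset α) : ℝ :=
  p ^ A.card * (1 - p) ^ (W \ A).card

lemma mu_nonneg (W : Finset α) {p : ℝ} (h0 : 0 ≤ p) (h1 : p ≤ 1) (A : Finset α) :
    0 ≤ mu W p A := by
  unfold mu
  have : 0 ≤ 1 - p := by linarith
  positivity

/-- `P(S ⊆ A) = p^|S|` -/
lemma sum_mu_supset (W : Finset α) (p : ℝ) (S : Finset α) (hS : S ⊆ W) :
    ∑ A ∈ W.powerset, (if S ⊆ A then mu W p A else 0) = p ^ S.card := by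
  have h := Finset.prod_add (fun _ : α => p) (fun g => if g ∈ S then (0 : ℝ) else 1 - p) W
  have h1 : ∏ g ∈ W, (p + if g ∈ S then (0 : ℝ) else 1 - p) = p ^ S.card := by
    have : ∀ g ∈ W, (p + if g ∈ S then (0 : ℝ) else 1 - p) = if g ∈ S then p else 1 := by
      intro g _
      split_ifs <;> ring
    rw [prod_congr rfl this, prod_ite, prod_const_one, mul_one, prod_const]
    congr 2
    ext g
    simp only [mem_filter]
    exact ⟨fun h => h.2, fun h => ⟨hS h, h⟩⟩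
  rw [h1] at h
  rw [h]
  refine sum_congr rfl fun A hA => ?_
  rw [mem_powerset] at hA
  rw [prod_const]
  by_cases hSA : S ⊆ A
  · rw [if_pos hSA]
    have : ∀ g ∈ W \ A, (if g ∈ S then (0 : ℝ) else 1 - p) = 1 - p := by
      intro g hg
      rw [mem_sdiff] at hg
      rw [if_neg (fun h => hg.2 (hSA h))]
    rw [prod_congr rfl this, prod_const]
    rfl
  · rw [if_neg hSA]
    obtain ⟨g, hgS, hgA⟩ := not_subset.1 hSA
    rw [prod_eq_zero (i := g) (mem_sdiff.2 ⟨hS hgS, hgA⟩), mul_zero]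
    rw [if_pos hgS]

lemma sum_mu (W : Finset α) (p : ℝ) : ∑ A ∈ W.powerset, mu W p A = 1 := by
  have := sum_mu_supset W p ∅ (empty_subset _)
  simpa using this

/-- centred linear form -/
noncomputable def Y (W : Finset α) (p : ℝ) (a : α → ℝ) (A : Finset α) : ℝ :=
  ∑ g ∈ W, ((if g ∈ A then (1 : ℝ) else 0) - p) * a g

lemma exp_quad {x : ℝ} (h : |x| ≤ 1) : Real.exp x ≤ 1 + x + x ^ 2 := by
  have := Real.abs_exp_sub_one_sub_id_le h
  have := (abs_le.1 this).2
  linarith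

/-- one factor -/
lemma factor_le {p s a : ℝ} (h0 : 0 ≤ p) (h1 : p ≤ 1) (hs : |s| ≤ 1) (ha : |a| ≤ 1) :
    p * Real.exp (s * ((1 - p) * a)) + (1 - p) * Real.exp (s * ((0 - p) * a)) ≤
      Real.exp (s ^ 2 * p) := by
  have hsa : |s * a| ≤ 1 := by
    rw [abs_mul]
    exact mul_le_one₀ hs (abs_nonneg _) ha
  have e1 : |s * ((1 - p) * a)| ≤ 1 := by
    have : s * ((1 - p) * a) = (1 - p) * (s * a) := by ring
    rw [this, abs_mul, abs_of_nonneg (by linarith : 0 ≤ 1 - p)]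
    exact mul_le_one₀ (by linarith) (abs_nonneg _) hsa
  have e2 : |s * ((0 - p) * a)| ≤ 1 := by
    have : s * ((0 - p) * a) = -(p * (s * a)) := by ring
    rw [this, abs_neg, abs_mul, abs_of_nonneg h0]
    exact mul_le_one₀ h1 (abs_nonneg _) hsa
  have f1 := exp_quad e1
  have f2 := exp_quad e2
  have hq : s ^ 2 * a ^ 2 ≤ s ^ 2 := by
    have ha2 : a ^ 2 ≤ 1 := by
      rw [← sq_abs]
      exact pow_le_one₀ (abs_nonneg _) ha
    nlinarith [sq_nonneg s]
  have g1 : p * Real.exp (s * ((1 - p) * a)) ≤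
      p * (1 + s * ((1 - p) * a) + (s * ((1 - p) * a)) ^ 2) :=
    mul_le_mul_of_nonneg_left f1 h0
  have g2 : (1 - p) * Real.exp (s * ((0 - p) * a)) ≤
      (1 - p) * (1 + s * ((0 - p) * a) + (s * ((0 - p) * a)) ^ 2) :=
    mul_le_mul_of_nonneg_left f2 (by linarith)
  have g3 : p * (1 + s * ((1 - p) * a) + (s * ((1 - p) * a)) ^ 2) +
      (1 - p) * (1 + s * ((0 - p) * a) + (s * ((0 - p) * a)) ^ 2) =
      1 + (p * (1 - p)) * (s ^ 2 * a ^ 2) := by ring
  have g4 : (p * (1 - p)) * (s ^ 2 * a ^ 2) ≤ s ^ 2 * p := by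
    have h3 : 0 ≤ p * (1 - p) := mul_nonneg h0 (by linarith)
    have h4 : (p * (1 - p)) * (s ^ 2 * a ^ 2) ≤ (p * (1 - p)) * s ^ 2 :=
      mul_le_mul_of_nonneg_left hq h3
    have h5 : (p * (1 - p)) * s ^ 2 ≤ s ^ 2 * p := by
      have : 0 ≤ s ^ 2 * (p * p) := by positivity
      nlinarith
    linarith
  have g5 := Real.add_one_le_exp (s ^ 2 * p)
  linarith

/-- exponential moments -/
lemma mgf_le (W : Finset α) {p s : ℝ} (a : α → ℝ) (h0 : 0 ≤ p) (h1 : p ≤ 1) (hs : |s| ≤ 1)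
    (ha : ∀ g ∈ W, |a g| ≤ 1) :
    ∑ A ∈ W.powerset, mu W p A * Real.exp (s * Y W p a A) ≤ Real.exp (s ^ 2 * (W.card * p)) := by
  have h := Finset.prod_add (fun g => p * Real.exp (s * ((1 - p) * a g)))
    (fun g => (1 - p) * Real.exp (s * ((0 - p) * a g))) W
  have h2 : ∑ A ∈ W.powerset, mu W p A * Real.exp (s * Y W p a A) =
      ∏ g ∈ W, (p * Real.exp (s * ((1 - p) * a g)) + (1 - p) * Real.exp (s * ((0 - p) * a g))) := by
    rw [h]
    refine sum_congr rfl fun A hA => ?_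
    rw [mem_powerset] at hA
    rw [prod_mul_distrib, prod_mul_distrib, prod_const, prod_const, ← Real.exp_sum, ← Real.exp_sum]
    have h3 : s * Y W p a A =
        ∑ g ∈ A, s * ((1 - p) * a g) + ∑ g ∈ W \ A, s * ((0 - p) * a g) := by
      unfold Y
      rw [← sum_sdiff hA, mul_add, mul_sum, mul_sum, add_comm]
      congr 1
      · refine sum_congr rfl fun g hg => ?_
        rw [if_pos hg]
      · refine sum_congr rfl fun g hg => ?_
        rw [if_neg (mem_sdiff.1 hg).2]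
    rw [h3, Real.exp_add]
    unfold mu
    ring
  rw [h2]
  have h4 : ∀ g ∈ W, (p * Real.exp (s * ((1 - p) * a g)) +
      (1 - p) * Real.exp (s * ((0 - p) * a g))) ≤ Real.exp (s ^ 2 * p) :=
    fun g hg => factor_le h0 h1 hs (ha g hg)
  refine (prod_le_prod (fun g _ => ?_) h4).trans (le_of_eq ?_)
  · have : 0 ≤ 1 - p := by linarith
    positivity
  · rw [prod_const, ← Real.exp_nat_mul]
    congr 1
    ring

/-- `y^(2q) ≤ (2q)!/s^(2q) (e^{sy} + e^{-sy})` -/
lemma pow_le_exp {s y : ℝ} (hs : 0 < s) (q : ℕ) :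
    y ^ (2 * q) ≤ (2 * q : ℕ).factorial / s ^ (2 * q) * (Real.exp (s * y) + Real.exp (-s * y)) := by
  have h1 : |s * y| ^ (2 * q) / (2 * q : ℕ).factorial ≤ Real.exp |s * y| :=
    Real.pow_div_factorial_le_exp _ (abs_nonneg _) _
  have h2 : Real.exp |s * y| ≤ Real.exp (s * y) + Real.exp (-s * y) := by
    rcases abs_cases (s * y) with ⟨h, _⟩ | ⟨h, _⟩
    · rw [h]
      linarith [Real.exp_pos (-s * y)]
    · rw [h, ← neg_mul]
      linarith [Real.exp_pos (s * y)]
  have h3 : |s * y| ^ (2 * q) = s ^ (2 * q) * y ^ (2 * q) := by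
    rw [Even.pow_abs ⟨q, by ring⟩, mul_pow]
  rw [h3] at h1
  have hs' : 0 < s ^ (2 * q) := by positivity
  have hf : (0 : ℝ) < (2 * q : ℕ).factorial := by exact_mod_cast Nat.factorial_pos _
  have h4 := h1.trans h2
  rw [div_le_iff₀ hf] at h4
  rw [div_mul_eq_mul_div, le_div_iff₀ hs']
  linarith

/-- even moments of a real centred linear form -/
lemma moment_real_le (W : Finset α) {p M : ℝ} (a : α → ℝ) (h0 : 0 ≤ p) (h1 : p ≤ 1)
    (ha : ∀ g ∈ W, |a g| ≤ 1) {q : ℕ} (hq : 1 ≤ q) (hM : (W.card : ℝ) * p ≤ M)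
    (hqM : 2 * (q : ℝ) ≤ M) :
    ∑ A ∈ W.powerset, mu W p A * Y W p a A ^ (2 * q) ≤ 2 * (4 * Real.exp 1 * (q * M)) ^ q := by
  have hq0 : (0 : ℝ) < q := by exact_mod_cast hq
  have hM0 : 0 < M := by linarith
  set s : ℝ := Real.sqrt (q / M) with hs
  have hs2 : s ^ 2 = q / M := Real.sq_sqrt (by positivity)
  have hs0 : 0 < s := Real.sqrt_pos.2 (by positivity)
  have hs1 : |s| ≤ 1 := by
    rw [abs_of_pos hs0]
    rw [hs, Real.sqrt_le_iff]
    refine ⟨zero_le_one, ?_⟩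
    rw [one_pow, div_le_one hM0]
    linarith
  have hs1' : |-s| ≤ 1 := by rw [abs_neg]; exact hs1
  have m1 := mgf_le W a h0 h1 hs1 ha
  have m2 := mgf_le W a h0 h1 hs1' ha
  have e1 : s ^ 2 * (W.card * p) ≤ q := by
    rw [hs2, div_mul_eq_mul_div, div_le_iff₀ hM0]
    exact mul_le_mul_of_nonneg_left hM hq0.le
  have e2 : (-s) ^ 2 * (W.card * p) ≤ q := by rw [neg_sq]; exact e1
  have m1' := m1.trans (Real.exp_le_exp.2 e1)
  have m2' := m2.trans (Real.exp_le_exp.2 e2)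
  set F : ℝ := (2 * q : ℕ).factorial / s ^ (2 * q) with hF
  have hF0 : 0 ≤ F := by positivity
  have k1 : ∑ A ∈ W.powerset, mu W p A * Y W p a A ^ (2 * q) ≤
      ∑ A ∈ W.powerset, mu W p A * (F * (Real.exp (s * Y W p a A) + Real.exp (-s * Y W p a A))) :=
    sum_le_sum fun A _ => mul_le_mul_of_nonneg_left (pow_le_exp hs0 q) (mu_nonneg W h0 h1 A)
  have k2 : ∑ A ∈ W.powerset, mu W p A * (F * (Real.exp (s * Y W p a A) + Real.exp (-s * Y W p a A)))
      = F * (∑ A ∈ W.powerset, mu W p A * Real.exp (s * Y W p a A) +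
        ∑ A ∈ W.powerset, mu W p A * Real.exp (-s * Y W p a A)) := by
    rw [← sum_add_distrib, mul_sum]
    refine sum_congr rfl fun A _ => ?_
    ring
  have k3 : F ≤ (4 * (q * M)) ^ q := by
    have f1 : ((2 * q : ℕ).factorial : ℝ) ≤ (2 * q : ℝ) ^ (2 * q) := by
      have := Nat.factorial_le_pow (2 * q)
      exact_mod_cast this
    have f2 : s ^ (2 * q) = (q / M) ^ q := by rw [pow_mul, hs2]
    rw [hF, f2, div_le_iff₀ (by positivity), ← mul_pow]
    have f3 : 4 * (q * M) * (q / M) = (2 * q : ℝ) ^ 2 := by field_simp; ring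
    rw [f3, ← pow_mul]
    exact f1
  calc _ ≤ _ := k1
    _ = _ := k2
    _ ≤ (4 * (q * M)) ^ q * (Real.exp q + Real.exp q) := by
        refine mul_le_mul k3 (add_le_add m1' m2') ?_ (by positivity)
        refine add_nonneg (sum_nonneg fun A _ => ?_) (sum_nonneg fun A _ => ?_)
        · exact mul_nonneg (mu_nonneg W h0 h1 A) (Real.exp_pos _).le
        · exact mul_nonneg (mu_nonneg W h0 h1 A) (Real.exp_pos _).le
    _ = 2 * (4 * Real.exp 1 * (q * M)) ^ q := by
        have : Real.exp q = Real.exp 1 ^ q := by rw [← Real.exp_nat_mul, mul_one]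
        rw [this]
        have h5 : 4 * Real.exp 1 * (q * M) = (4 * (q * M)) * Real.exp 1 := by ring
        rw [h5, mul_pow (4 * (q * M))]
        ring

/-- even moments of a complex centred linear form -/
lemma moment_complex_le (W : Finset α) {p M : ℝ} (c : α → ℂ) (h0 : 0 ≤ p) (h1 : p ≤ 1)
    (hc : ∀ g ∈ W, ‖c g‖ ≤ 1) {q : ℕ} (hq : 1 ≤ q) (hM : (W.card : ℝ) * p ≤ M)
    (hqM : 2 * (q : ℝ) ≤ M) :
    ∑ A ∈ W.powerset, mu W p A *
      ‖∑ g ∈ W, (((if g ∈ A then (1 : ℝ) else 0) - p : ℝ) : ℂ) * c g‖ ^ (2 * q) ≤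
      2 * (8 * Real.exp 1 * (q * M)) ^ q := by
  have hre : ∀ g ∈ W, |(c g).re| ≤ 1 := fun g hg => (Complex.abs_re_le_norm _).trans (hc g hg)
  have him : ∀ g ∈ W, |(c g).im| ≤ 1 := fun g hg => (Complex.abs_im_le_norm _).trans (hc g hg)
  have r1 := moment_real_le W (fun g => (c g).re) h0 h1 hre hq hM hqM
  have r2 := moment_real_le W (fun g => (c g).im) h0 h1 him hq hM hqM
  have key : ∀ A ∈ W.powerset, mu W p A *
      ‖∑ g ∈ W, (((if g ∈ A then (1 : ℝ) else 0) - p : ℝ) : ℂ) * c g‖ ^ (2 * q) ≤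
      2 ^ (q - 1) * (mu W p A * Y W p (fun g => (c g).re) A ^ (2 * q)) +
      2 ^ (q - 1) * (mu W p A * Y W p (fun g => (c g).im) A ^ (2 * q)) := by
    intro A _
    set z : ℂ := ∑ g ∈ W, (((if g ∈ A then (1 : ℝ) else 0) - p : ℝ) : ℂ) * c g with hz
    have z1 : z.re = Y W p (fun g => (c g).re) A := by
      rw [hz, Complex.re_sum]
      unfold Y
      refine sum_congr rfl fun g _ => ?_
      rw [Complex.re_ofReal_mul]
    have z2 : z.im = Y W p (fun g => (c g).im) A := by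
      rw [hz, Complex.im_sum]
      unfold Y
      refine sum_congr rfl fun g _ => ?_
      rw [Complex.im_ofReal_mul]
    have z3 : ‖z‖ ^ (2 * q) = (z.re ^ 2 + z.im ^ 2) ^ q := by
      rw [pow_mul, ← Complex.normSq_eq_norm_sq, Complex.normSq_apply]
      congr 1
      ring
    have z4 : (z.re ^ 2 + z.im ^ 2) ^ q ≤ 2 ^ (q - 1) * ((z.re ^ 2) ^ q + (z.im ^ 2) ^ q) :=
      add_pow_le (sq_nonneg _) (sq_nonneg _) q
    rw [← pow_mul, ← pow_mul] at z4
    rw [← z1, ← z2, z3]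
    have := mul_le_mul_of_nonneg_left z4 (mu_nonneg W h0 h1 A)
    refine this.trans (le_of_eq ?_)
    ring
  refine (sum_le_sum key).trans ?_
  rw [sum_add_distrib, ← mul_sum, ← mul_sum]
  have hpow : (0 : ℝ) ≤ 2 ^ (q - 1) := by positivity
  have s1 := mul_le_mul_of_nonneg_left r1 hpow
  have s2 := mul_le_mul_of_nonneg_left r2 hpow
  refine (add_le_add s1 s2).trans (le_of_eq ?_)
  have h8 : 8 * Real.exp 1 * (q * M) = 2 * (4 * Real.exp 1 * (q * M)) := by ring
  rw [h8, mul_pow 2]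
  have h2 : (2 : ℝ) ^ q = 2 * 2 ^ (q - 1) := by
    rw [← pow_succ']
    congr 1
    omega
  rw [h2]
  ring

end prob

open scoped Classical in
/-- the thinned count is the expected energy -/
lemma sum_pow_eq {m : ℕ} (q : ℕ) (W : Finset (Pt m)) (p : ℝ) :
    ∑ T ∈ ((Fintype.piFinset fun _ : Fin q => W) ×ˢ (Fintype.piFinset fun _ : Fin q => W)).filter
      (fun T => ∑ i, T.1 i = ∑ i, T.2 i), p ^ (univ.image T.1 ∪ univ.image T.2).card =
    ∑ A ∈ W.powerset, mu W p A * En q A := by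
  have h1 : ∀ T ∈ ((Fintype.piFinset fun _ : Fin q => W) ×ˢ
      (Fintype.piFinset fun _ : Fin q => W)).filter (fun T => ∑ i, T.1 i = ∑ i, T.2 i),
      p ^ (univ.image T.1 ∪ univ.image T.2).card =
      ∑ A ∈ W.powerset, (if (univ.image T.1 ∪ univ.image T.2) ⊆ A then mu W p A else 0) := by
    intro T hT
    rw [mem_filter, mem_product, Fintype.mem_piFinset, Fintype.mem_piFinset] at hT
    rw [sum_mu_supset]
    rw [union_subset_iff, image_subset_iff, image_subset_iff]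
    exact ⟨fun i _ => hT.1.1 i, fun i _ => hT.1.2 i⟩
  rw [sum_congr rfl h1, sum_comm]
  refine sum_congr rfl fun A hA => ?_
  rw [mem_powerset] at hA
  rw [← sum_filter, sum_const, nsmul_eq_mul, mul_comm]
  congr 2
  unfold En
  congr 1
  ext T
  simp only [mem_filter, mem_product, Fintype.mem_piFinset, union_subset_iff, image_subset_iff,
    mem_univ, true_imp_iff]
  constructor
  · rintro ⟨⟨_, h2⟩, h3⟩
    exact ⟨h3, h2⟩
  · rintro ⟨h3, h2⟩
    exact ⟨⟨⟨fun i => hA (h3.1 i), fun i => hA (h3.2 i)⟩, h2⟩, h3⟩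

end Thin

open Thin E12 Four in
theorem prf_Thin : S_Thin := by
  classical
  refine ⟨100, by norm_num, ?_⟩
  intro m q W p M h0 h1 hq hM hqM
  obtain ⟨R, hR⟩ := exists_bound W
  set P : ℕ := 2 * q * R + 1 with hPdef
  haveI : NeZero P := ⟨by omega⟩
  have hP : 2 * q * R < P := by omega
  have hPpos : (0 : ℝ) < (P : ℝ) ^ (m + 1) := by
    have : (0 : ℝ) < P := by exact_mod_cast (by omega : 0 < P)
    positivity
  have hsum := sum_pow_eq q W p
  have hE : ∀ A ∈ W.powerset, (P : ℝ) ^ (m + 1) * En q A =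
      ∑ w : Row P m, ‖S A (lin P) (fun _ => 1) w‖ ^ (2 * q) := by
    intro A hA
    rw [mem_powerset] at hA
    exact (En_mod A q R (fun g hg => hR g (hA hg)) hP).symm
  have hEW := hE W (mem_powerset_self W)
  -- pointwise splitting
  set D : Finset (Pt m) → Row P m → ℂ := fun A w =>
    ∑ g ∈ W, (((if g ∈ A then (1 : ℝ) else 0) - p : ℝ) : ℂ) * ee (pair w (lin P g)) with hD
  have hsplit : ∀ A ∈ W.powerset, ∀ w : Row P m, ‖S A (lin P) (fun _ => 1) w‖ ^ (2 * q) ≤
      2 ^ (2 * q - 1) * (p ^ (2 * q) * ‖S W (lin P) (fun _ => 1) w‖ ^ (2 * q) +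
        ‖D A w‖ ^ (2 * q)) := by
    intro A hA w
    rw [mem_powerset] at hA
    have e1 : S A (lin P) (fun _ => 1) w = (p : ℂ) * S W (lin P) (fun _ => 1) w + D A w := by
      simp only [hD, S, one_mul]
      rw [mul_sum, ← sum_add_distrib, ← sum_sdiff hA]
      have e2 : ∑ g ∈ W \ A, ((p : ℂ) * ee (pair w (lin P g)) +
          (((if g ∈ A then (1 : ℝ) else 0) - p : ℝ) : ℂ) * ee (pair w (lin P g))) = 0 := by
        refine sum_eq_zero fun g hg => ?_
        rw [if_neg (mem_sdiff.1 hg).2]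
        push_cast
        ring
      rw [e2, zero_add]
      refine sum_congr rfl fun g hg => ?_
      rw [if_pos hg]
      push_cast
      ring
    have e3 : ‖S A (lin P) (fun _ => 1) w‖ ≤ p * ‖S W (lin P) (fun _ => 1) w‖ + ‖D A w‖ := by
      rw [e1]
      refine (norm_add_le _ _).trans (le_of_eq ?_)
      rw [norm_mul, Complex.norm_real, Real.norm_of_nonneg h0]
    refine (pow_le_pow_left₀ (norm_nonneg _) e3 _).trans ?_
    refine (add_pow_le (by positivity) (norm_nonneg _) _).trans (le_of_eq ?_)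
    rw [mul_pow]
  have hDle : ∀ w : Row P m, ∑ A ∈ W.powerset, mu W p A * ‖D A w‖ ^ (2 * q) ≤
      2 * (8 * Real.exp 1 * (q * M)) ^ q := fun w =>
    moment_complex_le W (fun g => ee (pair w (lin P g))) h0 h1
      (fun g _ => (norm_ee _).le) hq hM hqM
  have hmain : (P : ℝ) ^ (m + 1) * ∑ A ∈ W.powerset, mu W p A * En q A ≤
      (P : ℝ) ^ (m + 1) * (2 ^ (2 * q - 1) * (p ^ (2 * q) * En q W +
        2 * (8 * Real.exp 1 * (q * M)) ^ q)) := by
    have c1 : (P : ℝ) ^ (m + 1) * ∑ A ∈ W.powerset, mu W p A * En q A =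
        ∑ A ∈ W.powerset, mu W p A * ∑ w : Row P m, ‖S A (lin P) (fun _ => 1) w‖ ^ (2 * q) := by
      rw [mul_sum]
      refine sum_congr rfl fun A hA => ?_
      rw [← hE A hA]
      ring
    have c2 : ∑ A ∈ W.powerset, mu W p A * ∑ w : Row P m, ‖S A (lin P) (fun _ => 1) w‖ ^ (2 * q) ≤
        ∑ A ∈ W.powerset, mu W p A * ∑ w : Row P m, 2 ^ (2 * q - 1) *
          (p ^ (2 * q) * ‖S W (lin P) (fun _ => 1) w‖ ^ (2 * q) + ‖D A w‖ ^ (2 * q)) :=
      sum_le_sum fun A hA => mul_le_mul_of_nonneg_left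
        (sum_le_sum fun w _ => hsplit A hA w) (mu_nonneg W h0 h1 A)
    have c3 : ∑ A ∈ W.powerset, mu W p A * ∑ w : Row P m, 2 ^ (2 * q - 1) *
          (p ^ (2 * q) * ‖S W (lin P) (fun _ => 1) w‖ ^ (2 * q) + ‖D A w‖ ^ (2 * q)) =
        2 ^ (2 * q - 1) * (p ^ (2 * q) * ((P : ℝ) ^ (m + 1) * En q W) +
          ∑ w : Row P m, ∑ A ∈ W.powerset, mu W p A * ‖D A w‖ ^ (2 * q)) := by
      have d1 : ∀ A ∈ W.powerset, mu W p A * ∑ w : Row P m, 2 ^ (2 * q - 1) *
          (p ^ (2 * q) * ‖S W (lin P) (fun _ => 1) w‖ ^ (2 * q) + ‖D A w‖ ^ (2 * q)) =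
          mu W p A * (2 ^ (2 * q - 1) * (p ^ (2 * q) * ((P : ℝ) ^ (m + 1) * En q W))) +
          2 ^ (2 * q - 1) * ∑ w : Row P m, mu W p A * ‖D A w‖ ^ (2 * q) := by
        intro A _
        rw [← mul_sum, sum_add_distrib, ← mul_sum, ← hEW, ← mul_sum]
        ring
      rw [sum_congr rfl d1, sum_add_distrib, ← sum_mul, sum_mu, one_mul, ← mul_sum, sum_comm]
      ring
    rw [c1]
    refine c2.trans ?_
    rw [c3]
    have c4 : ∑ w : Row P m, ∑ A ∈ W.powerset, mu W p A * ‖D A w‖ ^ (2 * q) ≤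
        (P : ℝ) ^ (m + 1) * (2 * (8 * Real.exp 1 * (q * M)) ^ q) := by
      refine (sum_le_sum fun w _ => hDle w).trans (le_of_eq ?_)
      rw [sum_const, card_univ, card_row, nsmul_eq_mul]
      push_cast
      ring
    have c5 : (0 : ℝ) ≤ 2 ^ (2 * q - 1) := by positivity
    calc _ ≤ 2 ^ (2 * q - 1) * (p ^ (2 * q) * ((P : ℝ) ^ (m + 1) * En q W) +
          (P : ℝ) ^ (m + 1) * (2 * (8 * Real.exp 1 * (q * M)) ^ q)) :=
          mul_le_mul_of_nonneg_left (by linarith) c5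
      _ = _ := by ring
  have hmain' := le_of_mul_le_mul_left hmain hPpos
  rw [hsum]
  refine hmain'.trans ?_
  have hq0 : (0 : ℝ) < q := by exact_mod_cast hq
  have hM0 : 0 < M := by linarith
  have t1 : (2 : ℝ) ^ (2 * q - 1) ≤ 100 ^ q := by
    have : (2 : ℝ) ^ (2 * q - 1) ≤ 2 ^ (2 * q) :=
      pow_le_pow_right₀ (by norm_num) (by omega)
    refine this.trans ?_
    rw [pow_mul]
    exact pow_le_pow_left₀ (by norm_num) (by norm_num) _
  have t2 : (2 : ℝ) ^ (2 * q - 1) * (2 * (8 * Real.exp 1 * (q * M)) ^ q) ≤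
      100 ^ q * (q * M) ^ q := by
    have t3 : (2 : ℝ) ^ (2 * q - 1) * (2 * (8 * Real.exp 1 * (q * M)) ^ q) =
        (32 * Real.exp 1 * (q * M)) ^ q := by
      have t4 : (2 : ℝ) ^ (2 * q - 1) * 2 = 4 ^ q := by
        rw [← pow_succ, show 2 * q - 1 + 1 = 2 * q by omega, pow_mul]
        norm_num
      rw [← mul_assoc, t4, ← mul_pow]
      congr 1
      ring
    rw [t3, ← mul_pow]
    refine pow_le_pow_left₀ (by positivity) ?_ _
    refine mul_le_mul_of_nonneg_right ?_ (by positivity)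
    have := Real.exp_one_lt_d9
    linarith
  have t5 : (0 : ℝ) ≤ p ^ (2 * q) * En q W := by positivity
  calc (2 : ℝ) ^ (2 * q - 1) * (p ^ (2 * q) * En q W + 2 * (8 * Real.exp 1 * (q * M)) ^ q)
      = 2 ^ (2 * q - 1) * (p ^ (2 * q) * En q W) +
        2 ^ (2 * q - 1) * (2 * (8 * Real.exp 1 * (q * M)) ^ q) := by ring
    _ ≤ 100 ^ q * (p ^ (2 * q) * En q W) + 100 ^ q * (q * M) ^ q :=
        add_le_add (mul_le_mul_of_nonneg_right t1 t5) t2
    _ = _ := by ring

end Crest.Agent.R225
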