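import Crest.Agent.R225.LargeAll
import Crest.Agent.R225.Grid
import Crest.Agent.R225.GridConvex
import Crest.Agent.R225.PMain
import Crest.Agent.R225.Multi
import Crest.Agent.R225.Base
import Crest.Agent.R225.B3Fin
import Crest.Agent.R225.B3P1c
import Crest.Agent.R225.B3P4
import Crest.Agent.R225.B4All
import Crest.Agent.R225.B5N
import Crest.Agent.R225.HP1
import Crest.Agent.R225.HP2
import Crest.Agent.R225.HRC
import Crest.Agent.R225.Surv
import Crest.Agent.R225.Thin
import Crest.Agent.R225.E12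
import Crest.Agent.R225.E3
import Crest.Agent.R225.G12
import Crest.Agent.R225.G3
import Crest.Agent.R225.F1
import Crest.Agent.R225.F23
import Crest.Agent.R225.A234

/-! Row 225: all nodes of S0347 put together. -/

set_option autoImplicit false

open MeasureTheory

namespace Crest.Agent.R225.All347

theorem surv : S_Surv := prf_Surv (prf_F2 prf_F1) prf_Num

theorem b3 : S_B3 := B3.B3_of_num B3.prf_indep prf_B1 prf_B2 (B3.num_gen 1000 (by norm_num))

theorem b5 : S_B5 := prf_B5 prf_B0 prf_B2 prf_E3 prf_G3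

theorem base : S_Base := prf_Base b3 prf_B4 b5

theorem multi : S_Multi := prf_Multi (prf_F3 prf_F1) prf_Num
  (prf_HP1 surv prf_E1 prf_E2 prf_Num)
  (prf_HRC prf_E3 prf_G1 prf_G2 prf_G3 prf_Num surv)
  (prf_HP2 prf_E1 prf_G2 prf_Thin surv prf_Num)

theorem grid : S_Grid := prf_Grid (prf_GridConvex prf_A3 prf_A4 prf_E1 prf_E2) prf_D1

theorem main :
    ∃ C : ℝ, ∀ (n : ℕ), 2 ≤ n → ∀ (K : Set (Fin n → ℝ)),
      IsCompact K → Convex ℝ K → (interior K).Nonempty →
        ∃ g : Matrix (Fin n) (Fin n) ℝ, g.det ≠ 0 ∧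
          (∀ x : Fin n → ℝ, ∃ z : Fin n → ℤ, x - g.mulVec (fun i => (z i : ℝ)) ∈ K) ∧
          (volume K).toReal / |g.det| ≤ C * n * Real.log n :=
  main_of grid (prf_PMain base multi)

end Crest.Agent.R225.All347
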