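import Crest.Agent.R225.Iface
import Crest.Agent.R225.L.Amp

/-! Row 225: node Amp. -/

set_option autoImplicit false

open Finset

namespace Crest.Agent.R225

theorem prf_Amp : S_Amp := by
  classical
  intro r N T _ _ ι _ B u hu hN hB
  obtain ⟨v, hv⟩ := L.amplify (G := T) (Θ := ι) r
    (fun y ε => B y (univ.filter (fun i => ε i = true))) u hu (fun y ε => hB y _)
  refine ⟨v, fun y => ?_⟩
  refine le_trans ?_ ((hv y).trans ?_)
  · refine Nat.cast_le.2 (card_le_card ?_)
    intro c hc
    rw [mem_filter] at hc ⊢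
    refine ⟨mem_univ _, fun ε => ?_⟩
    have h := hc.2 (univ.filter (fun i => ε i = true))
    rwa [Finset.sum_filter] at h
  · refine mul_le_mul_of_nonneg_right ?_ (Nat.cast_nonneg _)
    refine pow_le_pow_left₀ (by positivity) ?_ _
    refine mul_le_mul_of_nonneg_right ?_ hu
    have h1 : ((2 ^ r * Fintype.card ι : ℕ) : ℝ) ≤ N := by exact_mod_cast hN.le
    push_cast at h1
    linarith

end Crest.Agent.R225
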