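import Crest.Agent.R225.B3Fin
import Crest.Agent.R225.B3P1c
import Crest.Agent.R225.B3P4

/-!
# Row 225 (S0347), node B3 (helper351)
-/

set_option autoImplicit false

namespace Crest.Agent.R225

/-- B3: concentration of the total weight after the special row -/
theorem prf_B3 (hB1 : S_B1) (hB2 : S_B2) : S_B3 :=
  B3.B3_of_num B3.prf_indep hB1 hB2 (fun c1 h h' => B3.num_gen 1000 (by norm_num) c1 h h')

end Crest.Agent.R225
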