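import Crest.Agent.R225.Iface

/-!
Row 225, S0347, node B3: counting of tuples by rank (helper48).
-/

set_option autoImplicit false

open Finset MeasureTheory
open scoped BigOperators ENNReal Classical

namespace Crest.Agent.R225
namespace B3C

variable {m s : ℕ}

/-- span of the points `T j`, `j ∈ J` -/
noncomputable def spn (T : Fin s → Pt m) (J : Finset (Fin s)) : Submodule ℚ ((Fin m → ℚ) × ℚ) :=
  Submodule.span ℚ ((fun j => aff (T j)) '' (J : Set (Fin s)))

/-- `J` is a set of positions of a basis of the tuple `T` -/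
def IsBas (T : Fin s → Pt m) (J : Finset (Fin s)) : Prop :=
  LinearIndepOn ℚ (fun j => aff (T j)) (J : Set (Fin s)) ∧ ∀ i, aff (T i) ∈ spn T J

/-- every entry is in the span of the other entries -/
def NoColoop (T : Fin s → Pt m) : Prop := ∀ i, aff (T i) ∈ spn T (univ.erase i)

theorem exists_isBas (T : Fin s → Pt m) : ∃ J, IsBas T J := by
  obtain ⟨b, -, -, h2, h3⟩ := exists_linearIndepOn_extension (K := ℚ)
    (v := fun j => aff (T j)) (s := ∅) (t := Set.univ) (by simp) (Set.subset_univ _)
  refine ⟨b.toFinset, ?_, ?_⟩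
  · simpa using h3
  · intro i
    have := h2 ⟨i, Set.mem_univ _, rfl⟩
    simpa [spn] using this

/-- few choices for an entry once the basis is known -/
theorem card_span_le (hB1 : S_B1) (G : Finset (Pt m)) (g0 : Pt m) (rX : ℕ)
    (hbox : ∀ g ∈ G, ∀ k, |g k - g0 k| ≤ rX) (T : Fin s → Pt m) (J : Finset (Fin s)) :
    (G.filter fun g => aff g ∈ spn T J).card ≤ (2 * rX + 1) ^ J.card := by
  have h := hB1 m rX G (J.image T) g0 hbox
  have e : (aff '' ((J.image T : Finset (Pt m)) : Set (Pt m))) =
      ((fun j => aff (T j)) '' (J : Set (Fin s))) := by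
    ext x
    simp
  rw [e] at h
  refine le_trans h (Nat.pow_le_pow_right (by omega) Finset.card_image_le)

/-- fibre bound: if the entries outside `A` have at most `K` values once the entries in `A` are known -/
theorem card_fibre (A : Finset (Fin s)) (S : Finset (Fin s → Pt m)) (K : ℕ)
    (B : (Fin s → Pt m) → Finset (Pt m))
    (hB : ∀ T ∈ S, ∀ i, i ∉ A → T i ∈ B (fun j => if j ∈ A then T j else 0))
    (hK : ∀ T ∈ S, (B (fun j => if j ∈ A then T j else 0)).card ≤ K) :
    S.card ≤ K ^ (s - A.card) *
      (S.image fun T : Fin s → Pt m => fun j => if j ∈ A then T j else 0).card := by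
  apply Finset.card_le_mul_card_image
  intro U hU
  obtain ⟨T0, hT0, rfl⟩ := Finset.mem_image.1 hU
  set U : Fin s → Pt m := fun j => if j ∈ A then T0 j else 0 with hUdef
  have hsub : (S.filter fun T : Fin s → Pt m => (fun j => if j ∈ A then T j else 0) = U) ⊆
      Fintype.piFinset (fun j => if j ∈ A then {U j} else B U) := by
    intro T hT
    rw [Finset.mem_filter] at hT
    rw [Fintype.mem_piFinset]
    intro j
    by_cases hj : j ∈ A
    · have := congrFun hT.2 j
      simp only [hj, if_true] at this ⊢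
      rw [Finset.mem_singleton]
      exact this
    · simp only [hj, if_false]
      have := hB T hT.1 j hj
      rwa [hT.2] at this
  refine le_trans (Finset.card_le_card hsub) ?_
  rw [Fintype.card_piFinset]
  rw [← Finset.prod_mul_prod_compl A]
  have h1 : ∏ i ∈ A, (if i ∈ A then ({U i} : Finset (Pt m)) else B U).card = 1 := by
    apply Finset.prod_eq_one
    intro i hi
    simp [hi]
  have h2 : ∏ i ∈ Aᶜ, (if i ∈ A then ({U i} : Finset (Pt m)) else B U).card =
      (B U).card ^ (s - A.card) := by
    rw [Finset.prod_congr rfl (g := fun _ => (B U).card)]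
    · rw [Finset.prod_const, Finset.card_compl, Fintype.card_fin]
    · intro i hi
      rw [Finset.mem_compl] at hi
      simp [hi]
  rw [h1, h2, one_mul]
  exact Nat.pow_le_pow_left (hK T0 hT0) _

/-- functions in `G` on `A`, zero outside -/
theorem card_pi_zero (A : Finset (Fin s)) (G : Finset (Pt m)) :
    (Fintype.piFinset fun j : Fin s => if j ∈ A then G else ({0} : Finset (Pt m))).card =
      G.card ^ A.card := by
  rw [Fintype.card_piFinset, ← Finset.prod_mul_prod_compl A]
  have h1 : ∏ i ∈ A, (if i ∈ A then G else ({0} : Finset (Pt m))).card = G.card ^ A.card := by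
    rw [Finset.prod_congr rfl (g := fun _ => G.card)]
    · rw [Finset.prod_const]
    · intro i hi
      simp [hi]
  have h2 : ∏ i ∈ Aᶜ, (if i ∈ A then G else ({0} : Finset (Pt m))).card = 1 := by
    apply Finset.prod_eq_one
    intro i hi
    rw [Finset.mem_compl] at hi
    simp [hi]
  rw [h1, h2, mul_one]

theorem spn_restrict (T : Fin s → Pt m) (J A : Finset (Fin s)) (hJA : J ⊆ A) :
    spn (fun j => if j ∈ A then T j else 0) J = spn T J := by
  unfold spn
  congr 1
  apply Set.image_congr
  intro j hj
  simp [hJA hj]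

/-- tuples with a given set of basis positions -/
theorem card_bas_le (hB1 : S_B1) (G : Finset (Pt m)) (g0 : Pt m) (rX : ℕ)
    (hbox : ∀ g ∈ G, ∀ k, |g k - g0 k| ≤ rX) (J : Finset (Fin s)) :
    ((Fintype.piFinset fun _ : Fin s => G).filter fun T => IsBas T J).card ≤
      ((2 * rX + 1) ^ J.card) ^ (s - J.card) * G.card ^ J.card := by
  refine le_trans (card_fibre J _ ((2 * rX + 1) ^ J.card)
    (fun U => G.filter fun g => aff g ∈ spn U J) ?_ ?_) ?_
  · intro T hT i hi
    rw [Finset.mem_filter, Fintype.mem_piFinset] at hT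
    rw [Finset.mem_filter, spn_restrict T J J (Finset.Subset.refl _)]
    exact ⟨hT.1 i, hT.2.2 i⟩
  · intro T hT
    exact card_span_le hB1 G g0 rX hbox _ J
  · apply Nat.mul_le_mul_left
    rw [← card_pi_zero J G]
    apply Finset.card_le_card
    intro U hU
    obtain ⟨T, hT, rfl⟩ := Finset.mem_image.1 hU
    rw [Finset.mem_filter, Fintype.mem_piFinset] at hT
    rw [Fintype.mem_piFinset]
    intro j
    by_cases hj : j ∈ J
    · simp [hj, hT.1 j]
    · simp [hj]

/-- fibre bound with different bounds for the coordinates -/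
theorem card_fibre' (A : Finset (Fin s)) (S : Finset (Fin s → Pt m)) (K : Fin s → ℕ)
    (B : Fin s → Finset (Pt m))
    (hB : ∀ T ∈ S, ∀ i, i ∉ A → T i ∈ B i) (hK : ∀ i, i ∉ A → (B i).card ≤ K i) :
    S.card ≤ (∏ i ∈ Aᶜ, K i) *
      (S.image fun T : Fin s → Pt m => fun j => if j ∈ A then T j else 0).card := by
  apply Finset.card_le_mul_card_image
  intro U hU
  have hsub : (S.filter fun T : Fin s → Pt m => (fun j => if j ∈ A then T j else 0) = U) ⊆
      Fintype.piFinset (fun j => if j ∈ A then {U j} else B j) := by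
    intro T hT
    rw [Finset.mem_filter] at hT
    rw [Fintype.mem_piFinset]
    intro j
    by_cases hj : j ∈ A
    · have := congrFun hT.2 j
      simp only [hj, if_true] at this ⊢
      rw [Finset.mem_singleton]
      exact this
    · simp only [hj, if_false]
      exact hB T hT.1 j hj
  refine le_trans (Finset.card_le_card hsub) ?_
  rw [Fintype.card_piFinset]
  rw [← Finset.prod_mul_prod_compl A]
  have h1 : ∏ i ∈ A, (if i ∈ A then ({U i} : Finset (Pt m)) else B i).card = 1 := by
    apply Finset.prod_eq_one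
    intro i hi
    simp [hi]
  rw [h1, one_mul]
  apply Finset.prod_le_prod'
  intro i hi
  rw [Finset.mem_compl] at hi
  simp only [hi, if_false]
  exact hK i hi

/-- solutions supported on `A` -/
theorem card_sol_le (G : Finset (Pt m)) (A : Finset (Fin s)) (H : Fin s → ℤ) :
    ((Fintype.piFinset fun j : Fin s => if j ∈ A then G else ({0} : Finset (Pt m))).filter
      fun U => ∑ j ∈ A, H j • U j = 0).card ≤
      relCount G (fun i : Fin A.card => H (A.orderEmbOfFin rfl i)) 0 := by
  unfold relCount
  apply Finset.card_le_card_of_injOn (fun U i => U (A.orderEmbOfFin rfl i))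
  · intro U hU
    rw [Finset.mem_coe, Finset.mem_filter, Fintype.mem_piFinset] at hU
    rw [Finset.mem_coe, Finset.mem_filter, Fintype.mem_piFinset]
    refine ⟨fun i => ?_, ?_⟩
    · have := hU.1 (A.orderEmbOfFin rfl i)
      rwa [if_pos (Finset.orderEmbOfFin_mem A rfl i)] at this
    · rw [← hU.2]
      have h : ∑ j ∈ A, H j • U j =
          ∑ j ∈ Finset.map (A.orderEmbOfFin rfl).toEmbedding univ, H j • U j := by
        rw [Finset.map_orderEmbOfFin_univ]
      rw [h, Finset.sum_map]
      rfl
  · intro U hU V hV hUV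
    rw [Finset.mem_coe, Finset.mem_filter, Fintype.mem_piFinset] at hU hV
    funext j
    by_cases hj : j ∈ A
    · have hr : j ∈ Set.range (A.orderEmbOfFin rfl) := by
        rw [Finset.range_orderEmbOfFin]
        exact hj
      obtain ⟨i, rfl⟩ := hr
      exact congrFun hUV i
    · have h1 := hU.1 j
      have h2 := hV.1 j
      rw [if_neg hj, Finset.mem_singleton] at h1 h2
      rw [h1, h2]

/-- coefficients with respect to a basis -/
theorem exists_coef (T : Fin s → Pt m) (J : Finset (Fin s)) (i : Fin s)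
    (h : aff (T i) ∈ spn T J) : ∃ c : Fin s → ℚ, ∑ j ∈ J, c j • aff (T j) = aff (T i) := by
  unfold spn at h
  exact (Submodule.mem_span_image_finset_iff_exists_fun' ℚ).1 h

/-- a basis entry occurs in the coefficients of some other entry -/
theorem cover (T : Fin s → Pt m) (J : Finset (Fin s)) (hJ : IsBas T J) (hn : NoColoop T)
    (C : Fin s → Fin s → ℚ) (hC : ∀ i, ∑ j ∈ J, C i j • aff (T j) = aff (T i)) (b : Fin s)
    (hb : b ∈ J) : ∃ i, i ∉ J ∧ C i b ≠ 0 := by
  by_contra hcon
  push Not at hcon
  have h1 : ∀ j, j ≠ b → aff (T j) ∈ spn T (J.erase b) := by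
    intro j hj
    by_cases hjJ : j ∈ J
    · exact Submodule.subset_span ⟨j, by simp [hj, hjJ], rfl⟩
    · rw [← hC j, ← Finset.sum_erase_add _ _ hb, hcon j hjJ, zero_smul, add_zero]
      refine Submodule.sum_mem _ fun l hl => Submodule.smul_mem _ _ ?_
      exact Submodule.subset_span ⟨l, by simpa [and_comm] using hl, rfl⟩
  have h2 : spn T (univ.erase b) ≤ spn T (J.erase b) := by
    rw [spn, Submodule.span_le]
    rintro _ ⟨j, hj, rfl⟩
    exact h1 j (by simpa using hj)
  have h3 := h2 (hn b)
  have h4 := hJ.1.notMem_span (i := b) hb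
  apply h4
  unfold spn at h3
  simpa using h3

/-- a large circuit through a non-basis entry -/
theorem exists_large (T : Fin s → Pt m) (J : Finset (Fin s)) (hJ : IsBas T J) (hn : NoColoop T)
    (C : Fin s → Fin s → ℚ) (hC : ∀ i, ∑ j ∈ J, C i j • aff (T j) = aff (T i))
    (hJs : J.card < s) :
    ∃ i, i ∉ J ∧ J.card ≤ (J.filter fun j => C i j ≠ 0).card * (s - J.card) := by
  by_contra hcon
  push Not at hcon
  have hne : (Jᶜ : Finset (Fin s)).card = s - J.card := by
    rw [Finset.card_compl, Fintype.card_fin]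
  have h1 : J.card ≤ ∑ i ∈ Jᶜ, (J.filter fun j => C i j ≠ 0).card := by
    refine le_trans (Finset.card_le_card ?_) Finset.card_biUnion_le
    intro b hb
    obtain ⟨i, hi, hib⟩ := cover T J hJ hn C hC b hb
    rw [Finset.mem_biUnion]
    exact ⟨i, by simpa using hi, by simp [hb, hib]⟩
  have h2 : (∑ i ∈ Jᶜ, (J.filter fun j => C i j ≠ 0).card) * (s - J.card) <
      (s - J.card) * J.card := by
    rw [Finset.sum_mul, ← hne, ← smul_eq_mul (a := (Jᶜ : Finset (Fin s)).card), ← Finset.sum_const]
    apply Finset.sum_lt_sum_of_nonempty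
    · rw [← Finset.card_pos, hne]
      omega
    · intro i hi
      rw [hne]
      exact hcon i (by simpa using hi)
  have h3 := Nat.mul_le_mul_right (s - J.card) h1
  rw [mul_comm (s - J.card)] at h2
  omega

/-- the integer relation of a circuit -/
theorem exists_rel (hB2 : S_B2) (G : Finset (Pt m)) (g0 : Pt m) (rX : ℕ)
    (hbox : ∀ g ∈ G, ∀ k, |g k - g0 k| ≤ rX) (T : Fin s → Pt m) (hT : ∀ i, T i ∈ G)
    (J : Finset (Fin s)) (hJ : IsBas T J) (c : Fin s → ℚ) (i : Fin s) (hi : i ∉ J)
    (hc : ∑ j ∈ J, c j • aff (T j) = aff (T i)) (h2 : 2 ≤ (J.filter fun j => c j ≠ 0).card) :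
    ∃ H : Fin s → ℤ, (∀ j, |H j| ≤ ((s * (rX + 1)) ^ s : ℕ)) ∧
      (∀ j, H j ≠ 0 ↔ j ∈ insert i (J.filter fun j => c j ≠ 0)) ∧
      ∑ j ∈ insert i (J.filter fun j => c j ≠ 0), H j • T j = 0 := by
  set A : Finset (Fin s) := J.filter fun j => c j ≠ 0 with hA
  have hAJ : A ⊆ J := Finset.filter_subset _ _
  have hiA : i ∉ A := fun h => hi (hAJ h)
  have hcA : ∑ j ∈ A, c j • aff (T j) = aff (T i) := by
    rw [← hc, hA, Finset.sum_filter]
    refine Finset.sum_congr rfl fun j _ => ?_
    split_ifs with h
    · rfl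
    · rw [not_not] at h
      rw [h, zero_smul]
  have hAl : LinearIndepOn ℚ (fun j => aff (T j)) (A : Set (Fin s)) :=
    hJ.1.mono (by exact_mod_cast hAJ)
  have hTA : Set.InjOn T (A : Set (Fin s)) := by
    intro a ha b hb hab
    exact hAl.injOn ha hb (by simp only [hab])
  have hTi : ∀ j ∈ A, T j ≠ T i := by
    intro j hj hji
    have hcj : c j ≠ 0 := by
      rw [hA, Finset.mem_filter] at hj
      exact hj.2
    -- then the combination is trivial
    have h3 : ∑ l ∈ A, (c l - if l = j then 1 else 0) • aff (T l) = 0 := by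
      simp only [sub_smul, Finset.sum_sub_distrib, hcA, ite_smul, one_smul, zero_smul,
        Finset.sum_ite_eq', hj, if_true, hji, sub_self]
    have h4 := (linearIndepOn_finset_iff.1 hAl) _ h3
    obtain ⟨l, hl, hlj⟩ := Finset.exists_mem_ne (by omega : 1 < A.card) j
    have h5 := h4 l hl
    simp only [hlj, if_false, sub_zero] at h5
    rw [hA, Finset.mem_filter] at hl
    exact hl.2 h5
  have hinj : Set.InjOn T ((insert i A : Finset (Fin s)) : Set (Fin s)) := by
    intro a ha b hb hab
    rw [Finset.mem_coe, Finset.mem_insert] at ha hb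
    rcases ha with rfl | ha <;> rcases hb with rfl | hb
    · rfl
    · exact absurd hab.symm (hTi b hb)
    · exact absurd hab (hTi a ha)
    · exact hTA ha hb hab
  set Z : Finset (Pt m) := (insert i A).image T with hZ
  have hZcard : Z.card = (insert i A).card := Finset.card_image_of_injOn hinj
  have hdep : ¬ LinearIndepOn ℚ aff (Z : Set (Pt m)) := by
    intro hli
    have h6 : LinearIndepOn ℚ (fun j => aff (T j)) ((insert i A : Finset (Fin s)) : Set (Fin s)) := by
      apply LinearIndepOn.comp_of_image (v := aff) (f := T)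
      · rw [hZ, Finset.coe_image] at hli
        exact hli
      · exact hinj
    have h7 := (linearIndepOn_finset_iff.1 h6) (fun j => if j = i then (-1 : ℚ) else c j) (by
      rw [Finset.sum_insert hiA]
      simp only [if_true]
      have h8 : ∑ j ∈ A, (if j = i then (-1 : ℚ) else c j) • aff (T j) =
          ∑ j ∈ A, c j • aff (T j) := by
        refine Finset.sum_congr rfl fun j hj => ?_
        rw [if_neg (by rintro rfl; exact hiA hj)]
      rw [h8, hcA]
      simp) i (Finset.mem_insert_self _ _)
    simp at h7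
  obtain ⟨h, hne, ⟨⟨hz, hs0, hs1⟩, hbd⟩⟩ := hB2 m rX Z g0 (by
    intro g hg k
    rw [hZ] at hg
    obtain ⟨j, -, rfl⟩ := Finset.mem_image.1 hg
    exact hbox _ (hT j) k) hdep
  rw [hZ, Finset.sum_image hinj] at hs0 hs1
  have hrel : ∑ j ∈ insert i A, (h (T j) : ℚ) • aff (T j) = 0 := by
    ext k
    · have := congrFun hs1 k
      simp only [Finset.sum_apply, Pi.smul_apply, smul_eq_mul, Pi.zero_apply] at this
      simp only [aff, Prod.fst_sum, Prod.smul_fst, Finset.sum_apply, Pi.smul_apply, smul_eq_mul,
        Prod.fst_zero, Pi.zero_apply]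
      exact_mod_cast this
    · simp only [aff, Prod.snd_sum, Prod.smul_snd, smul_eq_mul, mul_one, Prod.snd_zero]
      exact_mod_cast hs0
  have hcomb : ∑ j ∈ A, ((h (T j) : ℚ) + h (T i) * c j) • aff (T j) = 0 := by
    rw [Finset.sum_insert hiA] at hrel
    simp only [add_smul, mul_smul, Finset.sum_add_distrib, ← Finset.smul_sum, hcA]
    rw [add_comm]
    exact hrel
  have hco := (linearIndepOn_finset_iff.1 hAl) _ hcomb
  have hhi : h (T i) ≠ 0 := by
    intro h0
    apply hne
    funext g
    by_cases hg : g ∈ Z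
    · rw [hZ] at hg
      obtain ⟨j, hj, rfl⟩ := Finset.mem_image.1 hg
      rcases Finset.mem_insert.1 hj with rfl | hj
      · simpa using h0
      · have := hco j hj
        simp only [h0, Int.cast_zero, zero_mul, add_zero, Int.cast_eq_zero] at this
        simpa using this
    · simpa using hz g hg
  refine ⟨fun j => if j ∈ insert i A then h (T j) else 0, ?_, ?_, ?_⟩
  · intro j
    by_cases hj : j ∈ insert i A
    · simp only [hj, if_true]
      have h9 := hbd (T j)
      have hcs : Z.card ≤ s := by
        rw [hZcard]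
        exact le_trans (Finset.card_le_univ _) (by simp)
      have h10 : ((Z.card * (rX + 1) : ℝ)) ^ Z.card ≤ ((s : ℝ) * (rX + 1)) ^ s := by
        have hs1' : (1 : ℝ) ≤ (s : ℝ) * (rX + 1) := by
          have : 1 ≤ s := le_trans (by
            rw [hZcard]
            exact Finset.card_pos.2 ⟨i, Finset.mem_insert_self _ _⟩) hcs
          have h1 : (1 : ℝ) ≤ s := by exact_mod_cast this
          nlinarith [(Nat.cast_nonneg rX : (0 : ℝ) ≤ rX)]
        calc ((Z.card * (rX + 1) : ℝ)) ^ Z.card ≤ ((s : ℝ) * (rX + 1)) ^ Z.card := by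
              gcongr
          _ ≤ _ := pow_le_pow_right₀ hs1' hcs
      have h11 := le_trans h9 h10
      exact_mod_cast h11
    · simp only [hj, if_false, abs_zero]
      positivity
  · intro j
    by_cases hj : j ∈ insert i A
    · simp only [hj, if_true, iff_true]
      rcases Finset.mem_insert.1 hj with rfl | hj'
      · exact hhi
      · intro h0
        have := hco j hj'
        rw [h0] at this
        simp only [Int.cast_zero, zero_add, mul_eq_zero, Int.cast_eq_zero] at this
        rcases this with h | h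
        · exact hhi h
        · rw [hA, Finset.mem_filter] at hj'
          exact hj'.2 h
    · simp [hj]
  · rw [← hs1]
    refine Finset.sum_congr rfl fun j hj => ?_
    simp only [hj, if_true]

/-- the tuples with a given basis and a given relation -/
theorem card_rel_le (hB1 : S_B1) (G : Finset (Pt m)) (g0 : Pt m) (rX : ℕ)
    (hbox : ∀ g ∈ G, ∀ k, |g k - g0 k| ≤ rX) (J A : Finset (Fin s)) (i : Fin s) (hi : i ∉ J)
    (hA : A ⊆ J) (H : Fin s → ℤ) :
    ((Fintype.piFinset fun _ : Fin s => G).filter fun T =>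
      IsBas T J ∧ ∑ j ∈ insert i A, H j • T j = 0).card ≤
      ((2 * rX + 1) ^ J.card) ^ (s - J.card) * (G.card ^ (J.card - A.card) *
        relCount G (fun l : Fin (insert i A).card => H ((insert i A).orderEmbOfFin rfl l)) 0) := by
  have hiA : i ∉ A := fun h => hi (hA h)
  have hsub : insert i A ⊆ insert i J := Finset.insert_subset_insert _ hA
  -- step 1: entries outside `insert i J`
  refine le_trans (card_fibre (insert i J) _ ((2 * rX + 1) ^ J.card)
    (fun U => G.filter fun g => aff g ∈ spn U J) ?_ ?_) ?_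
  · intro T hT l hl
    rw [Finset.mem_filter, Fintype.mem_piFinset] at hT
    rw [Finset.mem_filter, spn_restrict T J _ (Finset.subset_insert _ _)]
    exact ⟨hT.1 l, hT.2.1.2 l⟩
  · intro T hT
    exact card_span_le hB1 G g0 rX hbox _ J
  have hpow : ((2 * rX + 1) ^ J.card) ^ (s - (insert i J).card) ≤
      ((2 * rX + 1) ^ J.card) ^ (s - J.card) := by
    apply Nat.pow_le_pow_right (Nat.pos_of_ne_zero (by positivity))
    have : J.card ≤ (insert i J).card := Finset.card_le_card (Finset.subset_insert _ _)
    omega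
  refine Nat.mul_le_mul hpow ?_
  -- step 2
  have hsub2 : (((Fintype.piFinset fun _ : Fin s => G).filter fun T =>
      IsBas T J ∧ ∑ j ∈ insert i A, H j • T j = 0).image
        fun T : Fin s → Pt m => fun j => if j ∈ insert i J then T j else 0) ⊆
      (Fintype.piFinset fun j : Fin s =>
        if j ∈ insert i J then G else ({0} : Finset (Pt m))).filter
        fun U => ∑ j ∈ insert i A, H j • U j = 0 := by
    intro U hU
    obtain ⟨T, hT, rfl⟩ := Finset.mem_image.1 hU
    rw [Finset.mem_filter, Fintype.mem_piFinset] at hT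
    rw [Finset.mem_filter, Fintype.mem_piFinset]
    refine ⟨fun j => ?_, ?_⟩
    · by_cases hj : j ∈ insert i J
      · simp only [hj, if_true]
        exact hT.1 j
      · simp only [hj, if_false, Finset.mem_singleton]
    · refine Eq.trans (Finset.sum_congr rfl fun j hj => ?_) hT.2.2
      simp only [hsub hj, if_true]
  refine le_trans (Finset.card_le_card hsub2) ?_
  refine le_trans (card_fibre' (insert i A) _ (fun j => if j ∈ insert i J then G.card else 1)
    (fun j => if j ∈ insert i J then G else {0}) ?_ ?_) ?_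
  · intro U hU j _
    rw [Finset.mem_filter, Fintype.mem_piFinset] at hU
    exact hU.1 j
  · intro j _
    by_cases hj : j ∈ insert i J
    · simp only [hj, if_true, le_refl]
    · simp only [hj, if_false, Finset.card_singleton, le_refl]
  have hprod : ∏ j ∈ (insert i A)ᶜ, (if j ∈ insert i J then G.card else 1) =
      G.card ^ (J.card - A.card) := by
    rw [Finset.prod_ite, Finset.prod_const_one, mul_one, Finset.prod_const]
    congr 1
    have : ((insert i A)ᶜ.filter fun j => j ∈ insert i J) = J \ A := by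
      ext j
      simp only [Finset.mem_filter, Finset.mem_compl, Finset.mem_insert, not_or, Finset.mem_sdiff]
      constructor
      · rintro ⟨⟨h1, h2⟩, h3 | h3⟩
        · exact absurd h3 h1
        · exact ⟨h3, h2⟩
      · rintro ⟨h1, h2⟩
        exact ⟨⟨by rintro rfl; exact hi h1, h2⟩, Or.inr h1⟩
    rw [this, Finset.card_sdiff_of_subset hA]
  rw [hprod]
  apply Nat.mul_le_mul_left
  refine le_trans (Finset.card_le_card ?_) (card_sol_le G (insert i A) H)
  intro V hV
  obtain ⟨U, hU, rfl⟩ := Finset.mem_image.1 hV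
  rw [Finset.mem_filter, Fintype.mem_piFinset] at hU
  rw [Finset.mem_filter, Fintype.mem_piFinset]
  refine ⟨fun j => ?_, ?_⟩
  · have h1 := hU.1 j
    by_cases hj : j ∈ insert i A
    · rw [if_pos (hsub hj)] at h1
      simp only [hj, if_true]
      exact h1
    · simp only [hj, if_false, Finset.mem_singleton]
  · refine Eq.trans (Finset.sum_congr rfl fun j hj => ?_) hU.2
    simp only [hj, if_true]

/-- **few tuples without coloops**: one large circuit -/
theorem card_circ_le (hB1 : S_B1) (hB2 : S_B2) (G : Finset (Pt m)) (g0 : Pt m) (rX : ℕ)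
    (hbox : ∀ g ∈ G, ∀ k, |g k - g0 k| ≤ rX) (J : Finset (Fin s)) (hJs : J.card < s) (l : ℕ)
    (hl3 : 3 ≤ l) (hl : ∀ a, J.card ≤ a * (s - J.card) → l ≤ a + 1) (ε : ℝ) (hε : 0 ≤ ε)
    (hrel : ∀ (s' : ℕ) (h : Fin s' → ℤ), l ≤ s' → (∀ i, h i ≠ 0) →
      (relCount G h 0 : ℝ) ≤ (G.card : ℝ) ^ (s' - 1) * ε) :
    (((Fintype.piFinset fun _ : Fin s => G).filter fun T => IsBas T J ∧ NoColoop T).card : ℝ) ≤
      (2 * ((s * (rX + 1)) ^ s : ℕ) + 1) ^ s * ((2 * rX + 1) ^ J.card) ^ (s - J.card) *
        (G.card : ℝ) ^ J.card * ε := by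
  set B : ℕ := (s * (rX + 1)) ^ s with hBdef
  -- the index set of the union bound
  set Idx : Finset (Fin s × Finset (Fin s) × (Fin s → ℤ)) :=
    ((univ : Finset (Fin s)) ×ˢ ((univ : Finset (Finset (Fin s))) ×ˢ
      (Fintype.piFinset fun _ : Fin s => Finset.Icc (-(B : ℤ)) B))).filter
      (fun q => q.1 ∉ J ∧ q.2.1 ⊆ J ∧ l ≤ q.2.1.card + 1 ∧ ∀ j, q.2.2 j ≠ 0 ↔ j ∈ insert q.1 q.2.1)
    with hIdx
  have hcover : ((Fintype.piFinset fun _ : Fin s => G).filter fun T => IsBas T J ∧ NoColoop T) ⊆
      Idx.biUnion fun q => (Fintype.piFinset fun _ : Fin s => G).filter fun T =>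
        IsBas T J ∧ ∑ j ∈ insert q.1 q.2.1, q.2.2 j • T j = 0 := by
    intro T hT
    rw [Finset.mem_filter, Fintype.mem_piFinset] at hT
    obtain ⟨hTG, hJ, hn⟩ := hT
    choose C hC using fun i => exists_coef T J i (hJ.2 i)
    obtain ⟨i, hi, hlarge⟩ := exists_large T J hJ hn C hC hJs
    have hla := hl _ hlarge
    obtain ⟨H, hH1, hH2, hH3⟩ := exists_rel hB2 G g0 rX hbox T hTG J hJ (C i) i hi (hC i) (by omega)
    rw [Finset.mem_biUnion]
    refine ⟨(i, J.filter fun j => C i j ≠ 0, H), ?_, ?_⟩
    · rw [hIdx, Finset.mem_filter, Finset.mem_product, Finset.mem_product, Fintype.mem_piFinset]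
      refine ⟨⟨Finset.mem_univ _, Finset.mem_univ _, fun j => ?_⟩, hi, Finset.filter_subset _ _,
        hla, hH2⟩
      rw [Finset.mem_Icc]
      have := hH1 j
      rw [abs_le] at this
      exact this
    · rw [Finset.mem_filter, Fintype.mem_piFinset]
      exact ⟨hTG, hJ, hH3⟩
  have hIdxcard : (Idx.card : ℝ) ≤ (2 * (B : ℝ) + 1) ^ s := by
    have h1 : Idx.card ≤ (2 * B + 1) ^ s := by
      have h2 : Idx.card ≤ (Fintype.piFinset fun _ : Fin s => Finset.Icc (-(B : ℤ)) B).card := by
        apply Finset.card_le_card_of_injOn (fun q => q.2.2)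
        · intro q hq
          rw [Finset.mem_coe, hIdx, Finset.mem_filter, Finset.mem_product, Finset.mem_product] at hq
          exact hq.1.2.2
        · intro q hq q' hq' hqq
          simp only at hqq
          rw [Finset.mem_coe, hIdx, Finset.mem_filter] at hq hq'
          obtain ⟨-, hi, hA, -, hH⟩ := hq
          obtain ⟨-, hi', hA', -, hH'⟩ := hq'
          have hins : insert q.1 q.2.1 = insert q'.1 q'.2.1 := by
            ext j
            rw [← hH, ← hH', hqq]
          have e1 : q.1 = q'.1 := by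
            have : q.1 ∈ insert q'.1 q'.2.1 := by
              rw [← hins]
              exact Finset.mem_insert_self _ _
            rcases Finset.mem_insert.1 this with h | h
            · exact h
            · exact absurd (hA' h) hi
          have e2 : q.2.1 = q'.2.1 := by
            have hn1 : q.1 ∉ q.2.1 := fun h => hi (hA h)
            have hn2 : q.1 ∉ q'.2.1 := fun h => hi (hA' h)
            rw [← e1] at hins
            rw [← Finset.erase_insert hn1, hins, Finset.erase_insert hn2]
          exact Prod.ext e1 (Prod.ext e2 hqq)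
      refine le_trans h2 ?_
      rw [Fintype.card_piFinset]
      simp only [Int.card_Icc, Finset.prod_const, Finset.card_univ, Fintype.card_fin]
      apply Nat.pow_le_pow_left
      omega
    calc (Idx.card : ℝ) ≤ (((2 * B + 1) ^ s : ℕ) : ℝ) := by exact_mod_cast h1
      _ = _ := by push_cast; ring
  have hterm : ∀ q ∈ Idx, (((Fintype.piFinset fun _ : Fin s => G).filter fun T =>
      IsBas T J ∧ ∑ j ∈ insert q.1 q.2.1, q.2.2 j • T j = 0).card : ℝ) ≤
      ((2 * rX + 1) ^ J.card) ^ (s - J.card) * (G.card : ℝ) ^ J.card * ε := by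
    intro q hq
    rw [hIdx, Finset.mem_filter] at hq
    obtain ⟨-, hi, hA, hla, hH⟩ := hq
    have hiA : q.1 ∉ q.2.1 := fun h => hi (hA h)
    have h1 := card_rel_le hB1 G g0 rX hbox J q.2.1 q.1 hi hA q.2.2
    have h2 : (((Fintype.piFinset fun _ : Fin s => G).filter fun T =>
      IsBas T J ∧ ∑ j ∈ insert q.1 q.2.1, q.2.2 j • T j = 0).card : ℝ) ≤
        ((2 * rX + 1) ^ J.card) ^ (s - J.card) * ((G.card : ℝ) ^ (J.card - q.2.1.card) *
        relCount G (fun l : Fin (insert q.1 q.2.1).card =>
          q.2.2 ((insert q.1 q.2.1).orderEmbOfFin rfl l)) 0) := by exact_mod_cast h1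
    refine le_trans h2 ?_
    have hcard : (insert q.1 q.2.1).card = q.2.1.card + 1 := Finset.card_insert_of_notMem hiA
    have h3 := hrel (insert q.1 q.2.1).card (fun l : Fin (insert q.1 q.2.1).card =>
          q.2.2 ((insert q.1 q.2.1).orderEmbOfFin rfl l)) (by omega) (fun l => by
            rw [hH]
            exact Finset.orderEmbOfFin_mem _ rfl l)
    rw [mul_assoc]
    apply mul_le_mul_of_nonneg_left _ (by positivity)
    calc (G.card : ℝ) ^ (J.card - q.2.1.card) * relCount G (fun l : Fin (insert q.1 q.2.1).card =>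
          q.2.2 ((insert q.1 q.2.1).orderEmbOfFin rfl l)) 0
        ≤ (G.card : ℝ) ^ (J.card - q.2.1.card) *
          ((G.card : ℝ) ^ ((insert q.1 q.2.1).card - 1) * ε) :=
          mul_le_mul_of_nonneg_left h3 (by positivity)
      _ = (G.card : ℝ) ^ J.card * ε := by
          rw [← mul_assoc, ← pow_add]
          congr 2
          have := Finset.card_le_card hA
          omega
  calc (((Fintype.piFinset fun _ : Fin s => G).filter fun T => IsBas T J ∧ NoColoop T).card : ℝ)
      ≤ ((Idx.biUnion fun q => (Fintype.piFinset fun _ : Fin s => G).filter fun T =>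
        IsBas T J ∧ ∑ j ∈ insert q.1 q.2.1, q.2.2 j • T j = 0).card : ℝ) := by
        exact_mod_cast Finset.card_le_card hcover
    _ ≤ ∑ q ∈ Idx, (((Fintype.piFinset fun _ : Fin s => G).filter fun T =>
        IsBas T J ∧ ∑ j ∈ insert q.1 q.2.1, q.2.2 j • T j = 0).card : ℝ) := by
        exact_mod_cast Finset.card_biUnion_le
    _ ≤ ∑ q ∈ Idx, ((2 * rX + 1) ^ J.card) ^ (s - J.card) * (G.card : ℝ) ^ J.card * ε :=
        Finset.sum_le_sum hterm
    _ = Idx.card * (((2 * rX + 1) ^ J.card) ^ (s - J.card) * (G.card : ℝ) ^ J.card * ε) := by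
        rw [Finset.sum_const, nsmul_eq_mul]
    _ ≤ ((2 * (B : ℝ) + 1) ^ s) *
        (((2 * rX + 1) ^ J.card) ^ (s - J.card) * (G.card : ℝ) ^ J.card * ε) := by
        apply mul_le_mul_of_nonneg_right hIdxcard (by positivity)
    _ = _ := by ring

end B3C
end Crest.Agent.R225
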