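import Crest.Agent.R225.B3Iface

/-!
Row 225 (S0347), node B3, piece P1: `S_vanish` and `S_expect` from `S_indep`.
-/

set_option autoImplicit false

open Finset
open scoped BigOperators

namespace Crest.Agent.R225
namespace B3

theorem prf_vanish (hI : S_indep) : S_vanish := by
  classical
  intro m G
  obtain ⟨P0, hP0⟩ := hI m G
  refine ⟨P0, fun P hP _ N T i D hT hcol hD => ?_⟩
  have key := hP0 P hP ((univ.erase i).image T) (T i)
    (fun r => ∏ j ∈ univ.erase i, D (T j) (res r (T j))) (D (T i))
    (by
      intro g hg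
      obtain ⟨j, -, rfl⟩ := Finset.mem_image.1 hg
      exact hT j)
    (hT i)
    (by
      intro hmem
      apply hcol
      have e : (aff '' (((univ.erase i).image T : Finset (Pt m)) : Set (Pt m))) =
          ((fun j => aff (T j)) '' {j | j ≠ i}) := by
        ext x
        simp only [Finset.coe_image, Finset.coe_erase, Finset.coe_univ, Set.mem_image,
          Set.mem_diff, Set.mem_univ, true_and, Set.mem_singleton_iff, Set.mem_setOf_eq]
        constructor
        · rintro ⟨_, ⟨j, hj, rfl⟩, rfl⟩
          exact ⟨j, hj, rfl⟩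
        · rintro ⟨j, hj, rfl⟩
          exact ⟨_, ⟨j, hj, rfl⟩, rfl⟩
      rwa [e] at hmem)
    (by
      intro r r' h
      refine Finset.prod_congr rfl fun j hj => ?_
      rw [h (T j) (Finset.mem_image_of_mem T hj)])
  rw [hD (T i) (hT i), mul_zero] at key
  rw [← key]
  refine Finset.expect_congr rfl fun r _ => ?_
  rw [mul_comm, Finset.mul_prod_erase univ (fun j => D (T j) (res r (T j))) (Finset.mem_univ i)]

theorem spT_succ {m N : ℕ} (T : Fin (N + 1) → Pt m) :
    spT T = spT (fun j : Fin N => T j.castSucc) ⊔ Submodule.span ℚ {aff (T (Fin.last N))} := by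
  unfold spT
  rw [← Submodule.span_union]
  congr 1
  ext x
  simp only [Set.mem_range, Set.mem_union, Set.mem_singleton_iff]
  constructor
  · rintro ⟨j, rfl⟩
    induction j using Fin.lastCases with
    | last => exact Or.inr rfl
    | cast j => exact Or.inl ⟨j, rfl⟩
  · rintro (⟨j, rfl⟩ | rfl)
    · exact ⟨_, rfl⟩
    · exact ⟨_, rfl⟩

theorem rkT_le {m N : ℕ} (T : Fin N → Pt m) : rkT T ≤ N := by
  unfold rkT spT
  calc Module.finrank ℚ (Submodule.span ℚ (Set.range fun i => aff (T i)))
      ≤ Fintype.card (Fin N) := finrank_range_le_card (R := ℚ) (fun i => aff (T i))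
    _ = N := Fintype.card_fin N

theorem rkT_succ_mem {m N : ℕ} (T : Fin (N + 1) → Pt m)
    (h : aff (T (Fin.last N)) ∈ spT (fun j : Fin N => T j.castSucc)) :
    rkT T = rkT (fun j : Fin N => T j.castSucc) := by
  unfold rkT
  rw [spT_succ]
  have : spT (fun j : Fin N => T j.castSucc) ⊔ Submodule.span ℚ {aff (T (Fin.last N))} =
      spT (fun j : Fin N => T j.castSucc) := by
    rw [sup_eq_left, Submodule.span_singleton_le_iff_mem]
    exact h
  rw [this]

theorem rkT_succ_notMem {m N : ℕ} (T : Fin (N + 1) → Pt m)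
    (h : aff (T (Fin.last N)) ∉ spT (fun j : Fin N => T j.castSucc)) :
    rkT T = rkT (fun j : Fin N => T j.castSucc) + 1 := by
  unfold rkT
  rw [spT_succ]
  set V := spT (fun j : Fin N => T j.castSucc)
  set x := aff (T (Fin.last N))
  have hx : x ≠ 0 := by
    intro h0
    apply h
    rw [h0]
    exact V.zero_mem
  have hdisj : Disjoint V (Submodule.span ℚ {x}) := by
    rw [Submodule.disjoint_span_singleton' hx]
    exact h
  have h1 := Submodule.finrank_sup_add_finrank_inf_eq V (Submodule.span ℚ {x})
  rw [hdisj.eq_bot, finrank_bot, add_zero, finrank_span_singleton hx] at h1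
  exact h1

theorem expect_abs_le (hI : S_indep) (m : ℕ) (G : Finset (Pt m)) : ∃ P0 : ℕ, ∀ P ≥ P0,
    ∀ [Fact P.Prime], ∀ (N : ℕ) (T : Fin N → Pt m) (D : Pt m → ZMod P → ℝ) (A a : ℝ),
    (∀ j, T j ∈ G) → 0 ≤ a →
    (∀ g ∈ G, ∀ x, |D g x| ≤ A) → (∀ g ∈ G, 𝔼 x, |D g x| ≤ a) →
    𝔼 r : Row P m, ∏ j, |D (T j) (res r (T j))| ≤ A ^ (N - rkT T) * a ^ rkT T := by
  classical
  obtain ⟨P0, hP0⟩ := hI m G
  refine ⟨P0, fun P hP _ N => ?_⟩
  induction N with
  | zero =>
    intro T D A a hT ha hA hEa
    have h0 : rkT T = 0 := Nat.le_zero.1 (rkT_le T)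
    rw [h0]
    simp
  | succ N ih =>
    intro T D A a hT ha hA hEa
    set T' : Fin N → Pt m := fun j => T j.castSucc with hT'
    set g := T (Fin.last N) with hg
    have hgG : g ∈ G := hT _
    have hA0 : 0 ≤ A := le_trans (abs_nonneg _) (hA g hgG 0)
    have ih' := ih T' D A a (fun j => hT _) ha hA hEa
    have hrk := rkT_le T'
    have hprod : ∀ r : Row P m, ∏ j, |D (T j) (res r (T j))| =
        (∏ j, |D (T' j) (res r (T' j))|) * |D g (res r g)| := by
      intro r
      rw [Fin.prod_univ_castSucc]
    simp_rw [hprod]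
    by_cases hmem : aff g ∈ spT T'
    · rw [rkT_succ_mem T hmem]
      calc 𝔼 r : Row P m, (∏ j, |D (T' j) (res r (T' j))|) * |D g (res r g)|
          ≤ 𝔼 r : Row P m, (∏ j, |D (T' j) (res r (T' j))|) * A := by
            refine Finset.expect_le_expect fun r _ => ?_
            exact mul_le_mul_of_nonneg_left (hA g hgG _)
              (Finset.prod_nonneg fun _ _ => abs_nonneg _)
        _ = (𝔼 r : Row P m, ∏ j, |D (T' j) (res r (T' j))|) * A := by
            rw [Finset.expect_mul]
        _ ≤ (A ^ (N - rkT T') * a ^ rkT T') * A := mul_le_mul_of_nonneg_right ih' hA0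
        _ = A ^ (N + 1 - rkT T') * a ^ rkT T' := by
            rw [Nat.sub_add_comm hrk, pow_succ]; ring
    · rw [rkT_succ_notMem T hmem]
      have key := hP0 P hP (univ.image T') g
        (fun r => ∏ j, |D (T' j) (res r (T' j))|) (fun x => |D g x|)
        (by
          intro h hh
          obtain ⟨j, -, rfl⟩ := Finset.mem_image.1 hh
          exact hT _)
        hgG
        (by
          intro h
          apply hmem
          have e : (aff '' ((univ.image T' : Finset (Pt m)) : Set (Pt m))) =
              Set.range fun i => aff (T' i) := by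
            ext x
            simp
          rwa [e] at h)
        (by
          intro r r' h
          refine Finset.prod_congr rfl fun j _ => ?_
          rw [h (T' j) (Finset.mem_image_of_mem T' (Finset.mem_univ j))])
      rw [key]
      have hE0 : 0 ≤ 𝔼 x, |D g x| := Finset.expect_nonneg fun _ _ => abs_nonneg _
      calc (𝔼 r : Row P m, ∏ j, |D (T' j) (res r (T' j))|) * 𝔼 x, |D g x|
          ≤ (A ^ (N - rkT T') * a ^ rkT T') * a :=
            mul_le_mul ih' (hEa g hgG) hE0 (mul_nonneg (pow_nonneg hA0 _) (pow_nonneg ha _))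
        _ = A ^ (N + 1 - (rkT T' + 1)) * a ^ (rkT T' + 1) := by
            rw [Nat.add_sub_add_right, pow_succ]; ring

theorem prf_expect (hI : S_indep) : S_expect := by
  intro m G
  obtain ⟨P0, hP0⟩ := expect_abs_le hI m G
  refine ⟨P0, fun P hP _ N T D A a hT ha hA hEa => ?_⟩
  refine le_trans ?_ (hP0 P hP N T D A a hT ha hA hEa)
  refine le_trans (Finset.abs_expect_le _ _) ?_
  refine Finset.expect_le_expect fun r _ => ?_
  rw [Finset.abs_prod]

end B3
end Crest.Agent.R225
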