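import Crest.Agent.R225.B3P5
import Crest.Agent.R225.B3P1b
import Crest.Agent.R225.B3Count

/-!
# Row 225 (S0347), node B3: assembly (helper351)
-/

set_option autoImplicit false

open Finset
open scoped BigOperators

namespace Crest.Agent.R225
namespace B3

lemma isBas_rkT {m N : ℕ} {T : Fin N → Pt m} {J : Finset (Fin N)} (h : B3C.IsBas T J) :
    rkT T = J.card := by
  classical
  have h1 : spT T = Submodule.span ℚ (Set.range fun j : J => aff (T j)) := by
    have h2 : (Set.range fun j : J => aff (T j)) = (fun j => aff (T j)) '' (J : Set (Fin N)) := by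
      ext x
      simp
    rw [h2]
    apply le_antisymm
    · unfold spT
      rw [Submodule.span_le]
      rintro _ ⟨j, rfl⟩
      exact h.2 j
    · apply Submodule.span_mono
      rintro _ ⟨j, _, rfl⟩
      exact ⟨j, rfl⟩
  unfold rkT
  rw [h1]
  have h3 : LinearIndependent ℚ (fun j : J => aff (T j)) := h.1
  rw [finrank_span_eq_card h3]
  simp

lemma exists_coloop {m N : ℕ} {T : Fin N → Pt m} (h : ¬ B3C.NoColoop T) : ∃ i, Coloop T i := by
  unfold B3C.NoColoop at h
  push Not at h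
  obtain ⟨i, hi⟩ := h
  refine ⟨i, ?_⟩
  unfold Coloop
  unfold B3C.spn at hi
  have h1 : ((univ.erase i : Finset (Fin N)) : Set (Fin N)) = {j | j ≠ i} := by
    ext j; simp
  rw [← h1]
  convert hi

lemma bas_lt {m N : ℕ} (hN : 1 ≤ N) {T : Fin N → Pt m} {J : Finset (Fin N)}
    (hn : B3C.NoColoop T) (h : B3C.IsBas T J) : J.card < N := by
  by_contra hge
  push Not at hge
  have hJ : J = univ := by
    apply Finset.eq_univ_of_card
    have := Finset.card_le_univ J
    simp only [Fintype.card_fin] at this ⊢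
    omega
  subst hJ
  have h1 := h.1
  let i : Fin N := ⟨0, hN⟩
  have h2 := h1.notMem_span (i := i) (by simp)
  apply h2
  have h3 := hn i
  unfold B3C.spn at h3
  have h4 : (((univ : Finset (Fin N)).erase i : Finset (Fin N)) : Set (Fin N)) =
      ((univ : Finset (Fin N)) : Set (Fin N)) \ {i} := by
    simp [Finset.coe_erase]
  convert h3 using 3
  rw [← h4]

/-- the moment bound -/
theorem mom (hI : S_indep) (hB1 : S_B1) (hB2 : S_B2) (m : ℕ) (G : Finset (Pt m)) :
    ∃ P0 : ℕ, ∀ P ≥ P0, ∀ [Fact P.Prime],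
    ∀ (N ν0 s0 rX : ℕ) (g0 : Pt m) (D : Pt m → ZMod P → ℝ) (A a δ : ℝ),
    (∀ g ∈ G, ∀ k, |g k - g0 k| ≤ rX) → 1 ≤ N → 3 ≤ s0 → ν0 * s0 ≤ N → 0 < A → 0 ≤ a → 0 ≤ δ →
    (2 * (rX : ℝ) + 1) ^ N * A ≤ 1 →
    (∀ g ∈ G, 𝔼 x, D g x = 0) → (∀ g ∈ G, ∀ x, |D g x| ≤ A) → (∀ g ∈ G, 𝔼 x, |D g x| ≤ a) →
    (∀ (s : ℕ) (h : Fin s → ℤ) (y : Pt m), s0 ≤ s → (∀ i, h i ≠ 0) →
      (relCount G h y : ℝ) ≤ (G.card : ℝ) ^ (s - 1) * δ) →
    𝔼 r : Row P m, (∑ g ∈ G, D g (res r g)) ^ N ≤
      2 ^ N * ((G.card * a + 1) ^ N * (((2 * (rX : ℝ) + 1) ^ N * A) ^ ν0 +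
        N * 2 ^ N * (2 * (hbb rX N : ℝ) + 1) ^ N * δ)) := by
  classical
  obtain ⟨P1, hP1⟩ := prf_vanish hI m G
  obtain ⟨P2, hP2⟩ := prf_expect hI m G
  refine ⟨max P1 P2, fun P hP => ?_⟩
  intro _ N ν0 s0 rX g0 D A a δ hbox hN hs0 hνs hA ha hδ hKA hD0 hDA hDa hrel
  have hP1' := hP1 P ((le_max_left _ _).trans hP)
  have hP2' := hP2 P ((le_max_right _ _).trans hP)
  have hexp : 𝔼 r : Row P m, (∑ g ∈ G, D g (res r g)) ^ N =
      ∑ T ∈ Fintype.piFinset (fun _ : Fin N => G),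
        𝔼 r : Row P m, ∏ j, D (T j) (res r (T j)) := by
    rw [← Finset.expect_sum_comm]
    refine Finset.expect_congr rfl fun r _ => ?_
    rw [Finset.sum_pow']
  rw [hexp]
  have hTG : ∀ T ∈ Fintype.piFinset (fun _ : Fin N => G), ∀ j, T j ∈ G := by
    intro T hT j
    exact Fintype.mem_piFinset.mp hT j
  have hcard1 : ∀ J : Finset (Fin N),
      (((Fintype.piFinset fun _ : Fin N => G).filter fun T => B3C.IsBas T J).card : ℝ) ≤
      ((2 * (rX : ℝ) + 1) ^ N) ^ (N - J.card) * (G.card : ℝ) ^ J.card := by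
    intro J
    have h1 := B3C.card_bas_le hB1 G g0 rX hbox J
    have h2 : (((Fintype.piFinset fun _ : Fin N => G).filter fun T => B3C.IsBas T J).card : ℝ) ≤
        ((2 * (rX : ℝ) + 1) ^ J.card) ^ (N - J.card) * (G.card : ℝ) ^ J.card := by
      have h3 : (((((Fintype.piFinset fun _ : Fin N => G).filter fun T => B3C.IsBas T J).card : ℕ)) : ℝ)
          ≤ ((((2 * rX + 1) ^ J.card) ^ (N - J.card) * G.card ^ J.card : ℕ) : ℝ) := by
        exact_mod_cast (by convert h1)
      push_cast at h3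
      exact h3
    refine h2.trans ?_
    have hJN : J.card ≤ N := by
      have := Finset.card_le_univ J
      simpa using this
    have h3 : (2 * (rX : ℝ) + 1) ^ J.card ≤ (2 * (rX : ℝ) + 1) ^ N :=
      pow_le_pow_right₀ (by have : (0:ℝ) ≤ rX := Nat.cast_nonneg _; linarith) hJN
    gcongr
  have hcore := moment_core N (Fintype.piFinset (fun _ : Fin N => G))
    (fun T => 𝔼 r : Row P m, ∏ j, D (T j) (res r (T j)))
    (fun T J => B3C.IsBas T J) (fun T => B3C.NoColoop T) A a (G.card : ℝ)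
    ((2 * (rX : ℝ) + 1) ^ N) (N * 2 ^ N * (2 * (hbb rX N : ℝ) + 1) ^ N) δ ν0
    hA.le ha (Nat.cast_nonneg _) (by positivity) (by positivity) hδ hKA
    (fun T _ => B3C.exists_isBas T)
    (fun T hT hn => by
      obtain ⟨i, hi⟩ := exists_coloop hn
      exact hP1' N T i D (hTG T hT) hi hD0)
    (fun T hT J hJ => by
      have h1 := hP2' N T D A a (hTG T hT) ha hDA hDa
      rw [isBas_rkT hJ] at h1
      exact (le_abs_self _).trans h1)
    (fun T _ J hn hJ => bas_lt hN hn hJ)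
    (fun J => by convert hcard1 J)
    (fun J hJ hν => by
      have hl : ∀ b, J.card ≤ b * (N - J.card) → s0 ≤ b + 1 := by
        intro b hb
        by_contra hlt
        push Not at hlt
        have h1 : N ≤ (b + 1) * (N - J.card) := by
          have : N = J.card + (N - J.card) := by omega
          nlinarith
        have h2 : (b + 1) * (N - J.card) ≤ (s0 - 1) * (ν0 - 1) :=
          Nat.mul_le_mul (by omega) (by omega)
        have h3 : (s0 - 1) * (ν0 - 1) < ν0 * s0 := by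
          have h4 : 1 ≤ ν0 := by omega
          calc (s0 - 1) * (ν0 - 1) ≤ (s0 - 1) * ν0 := Nat.mul_le_mul_left _ (by omega)
            _ < s0 * ν0 := Nat.mul_lt_mul_of_pos_right (by omega) (by omega)
            _ = ν0 * s0 := Nat.mul_comm _ _
        omega
      have h1 := B3C.card_circ_le hB1 hB2 G g0 rX hbox J hJ s0 hs0 hl δ hδ
        (fun s' h hs' hh => hrel s' h 0 hs' hh)
      have h2 : (((Fintype.piFinset fun _ : Fin N => G).filter fun T =>
          B3C.IsBas T J ∧ B3C.NoColoop T).card : ℝ) ≤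
          N * 2 ^ N * (2 * (hbb rX N : ℝ) + 1) ^ N * ((2 * (rX : ℝ) + 1) ^ N) ^ (N - J.card) *
            (G.card : ℝ) ^ J.card * δ := by
        refine (le_trans (le_of_eq (by congr!)) h1).trans ?_
        have hJN : J.card ≤ N := hJ.le
        have h3 : (2 * (rX : ℝ) + 1) ^ J.card ≤ (2 * (rX : ℝ) + 1) ^ N :=
          pow_le_pow_right₀ (by have : (0:ℝ) ≤ rX := Nat.cast_nonneg _; linarith) hJN
        have h4 : (1 : ℝ) ≤ N * 2 ^ N := by
          have h5 : (1 : ℝ) ≤ N := by exact_mod_cast hN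
          have h6 : (1 : ℝ) ≤ 2 ^ N := one_le_pow₀ (by norm_num)
          nlinarith
        have h7 : (2 * (hbb rX N : ℝ) + 1) ^ N ≤ N * 2 ^ N * (2 * (hbb rX N : ℝ) + 1) ^ N := by
          have h8 : 0 ≤ (2 * (hbb rX N : ℝ) + 1) ^ N := by positivity
          nlinarith
        have h9 : (2 * (((N * (rX + 1)) ^ N : ℕ) : ℝ) + 1) ^ N ≤
            N * 2 ^ N * (2 * (hbb rX N : ℝ) + 1) ^ N := h7
        gcongr
      convert h2 using 2)
  exact hcore

end B3
end Crest.Agent.R225
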