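import Crest.Agent.R225.Iface

/-!
# Row 225 (S0347), node B3 (moments of the special row): split into sub-nodes

Owner helper351. FROZEN. `N = 2k` is the order of the moment, `D g x = w g [x] - 𝔼 ξ, w g [ξ]`.
`𝔼 (∑_{g∈G} D g (res r g))^N = ∑_{T : Fin N → G} 𝔼 ∏ i, D (T i) (res r (T i))`; a tuple with a
coloop contributes `0`; a tuple of rank `rk` contributes at most `A^(N-rk) a^rk`.
-/

set_option autoImplicit false

open Finset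
open scoped BigOperators

namespace Crest.Agent.R225
namespace B3

/-- the vector space of the points `(g,1)` -/
abbrev VV (m : ℕ) := (Fin m → ℚ) × ℚ

/-- span of the points `(T i, 1)` -/
def spT {m : ℕ} {ι : Type} (T : ι → Pt m) : Submodule ℚ (VV m) :=
  Submodule.span ℚ (Set.range fun i => aff (T i))

/-- rank of a tuple of points -/
noncomputable def rkT {m : ℕ} {ι : Type} (T : ι → Pt m) : ℕ := Module.finrank ℚ (spT T)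

/-- the position `i` is a coloop of the tuple `T` -/
def Coloop {m : ℕ} {ι : Type} (T : ι → Pt m) (i : ι) : Prop :=
  aff (T i) ∉ Submodule.span ℚ ((fun j => aff (T j)) '' {j | j ≠ i})

/-- P1a. One point outside the span of `Z` has a residue independent of those of `Z`.
Proof: integer vector `v = (c,ψ)` with `c + ⟨ψ,h⟩ = 0` on `Z` and `c + ⟨ψ,g⟩ ≠ 0`; translate the row
by `t • v`, `t : ZMod P`; `P0` = max over `Z ⊆ G`, `g ∈ G` of `|c + ⟨ψ,g⟩|`, plus one. -/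
def S_indep : Prop := ∀ (m : ℕ) (G : Finset (Pt m)), ∃ P0 : ℕ, ∀ P ≥ P0, ∀ [Fact P.Prime],
  ∀ (Z : Finset (Pt m)) (g : Pt m) (F : Row P m → ℝ) (f : ZMod P → ℝ), Z ⊆ G → g ∈ G →
    aff g ∉ Submodule.span ℚ (aff '' (Z : Set (Pt m))) →
    (∀ r r' : Row P m, (∀ h ∈ Z, res r h = res r' h) → F r = F r') →
    𝔼 r : Row P m, F r * f (res r g) = (𝔼 r : Row P m, F r) * 𝔼 x, f x

/-- P1b. tuples with a coloop contribute `0` -/
def S_vanish : Prop := ∀ (m : ℕ) (G : Finset (Pt m)), ∃ P0 : ℕ, ∀ P ≥ P0, ∀ [Fact P.Prime],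
  ∀ (N : ℕ) (T : Fin N → Pt m) (i : Fin N) (D : Pt m → ZMod P → ℝ), (∀ j, T j ∈ G) →
    Coloop T i → (∀ g ∈ G, 𝔼 x, D g x = 0) →
    𝔼 r : Row P m, ∏ j, D (T j) (res r (T j)) = 0

/-- P1c. bound by the rank (induction on `N`: the last entry is in the span of the previous ones,
bound it by `A`; or not, use `S_indep` for the absolute values) -/
def S_expect : Prop := ∀ (m : ℕ) (G : Finset (Pt m)), ∃ P0 : ℕ, ∀ P ≥ P0, ∀ [Fact P.Prime],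
  ∀ (N : ℕ) (T : Fin N → Pt m) (D : Pt m → ZMod P → ℝ) (A a : ℝ), (∀ j, T j ∈ G) → 0 ≤ a →
    (∀ g ∈ G, ∀ x, |D g x| ≤ A) → (∀ g ∈ G, 𝔼 x, |D g x| ≤ a) →
    |𝔼 r : Row P m, ∏ j, D (T j) (res r (T j))| ≤ A ^ (N - rkT T) * a ^ rkT T

open scoped Classical in
/-- P2a. few grid points in a subspace (from `S_B1`: a basis of the span of `G ∩ V`) -/
def S_flat : Prop := ∀ (m rX : ℕ) (G : Finset (Pt m)) (g0 : Pt m) (V : Submodule ℚ (VV m)),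
  (∀ g ∈ G, ∀ k, |g k - g0 k| ≤ rX) →
  (G.filter fun g => aff g ∈ V).card ≤ (2 * rX + 1) ^ Module.finrank ℚ V

open scoped Classical in
/-- P2b. sequential sum over tuples (induction on `N`, `Fin.cons`) -/
def S_seq : Prop := ∀ (m N : ℕ) (G : Finset (Pt m)) (V0 : Submodule ℚ (VV m)) (A a K : ℝ),
  0 ≤ A → 0 ≤ a → 0 ≤ K →
  (∀ V : Submodule ℚ (VV m), Module.finrank ℚ V ≤ Module.finrank ℚ V0 + N →
    ((G.filter fun g => aff g ∈ V).card : ℝ) ≤ K) →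
  ∑ T ∈ Fintype.piFinset (fun _ : Fin N => G),
    A ^ (N - (Module.finrank ℚ ↥(V0 ⊔ spT T) - Module.finrank ℚ V0)) *
      a ^ (Module.finrank ℚ ↥(V0 ⊔ spT T) - Module.finrank ℚ V0)
    ≤ (G.card * a + K * A) ^ N

open scoped Classical in
/-- P3. a coloop-free family of nullity `ν = N - rank` contains a circuit of size `≥ N/ν`.
Proof: fundamental circuits of the `ν` elements outside a basis cover everything. -/
def S_circ : Prop := ∀ (V : Type) [AddCommGroup V] [Module ℚ V] (ι : Type) [Fintype ι]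
  (v : ι → V), Nonempty ι →
  (∀ i, v i ∈ Submodule.span ℚ (v '' {j | j ≠ i})) →
  ∃ C : Finset ι, ¬ LinearIndepOn ℚ v (C : Set ι) ∧
    (∀ i ∈ C, LinearIndepOn ℚ v ((C.erase i : Finset ι) : Set ι)) ∧
    Fintype.card ι ≤
      (Fintype.card ι - Module.finrank ℚ (Submodule.span ℚ (Set.range v))) * C.card

/-- height bound of the relations (`Ear.hb`) -/
def hbb (rX k : ℕ) : ℕ := (k * (rX + 1)) ^ k

/-- P4. numerics -/
def S_num : Prop := ∀ c1 : ℝ, 0 < c1 → c1 ≤ 1 → ∃ X0 : ℝ, 1 ≤ X0 ∧ ∀ X ≥ X0,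
  ∃ n0 : ℕ, 3 ≤ n0 ∧ ∀ n ≥ n0, ∀ I : ℕ, (n : ℝ) ^ (9 / 10 : ℝ) ≤ xl X I →
  xl X I ≤ 2 * (n : ℝ) ^ (9 / 10 : ℝ) →
  ∀ (N ν0 s0 : ℕ), N = 2 * ⌈(n : ℝ) ^ (15 / 100 : ℝ)⌉₊ → ν0 = ⌈(n : ℝ) ^ (12 / 100 : ℝ)⌉₊ →
  s0 = ⌈(n : ℝ) ^ (2 / 100 : ℝ)⌉₊ →
  1 ≤ NN n ∧ 3 ≤ s0 ∧ ν0 * s0 ≤ N ∧ (2 * ((n ^ 16 : ℕ) : ℝ) + 1) ^ N * al X I ≤ 1 ∧
  (100 / tau X (I + 1)) ^ N *
      (((2 * ((n ^ 16 : ℕ) : ℝ) + 1) ^ N * al X I) ^ ν0 +
        2 ^ N * (2 * (hbb (n ^ 16) N : ℝ) + 1) ^ N * Real.exp (-(c1 * NN n)))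
    ≤ Real.exp (-(c1 / 3 * NN n))

open scoped Classical in
/-- P5. the moment bound (from S_vanish, S_expect, S_flat, S_seq, S_circ, S_B2) -/
def S_mom : Prop := ∀ (m : ℕ) (G : Finset (Pt m)), ∃ P0 : ℕ, ∀ P ≥ P0, ∀ [Fact P.Prime],
  ∀ (N ν0 s0 rX : ℕ) (g0 : Pt m) (D : Pt m → ZMod P → ℝ) (A a δ : ℝ),
    (∀ g ∈ G, ∀ k, |g k - g0 k| ≤ rX) → 1 ≤ N → 3 ≤ s0 → ν0 * s0 ≤ N → 0 < A → 0 ≤ a → 0 ≤ δ →
    (2 * (rX : ℝ) + 1) ^ N * A ≤ 1 →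
    (∀ g ∈ G, 𝔼 x, D g x = 0) → (∀ g ∈ G, ∀ x, |D g x| ≤ A) → (∀ g ∈ G, 𝔼 x, |D g x| ≤ a) →
    (∀ (s : ℕ) (h : Fin s → ℤ) (y : Pt m), s0 ≤ s → (∀ i, h i ≠ 0) →
      (relCount G h y : ℝ) ≤ (G.card : ℝ) ^ (s - 1) * δ) →
    𝔼 r : Row P m, (∑ g ∈ G, D g (res r g)) ^ N ≤
      (G.card * a + 1) ^ N * (((2 * (rX : ℝ) + 1) ^ N * A) ^ ν0 +
        2 ^ N * (2 * (hbb rX N : ℝ) + 1) ^ N * δ)

end B3
end Crest.Agent.R225
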