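import Crest.Agent.R225.B3Count
import Crest.Agent.R225.B3Iface

/-!
Row 225, S0347, node B3: expectation of products of centered functions (helper48).
-/

set_option autoImplicit false

open Finset MeasureTheory
open scoped BigOperators ENNReal Classical

namespace Crest.Agent.R225
namespace B3C

variable {m s : ℕ}

/-- an integer affine functional vanishing on a subspace, but not at `g` -/
theorem exists_int_functional (V : Submodule ℚ ((Fin m → ℚ) × ℚ)) (g0 : Pt m)
    (hi : aff g0 ∉ V) :
    ∃ (v0 : ℤ) (v : Fin m → ℤ), (∀ g : Pt m, aff g ∈ V → v0 + ∑ k, v k * g k = 0) ∧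
      v0 + ∑ k, v k * g0 k ≠ 0 := by
  obtain ⟨f, hf, hle⟩ := Submodule.exists_le_ker_of_notMem hi
  set q : Fin m → ℚ := fun k => f (Pi.single k 1, 0) with hq
  set q0 : ℚ := f (0, 1) with hq0
  have hfa : ∀ g : Pt m, f (aff g) = q0 + ∑ k, q k * g k := by
    intro g
    have h1 : aff g = (0, 1) + ∑ k, (g k : ℚ) • ((Pi.single k 1, 0) : (Fin m → ℚ) × ℚ) := by
      ext l
      · simp only [aff, Prod.fst_add, Prod.fst_sum, Prod.smul_fst, Pi.add_apply, Pi.zero_apply,
          zero_add, Finset.sum_apply, Pi.smul_apply, smul_eq_mul]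
        rw [Finset.sum_eq_single l]
        · simp
        · intro b _ hb
          simp [hb.symm]
        · simp
      · simp [aff, Prod.snd_sum]
    rw [h1, map_add, map_sum]
    simp only [map_smul, smul_eq_mul]
    congr 1
    exact Finset.sum_congr rfl fun k _ => mul_comm _ _
  -- common denominator
  set N : ℕ := q0.den * ∏ k, (q k).den with hN
  have hNpos : (N : ℚ) ≠ 0 := by
    rw [hN]
    have : q0.den * ∏ k, (q k).den ≠ 0 :=
      mul_ne_zero q0.den_nz (Finset.prod_ne_zero_iff.2 fun k _ => (q k).den_nz)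
    exact_mod_cast this
  have h0 : ∃ a : ℤ, (a : ℚ) = N * q0 := by
    refine ⟨(∏ k, (q k).den : ℕ) * q0.num, ?_⟩
    rw [hN]
    push_cast
    have := Rat.mul_den_eq_num q0
    rw [← this]
    ring
  have hk : ∀ k, ∃ a : ℤ, (a : ℚ) = N * q k := by
    intro k
    refine ⟨(q0.den * ∏ l ∈ univ.erase k, (q l).den : ℕ) * (q k).num, ?_⟩
    rw [hN, ← Finset.mul_prod_erase univ _ (Finset.mem_univ k)]
    push_cast
    have := Rat.mul_den_eq_num (q k)
    rw [← this]
    ring
  obtain ⟨v0, hv0⟩ := h0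
  choose v hv using hk
  have key : ∀ g : Pt m, ((v0 + ∑ k, v k * g k : ℤ) : ℚ) = N * f (aff g) := by
    intro g
    rw [hfa]
    push_cast
    rw [hv0, mul_add, Finset.mul_sum]
    congr 1
    refine Finset.sum_congr rfl fun k _ => ?_
    rw [hv]
    ring
  refine ⟨v0, v, ?_, ?_⟩
  · intro g hg
    have h1 : f (aff g) = 0 := hle hg
    have h2 := key g
    rw [h1, mul_zero] at h2
    exact_mod_cast h2
  · intro h0
    have h2 := key g0
    rw [h0] at h2
    simp only [Int.cast_zero, zero_eq_mul] at h2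
    rcases h2 with h | h
    · exact hNpos h
    · exact hf h

/-- **vanishing**: an entry outside the span of the others kills the expectation -/
theorem expect_eq_zero (T : Fin s → Pt m) (i : Fin s) (v0 : ℤ) (v : Fin m → ℤ)
    (hv : ∀ j, j ≠ i → v0 + ∑ k, v k * T j k = 0) (P : ℕ) [Fact P.Prime]
    (hP : ((v0 + ∑ k, v k * T i k : ℤ) : ZMod P) ≠ 0) (D : Fin s → ZMod P → ℝ)
    (hD : 𝔼 x, D i x = 0) : 𝔼 r : Row P m, ∏ j, D j (res r (T j)) = 0 := by
  set δ : ZMod P := ((v0 + ∑ k, v k * T i k : ℤ) : ZMod P) with hδ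
  set w : Row P m := ((v0 : ZMod P), fun k => (v k : ZMod P)) with hw
  have hres : ∀ (t : ZMod P) (r : Row P m) (g : Pt m),
      res (r + (t * w.1, fun k => t * w.2 k)) g =
        res r g + t * ((v0 + ∑ k, v k * g k : ℤ) : ZMod P) := by
    intro t r g
    simp only [res, Prod.fst_add, Prod.snd_add, Pi.add_apply, add_mul, Finset.sum_add_distrib, hw]
    push_cast
    rw [mul_add, Finset.mul_sum]
    have : ∀ k, t * (v k : ZMod P) * (g k : ZMod P) = t * ((v k : ZMod P) * (g k : ZMod P)) :=
      fun k => mul_assoc _ _ _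
    simp only [this]
    ring
  have hshift : ∀ t : ZMod P, 𝔼 r : Row P m, ∏ j, D j (res r (T j)) =
      𝔼 r : Row P m, ∏ j, D j (res (r + (t * w.1, fun k => t * w.2 k)) (T j)) := by
    intro t
    refine (Fintype.expect_equiv (Equiv.addRight (t * w.1, fun k => t * w.2 k)) _ _ ?_).symm
    intro r
    rfl
  have havg : 𝔼 r : Row P m, ∏ j, D j (res r (T j)) =
      𝔼 r : Row P m, 𝔼 t : ZMod P,
        ∏ j, D j (res (r + (t * w.1, fun k => t * w.2 k)) (T j)) := by
    rw [Finset.expect_comm]
    rw [← Fintype.expect_const (ι := ZMod P) (𝔼 r : Row P m, ∏ j, D j (res r (T j)))]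
    exact Finset.expect_congr rfl fun t _ => hshift t
  rw [havg]
  rw [← Fintype.expect_const (ι := Row P m) (0 : ℝ)]
  refine Finset.expect_congr rfl fun r _ => ?_
  have h1 : ∀ t : ZMod P, ∏ j, D j (res (r + (t * w.1, fun k => t * w.2 k)) (T j)) =
      D i (res r (T i) + t * δ) * ∏ j ∈ univ.erase i, D j (res r (T j)) := by
    intro t
    rw [← Finset.mul_prod_erase univ _ (Finset.mem_univ i), hres t r (T i)]
    congr 1
    refine Finset.prod_congr rfl fun j hj => ?_
    rw [hres, hv j (Finset.ne_of_mem_erase hj)]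
    simp
  simp only [h1]
  rw [← Finset.expect_mul]
  have h2 : 𝔼 t : ZMod P, D i (res r (T i) + t * δ) = 0 := by
    rw [← hD]
    refine Fintype.expect_equiv ((Equiv.mulRight₀ δ hP).trans
      (Equiv.addLeft (res r (T i)))) _ _ ?_
    intro t
    rfl
  rw [h2, zero_mul]

/-- uniform version for all tuples of a finite set -/
theorem exists_vanish (G : Finset (Pt m)) : ∃ P0 : ℕ, ∀ P ≥ P0, ∀ [Fact P.Prime],
    ∀ (s : ℕ) (T : Fin s → Pt m), (∀ i, T i ∈ G) → ¬ NoColoop T → ∀ D : Pt m → ZMod P → ℝ,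
      (∀ g ∈ G, 𝔼 x, D g x = 0) → 𝔼 r : Row P m, ∏ j, D (T j) (res r (T j)) = 0 := by
  have hex : ∀ q : Finset (Pt m) × Pt m, ∃ (v0 : ℤ) (v : Fin m → ℤ),
      aff q.2 ∉ Submodule.span ℚ (aff '' (q.1 : Set (Pt m))) →
      (∀ g : Pt m, aff g ∈ Submodule.span ℚ (aff '' (q.1 : Set (Pt m))) →
        v0 + ∑ k, v k * g k = 0) ∧ v0 + ∑ k, v k * q.2 k ≠ 0 := by
    intro q
    by_cases h : aff q.2 ∉ Submodule.span ℚ (aff '' (q.1 : Set (Pt m)))
    · obtain ⟨v0, v, h1, h2⟩ := exists_int_functional _ q.2 h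
      exact ⟨v0, v, fun _ => ⟨h1, h2⟩⟩
    · exact ⟨0, 0, fun h' => absurd h' h⟩
  choose v0 v hv using hex
  refine ⟨(G.powerset ×ˢ G).sup fun q => (v0 q + ∑ k, v q k * q.2 k).natAbs + 1,
    fun P hP _ s T hT hn D hD => ?_⟩
  unfold NoColoop at hn
  push Not at hn
  obtain ⟨i, hi⟩ := hn
  set q : Finset (Pt m) × Pt m := ((univ.erase i).image T, T i) with hq
  have hspan : Submodule.span ℚ (aff '' (q.1 : Set (Pt m))) = spn T (univ.erase i) := by
    unfold spn
    congr 1
    ext x
    simp [hq]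
  have hqG : q ∈ G.powerset ×ˢ G := by
    rw [Finset.mem_product, Finset.mem_powerset]
    refine ⟨?_, hT i⟩
    intro x hx
    obtain ⟨j, -, rfl⟩ := Finset.mem_image.1 hx
    exact hT j
  obtain ⟨h1, h2⟩ := hv q (by rw [hspan]; exact hi)
  refine expect_eq_zero T i (v0 q) (v q) (fun j hj => h1 _ (Submodule.subset_span
    ⟨T j, by simpa [hq] using ⟨j, hj, rfl⟩, rfl⟩)) P ?_ (fun j => D (T j)) (hD _ (hT i))
  intro h0
  rw [ZMod.intCast_zmod_eq_zero_iff_dvd] at h0
  have h3 := Int.natAbs_dvd_natAbs.2 h0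
  have h4 := Nat.le_of_dvd (Int.natAbs_pos.2 h2) h3
  simp only [Int.natAbs_natCast] at h4
  have h5 := Finset.le_sup (f := fun q : Finset (Pt m) × Pt m =>
    (v0 q + ∑ k, v q k * q.2 k).natAbs + 1) hqG
  simp only [hq] at h4 h5
  omega

/-- bound of the expectation of a product over a tuple with basis positions `J` -/
theorem exists_bound (hB0 : S_B0) (G : Finset (Pt m)) : ∃ P0 : ℕ, ∀ P ≥ P0, ∀ [Fact P.Prime],
    ∀ (s : ℕ) (T : Fin s → Pt m) (J : Finset (Fin s)), (∀ i, T i ∈ G) →
    IsBas T J → ∀ (D : Pt m → ZMod P → ℝ) (α : ℝ), (∀ i x, |D (T i) x| ≤ α) →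
      |𝔼 r : Row P m, ∏ j, D (T j) (res r (T j))| ≤
        α ^ (s - J.card) * ∏ j ∈ J, 𝔼 x, |D (T j) x| := by
  obtain ⟨P0, hP0⟩ := hB0 m (G.sup fun g => univ.sup fun k => (g k).natAbs) G.card
  refine ⟨P0, fun P hP _ s T J hTG hJ D α hD => ?_⟩
  have hinj : Set.InjOn T (J : Set (Fin s)) := by
    intro a ha b hb hab
    exact hJ.1.injOn ha hb (by simp only [hab])
  have hJG : J.image T ⊆ G := by
    intro x hx
    obtain ⟨j, -, rfl⟩ := Finset.mem_image.1 hx
    exact hTG j
  have hli : LinearIndepOn ℚ aff ((J.image T : Finset (Pt m)) : Set (Pt m)) := by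
    rw [Finset.coe_image]
    exact LinearIndepOn.image_of_comp _ _ hJ.1
  have h0 := hP0 P hP (J.image T) 0 (fun g x => |D g x|) (Finset.card_le_card hJG) (by
      intro g hg k
      have h1 := Finset.le_sup (f := fun g : Pt m => univ.sup fun k => (g k).natAbs) (hJG hg)
      have h2 := Finset.le_sup (f := fun k => (g k).natAbs) (Finset.mem_univ k)
      rw [Pi.zero_apply, sub_zero, Int.abs_eq_natAbs]
      exact_mod_cast le_trans h2 h1) hli
  rw [Finset.prod_image hinj] at h0
  have h1 : ∀ r : Row P m, ∏ g ∈ J.image T, |D g (res r g)| =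
      ∏ j ∈ J, |D (T j) (res r (T j))| := fun r => Finset.prod_image hinj
  simp only [h1] at h0
  rw [← h0]
  calc |𝔼 r : Row P m, ∏ j, D (T j) (res r (T j))|
      ≤ 𝔼 r : Row P m, |∏ j, D (T j) (res r (T j))| := Finset.abs_expect_le _ _
    _ ≤ 𝔼 r : Row P m, α ^ (s - J.card) * ∏ j ∈ J, |D (T j) (res r (T j))| := by
        refine Finset.expect_le_expect fun r _ => ?_
        rw [Finset.abs_prod, ← Finset.prod_mul_prod_compl J, mul_comm]
        apply mul_le_mul_of_nonneg_right _ (Finset.prod_nonneg fun _ _ => abs_nonneg _)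
        calc ∏ j ∈ Jᶜ, |D (T j) (res r (T j))| ≤ ∏ j ∈ Jᶜ, α :=
              Finset.prod_le_prod (fun _ _ => abs_nonneg _) fun j _ => hD j _
          _ = α ^ (s - J.card) := by
              rw [Finset.prod_const, Finset.card_compl, Fintype.card_fin]
    _ = α ^ (s - J.card) * 𝔼 r : Row P m, ∏ j ∈ J, |D (T j) (res r (T j))| := by
        rw [Finset.mul_expect]

/-- no tuple without coloops is independent -/
theorem card_lt_of_noColoop (hs : 1 ≤ s) (T : Fin s → Pt m) (J : Finset (Fin s))
    (hJ : IsBas T J) (hn : NoColoop T) : J.card < s := by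
  by_contra hcon
  have hJu : J = univ := by
    apply Finset.eq_univ_of_card
    rw [Fintype.card_fin]
    have : J.card ≤ s := le_trans (Finset.card_le_univ _) (by simp)
    omega
  subst hJu
  have i : Fin s := ⟨0, hs⟩
  have h1 := hJ.1.notMem_span (i := i) (by simp)
  apply h1
  have h2 := hn i
  unfold spn at h2
  simpa using h2

/-- moment expansion -/
theorem moment_le (hB0 : S_B0) (G : Finset (Pt m)) : ∃ P0 : ℕ, ∀ P ≥ P0,
    ∀ [Fact P.Prime], ∀ (s : ℕ), 1 ≤ s →
      ∀ (D : Pt m → ZMod P → ℝ) (α β : ℝ), 0 ≤ α → 0 ≤ β →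
      (∀ g ∈ G, ∀ x, |D g x| ≤ α) → (∀ g ∈ G, 𝔼 x, D g x = 0) →
      (∀ g ∈ G, 𝔼 x, |D g x| ≤ β) →
      𝔼 r : Row P m, (∑ g ∈ G, D g (res r g)) ^ s ≤
        ∑ J ∈ (univ : Finset (Finset (Fin s))).filter (fun J => J.card < s),
          α ^ (s - J.card) * β ^ J.card *
          ((Fintype.piFinset fun _ : Fin s => G).filter fun T => IsBas T J ∧ NoColoop T).card := by
  obtain ⟨P1, hP1⟩ := exists_bound hB0 G
  obtain ⟨P2, hP2⟩ := exists_vanish G
  refine ⟨max P1 P2, fun P hP _ s hs D α β hα hβ hD hD0 hDβ => ?_⟩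
  have hP1' := hP1 P (le_trans (le_max_left _ _) hP) s
  have hP2' := hP2 P (le_trans (le_max_right _ _) hP) s
  choose bas hbas using fun T : Fin s → Pt m => exists_isBas T
  have h1 : 𝔼 r : Row P m, (∑ g ∈ G, D g (res r g)) ^ s =
      ∑ T ∈ Fintype.piFinset (fun _ : Fin s => G), 𝔼 r : Row P m, ∏ j, D (T j) (res r (T j)) := by
    rw [← Finset.expect_sum_comm]
    refine Finset.expect_congr rfl fun r _ => ?_
    rw [Finset.sum_pow']
  rw [h1]
  have h2 : ∀ T ∈ Fintype.piFinset (fun _ : Fin s => G),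
      𝔼 r : Row P m, ∏ j, D (T j) (res r (T j)) ≤
        if NoColoop T then α ^ (s - (bas T).card) * β ^ (bas T).card else 0 := by
    intro T hT
    rw [Fintype.mem_piFinset] at hT
    split_ifs with hn
    · refine le_trans (le_abs_self _) (le_trans (hP1' T (bas T) hT (hbas T)
        D α (fun i => hD _ (hT i))) ?_)
      apply mul_le_mul_of_nonneg_left _ (by positivity)
      rw [← Finset.prod_const]
      refine Finset.prod_le_prod (fun j _ => ?_) fun j _ => hDβ _ (hT j)
      exact Finset.expect_nonneg fun _ _ => abs_nonneg _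
    · exact le_of_eq (hP2' T hT hn D hD0)
  refine le_trans (Finset.sum_le_sum h2) ?_
  rw [← Finset.sum_filter]
  have h3 : ∀ T ∈ (Fintype.piFinset (fun _ : Fin s => G)).filter (fun T => NoColoop T),
      bas T ∈ (univ : Finset (Finset (Fin s))).filter (fun J => J.card < s) := by
    intro T hT
    rw [Finset.mem_filter] at hT
    rw [Finset.mem_filter]
    exact ⟨Finset.mem_univ _, card_lt_of_noColoop hs T _ (hbas T) hT.2⟩
  rw [← Finset.sum_fiberwise_of_maps_to h3]
  refine Finset.sum_le_sum fun J _ => ?_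
  calc ∑ T ∈ ((Fintype.piFinset (fun _ : Fin s => G)).filter (fun T => NoColoop T)).filter
        (fun T => bas T = J), α ^ (s - (bas T).card) * β ^ (bas T).card
      = ∑ T ∈ ((Fintype.piFinset (fun _ : Fin s => G)).filter (fun T => NoColoop T)).filter
        (fun T => bas T = J), α ^ (s - J.card) * β ^ J.card := by
        refine Finset.sum_congr rfl fun T hT => ?_
        rw [(Finset.mem_filter.1 hT).2]
    _ = α ^ (s - J.card) * β ^ J.card *
        (((Fintype.piFinset (fun _ : Fin s => G)).filter (fun T => NoColoop T)).filter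
        (fun T => bas T = J)).card := by
        rw [Finset.sum_const, nsmul_eq_mul, mul_comm]
    _ ≤ _ := by
        apply mul_le_mul_of_nonneg_left _ (by positivity)
        have : ((Fintype.piFinset (fun _ : Fin s => G)).filter (fun T => NoColoop T)).filter
            (fun T => bas T = J) ⊆
            (Fintype.piFinset fun _ : Fin s => G).filter fun T => IsBas T J ∧ NoColoop T := by
          intro T hT
          rw [Finset.mem_filter, Finset.mem_filter] at hT
          rw [Finset.mem_filter]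
          refine ⟨hT.1.1, ?_, hT.1.2⟩
          rw [← hT.2]
          exact hbas T
        exact_mod_cast Finset.card_le_card this

/-- the number of basis positions is the rank -/
theorem finrank_eq_card (T : Fin s → Pt m) (J : Finset (Fin s)) (hJ : IsBas T J) :
    Module.finrank ℚ (Submodule.span ℚ (Set.range fun i => aff (T i))) = J.card := by
  have h1 : Submodule.span ℚ (Set.range fun i => aff (T i)) = spn T J := by
    apply le_antisymm
    · rw [Submodule.span_le]
      rintro _ ⟨i, rfl⟩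
      exact hJ.2 i
    · unfold spn
      apply Submodule.span_mono
      rintro _ ⟨i, -, rfl⟩
      exact ⟨i, rfl⟩
  rw [h1]
  have h2 := hJ.1
  rw [LinearIndepOn, linearIndependent_iff_card_eq_finrank_span] at h2
  have h3 : Set.range (fun x : (J : Set (Fin s)) => aff (T x)) =
      (fun j => aff (T j)) '' (J : Set (Fin s)) := by
    ext x
    simp
  rw [h3] at h2
  unfold spn
  rw [Set.finrank] at h2
  rw [← h2]
  simp

end B3C

namespace B3

open B3C

/-- **P5**: the moment bound -/
theorem prf_mom (hB0 : S_B0) (hB1 : S_B1) (hB2 : S_B2) : S_mom := by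
  intro m G
  obtain ⟨P0, hP0⟩ := moment_le hB0 G
  refine ⟨P0, fun P hP _ N ν0 s0 rX g0 D A a δ hbox hN hs0 hνs hA ha hδ hκ hD0 hDA hDa hrel => ?_⟩
  refine le_trans (hP0 P hP N hN D A a hA.le ha hDA hD0 hDa) ?_
  set κ : ℝ := (2 * (rX : ℝ) + 1) ^ N * A with hκdef
  have hκ0 : 0 < κ := by positivity
  set E : ℝ := κ ^ ν0 + (2 * (hbb rX N : ℝ) + 1) ^ N * δ with hE
  have hE0 : 0 ≤ E := by positivity
  -- each term
  have hterm : ∀ J ∈ (univ : Finset (Finset (Fin N))).filter (fun J => J.card < N),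
      A ^ (N - J.card) * a ^ J.card *
        ((Fintype.piFinset fun _ : Fin N => G).filter fun T => IsBas T J ∧ NoColoop T).card ≤
      (G.card * a) ^ J.card * 1 ^ (Fintype.card (Fin N) - J.card) * E := by
    intro J hJ
    rw [Finset.mem_filter] at hJ
    have hJN := hJ.2
    -- the power of `κ`
    have hpow : A ^ (N - J.card) * ((2 * (rX : ℝ) + 1) ^ J.card) ^ (N - J.card) ≤
        κ ^ (N - J.card) := by
      rw [← mul_pow, hκdef]
      apply pow_le_pow_left₀ (by positivity)
      rw [mul_comm]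
      apply mul_le_mul_of_nonneg_right _ hA.le
      apply pow_le_pow_right₀ (by linarith [(Nat.cast_nonneg rX : (0 : ℝ) ≤ rX)]) hJN.le
    by_cases hc : ν0 ≤ N - J.card
    · have h1 : (((Fintype.piFinset fun _ : Fin N => G).filter fun T =>
          IsBas T J ∧ NoColoop T).card : ℝ) ≤
          ((2 * (rX : ℝ) + 1) ^ J.card) ^ (N - J.card) * (G.card : ℝ) ^ J.card := by
        have h2 : ((Fintype.piFinset fun _ : Fin N => G).filter fun T =>
          IsBas T J ∧ NoColoop T).card ≤
          ((2 * rX + 1) ^ J.card) ^ (N - J.card) * G.card ^ J.card := by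
          refine le_trans (Finset.card_le_card ?_) (card_bas_le hB1 G g0 rX hbox J)
          intro T hT
          rw [Finset.mem_filter] at hT ⊢
          exact ⟨hT.1, hT.2.1⟩
        exact_mod_cast h2
      calc A ^ (N - J.card) * a ^ J.card *
        ((Fintype.piFinset fun _ : Fin N => G).filter fun T => IsBas T J ∧ NoColoop T).card
          ≤ A ^ (N - J.card) * a ^ J.card *
            (((2 * (rX : ℝ) + 1) ^ J.card) ^ (N - J.card) * (G.card : ℝ) ^ J.card) :=
            mul_le_mul_of_nonneg_left h1 (by positivity)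
        _ = (G.card * a) ^ J.card *
            (A ^ (N - J.card) * ((2 * (rX : ℝ) + 1) ^ J.card) ^ (N - J.card)) := by
            rw [mul_pow]
            ring
        _ ≤ (G.card * a) ^ J.card * κ ^ (N - J.card) :=
            mul_le_mul_of_nonneg_left hpow (by positivity)
        _ ≤ (G.card * a) ^ J.card * κ ^ ν0 :=
            mul_le_mul_of_nonneg_left (pow_le_pow_of_le_one hκ0.le hκ hc) (by positivity)
        _ ≤ (G.card * a) ^ J.card * E := by
            apply mul_le_mul_of_nonneg_left _ (by positivity)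
            rw [hE]
            have : 0 ≤ (2 * (hbb rX N : ℝ) + 1) ^ N * δ := by positivity
            linarith
        _ = _ := by rw [one_pow, mul_one]
    · rw [not_le] at hc
      have h1 := card_circ_le hB1 hB2 G g0 rX hbox J hJN s0 hs0 (by
        intro b hb
        by_contra hcon
        rw [not_le] at hcon
        have h2 : (N - J.card + 1) * (b + 2) ≤ ν0 * s0 := Nat.mul_le_mul (by omega) (by omega)
        have h3 : (N - J.card + 1) * (b + 2) = b * (N - J.card) + (N - J.card) + (N - J.card)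
          + b + 2 := by ring
        omega) δ hδ (fun s' h hs' hh => hrel s' h 0 hs' hh)
      have hB' : (2 * (((N * (rX + 1)) ^ N : ℕ) : ℝ) + 1) = 2 * (hbb rX N : ℝ) + 1 := by
        rw [hbb]
      rw [hB'] at h1
      calc A ^ (N - J.card) * a ^ J.card *
        ((Fintype.piFinset fun _ : Fin N => G).filter fun T => IsBas T J ∧ NoColoop T).card
          ≤ A ^ (N - J.card) * a ^ J.card *
            ((2 * (hbb rX N : ℝ) + 1) ^ N * ((2 * (rX : ℝ) + 1) ^ J.card) ^ (N - J.card) *
              (G.card : ℝ) ^ J.card * δ) :=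
            mul_le_mul_of_nonneg_left h1 (by positivity)
        _ = (G.card * a) ^ J.card * ((2 * (hbb rX N : ℝ) + 1) ^ N * δ) *
            (A ^ (N - J.card) * ((2 * (rX : ℝ) + 1) ^ J.card) ^ (N - J.card)) := by
            rw [mul_pow]
            ring
        _ ≤ (G.card * a) ^ J.card * ((2 * (hbb rX N : ℝ) + 1) ^ N * δ) * 1 := by
            apply mul_le_mul_of_nonneg_left _ (by positivity)
            exact le_trans hpow (pow_le_one₀ hκ0.le hκ)
        _ ≤ (G.card * a) ^ J.card * E := by
            rw [mul_one]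
            apply mul_le_mul_of_nonneg_left _ (by positivity)
            rw [hE]
            have : 0 ≤ κ ^ ν0 := by positivity
            linarith
        _ = _ := by rw [one_pow, mul_one]
  refine le_trans (Finset.sum_le_sum hterm) ?_
  have hsum : ∑ J ∈ (univ : Finset (Finset (Fin N))).filter (fun J => J.card < N),
      (G.card * a) ^ J.card * 1 ^ (Fintype.card (Fin N) - J.card) * E ≤
      ∑ J : Finset (Fin N), (G.card * a) ^ J.card * 1 ^ (Fintype.card (Fin N) - J.card) * E := by
    apply Finset.sum_le_sum_of_subset_of_nonneg (Finset.filter_subset _ _)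
    intro J _ _
    positivity
  refine le_trans hsum ?_
  rw [← Finset.sum_mul, Fintype.sum_pow_mul_eq_add_pow, Fintype.card_fin]
  apply mul_le_mul_of_nonneg_left _ (by positivity)
  rw [hE]
  have h5 : (1 : ℝ) ≤ 2 ^ N := one_le_pow₀ (by norm_num)
  have h6 : 0 ≤ (2 * (hbb rX N : ℝ) + 1) ^ N * δ := by positivity
  nlinarith [mul_nonneg (sub_nonneg.2 h5) h6]

end B3
end Crest.Agent.R225
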