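import Crest.Agent.R225.B3Iface
import Crest.Agent.R225.EarSurv

/-!
# Row 225 (S0347), node B3: summation over tuples and Markov (helper351)
-/

set_option autoImplicit false

open Finset
open scoped BigOperators

namespace Crest.Agent.R225
namespace B3

open scoped Classical in
/-- summation over the tuples, sorted by a basis of positions -/
lemma moment_core (N : ℕ) {α : Type} (Ts : Finset α) (E : α → ℝ)
    (Bas : α → Finset (Fin N) → Prop) (NC : α → Prop) (A a g K Q δ : ℝ) (ν0 : ℕ)
    (hA : 0 ≤ A) (ha : 0 ≤ a) (hg : 0 ≤ g) (hK : 0 ≤ K) (hQ : 0 ≤ Q) (hδ : 0 ≤ δ)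
    (hKA : K * A ≤ 1)
    (hex : ∀ T ∈ Ts, ∃ J, Bas T J)
    (hV : ∀ T ∈ Ts, ¬ NC T → E T = 0)
    (hE : ∀ T ∈ Ts, ∀ J, Bas T J → E T ≤ A ^ (N - J.card) * a ^ J.card)
    (hlt : ∀ T ∈ Ts, ∀ J, NC T → Bas T J → J.card < N)
    (hc1 : ∀ J, ((Ts.filter fun T => Bas T J).card : ℝ) ≤ K ^ (N - J.card) * g ^ J.card)
    (hc2 : ∀ J : Finset (Fin N), J.card < N → N - J.card < ν0 →
      ((Ts.filter fun T => Bas T J ∧ NC T).card : ℝ) ≤ Q * K ^ (N - J.card) * g ^ J.card * δ) :
    ∑ T ∈ Ts, E T ≤ 2 ^ N * ((g * a + 1) ^ N * ((K * A) ^ ν0 + Q * δ)) := by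
  have hKA0 : 0 ≤ K * A := mul_nonneg hK hA
  have hga : 0 ≤ g * a := mul_nonneg hg ha
  have h1 : ∀ T ∈ Ts, E T ≤ ∑ J : Finset (Fin N),
      if Bas T J ∧ NC T then A ^ (N - J.card) * a ^ J.card else 0 := by
    intro T hT
    have hnn : ∀ J ∈ (univ : Finset (Finset (Fin N))),
        0 ≤ if Bas T J ∧ NC T then A ^ (N - J.card) * a ^ J.card else 0 := by
      intro J _
      split_ifs
      · positivity
      · exact le_rfl
    by_cases hNC : NC T
    · obtain ⟨J, hJ⟩ := hex T hT
      refine (hE T hT J hJ).trans ?_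
      have h2 := Finset.single_le_sum hnn (Finset.mem_univ J)
      simpa [hJ, hNC] using h2
    · rw [hV T hT hNC]
      exact Finset.sum_nonneg hnn
  refine (Finset.sum_le_sum h1).trans ?_
  rw [Finset.sum_comm]
  have h2 : ∀ J ∈ (univ : Finset (Finset (Fin N))),
      (∑ T ∈ Ts, if Bas T J ∧ NC T then A ^ (N - J.card) * a ^ J.card else 0) ≤
        (g * a + 1) ^ N * ((K * A) ^ ν0 + Q * δ) := by
    intro J _
    rw [← Finset.sum_filter, Finset.sum_const, nsmul_eq_mul]
    have hJN : J.card ≤ N := by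
      have := Finset.card_le_univ J
      simpa using this
    have hpow1 : (g * a) ^ J.card ≤ (g * a + 1) ^ N :=
      calc (g * a) ^ J.card ≤ (g * a + 1) ^ J.card := by gcongr; linarith
        _ ≤ (g * a + 1) ^ N := pow_le_pow_right₀ (by linarith) hJN
    rcases lt_or_ge J.card N with hJ | hJ
    · rcases lt_or_ge (N - J.card) ν0 with hν | hν
      · calc ((Ts.filter fun T => Bas T J ∧ NC T).card : ℝ) * (A ^ (N - J.card) * a ^ J.card)
            ≤ (Q * K ^ (N - J.card) * g ^ J.card * δ) * (A ^ (N - J.card) * a ^ J.card) :=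
              mul_le_mul_of_nonneg_right (hc2 J hJ hν) (by positivity)
          _ = (K * A) ^ (N - J.card) * (g * a) ^ J.card * (Q * δ) := by
              rw [mul_pow, mul_pow]; ring
          _ ≤ 1 * (g * a + 1) ^ N * (Q * δ) := by
              have h3 : (K * A) ^ (N - J.card) ≤ 1 := pow_le_one₀ hKA0 hKA
              gcongr
          _ ≤ (g * a + 1) ^ N * ((K * A) ^ ν0 + Q * δ) := by
              have h4 : 0 ≤ (g * a + 1) ^ N * (K * A) ^ ν0 := by positivity
              linarith
      · calc ((Ts.filter fun T => Bas T J ∧ NC T).card : ℝ) * (A ^ (N - J.card) * a ^ J.card)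
            ≤ ((Ts.filter fun T => Bas T J).card : ℝ) * (A ^ (N - J.card) * a ^ J.card) := by
              refine mul_le_mul_of_nonneg_right ?_ (by positivity)
              have h5 : (Ts.filter fun T => Bas T J ∧ NC T) ⊆ Ts.filter fun T => Bas T J := by
                intro T hT
                rw [Finset.mem_filter] at hT ⊢
                exact ⟨hT.1, hT.2.1⟩
              exact_mod_cast Finset.card_le_card h5
          _ ≤ (K ^ (N - J.card) * g ^ J.card) * (A ^ (N - J.card) * a ^ J.card) :=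
              mul_le_mul_of_nonneg_right (hc1 J) (by positivity)
          _ = (K * A) ^ (N - J.card) * (g * a) ^ J.card := by
              rw [mul_pow, mul_pow]; ring
          _ ≤ (K * A) ^ ν0 * (g * a + 1) ^ N := by
              have h3 : (K * A) ^ (N - J.card) ≤ (K * A) ^ ν0 :=
                pow_le_pow_of_le_one hKA0 hKA hν
              gcongr
          _ ≤ (g * a + 1) ^ N * ((K * A) ^ ν0 + Q * δ) := by
              have h4 : 0 ≤ (g * a + 1) ^ N * (Q * δ) := by positivity
              linarith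
    · have h3 : (Ts.filter fun T => Bas T J ∧ NC T) = ∅ := by
        rw [Finset.filter_eq_empty_iff]
        rintro T hT ⟨hB, hN⟩
        have := hlt T hT J hN hB
        omega
      rw [h3]
      simp only [Finset.card_empty, Nat.cast_zero, zero_mul]
      positivity
  refine (Finset.sum_le_card_nsmul _ _ _ h2).trans ?_
  rw [nsmul_eq_mul, Finset.card_univ, Fintype.card_finset, Fintype.card_fin]
  push_cast
  exact le_rfl

/-- Markov's inequality for even moments -/
lemma markov_even {Ω : Type} [Fintype Ω] [Nonempty Ω] (Y : Ω → ℝ) (p : Ω → Prop)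
    [DecidablePred p] (k : ℕ) (t M : ℝ) (ht : 0 < t) (hp : ∀ ω, ¬ p ω → t ≤ |Y ω|)
    (hM : 𝔼 ω, (Y ω) ^ (2 * k) ≤ M) :
    (𝔼 ω, if p ω then (0 : ℝ) else 1) ≤ M / t ^ (2 * k) := by
  rw [le_div_iff₀ (by positivity), Finset.expect_mul]
  refine le_trans ?_ hM
  refine Finset.expect_le_expect fun ω _ => ?_
  split_ifs with h
  · rw [zero_mul, pow_mul]; positivity
  · rw [one_mul, pow_mul, pow_mul]
    have h1 := hp ω h
    have h2 : t ^ 2 ≤ (Y ω) ^ 2 := by
      rw [← sq_abs (Y ω)]
      gcongr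
    gcongr

end B3
end Crest.Agent.R225
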