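import Crest.Agent.R225.B4Iface

/-!
# Row 225 (S0347), node B4 (cleaning): final assembly (helper925)

`prf_B4 : S_surv1 → S_core → S_num4 → S_B4`.
-/

set_option autoImplicit false

open Finset
open scoped BigOperators

namespace Crest.Agent.R225
namespace B4

theorem prf_B4 (hsurv : S_surv1) (hcore : S_core) (hnum : S_num4) : S_B4 := by
  classical
  intro c1 Crat hc1 hc1' hCrat
  obtain ⟨X0, hX0, hnum⟩ := hnum c1 Crat hc1 hc1' hCrat
  refine ⟨X0, fun X hX => ?_⟩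
  obtain ⟨n0, hn0, hnum⟩ := hnum X hX
  refine ⟨n0, fun n hn m I h1 h2 hm hm' G => ?_⟩
  obtain ⟨hR, hT, hs1, hs10, hclean, hbound⟩ :=
    hnum n hn I h1 h2 _ _ _ _ _ _ _ _ rfl rfl rfl rfl rfl rfl rfl rfl
  set L : ℕ := ⌈Real.log n⌉₊ with hL
  set s1 : ℕ := ⌊(n : ℝ) ^ (2 / 100 : ℝ)⌋₊ with hs1def
  set s0 : ℕ := ⌊sp X (c1 / 400) n (I - Rst)⌋₊ with hs0
  set k : ℕ := ⌈(n : ℝ) ^ (1 / 2 : ℝ)⌉₊ with hk
  set B : ℕ := ((L * s1 + s0 + 2) * (n ^ 16 + 1)) ^ (L * s1 + s0 + 2) with hB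
  set Λ : ℝ := (2 * B + 1 : ℝ) ^ (L * s1 + s0 + 2) with hΛ
  set R : ℝ := Mb X Crat n I / tau X (I + 1) with hRdef
  set T : ℝ := Mb X Crat n I * Real.exp (-(2 * (n : ℝ) ^ (1 / 2 : ℝ))) with hTdef
  have hXge : (1 : ℝ) ≤ X := le_trans hX0 hX
  obtain ⟨P0, hP0⟩ := hsurv c1 Crat X hc1 hCrat hXge n m I (L * s1 + s0 + k + 2)
    (le_trans hn0 hn) G
  refine ⟨P0, fun P hP _ α0 w hctx => ?_⟩
  obtain ⟨hRS, hGR⟩ := hP0 P hP α0 w hctx
  obtain ⟨g0, hg0⟩ := hctx.grid.box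
  have hc := hcore m (n ^ 16) L s1 s0 k (L * s1 + s0 + k + 2) B (Row P m)
    (fun r => alive w G [r]) G g0 (2 * α0 / (tau X I * al X I)) R T
    (Real.exp (-(c1 * n))) (Real.exp (-(c1 * NN n))) (Real.exp (-(n : ℝ) ^ (6 / 10 : ℝ))) Λ
    hRS (fun g hg k => hg0 g hg k) hGR hR hT (Real.exp_pos _).le (Real.exp_pos _).le
    (Real.exp_pos _).le le_rfl hs1 hs10 le_rfl rfl
    (fun s h y hs hh => hctx.grid.rel3 s h y hs hh)
    (fun s h y hs hh => by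
      refine hctx.grid.relL s h y ?_ hh
      have := (Nat.floor_lt' (by omega : s ≠ 0)).mp hs
      exact this.le)
    (fun c c' h h' => hctx.grid.pair c c' h h')
  refine le_trans ?_ (le_trans hc hbound)
  refine Finset.expect_le_expect fun r _ => ?_
  by_cases hgood : ∃ G' ⊆ alive w G [r],
      ((alive w G [r] \ G').card : ℝ) ≤ (2 * ((n ^ 16 : ℕ) : ℝ) + 1) ^ (L * s1) + Λ * T ∧
      NoRelInf G' s0
  · have hgood' : ∃ G' ⊆ alive w G [r],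
        ((alive w G [r] \ G').card : ℝ) ≤ Mb X Crat n I * Real.exp (-(n : ℝ) ^ (1 / 2 : ℝ)) ∧
        NoRelInf G' (sp X (c1 / 400) n (I - Rst)) := by
      obtain ⟨G', hG', hcard, hno⟩ := hgood
      refine ⟨G', hG', le_trans hcard hclean, fun Z hZ hZc h hh => hno Z hZ ?_ h hh⟩
      exact_mod_cast Nat.le_floor hZc
    rw [if_pos hgood', if_pos hgood]
  · rw [if_neg hgood]
    split_ifs <;> norm_num

end B4
end Crest.Agent.R225
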