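import Crest.Agent.R225.Iface

/-!
# Row 225 (S0347), node B4 (cleaning): split into sub-nodes

Abstract setting: `W ω` is a random subset of the grid set `G` (law: uniform `ω` in a finite type)
such that affinely independent subsets survive with probability `≤ ρ ^ card`.
-/

set_option autoImplicit false

open Finset
open scoped BigOperators

namespace Crest.Agent.R225
namespace B4

/-- affinely independent -/
def Ind {m : ℕ} (J : Finset (Pt m)) : Prop := LinearIndepOn ℚ aff (J : Set (Pt m))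

/-- `Z` is dependent modulo the span of `J` -/
def Dep {m : ℕ} (J Z : Finset (Pt m)) : Prop :=
  ∃ c : Pt m → ℚ, (∃ z ∈ Z, c z ≠ 0) ∧
    ∑ z ∈ Z, c z • aff z ∈ Submodule.span ℚ (aff '' (J : Set (Pt m)))

/-- `Z` is a circuit modulo the span of `J` -/
def Circ {m : ℕ} (J Z : Finset (Pt m)) : Prop := Dep J Z ∧ ∀ Z' ⊂ Z, ¬ Dep J Z'

/-- the points of `Z` lie in the box of radius `rX` around `g0` -/
def InBox {m : ℕ} (rX : ℕ) (g0 : Pt m) (Z : Finset (Pt m)) : Prop :=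
  ∀ g ∈ Z, ∀ k, |g k - g0 k| ≤ rX

open scoped Classical in
/-- `J` is reachable from `∅` by `t` steps, each adding a circuit `Z ⊆ W` modulo the current set,
of size in `[3, s1]`, minus one of its points -/
def Chn {m : ℕ} (W : Finset (Pt m)) (s1 : ℕ) : ℕ → Finset (Pt m) → Prop
  | 0, J => J = ∅
  | t + 1, J' => ∃ J Z z, Chn W s1 t J ∧ Z ⊆ W ∧ z ∈ Z ∧ 3 ≤ Z.card ∧ Z.card ≤ s1 ∧
      Circ J Z ∧ J' = J ∪ Z.erase z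

/-- random subset of `G` -/
structure RS {m : ℕ} (Ω : Type) [Fintype Ω] (W : Ω → Finset (Pt m)) (G : Finset (Pt m))
    (ρ : ℝ) (kmax : ℕ) : Prop where
  sub : ∀ ω, W ω ⊆ G
  nonneg : 0 ≤ ρ
  surv : ∀ J ⊆ G, Ind J → J.card ≤ kmax → (𝔼 ω, if J ⊆ W ω then (1 : ℝ) else 0) ≤ ρ ^ J.card

/-! ### A. linear algebra -/

open scoped Classical in
/-- adding a circuit minus a point keeps independence; the sets are disjoint -/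
def S_circ_ind : Prop := ∀ (m : ℕ) (J Z : Finset (Pt m)) (z : Pt m), Ind J → Circ J Z → z ∈ Z →
  Ind (J ∪ Z.erase z) ∧ Disjoint J (Z.erase z)

open scoped Classical in
/-- integer relation with full support on `Z` (from `S_B2`: minimal dependent subset of `J ∪ Z`) -/
def S_int_rel : Prop := ∀ (m rX : ℕ) (J Z : Finset (Pt m)) (g0 : Pt m), Ind J → Circ J Z →
  2 ≤ Z.card → InBox rX g0 (J ∪ Z) → ∃ h : Pt m → ℤ, (∀ z ∈ Z, h z ≠ 0) ∧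
    BRel (J ∪ Z) (((J ∪ Z).card * (rX + 1) : ℝ) ^ (J ∪ Z).card) h

open scoped Classical in
/-- the cleaned set has no small dependent subsets -/
def S_clean : Prop := ∀ (m s0 : ℕ) (W J : Finset (Pt m)), Ind J → J ⊆ W →
  (∀ Z ⊆ W, 3 ≤ Z.card → Z.card ≤ s0 → ¬ Circ J Z) →
  ∀ Z ⊆ W.filter (fun z => aff z ∉ Submodule.span ℚ (aff '' (J : Set (Pt m))) ∧
      ¬ ∃ z' ∈ W, z' ≠ z ∧ Circ J {z, z'}),
    Z.card ≤ s0 → ∀ h, ARel Z h → h = 0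

/-! ### B. counting -/

open scoped Classical in
/-- ear count: circuits of size `s` modulo `J` -/
def S_ear : Prop := ∀ (m rX s B : ℕ) (G J : Finset (Pt m)) (g0 : Pt m) (R : ℝ),
  InBox rX g0 G → J ⊆ G → Ind J → 2 ≤ s → ((J.card + s) * (rX + 1)) ^ (J.card + s) ≤ B →
  (∀ (h : Fin s → ℤ) (y : Pt m), (∀ i, h i ≠ 0) → (relCount G h y : ℝ) ≤ R) →
  (((G.powersetCard s).filter fun Z => Circ J Z).card : ℝ) ≤ (2 * B + 1 : ℝ) ^ (J.card + s) * R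

open scoped Classical in
/-- sets `J` of size `j` with a bounded nonzero combination in a small set -/
def S_badY : Prop := ∀ (m j B : ℕ) (G Y : Finset (Pt m)),
  (((G.powersetCard j).filter fun J => ∃ a : Pt m → ℤ, (∃ b ∈ J, a b ≠ 0) ∧
      (∀ b ∈ J, |a b| ≤ (B : ℤ)) ∧ ∑ b ∈ J, a b • b ∈ Y).card : ℝ)
    ≤ (2 * B + 1 : ℝ) ^ j * ((G.card : ℝ) ^ (j - 1) * Y.card)

/-! ### C. probability -/

open scoped Classical in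
/-- moment bound for the number of alive points of a small set `A` -/
def S_mom : Prop := ∀ (m rX k kmax : ℕ) (Ω : Type) [Fintype Ω] [Nonempty Ω]
  (W : Ω → Finset (Pt m)) (G J A : Finset (Pt m)) (g0 : Pt m) (ρ T : ℝ), RS Ω W G ρ kmax →
  InBox rX g0 G → J ⊆ G → Ind J → J.card + k ≤ kmax → A ⊆ G → 0 < T →
  (𝔼 ω, if J ⊆ W ω ∧ T ≤ ((W ω ∩ A).card : ℝ) then (1 : ℝ) else 0) ≤
    ρ ^ J.card * ((A.card * ρ + (2 * rX + 1 : ℝ) ^ (J.card + k)) / T) ^ k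

open scoped Classical in
/-- weighted number of chains -/
def S_chain : Prop := ∀ (m s1 L : ℕ) (G : Finset (Pt m)) (ρ q : ℝ), 0 ≤ ρ → 0 ≤ q →
  (∀ J ⊆ G, Ind J → J.card ≤ L * s1 →
    ∑ s ∈ Icc 3 s1, (((G.powersetCard s).filter fun Z => Circ J Z).card : ℝ) * s * ρ ^ (s - 1)
      ≤ q) →
  ∀ t ≤ L, ∑ J ∈ G.powerset.filter (fun J => Chn G s1 t J), ρ ^ J.card ≤ q ^ t

open scoped Classical in
/-- survival of affinely independent sets in the special row (from `S_B0`) -/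
def S_surv1 : Prop := ∀ c1 Crat X : ℝ, 0 < c1 → 1 ≤ Crat → 1 ≤ X → ∀ (n m I kmax : ℕ), 2 ≤ n →
  ∀ G : Finset (Pt m), ∃ P0 : ℕ, ∀ P ≥ P0, ∀ [Fact P.Prime], ∀ (α0 : ℝ)
    (w : Pt m → List (ZMod P) → ℝ), BaseCtx P n m I X c1 Crat α0 G w →
    RS (Row P m) (fun r => alive w G [r]) G (2 * α0 / (tau X I * al X I)) kmax ∧
      (G.card : ℝ) * (2 * α0 / (tau X I * al X I)) ≤ Mb X Crat n I / tau X (I + 1)

open scoped Classical in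
/-- abstract form of B4 -/
def S_core : Prop := ∀ (m rX L s1 s0 k kmax B : ℕ) (Ω : Type) [Fintype Ω] [Nonempty Ω]
  (W : Ω → Finset (Pt m)) (G : Finset (Pt m)) (g0 : Pt m) (ρ R T δ3 δL δp Λ : ℝ),
  RS Ω W G ρ kmax → InBox rX g0 G → G.card * ρ ≤ R → 1 ≤ R → 0 < T → 0 ≤ δ3 → 0 ≤ δL → 0 ≤ δp →
  L * s1 + s0 + k + 2 ≤ kmax → 3 ≤ s1 → s1 ≤ s0 →
  ((L * s1 + s0 + 2) * (rX + 1)) ^ (L * s1 + s0 + 2) ≤ B →
  (2 * B + 1 : ℝ) ^ (L * s1 + s0 + 2) = Λ →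
  (∀ (s : ℕ) (h : Fin s → ℤ) (y : Pt m), 3 ≤ s → (∀ i, h i ≠ 0) →
    (relCount G h y : ℝ) ≤ (G.card : ℝ) ^ (s - 1) * δ3) →
  (∀ (s : ℕ) (h : Fin s → ℤ) (y : Pt m), s1 < s → (∀ i, h i ≠ 0) →
    (relCount G h y : ℝ) ≤ (G.card : ℝ) ^ (s - 1) * δL) →
  (∀ c c' : ℤ, c ≠ 0 → c' ≠ 0 → ∃ Y : Finset (Pt m), (Y.card : ℝ) ≤ G.card * δL ∧
    ∀ y, y ∉ Y → (relCount G ![c, c'] y : ℝ) ≤ G.card * δp) →
  (𝔼 ω, if ∃ G' ⊆ W ω, ((W ω \ G').card : ℝ) ≤ (2 * rX + 1 : ℝ) ^ (L * s1) + Λ * T ∧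
      NoRelInf G' s0 then (0 : ℝ) else 1)
    ≤ (s1 ^ 2 * Λ * R ^ s1 * δ3) ^ L
      + (L * s1 + 1) * (s0 + 1) * Λ * R ^ (L * s1 + s0) * δL
      + (L * s1 + 1) * Λ * R ^ (L * s1) * δL
      + (L * s1 + 1) * Λ * R ^ (L * s1) * ((R * δp + (2 * rX + 1 : ℝ) ^ (L * s1 + k)) / T) ^ k

open scoped Classical in
/-- numerics of B4 -/
def S_num4 : Prop := ∀ c1 Crat : ℝ, 0 < c1 → c1 ≤ 1 → 1 ≤ Crat → ∃ X0 : ℝ, 1 ≤ X0 ∧ ∀ X ≥ X0,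
  ∃ n0 : ℕ, 2 ≤ n0 ∧ ∀ n ≥ n0, ∀ I : ℕ, (n : ℝ) ^ (9 / 10 : ℝ) ≤ xl X I →
  xl X I ≤ 2 * (n : ℝ) ^ (9 / 10 : ℝ) →
  ∀ (L s1 s0 k B : ℕ) (Λ R T : ℝ), L = ⌈Real.log n⌉₊ → s1 = ⌊(n : ℝ) ^ (2 / 100 : ℝ)⌋₊ →
  s0 = ⌊sp X (c1 / 400) n (I - Rst)⌋₊ → k = ⌈(n : ℝ) ^ (1 / 2 : ℝ)⌉₊ →
  B = ((L * s1 + s0 + 2) * (n ^ 16 + 1)) ^ (L * s1 + s0 + 2) →
  Λ = (2 * B + 1 : ℝ) ^ (L * s1 + s0 + 2) →
  R = Mb X Crat n I / tau X (I + 1) → T = Mb X Crat n I * Real.exp (-(2 * (n : ℝ) ^ (1 / 2 : ℝ))) →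
  1 ≤ R ∧ 0 < T ∧ 3 ≤ s1 ∧ s1 ≤ s0 ∧
  (2 * ((n ^ 16 : ℕ) : ℝ) + 1) ^ (L * s1) + Λ * T
    ≤ Mb X Crat n I * Real.exp (-(n : ℝ) ^ (1 / 2 : ℝ)) ∧
  (s1 ^ 2 * Λ * R ^ s1 * Real.exp (-(c1 * n))) ^ L
      + (L * s1 + 1) * (s0 + 1) * Λ * R ^ (L * s1 + s0) * Real.exp (-(c1 * NN n))
      + (L * s1 + 1) * Λ * R ^ (L * s1) * Real.exp (-(c1 * NN n))
      + (L * s1 + 1) * Λ * R ^ (L * s1) * ((R * Real.exp (-(n : ℝ) ^ (6 / 10 : ℝ))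
          + (2 * ((n ^ 16 : ℕ) : ℝ) + 1) ^ (L * s1 + k)) / T) ^ k
    ≤ Real.exp (-(c1 / 3 * NN n))

end B4
end Crest.Agent.R225
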