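import Crest.Agent.R225.B4Iface
import Crest.Agent.R225.Num

/-!
# Row 225 (S0347), node B4 (cleaning): numerics `S_num4` (helper925)
-/

set_option autoImplicit false

open Finset Filter
open scoped BigOperators

namespace Crest.Agent.R225
namespace B4

lemma two_exp_le (a : ℝ) : 2 * Real.exp a ≤ Real.exp (a + 1) := by
  rw [Real.exp_add, mul_comm]
  have : (2 : ℝ) ≤ Real.exp 1 := by have := Real.add_one_le_exp (1 : ℝ); linarith
  exact mul_le_mul_of_nonneg_left this (Real.exp_pos a).le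

lemma pow_exp_le {y a : ℝ} (hy : 0 ≤ y) (h : y ≤ Real.exp a) (k : ℕ) :
    y ^ k ≤ Real.exp (k * a) := by
  rw [Real.exp_nat_mul]
  exact pow_le_pow_left₀ hy h k

/-- the arithmetic core, in terms of `N = n^{1/200}`, `ℓ = log n` -/
lemma core_num (c1 N ℓ x R Λ Mb T tinv D : ℝ) (L s1 s0 k : ℕ) (hc1 : 0 < c1) (hc1' : c1 ≤ 1)
    (hN : 1000 / c1 ≤ N) (hℓ1 : 1 ≤ ℓ) (hℓN : ℓ ≤ N) (hL1 : ℓ ≤ L) (hL2 : (L : ℝ) ≤ 2 * N)
    (hs1 : (s1 : ℝ) ≤ N ^ 4) (hs0 : (s0 : ℝ) ≤ N ^ 21)
    (hs0x : s0 * x ≤ 94 / 1000 * c1 * (N ^ 200 * ℓ)) (hx0 : 0 ≤ x) (hx : x ≤ 2 * N ^ 180)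
    (hk1 : N ^ 100 ≤ k) (hk2 : (k : ℝ) ≤ N ^ 100 + 1) (hΛ1 : 1 ≤ Λ) (hΛ : Λ ≤ Real.exp (N ^ 46))
    (hR1 : 1 ≤ R) (hR : R ≤ Real.exp (x + N ^ 92)) (hMb : Real.exp (N ^ 180) ≤ Mb)
    (htinv0 : 0 < tinv) (htinv : tinv ≤ Real.exp (N ^ 91)) (hRM : R = Mb * tinv)
    (hT : T = Mb * Real.exp (-(2 * N ^ 100))) (hD1 : 1 ≤ D) (hD : D ≤ Real.exp (20 * N)) :
    D ^ (L * s1) + Λ * T ≤ Mb * Real.exp (-N ^ 100) ∧
    (s1 ^ 2 * Λ * R ^ s1 * Real.exp (-(c1 * N ^ 200))) ^ L
      + (L * s1 + 1) * (s0 + 1) * Λ * R ^ (L * s1 + s0) * Real.exp (-(c1 * (N ^ 200 * ℓ)))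
      + (L * s1 + 1) * Λ * R ^ (L * s1) * Real.exp (-(c1 * (N ^ 200 * ℓ)))
      + (L * s1 + 1) * Λ * R ^ (L * s1) * ((R * Real.exp (-N ^ 120)
          + D ^ (L * s1 + k)) / T) ^ k
    ≤ Real.exp (-(c1 / 3 * (N ^ 200 * ℓ))) := by
  have hN3 : (1000 : ℝ) ≤ c1 * N := by
    rw [div_le_iff₀ hc1] at hN; linarith
  have hN1000 : (1000 : ℝ) ≤ N := by
    have : (1000 : ℝ) ≤ 1000 / c1 := by rw [le_div_iff₀ hc1]; linarith
    linarith
  have hN1 : (1 : ℝ) ≤ N := by linarith
  have hN0 : (0 : ℝ) ≤ N := by linarith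
  have pw : ∀ a b : ℕ, a ≤ b → N ^ a ≤ N ^ b := fun a b h => pow_le_pow_right₀ hN1 h
  have pws : ∀ a b : ℕ, a < b → 1000 * N ^ a ≤ N ^ b := fun a b h => by
    calc 1000 * N ^ a ≤ N * N ^ a := by
          apply mul_le_mul_of_nonneg_right hN1000 (by positivity)
      _ = N ^ (a + 1) := by ring
      _ ≤ N ^ b := pw _ _ h
  have pwc : ∀ a b : ℕ, a < b → 1000 * N ^ a ≤ c1 * N ^ b := fun a b h => by
    calc 1000 * N ^ a ≤ (c1 * N) * N ^ a := by
          apply mul_le_mul_of_nonneg_right hN3 (by positivity)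
      _ = c1 * N ^ (a + 1) := by ring
      _ ≤ c1 * N ^ b := mul_le_mul_of_nonneg_left (pw _ _ h) hc1.le
  have p1 : (1 : ℝ) ≤ N ^ 1 := by simpa using hN1
  have hMb0 : 0 < Mb := lt_of_lt_of_le (Real.exp_pos _) hMb
  have hT0 : 0 < T := by rw [hT]; exact mul_pos hMb0 (Real.exp_pos _)
  have hLs : ((L * s1 : ℕ) : ℝ) ≤ 2 * N ^ 5 := by
    push_cast
    calc (L : ℝ) * s1 ≤ (2 * N) * N ^ 4 :=
          mul_le_mul hL2 hs1 (Nat.cast_nonneg _) (by linarith)
      _ = 2 * N ^ 5 := by ring
  have hLs0 : (0 : ℝ) ≤ ((L * s1 : ℕ) : ℝ) := Nat.cast_nonneg _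
  -- `NN`
  set M : ℝ := N ^ 200 * ℓ with hM
  have hM1 : N ^ 200 ≤ M := by
    rw [hM]
    have : (0 : ℝ) ≤ N ^ 200 := by positivity
    nlinarith
  have hM2 : M ≤ N ^ 201 := by
    rw [hM, pow_succ]
    exact mul_le_mul_of_nonneg_left hℓN (by positivity)
  -- powers of `D` and `R`
  have hDLs : D ^ (L * s1) ≤ Real.exp (40 * N ^ 6) := by
    refine le_trans (pow_exp_le (by linarith) hD _) ?_
    apply Real.exp_le_exp.mpr
    calc ((L * s1 : ℕ) : ℝ) * (20 * N) ≤ (2 * N ^ 5) * (20 * N) :=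
          mul_le_mul_of_nonneg_right hLs (by linarith)
      _ = 40 * N ^ 6 := by ring
  constructor
  · have a1 : D ^ (L * s1) * 2 ≤ Mb * Real.exp (-N ^ 100) := by
      calc D ^ (L * s1) * 2 ≤ Real.exp (40 * N ^ 6) * 2 :=
            mul_le_mul_of_nonneg_right hDLs (by norm_num)
        _ = 2 * Real.exp (40 * N ^ 6) := by ring
        _ ≤ Real.exp (40 * N ^ 6 + 1) := two_exp_le _
        _ ≤ Real.exp (N ^ 180 + -N ^ 100) := by
            apply Real.exp_le_exp.mpr
            have h1 := pws 6 180 (by norm_num)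
            have h2 := pws 100 180 (by norm_num)
            have h3 := pws 1 180 (by norm_num)
            linarith
        _ = Real.exp (N ^ 180) * Real.exp (-N ^ 100) := Real.exp_add _ _
        _ ≤ Mb * Real.exp (-N ^ 100) := mul_le_mul_of_nonneg_right hMb (Real.exp_pos _).le
    have a2 : Λ * T * 2 ≤ Mb * Real.exp (-N ^ 100) := by
      calc Λ * T * 2 ≤ Real.exp (N ^ 46) * T * 2 := by
            gcongr
        _ = Mb * (2 * Real.exp (N ^ 46) * Real.exp (-(2 * N ^ 100))) := by rw [hT]; ring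
        _ ≤ Mb * (Real.exp (N ^ 46 + 1) * Real.exp (-(2 * N ^ 100))) := by
            gcongr
            exact two_exp_le _
        _ = Mb * Real.exp (N ^ 46 + 1 + -(2 * N ^ 100)) := by rw [Real.exp_add _ (-(2 * N ^ 100))]
        _ ≤ Mb * Real.exp (-N ^ 100) := by
            gcongr
            have h1 := pws 46 100 (by norm_num)
            have h3 := pws 1 100 (by norm_num)
            have h4 : 0 ≤ N ^ 46 := by positivity
            linarith
    linarith
  · have hRpow : ∀ j : ℕ, R ^ j ≤ Real.exp (j * (x + N ^ 92)) := fun j =>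
      pow_exp_le (by linarith) hR j
    have hR0 : 0 < R := by linarith
    have hΛ0 : 0 < Λ := by linarith
    have hRLs : R ^ (L * s1) ≤ Real.exp (N ^ 186) := by
      refine le_trans (hRpow _) ?_
      apply Real.exp_le_exp.mpr
      have h1 : x + N ^ 92 ≤ 3 * N ^ 180 := by
        have := pw 92 180 (by norm_num); linarith
      calc ((L * s1 : ℕ) : ℝ) * (x + N ^ 92) ≤ (2 * N ^ 5) * (3 * N ^ 180) :=
            mul_le_mul hLs h1 (by positivity) (by positivity)
        _ = 6 * N ^ 185 := by ring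
        _ ≤ N ^ 186 := by have := pws 185 186 (by norm_num); have : 0 ≤ N ^ 185 := by positivity
                          linarith
    have hLs1 : (L * s1 + 1 : ℝ) ≤ Real.exp (2 * N ^ 5) := by
      have := Real.add_one_le_exp ((L * s1 : ℕ) : ℝ)
      push_cast at this hLs
      exact le_trans this (Real.exp_le_exp.mpr hLs)
    have hs01 : (s0 + 1 : ℝ) ≤ Real.exp (N ^ 21) :=
      le_trans (Real.add_one_le_exp (s0 : ℝ)) (Real.exp_le_exp.mpr hs0)
    -- term 1
    have t1 : (s1 ^ 2 * Λ * R ^ s1 * Real.exp (-(c1 * N ^ 200))) ^ L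
        ≤ Real.exp (-(c1 / 2 * M)) := by
      have i1 : (s1 : ℝ) ^ 2 ≤ Real.exp (N ^ 8) := by
        have : (s1 : ℝ) ^ 2 ≤ (N ^ 4) ^ 2 := pow_le_pow_left₀ (Nat.cast_nonneg _) hs1 2
        have h2 : (N ^ 4) ^ 2 = N ^ 8 := by ring
        have h3 := Real.add_one_le_exp (N ^ 8)
        linarith
      have i2 : R ^ s1 ≤ Real.exp (3 * N ^ 184) := by
        refine le_trans (hRpow _) ?_
        apply Real.exp_le_exp.mpr
        have h1 : x + N ^ 92 ≤ 3 * N ^ 180 := by
          have := pw 92 180 (by norm_num); linarith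
        calc (s1 : ℝ) * (x + N ^ 92) ≤ N ^ 4 * (3 * N ^ 180) :=
              mul_le_mul hs1 h1 (by positivity) (by positivity)
          _ = 3 * N ^ 184 := by ring
      have i3 : s1 ^ 2 * Λ * R ^ s1 * Real.exp (-(c1 * N ^ 200))
          ≤ Real.exp (-(c1 / 2 * N ^ 200)) := by
        calc s1 ^ 2 * Λ * R ^ s1 * Real.exp (-(c1 * N ^ 200))
            ≤ Real.exp (N ^ 8) * Real.exp (N ^ 46) * Real.exp (3 * N ^ 184) *
              Real.exp (-(c1 * N ^ 200)) := by gcongr
          _ = Real.exp (N ^ 8 + N ^ 46 + 3 * N ^ 184 + -(c1 * N ^ 200)) := by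
              rw [Real.exp_add, Real.exp_add, Real.exp_add]
          _ ≤ Real.exp (-(c1 / 2 * N ^ 200)) := by
              apply Real.exp_le_exp.mpr
              have h1 := pw 8 184 (by norm_num)
              have h2 := pw 46 184 (by norm_num)
              have h3 := pwc 184 200 (by norm_num)
              have h4 : 0 ≤ N ^ 184 := by positivity
              linarith
      calc (s1 ^ 2 * Λ * R ^ s1 * Real.exp (-(c1 * N ^ 200))) ^ L
          ≤ Real.exp (L * (-(c1 / 2 * N ^ 200))) := pow_exp_le (by positivity) i3 L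
        _ ≤ Real.exp (-(c1 / 2 * M)) := by
            apply Real.exp_le_exp.mpr
            have h5 : N ^ 200 * ℓ ≤ N ^ 200 * L := mul_le_mul_of_nonneg_left hL1 (by positivity)
            have h6 : c1 / 2 * (N ^ 200 * ℓ) ≤ c1 / 2 * (N ^ 200 * L) :=
              mul_le_mul_of_nonneg_left h5 (by linarith)
            have h7 : (L : ℝ) * (-(c1 / 2 * N ^ 200)) = -(c1 / 2 * (N ^ 200 * L)) := by ring
            rw [h7, hM]; linarith
    -- term 2
    have t2 : (L * s1 + 1) * (s0 + 1) * Λ * R ^ (L * s1 + s0) * Real.exp (-(c1 * M))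
        ≤ Real.exp (-(c1 / 2 * M)) := by
      have i1 : R ^ s0 ≤ Real.exp (94 / 1000 * c1 * M + N ^ 113) := by
        refine le_trans (hRpow _) ?_
        apply Real.exp_le_exp.mpr
        have h1 : (s0 : ℝ) * N ^ 92 ≤ N ^ 21 * N ^ 92 :=
          mul_le_mul_of_nonneg_right hs0 (by positivity)
        have h2 : N ^ 21 * N ^ 92 = N ^ 113 := by ring
        have h3 : (s0 : ℝ) * (x + N ^ 92) = s0 * x + s0 * N ^ 92 := by ring
        rw [h3]; linarith
      calc (L * s1 + 1) * (s0 + 1) * Λ * R ^ (L * s1 + s0) * Real.exp (-(c1 * M))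
          = (L * s1 + 1) * (s0 + 1) * Λ * (R ^ (L * s1) * R ^ s0) * Real.exp (-(c1 * M)) := by
            rw [pow_add]
        _ ≤ Real.exp (2 * N ^ 5) * Real.exp (N ^ 21) * Real.exp (N ^ 46) *
            (Real.exp (N ^ 186) * Real.exp (94 / 1000 * c1 * M + N ^ 113)) *
            Real.exp (-(c1 * M)) := by gcongr
        _ = Real.exp (2 * N ^ 5 + N ^ 21 + N ^ 46 + (N ^ 186 +
            (94 / 1000 * c1 * M + N ^ 113)) + -(c1 * M)) := by
            simp only [Real.exp_add]
        _ ≤ Real.exp (-(c1 / 2 * M)) := by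
            apply Real.exp_le_exp.mpr
            have h1 := pw 5 186 (by norm_num)
            have h2 := pw 21 186 (by norm_num)
            have h3 := pw 46 186 (by norm_num)
            have h4 := pw 113 186 (by norm_num)
            have h5 := pwc 186 200 (by norm_num)
            have h6 : c1 * N ^ 200 ≤ c1 * M := mul_le_mul_of_nonneg_left hM1 hc1.le
            have h7 : 0 ≤ N ^ 186 := by positivity
            linarith
    -- term 3
    have t3 : (L * s1 + 1) * Λ * R ^ (L * s1) * Real.exp (-(c1 * M))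
        ≤ Real.exp (-(c1 / 2 * M)) := by
      calc (L * s1 + 1) * Λ * R ^ (L * s1) * Real.exp (-(c1 * M))
          ≤ Real.exp (2 * N ^ 5) * Real.exp (N ^ 46) * Real.exp (N ^ 186) *
            Real.exp (-(c1 * M)) := by gcongr
        _ = Real.exp (2 * N ^ 5 + N ^ 46 + N ^ 186 + -(c1 * M)) := by
            rw [Real.exp_add, Real.exp_add, Real.exp_add]
        _ ≤ Real.exp (-(c1 / 2 * M)) := by
            apply Real.exp_le_exp.mpr
            have h1 := pw 5 186 (by norm_num)
            have h3 := pw 46 186 (by norm_num)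
            have h5 := pwc 186 200 (by norm_num)
            have h6 : c1 * N ^ 200 ≤ c1 * M := mul_le_mul_of_nonneg_left hM1 hc1.le
            have h7 : 0 ≤ N ^ 186 := by positivity
            linarith
    -- term 4
    have t4 : (L * s1 + 1) * Λ * R ^ (L * s1) * ((R * Real.exp (-N ^ 120)
          + D ^ (L * s1 + k)) / T) ^ k ≤ Real.exp (-(c1 / 2 * M)) := by
      have i1 : R * Real.exp (-N ^ 120) / T * 2 ≤ Real.exp (-(N ^ 120 / 2)) := by
        have e1 : R * Real.exp (-N ^ 120) / T = tinv * Real.exp (-N ^ 120) *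
            Real.exp (2 * N ^ 100) := by
          rw [hRM, hT, Real.exp_neg (2 * N ^ 100)]
          field_simp
        rw [e1]
        calc tinv * Real.exp (-N ^ 120) * Real.exp (2 * N ^ 100) * 2
            ≤ Real.exp (N ^ 91) * Real.exp (-N ^ 120) * Real.exp (2 * N ^ 100) * 2 := by gcongr
          _ = 2 * Real.exp (N ^ 91 + -N ^ 120 + 2 * N ^ 100) := by
              rw [Real.exp_add, Real.exp_add]; ring
          _ ≤ Real.exp (N ^ 91 + -N ^ 120 + 2 * N ^ 100 + 1) := two_exp_le _
          _ ≤ Real.exp (-(N ^ 120 / 2)) := by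
              apply Real.exp_le_exp.mpr
              have h1 := pw 91 100 (by norm_num)
              have h2 := pws 100 120 (by norm_num)
              have h3 := pw 1 100 (by norm_num)
              linarith
      have i2 : D ^ (L * s1 + k) / T * 2 ≤ Real.exp (-(N ^ 120 / 2)) := by
        have e1 : D ^ (L * s1 + k) ≤ Real.exp (100 * N ^ 101) := by
          refine le_trans (pow_exp_le (by linarith) hD _) ?_
          apply Real.exp_le_exp.mpr
          have h1 : ((L * s1 + k : ℕ) : ℝ) ≤ 5 * N ^ 100 := by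
            push_cast at hLs ⊢
            have h1 := pw 5 100 (by norm_num)
            have h3 := pw 1 100 (by norm_num)
            linarith
          calc ((L * s1 + k : ℕ) : ℝ) * (20 * N) ≤ (5 * N ^ 100) * (20 * N) :=
                mul_le_mul_of_nonneg_right h1 (by linarith)
            _ = 100 * N ^ 101 := by ring
        rw [div_mul_eq_mul_div, div_le_iff₀ hT0]
        calc D ^ (L * s1 + k) * 2 ≤ Real.exp (100 * N ^ 101) * 2 := by gcongr
          _ = 2 * Real.exp (100 * N ^ 101) := by ring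
          _ ≤ Real.exp (100 * N ^ 101 + 1) := two_exp_le _
          _ ≤ Real.exp (-(N ^ 120 / 2) + (N ^ 180 + -(2 * N ^ 100))) := by
              apply Real.exp_le_exp.mpr
              have h1 := pws 101 180 (by norm_num)
              have h2 := pws 100 180 (by norm_num)
              have h3 := pws 120 180 (by norm_num)
              have h4 := pws 1 180 (by norm_num)
              linarith
          _ = Real.exp (-(N ^ 120 / 2)) * (Real.exp (N ^ 180) * Real.exp (-(2 * N ^ 100))) := by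
              rw [Real.exp_add, Real.exp_add]
          _ ≤ Real.exp (-(N ^ 120 / 2)) * (Mb * Real.exp (-(2 * N ^ 100))) := by gcongr
          _ = Real.exp (-(N ^ 120 / 2)) * T := by rw [hT]
      have i3 : (R * Real.exp (-N ^ 120) + D ^ (L * s1 + k)) / T ≤ Real.exp (-(N ^ 120 / 2)) := by
        rw [add_div]; linarith
      have i4 : ((R * Real.exp (-N ^ 120) + D ^ (L * s1 + k)) / T) ^ k
          ≤ Real.exp (-(N ^ 220 / 2)) := by
        have hD0 : 0 < D := by linarith
        refine le_trans (pow_exp_le (by positivity) i3 k) ?_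
        apply Real.exp_le_exp.mpr
        have h1 : N ^ 100 * (N ^ 120 / 2) ≤ k * (N ^ 120 / 2) :=
          mul_le_mul_of_nonneg_right hk1 (by positivity)
        have h2 : N ^ 100 * (N ^ 120 / 2) = N ^ 220 / 2 := by ring
        linarith
      have hD0 : 0 < D := by linarith
      calc (L * s1 + 1) * Λ * R ^ (L * s1) * ((R * Real.exp (-N ^ 120)
            + D ^ (L * s1 + k)) / T) ^ k
          ≤ Real.exp (2 * N ^ 5) * Real.exp (N ^ 46) * Real.exp (N ^ 186) *
            Real.exp (-(N ^ 220 / 2)) := by gcongr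
        _ = Real.exp (2 * N ^ 5 + N ^ 46 + N ^ 186 + -(N ^ 220 / 2)) := by
            rw [Real.exp_add, Real.exp_add, Real.exp_add]
        _ ≤ Real.exp (-(c1 / 2 * M)) := by
            apply Real.exp_le_exp.mpr
            have h1 := pw 5 186 (by norm_num)
            have h3 := pw 46 186 (by norm_num)
            have h5 := pws 186 220 (by norm_num)
            have h6 : c1 / 2 * M ≤ 1 * N ^ 201 := by
              apply mul_le_mul (by linarith) hM2 _ (by norm_num)
              rw [hM]; positivity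
            have h7 := pws 201 220 (by norm_num)
            have h8 : 0 ≤ N ^ 186 := by positivity
            have h9 : 0 ≤ N ^ 201 := by positivity
            linarith
    have hfin : 4 * Real.exp (-(c1 / 2 * M)) ≤ Real.exp (-(c1 / 3 * M)) := by
      calc 4 * Real.exp (-(c1 / 2 * M)) = 2 * (2 * Real.exp (-(c1 / 2 * M))) := by ring
        _ ≤ 2 * Real.exp (-(c1 / 2 * M) + 1) := by
            have := two_exp_le (-(c1 / 2 * M)); linarith
        _ ≤ Real.exp (-(c1 / 2 * M) + 1 + 1) := two_exp_le _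
        _ ≤ Real.exp (-(c1 / 3 * M)) := by
            apply Real.exp_le_exp.mpr
            have h6 : c1 * N ^ 200 ≤ c1 * M := mul_le_mul_of_nonneg_left hM1 hc1.le
            have h5 := pwc 1 200 (by norm_num)
            linarith
    linarith

end B4
end Crest.Agent.R225
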