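import Crest.Agent.R225.G12

/-!
# Row 225, node HRC, part a: counting sets with many disjoint column bases
-/

set_option autoImplicit false

open Finset
open scoped BigOperators Nat

namespace Crest.Agent.R225

/-- `Z` carries `d` relations of height `≤ B` whose columns contain `2q` disjoint bases. -/
def BadCols {m : ℕ} (q d : ℕ) (B : ℝ) (Z : Finset (Pt m)) : Prop :=
  ∃ v : Fin d → Pt m → ℤ, (∀ l, BRel Z B (v l)) ∧
    ∃ e : Fin (2 * q) × Fin d → Pt m, Function.Injective e ∧ (∀ p, e p ∈ Z) ∧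
      ∀ t, (Matrix.of fun l j : Fin d => v l (e (t, j))).det ≠ 0

open scoped Classical in
/-- every `k`-set has `k!` enumerations -/
lemma card_mul_factorial_le {α : Type*} [DecidableEq α] (k : ℕ) (W : Finset α)
    (p : Finset α → Prop) :
    ((W.powersetCard k).filter p).card * k ! ≤
      ((Fintype.piFinset fun _ : Fin k => W).filter fun z =>
        Function.Injective z ∧ p (univ.image z)).card := by
  set T := (Fintype.piFinset fun _ : Fin k => W).filter fun z =>
        Function.Injective z ∧ p (univ.image z) with hT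
  have hmap : ∀ z ∈ T, univ.image z ∈ (W.powersetCard k).filter p := by
    intro z hz
    rw [hT, mem_filter, Fintype.mem_piFinset] at hz
    rw [mem_filter, mem_powersetCard]
    refine ⟨⟨?_, ?_⟩, hz.2.2⟩
    · intro x hx
      obtain ⟨i, _, rfl⟩ := mem_image.1 hx
      exact hz.1 i
    · rw [card_image_of_injective _ hz.2.1, card_univ, Fintype.card_fin]
  rw [card_eq_sum_card_fiberwise (f := fun z => univ.image z) (t := (W.powersetCard k).filter p)
    (s := T) (fun z hz => hmap z hz), ← smul_eq_mul, ← sum_const]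
  refine sum_le_sum fun Z hZ => ?_
  rw [mem_filter, mem_powersetCard] at hZ
  obtain ⟨⟨hZW, hZk⟩, hpZ⟩ := hZ
  have e0 : Fin k ≃ Z := (finCongr hZk.symm).trans Z.equivFin.symm
  have hc : Fintype.card (Fin k ≃ Z) = k ! := by
    rw [Fintype.card_equiv e0, Fintype.card_fin]
  rw [← hc, ← card_univ]
  refine card_le_card_of_injOn (fun e i => ((e i : Z) : α)) ?_ ?_
  · intro e _
    have himg : univ.image (fun i => ((e i : Z) : α)) = Z := by
      ext x
      simp only [mem_image, mem_univ, true_and]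
      constructor
      · rintro ⟨i, rfl⟩; exact (e i).2
      · intro hx; exact ⟨e.symm ⟨x, hx⟩, by simp⟩
    simp only [coe_filter, hT, mem_filter, Fintype.mem_piFinset, Set.mem_ofPred_eq]
    refine ⟨⟨fun i => hZW (e i).2, fun i j hij => e.injective (Subtype.ext hij), ?_⟩, himg⟩
    rw [himg]; exact hpZ
  · intro e _ e' _ hee
    ext i
    exact congrFun hee i

open scoped Classical in
theorem count_badCols (hE3 : S_E3) (m k q d : ℕ) (W : Finset (Pt m)) (B : ℝ) :
    ((W.powersetCard k).filter fun Z => BadCols q d B Z).card * k ! ≤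
      (2 * ⌊B⌋₊ + 1) ^ (d * k) * (W.card ^ (k - 2 * q * d) * En q W ^ d) := by
  refine (card_mul_factorial_le k W _).trans ?_
  set Hs : Finset (Fin d → Fin k → ℤ) := Fintype.piFinset fun _ => Fintype.piFinset fun _ =>
    Finset.Icc (-(⌊B⌋₊ : ℤ)) ⌊B⌋₊ with hHs
  have hHcard : Hs.card = (2 * ⌊B⌋₊ + 1) ^ (d * k) := by
    rw [hHs, Fintype.card_piFinset]
    simp only [Fintype.card_piFinset, prod_const, card_univ, Fintype.card_fin, Int.card_Icc]
    rw [← pow_mul, mul_comm k d]
    congr 1
    omega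
  have hsub : ((Fintype.piFinset fun _ : Fin k => W).filter fun z =>
        Function.Injective z ∧ BadCols q d B (univ.image z)) ⊆
      (Hs.filter fun H => ∃ e : Fin (2 * q) × Fin d → Fin k, Function.Injective e ∧
        ∀ t, (Matrix.of fun l j : Fin d => H l (e (t, j))).det ≠ 0).biUnion fun H =>
        (Fintype.piFinset fun _ : Fin k => W).filter fun z => ∀ l, ∑ i, H l i • z i = 0 := by
    intro z hz
    rw [mem_filter] at hz
    obtain ⟨hzW, hinj, v, hv, e, he, heZ, hdet⟩ := hz
    rw [mem_biUnion]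
    refine ⟨fun l i => v l (z i), ?_, ?_⟩
    · rw [mem_filter]
      constructor
      · rw [hHs, Fintype.mem_piFinset]
        intro l
        rw [Fintype.mem_piFinset]
        intro i
        have h1 := (hv l).2 (z i)
        rw [mem_Icc]
        have h2 : (|v l (z i)| : ℤ) ≤ (⌊B⌋₊ : ℤ) := by
          have h3 : ((|v l (z i)|).toNat : ℝ) ≤ B := by
            have : ((|v l (z i)|).toNat : ℤ) = |v l (z i)| := Int.toNat_of_nonneg (abs_nonneg _)
            have h4 : (((|v l (z i)|).toNat : ℤ) : ℝ) = ((|v l (z i)| : ℤ) : ℝ) := by rw [this]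
            rw [Int.cast_natCast] at h4
            rw [h4, Int.cast_abs]
            exact h1
          have h5 := Nat.le_floor h3
          have : ((|v l (z i)|).toNat : ℤ) = |v l (z i)| := Int.toNat_of_nonneg (abs_nonneg _)
          rw [← this]
          exact_mod_cast h5
        exact abs_le.1 h2
      · have hidx : ∀ p, ∃ i, z i = e p := fun p => by
          obtain ⟨i, _, hi⟩ := mem_image.1 (heZ p)
          exact ⟨i, hi⟩
        choose f hf using hidx
        refine ⟨f, fun p p' hpp => he ?_, fun t => ?_⟩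
        · rw [← hf p, ← hf p', hpp]
        · have : (Matrix.of fun l j : Fin d => v l (z (f (t, j)))) =
              Matrix.of fun l j : Fin d => v l (e (t, j)) := by
            ext l j
            simp only [Matrix.of_apply, hf]
          rw [this]
          exact hdet t
    · rw [mem_filter]
      refine ⟨hzW, fun l => ?_⟩
      have h3 := (hv l).1.2.2
      rw [sum_image fun i _ j _ hij => hinj hij] at h3
      exact h3
  calc _ ≤ _ := card_le_card hsub
    _ ≤ (Hs.filter fun H => ∃ e : Fin (2 * q) × Fin d → Fin k, Function.Injective e ∧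
        ∀ t, (Matrix.of fun l j : Fin d => H l (e (t, j))).det ≠ 0).card *
          (W.card ^ (k - 2 * q * d) * En q W ^ d) := by
        refine card_biUnion_le_card_mul _ _ _ fun H hH => ?_
        rw [mem_filter] at hH
        obtain ⟨_, e, he, hdet⟩ := hH
        exact hE3 m k q d W H e he hdet
    _ ≤ _ := by
        refine Nat.mul_le_mul_right _ ?_
        rw [← hHcard]
        exact card_filter_le _ _

lemma ARel.filter_ne {m : ℕ} {Z : Finset (Pt m)} {h : Pt m → ℤ} (H : ARel Z h) :
    ARel (Z.filter fun g => h g ≠ 0) h := by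
  obtain ⟨h1, h2, h3⟩ := H
  refine ⟨fun g hg => ?_, ?_, ?_⟩
  · by_contra hne
    have hgZ : g ∈ Z := by
      by_contra hgZ
      exact hne (h1 g hgZ)
    exact hg (mem_filter.2 ⟨hgZ, hne⟩)
  · refine (sum_subset (filter_subset _ _) fun g hg hg' => ?_).trans h2
    by_contra hne
    exact hg' (mem_filter.2 ⟨hg, hne⟩)
  · refine (sum_subset (filter_subset _ _) fun g hg hg' => ?_).trans h3
    by_contra hne
    refine hg' (mem_filter.2 ⟨hg, fun h0 => hne ?_⟩)
    rw [h0, zero_smul]

lemma RkGe.nonempty {m : ℕ} {Z : Finset (Pt m)} {B : ℝ} {k : ℕ} (H : RkGe Z B (k + 1)) :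
    Z.Nonempty := by
  obtain ⟨v, hv, hli⟩ := H
  by_contra hne
  rw [not_nonempty_iff_eq_empty] at hne
  refine hli.ne_zero 0 (funext fun g => ?_)
  have := (hv 0).1.1 g (by rw [hne]; simp)
  simp [this]

/-- the deterministic step: a bad set inside a set without short relations contains a minimal
bad set with many disjoint column bases and a large relation-free subset. -/
theorem minimal_bad (hG3 : S_G3) (m d q : ℕ) (H Bh' sp' : ℝ) (W Z : Finset (Pt m)) (hd : 1 ≤ d)
    (hH : 1 ≤ H) (hB : (d * (2 * H ^ 2)) ^ d ≤ Bh') (hsp : ((2 * q * d : ℕ) : ℝ) ≤ sp')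
    (hno : NoRel W Bh' sp') (hZ : Z ⊆ W) (hrk : RkGe Z (2 * H ^ 2) d) :
    ∃ Z1 ⊆ Z, BadCols q d (2 * H ^ 2) Z1 ∧ ∃ Z0 ⊆ Z1, Z1.card ≤ Z0.card + d ∧
      ∀ h, BRel Z0 H h → h = 0 := by
  classical
  have hne : (Z.powerset.filter fun Y => RkGe Y (2 * H ^ 2) d).Nonempty :=
    ⟨Z, mem_filter.2 ⟨mem_powerset.2 (Finset.Subset.refl _), hrk⟩⟩
  obtain ⟨Z1, hZ1, hmin⟩ := exists_min_image _ Finset.card hne
  rw [mem_filter, mem_powerset] at hZ1
  obtain ⟨hZ1Z, hZ1rk⟩ := hZ1
  have hnot : ¬ RkGe Z1 H (d + 1) := by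
    intro hcon
    obtain ⟨z, hz⟩ := hcon.nonempty
    have h1 := prf_G1 m d Z1 H z hH hz hcon
    have h2 := hmin (Z1.erase z) (mem_filter.2 ⟨mem_powerset.2
      ((erase_subset _ _).trans hZ1Z), h1⟩)
    have h3 := card_erase_lt_of_mem hz
    omega
  refine ⟨Z1, hZ1Z, ?_, prf_G2 m d Z1 H hnot⟩
  obtain ⟨v, hv, hli⟩ := hZ1rk
  have hB1 : 1 ≤ 2 * H ^ 2 := by nlinarith
  rcases hG3 m d (2 * q) Z1 (2 * H ^ 2) v hd hB1 hv hli with ⟨e, he, heZ, hdet⟩ | ⟨h, hne, hrel, hs⟩
  · exact ⟨v, hv, e, he, heZ, hdet⟩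
  · exfalso
    refine hne (hno (Z1.filter fun g => h g ≠ 0) ((filter_subset _ _).trans (hZ1Z.trans hZ)) ?_ h
      ⟨hrel.1.filter_ne, fun g => (hrel.2 g).trans hB⟩)
    refine le_trans ?_ hsp
    exact_mod_cast hs.le

end Crest.Agent.R225
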