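import Crest.Agent.R225.EarNum
import Crest.Agent.R225.HRCa
import Crest.Agent.R225.HP2

/-!
# Row 225, node B5, part c: one-row first moment of the bad sets (helper979)
-/

set_option autoImplicit false

open Finset
open scoped BigOperators Nat

namespace Crest.Agent.R225

namespace B5C

/-- energy of the grid set from `relL` -/
lemma En_grid {n m rX : ℕ} {c1 : ℝ} {G : Finset (Pt m)} (hG : GridHyp n m rX c1 G) {q : ℕ}
    (hq : (n : ℝ) ^ (2 / 100 : ℝ) ≤ ((q + q : ℕ) : ℝ)) :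
    (En q G : ℝ) ≤ (G.card : ℝ) ^ (q + q - 1) * Real.exp (-(c1 * NN n)) := by
  refine le_trans (by exact_mod_cast HP2.En_le_relCount q G) (hG.relL (q + q) _ 0 hq ?_)
  intro i
  refine Fin.addCases (fun i => ?_) (fun i => ?_) i
  · rw [Fin.append_left]; norm_num
  · rw [Fin.append_right]; norm_num

lemma BadCols.le_card {m q d : ℕ} {B : ℝ} {Z : Finset (Pt m)} (h : BadCols q d B Z) :
    2 * q * d ≤ Z.card := by
  classical
  obtain ⟨v, hv, e, he, heZ, -⟩ := h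
  have h1 : (univ.image e).card ≤ Z.card := card_le_card (by
    intro g hg
    obtain ⟨p, -, rfl⟩ := mem_image.1 hg
    exact heZ p)
  rw [card_image_of_injective _ he] at h1
  simpa [card_univ] using h1

open scoped Classical in
/-- the number of bad sets of size `k` -/
theorem count_k (hE3 : S_E3) {n m q k : ℕ} {c1 : ℝ} {G : Finset (Pt m)}
    (hN : Ear.EarN c1 n) (hG : GridHyp n m (n ^ 16) c1 G)
    (hq : (n : ℝ) ^ (2 / 100 : ℝ) ≤ ((q + q : ℕ) : ℝ)) (hq1 : 1 ≤ q)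
    (hk : (k : ℝ) ≤ (n : ℝ) ^ (3 / 10 : ℝ)) :
    (((G.powersetCard k).filter fun Z =>
        BadCols q 16 ((k * ((n ^ 16 : ℕ) + 1) : ℝ) ^ k) Z).card : ℝ) ≤
      Real.exp (c1 / 100 * n) ^ 16 * ((G.card : ℝ) ^ (k - 16) * Real.exp (-(c1 * NN n)) ^ 16) := by
  by_cases hk2 : 2 * q * 16 ≤ k
  swap
  · have : (G.powersetCard k).filter (fun Z =>
        BadCols q 16 ((k * ((n ^ 16 : ℕ) + 1) : ℝ) ^ k) Z) = ∅ := by
      rw [filter_eq_empty_iff]
      intro Z hZ hbad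
      have := BadCols.le_card hbad
      rw [(mem_powersetCard.1 hZ).2] at this
      exact hk2 this
    rw [this]
    simp only [card_empty, Nat.cast_zero]
    positivity
  have h1 := count_badCols hE3 m k q 16 G ((k * ((n ^ 16 : ℕ) + 1) : ℝ) ^ k)
  have h2 : ((G.powersetCard k).filter fun Z =>
        BadCols q 16 ((k * ((n ^ 16 : ℕ) + 1) : ℝ) ^ k) Z).card ≤
      (2 * ⌊((k * ((n ^ 16 : ℕ) + 1) : ℝ) ^ k)⌋₊ + 1) ^ (16 * k) *
        (G.card ^ (k - 2 * q * 16) * En q G ^ 16) :=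
    le_trans (Nat.le_mul_of_pos_right _ (Nat.factorial_pos k)) h1
  have hfl : ⌊((k * ((n ^ 16 : ℕ) + 1) : ℝ) ^ k)⌋₊ = Ear.hb (n ^ 16) k := by
    have : ((k * ((n ^ 16 : ℕ) + 1) : ℝ) ^ k) = ((Ear.hb (n ^ 16) k : ℕ) : ℝ) := by
      unfold Ear.hb; push_cast; ring
    rw [this, Nat.floor_natCast]
  rw [hfl] at h2
  have h3 : (((G.powersetCard k).filter fun Z =>
        BadCols q 16 ((k * ((n ^ 16 : ℕ) + 1) : ℝ) ^ k) Z).card : ℝ) ≤
      ((2 * (Ear.hb (n ^ 16) k : ℝ) + 1) ^ k) ^ 16 *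
        ((G.card : ℝ) ^ (k - 2 * q * 16) * (En q G : ℝ) ^ 16) := by
    rw [← pow_mul, mul_comm k 16]
    exact_mod_cast h2
  refine h3.trans ?_
  have hE := En_grid hG hq
  have e1 : (G.card : ℝ) ^ (k - 2 * q * 16) * ((G.card : ℝ) ^ (q + q - 1)) ^ 16 =
      (G.card : ℝ) ^ (k - 16) := by
    rw [← pow_mul, ← pow_add]
    congr 1
    omega
  calc ((2 * (Ear.hb (n ^ 16) k : ℝ) + 1) ^ k) ^ 16 *
        ((G.card : ℝ) ^ (k - 2 * q * 16) * (En q G : ℝ) ^ 16)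
      ≤ Real.exp (c1 / 100 * n) ^ 16 * ((G.card : ℝ) ^ (k - 2 * q * 16) *
          ((G.card : ℝ) ^ (q + q - 1) * Real.exp (-(c1 * NN n))) ^ 16) := by
        have := hN.le hk
        gcongr
    _ = _ := by rw [mul_pow, ← mul_assoc ((G.card : ℝ) ^ (k - 2 * q * 16)), e1]

/-- the bad event: an alive set of size `≤ K` with many relations -/
def Bad {m : ℕ} (n q K : ℕ) (W : Finset (Pt m)) : Prop :=
  ∃ Z1 ⊆ W, Z1.card ≤ K ∧ ∃ J ⊆ Z1, LinearIndepOn ℚ aff (J : Set (Pt m)) ∧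
    Z1.card = J.card + 16 ∧ BadCols q 16 ((Z1.card * ((n ^ 16 : ℕ) + 1) : ℝ) ^ Z1.card) Z1

open scoped Classical in
/-- first moment -/
theorem prob_bad (hE3 : S_E3) {P n m q K : ℕ} [NeZero P] {c1 ρ R : ℝ} {G : Finset (Pt m)}
    {w : Pt m → List (ZMod P) → ℝ}
    (hN : Ear.EarN c1 n) (hG : GridHyp n m (n ^ 16) c1 G)
    (hq : (n : ℝ) ^ (2 / 100 : ℝ) ≤ ((q + q : ℕ) : ℝ)) (hq1 : 1 ≤ q)
    (hK : (K : ℝ) ≤ (n : ℝ) ^ (3 / 10 : ℝ)) (hρ : 0 ≤ ρ) (hR1 : 1 ≤ R)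
    (hR : (G.card : ℝ) * ρ ≤ R)
    (hsurv : ∀ J' ⊆ G, J'.card ≤ K → LinearIndepOn ℚ aff (J' : Set (Pt m)) →
        (𝔼 r : Row P m, if J' ⊆ alive w G [r] then (1 : ℝ) else 0) ≤ ρ ^ J'.card) :
    (𝔼 r : Row P m, if Bad n q K (alive w G [r]) then (1 : ℝ) else 0) ≤
      (K + 1) * (Real.exp (c1 / 100 * n) ^ 16 * (R ^ K * Real.exp (-(c1 * NN n)) ^ 16)) := by
  -- the family of bad sets of size `k`
  set F : ℕ → Finset (Finset (Pt m)) := fun k => (G.powersetCard k).filter fun Z =>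
    BadCols q 16 ((k * ((n ^ 16 : ℕ) + 1) : ℝ) ^ k) Z with hF
  set F' : ℕ → Finset (Finset (Pt m)) := fun k => (F k).filter fun Z =>
    ∃ J ⊆ Z, LinearIndepOn ℚ aff (J : Set (Pt m)) ∧ Z.card = J.card + 16 with hF'
  have h1 : (𝔼 r : Row P m, if Bad n q K (alive w G [r]) then (1 : ℝ) else 0) ≤
      𝔼 r : Row P m, ∑ k ∈ range (K + 1), ∑ Z ∈ F' k,
        (if Z ⊆ alive w G [r] then (1 : ℝ) else 0) := by
    refine expect_le_expect fun r _ => ?_
    have hnn : ∀ k ∈ range (K + 1), 0 ≤ ∑ Z ∈ F' k,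
        (if Z ⊆ alive w G [r] then (1 : ℝ) else 0) := fun k _ =>
      sum_nonneg fun Z _ => by split_ifs <;> norm_num
    split_ifs with hb
    · obtain ⟨Z1, hZ1, hZK, J, hJ, hJi, hc, hbad⟩ := hb
      have hZG : Z1 ⊆ G := hZ1.trans (filter_subset _ _)
      have hk : Z1.card ∈ range (K + 1) := mem_range.2 (by omega)
      have hZF : Z1 ∈ F' Z1.card := by
        rw [hF', mem_filter, hF, mem_filter, mem_powersetCard]
        exact ⟨⟨⟨hZG, rfl⟩, hbad⟩, J, hJ, hJi, hc⟩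
      refine le_trans ?_ (single_le_sum hnn hk)
      refine le_trans ?_ (single_le_sum (f := fun Z => if Z ⊆ alive w G [r] then (1 : ℝ) else 0)
        (fun Z _ => by split_ifs <;> norm_num) hZF)
      simp [hZ1]
    · exact sum_nonneg hnn
  refine h1.trans ?_
  rw [expect_sum_comm]
  have h2 : ∀ k ∈ range (K + 1), (𝔼 r : Row P m, ∑ Z ∈ F' k,
        (if Z ⊆ alive w G [r] then (1 : ℝ) else 0)) ≤
      Real.exp (c1 / 100 * n) ^ 16 * (R ^ K * Real.exp (-(c1 * NN n)) ^ 16) := by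
    intro k hk
    have hkK : k ≤ K := by have := mem_range.1 hk; omega
    have hkn : (k : ℝ) ≤ (n : ℝ) ^ (3 / 10 : ℝ) := le_trans (by exact_mod_cast hkK) hK
    rw [expect_sum_comm]
    have h3 : ∀ Z ∈ F' k, (𝔼 r : Row P m, if Z ⊆ alive w G [r] then (1 : ℝ) else 0) ≤
        ρ ^ (k - 16) := by
      intro Z hZ
      rw [hF', mem_filter, hF, mem_filter, mem_powersetCard] at hZ
      obtain ⟨⟨⟨hZG, hZk⟩, -⟩, J, hJZ, hJi, hc⟩ := hZ
      have hJk : J.card = k - 16 := by omega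
      have h4 := hsurv J (hJZ.trans hZG) (by omega) hJi
      rw [hJk] at h4
      refine le_trans (expect_le_expect fun r _ => ?_) h4
      split_ifs with h5 h6
      · exact le_rfl
      · exact absurd (hJZ.trans h5) h6
      · norm_num
      · exact le_rfl
    calc (∑ Z ∈ F' k, 𝔼 r : Row P m, if Z ⊆ alive w G [r] then (1 : ℝ) else 0)
        ≤ ∑ _Z ∈ F' k, ρ ^ (k - 16) := sum_le_sum h3
      _ = ((F' k).card : ℝ) * ρ ^ (k - 16) := by rw [sum_const, nsmul_eq_mul]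
      _ ≤ ((F k).card : ℝ) * ρ ^ (k - 16) := by
          apply mul_le_mul_of_nonneg_right _ (by positivity)
          exact_mod_cast card_filter_le _ _
      _ ≤ (Real.exp (c1 / 100 * n) ^ 16 * ((G.card : ℝ) ^ (k - 16) *
            Real.exp (-(c1 * NN n)) ^ 16)) * ρ ^ (k - 16) := by
          apply mul_le_mul_of_nonneg_right _ (by positivity)
          exact count_k hE3 hN hG hq hq1 hkn
      _ = Real.exp (c1 / 100 * n) ^ 16 * (((G.card : ℝ) * ρ) ^ (k - 16) *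
            Real.exp (-(c1 * NN n)) ^ 16) := by rw [mul_pow]; ring
      _ ≤ Real.exp (c1 / 100 * n) ^ 16 * (R ^ K * Real.exp (-(c1 * NN n)) ^ 16) := by
          have h6 : ((G.card : ℝ) * ρ) ^ (k - 16) ≤ R ^ K :=
            (pow_le_pow_left₀ (by positivity) hR _).trans
              (pow_le_pow_right₀ hR1 (by omega))
          gcongr
  refine (sum_le_sum h2).trans ?_
  rw [sum_const, card_range, nsmul_eq_mul]
  push_cast
  exact le_rfl

end B5C

end Crest.Agent.R225
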