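import Crest.Agent.R225.Base
import Crest.Agent.R225.Num

/-!
# Row 225, node B5, part (ii): energy of clean subsets (deterministic)
-/

set_option autoImplicit false

open Finset MeasureTheory
open scoped BigOperators ENNReal

namespace Crest.Agent.R225

namespace B5E

lemma exists_perm_of_card_fiber {q : ℕ} {α : Type*} [DecidableEq α] (T1 T2 : Fin q → α)
    (h : ∀ g, (univ.filter fun i => T1 i = g).card = (univ.filter fun i => T2 i = g).card) :
    ∃ σ : Equiv.Perm (Fin q), T1 = fun i => T2 (σ i) := by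
  have e : ∀ c, {a // T1 a = c} ≃ {b // T2 b = c} := fun c =>
    Fintype.equivOfCardEq (by
      rw [Fintype.card_subtype, Fintype.card_subtype]
      exact h c)
  refine ⟨Equiv.ofFiberEquiv e, ?_⟩
  funext i
  exact (Equiv.ofFiberEquiv_map e i).symm

open scoped Classical in
/-- a set without short relations has only the diagonal energy -/
theorem En_le_of_noRel {m q : ℕ} {G : Finset (Pt m)} {s : ℝ} (hG : NoRelInf G s)
    (hq : (2 * q : ℝ) ≤ s) : En q G ≤ q.factorial * G.card ^ q := by
  have key : ∀ T1 T2 : Fin q → Pt m, (∀ i, T1 i ∈ G) → (∀ i, T2 i ∈ G) →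
      ∑ i, T1 i = ∑ i, T2 i → ∃ σ : Equiv.Perm (Fin q), T1 = fun i => T2 (σ i) := by
    intro T1 T2 h1 h2 hs
    apply exists_perm_of_card_fiber
    set Z : Finset (Pt m) := univ.image T1 ∪ univ.image T2 with hZ
    have hZG : Z ⊆ G := by
      intro g hg
      rcases mem_union.1 hg with hg | hg
      · obtain ⟨i, -, rfl⟩ := mem_image.1 hg
        exact h1 i
      · obtain ⟨i, -, rfl⟩ := mem_image.1 hg
        exact h2 i
    have hZc : (Z.card : ℝ) ≤ s := by
      refine le_trans ?_ hq
      have : Z.card ≤ q + q := by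
        refine (card_union_le _ _).trans (Nat.add_le_add ?_ ?_)
        · exact card_image_le.trans (by simp)
        · exact card_image_le.trans (by simp)
      have h3 : (Z.card : ℝ) ≤ ((q + q : ℕ) : ℝ) := by exact_mod_cast this
      push_cast at h3
      linarith
    set h : Pt m → ℤ := fun g =>
      ((univ.filter fun i => T1 i = g).card : ℤ) - ((univ.filter fun i => T2 i = g).card : ℤ) with hh
    have e1 : ∀ T : Fin q → Pt m, (∀ i, T i ∈ Z) →
        ∑ g ∈ Z, ((univ.filter fun i => T i = g).card : ℤ) = q := by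
      intro T hT
      have := card_eq_sum_card_fiberwise (f := T) (s := univ) (t := Z) (fun i _ => hT i)
      rw [← Nat.cast_sum, ← this]
      simp
    have e2 : ∀ T : Fin q → Pt m, (∀ i, T i ∈ Z) →
        ∑ g ∈ Z, ((univ.filter fun i => T i = g).card : ℤ) • g = ∑ i, T i := by
      intro T hT
      rw [← sum_fiberwise_of_maps_to (s := univ) (t := Z) (g := T) (fun i _ => hT i)]
      refine sum_congr rfl fun g _ => ?_
      rw [sum_congr rfl (g := fun _ => g) (fun i hi => (mem_filter.1 hi).2), sum_const]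
      simp
    have m1 : ∀ i, T1 i ∈ Z := fun i => mem_union_left _ (mem_image_of_mem _ (mem_univ i))
    have m2 : ∀ i, T2 i ∈ Z := fun i => mem_union_right _ (mem_image_of_mem _ (mem_univ i))
    have hrel : ARel Z h := by
      refine ⟨?_, ?_, ?_⟩
      · intro g hg
        have a1 : (univ.filter fun i => T1 i = g) = ∅ := by
          apply filter_eq_empty_iff.2
          intro i _ hi
          exact hg (hi ▸ m1 i)
        have a2 : (univ.filter fun i => T2 i = g) = ∅ := by
          apply filter_eq_empty_iff.2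
          intro i _ hi
          exact hg (hi ▸ m2 i)
        simp [hh, a1, a2]
      · simp only [hh]
        rw [sum_sub_distrib, e1 T1 m1, e1 T2 m2, sub_self]
      · simp only [hh, sub_smul]
        rw [sum_sub_distrib, e2 T1 m1, e2 T2 m2, hs, sub_self]
    have h0 := hG Z hZG hZc h hrel
    intro g
    have : h g = 0 := by rw [h0]; rfl
    simp only [hh] at this
    have := sub_eq_zero.1 this
    exact_mod_cast this
  unfold En
  calc _ ≤ (((Fintype.piFinset fun _ : Fin q => G) ×ˢ (univ : Finset (Equiv.Perm (Fin q)))).image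
        fun p => ((fun i => p.1 (p.2 i), p.1) : (Fin q → Pt m) × (Fin q → Pt m))).card := by
        apply card_le_card
        intro p hp
        rw [mem_filter, mem_product, Fintype.mem_piFinset, Fintype.mem_piFinset] at hp
        obtain ⟨⟨p1, p2⟩, p3⟩ := hp
        obtain ⟨σ, hσ⟩ := key p.1 p.2 p1 p2 p3
        rw [mem_image]
        refine ⟨(p.2, σ), ?_, ?_⟩
        · rw [mem_product, Fintype.mem_piFinset]
          exact ⟨p2, mem_univ _⟩
        · ext1
          · exact hσ.symm
          · rfl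
    _ ≤ ((Fintype.piFinset fun _ : Fin q => G) ×ˢ (univ : Finset (Equiv.Perm (Fin q)))).card :=
        card_image_le
    _ = q.factorial * G.card ^ q := by
        rw [card_product, Fintype.card_piFinset, card_univ, Fintype.card_perm, Fintype.card_fin]
        simp [mul_comm]

open Filter in
/-- basic facts about the top level `I`: `Rst ≤ I`, `600 x_{I-Rst} ≤ x_I`, `NN/x_I` large. -/
lemma level_facts (X K : ℝ) (hX : 1 ≤ X) : ∃ n0 : ℕ, ∀ n ≥ n0, ∀ I : ℕ,
    (n : ℝ) ^ (9 / 10 : ℝ) ≤ xl X I → xl X I ≤ 2 * (n : ℝ) ^ (9 / 10 : ℝ) →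
    Rst ≤ I ∧ 600 * xl X (I - Rst) ≤ xl X I ∧ xl X I ≤ 601 * xl X (I - Rst) ∧
    K * xl X I ≤ NN n := by
  have t1 : Tendsto (fun n : ℕ => (n : ℝ) ^ (9 / 10 : ℝ)) atTop atTop :=
    (tendsto_rpow_atTop (by norm_num)).comp tendsto_natCast_atTop_atTop
  have t2 : Tendsto (fun n : ℕ => (n : ℝ) ^ (1 / 10 : ℝ)) atTop atTop :=
    (tendsto_rpow_atTop (by norm_num)).comp tendsto_natCast_atTop_atTop
  have t3 : Tendsto (fun n : ℕ => Real.log (n : ℝ)) atTop atTop :=
    Real.tendsto_log_atTop.comp tendsto_natCast_atTop_atTop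
  obtain ⟨n0, hn0⟩ := eventually_atTop.mp ((t1.eventually_gt_atTop (601 * X)).and
    ((t2.eventually_ge_atTop (2 * |K|)).and ((t3.eventually_ge_atTop 1).and
      (eventually_ge_atTop 1))))
  refine ⟨n0, fun n hn I h1 h2 => ?_⟩
  obtain ⟨a1, a2, a3, a4⟩ := hn0 n hn
  have hRI : Rst ≤ I := by
    by_contra hlt
    push Not at hlt
    have h3 : xl X I ≤ xl X Rst := by
      unfold xl
      apply mul_le_mul_of_nonneg_left _ (by linarith)
      exact pow_le_pow_right₀ (by linarith [NumL.theta_pos]) hlt.le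
    have h4 : xl X Rst ≤ 601 * X := by
      unfold xl
      have := NumL.pow_Rst_le
      nlinarith
    linarith
  have hsplit : xl X I = xl X (I - Rst) * (1 + theta) ^ Rst := by
    conv_lhs => rw [show I = (I - Rst) + Rst from by omega]
    exact NumL.xl_add X (I - Rst) Rst
  have hpos : 0 < xl X (I - Rst) := NumL.xl_pos (by linarith) _
  refine ⟨hRI, ?_, ?_, ?_⟩
  · rw [hsplit]
    have := NumL.pow_Rst_ge
    nlinarith
  · rw [hsplit]
    have := NumL.pow_Rst_le
    nlinarith
  · have hn1 : (0 : ℝ) < n := by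
      have : 0 < n := by omega
      exact_mod_cast this
    have e : (n : ℝ) = (n : ℝ) ^ (9 / 10 : ℝ) * (n : ℝ) ^ (1 / 10 : ℝ) := by
      rw [← Real.rpow_add hn1]; norm_num
    have hp : 0 < (n : ℝ) ^ (9 / 10 : ℝ) := by positivity
    have hx0 : 0 < xl X I := NumL.xl_pos (by linarith) _
    calc K * xl X I ≤ |K| * xl X I := by
          apply mul_le_mul_of_nonneg_right (le_abs_self K) hx0.le
      _ ≤ |K| * (2 * (n : ℝ) ^ (9 / 10 : ℝ)) := mul_le_mul_of_nonneg_left h2 (abs_nonneg K)
      _ = (n : ℝ) ^ (9 / 10 : ℝ) * (2 * |K|) := by ring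
      _ ≤ (n : ℝ) ^ (9 / 10 : ℝ) * (n : ℝ) ^ (1 / 10 : ℝ) := mul_le_mul_of_nonneg_left a2 hp.le
      _ = n * 1 := by rw [← e, mul_one]
      _ ≤ n * Real.log n := mul_le_mul_of_nonneg_left a3 hn1.le
      _ = NN n := rfl

lemma tau_le_one (X : ℝ) (i : ℕ) : tau X i ≤ 1 := by
  unfold tau
  apply prod_le_one
  · intro j _
    have := NumL.lam_pos X j
    positivity
  · intro j _
    have h1 : 1 ≤ lam X j := by
      unfold lam
      exact Real.one_le_exp (Real.sqrt_nonneg _)
    rw [div_le_one (by positivity)]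
    nlinarith

/-- Part (ii) of B5: the energy of a clean subset. -/
theorem energy_clean (c1 Crat X : ℝ) (hc : 0 < c1) (hc1 : c1 ≤ 1) (hCr : 1 ≤ Crat) (hX : 1 ≤ X) :
    ∃ n0 : ℕ, ∀ n ≥ n0, ∀ (m I : ℕ), (n : ℝ) ^ (9 / 10 : ℝ) ≤ xl X I →
    xl X I ≤ 2 * (n : ℝ) ^ (9 / 10 : ℝ) → ∀ G' : Finset (Pt m),
    (G'.card : ℝ) ≤ Mb X Crat n I → NoRelInf G' (sp X (c1 / 400) n (I - Rst)) →
    (En (kk X (c1 / 400) n I) G' : ℝ) ≤ Mb X Crat n I ^ (2 * kk X (c1 / 400) n I) *
      Real.exp (-(9 / 10 * (c1 / 400) * NN n)) := by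
  obtain ⟨n0, hn0⟩ := level_facts X (400 * (400 / c1)) hX
  refine ⟨n0, fun n hn m I h1 h2 G' hG hrel => ?_⟩
  obtain ⟨hRI, h600, -, hK⟩ := hn0 n hn I h1 h2
  set c0 : ℝ := c1 / 400 with hc0
  have hc0p : 0 < c0 := by positivity
  have hc0l : c0 ≤ 1 / 400 := by rw [hc0]; linarith
  set x := xl X I with hx
  set x' := xl X (I - Rst) with hx'
  have hxp : 1 ≤ x := BaseN.one_le_xl hX I
  have hx'p : 1 ≤ x' := BaseN.one_le_xl hX _
  have hNNp : 0 < NN n := by
    have : 0 < 400 * (400 / c1) * x := by positivity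
    linarith
  set y : ℝ := c0 * NN n / x with hy
  have hy400 : 400 ≤ y := by
    rw [hy, le_div_iff₀ (by linarith)]
    have : 400 * (400 / c1) * x * c0 = 400 * x := by rw [hc0]; field_simp
    nlinarith
  have hxy : x * y = c0 * NN n := by rw [hy]; field_simp
  set q := kk X c0 n I with hq
  have hq1 : y ≤ q := by rw [hq]; exact Nat.le_ceil _
  have hq2 : (q : ℝ) ≤ y + 1 := by
    rw [hq]
    exact (Nat.ceil_lt_add_one (by linarith)).le
  have hs : (2 * q : ℝ) ≤ sp X c0 n (I - Rst) := by
    have : 600 / 16 * y ≤ sp X c0 n (I - Rst) := by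
      unfold sp
      rw [← hx', hy, le_div_iff₀ (by linarith)]
      rw [show 600 / 16 * (c0 * NN n / x) * x' = c0 / 16 * NN n * (600 * x' / x) by field_simp]
      have h3 : 600 * x' / x ≤ 1 := by rw [div_le_one (by linarith)]; exact h600
      have h4 : 0 ≤ c0 / 16 * NN n := by positivity
      nlinarith
    linarith
  have hE := En_le_of_noRel (q := q) hrel hs
  have hE' : (En q G' : ℝ) ≤ (q : ℝ) ^ q * Mb X Crat n I ^ q := by
    calc (En q G' : ℝ) ≤ ((q.factorial * G'.card ^ q : ℕ) : ℝ) := by exact_mod_cast hE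
      _ = (q.factorial : ℝ) * (G'.card : ℝ) ^ q := by push_cast; rfl
      _ ≤ (q : ℝ) ^ q * Mb X Crat n I ^ q := by
          apply mul_le_mul _ _ (by positivity) (by positivity)
          · exact_mod_cast Nat.factorial_le_pow q
          · exact pow_le_pow_left₀ (by positivity) hG q
  have hMb : (q : ℝ) * Real.exp x ≤ Mb X Crat n I := by
    unfold Mb
    rw [← hx, le_div_iff₀ (BaseN.tau_pos X I)]
    have h3 : (q : ℝ) ≤ NN n := by
      have : y ≤ c0 * NN n := by
        rw [← hxy]; nlinarith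
      nlinarith
    have h4 : 0 < tau X I := BaseN.tau_pos X I
    have h5 : tau X I ≤ 1 := tau_le_one X I
    calc (q : ℝ) * Real.exp x * tau X I ≤ (q : ℝ) * Real.exp x * 1 := by
          apply mul_le_mul_of_nonneg_left h5; positivity
      _ ≤ NN n * Real.exp x * 1 := by
          have := Real.exp_pos x
          nlinarith
      _ ≤ 2 * Crat * NN n * Real.exp x := by
          have := Real.exp_pos x
          have : 0 < NN n * Real.exp x := by positivity
          nlinarith
  have hMbp : 0 ≤ Mb X Crat n I := le_trans (by positivity) hMb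
  calc (En q G' : ℝ) ≤ (q : ℝ) ^ q * Mb X Crat n I ^ q := hE'
    _ = Mb X Crat n I ^ q * ((q : ℝ) ^ q * 1) := by ring
    _ ≤ Mb X Crat n I ^ q * ((q : ℝ) ^ q *
        (Real.exp x ^ q * Real.exp (-(9 / 10 * c0 * NN n)))) := by
        apply mul_le_mul_of_nonneg_left _ (by positivity)
        apply mul_le_mul_of_nonneg_left _ (by positivity)
        rw [← Real.exp_nat_mul, ← Real.exp_add]
        apply Real.one_le_exp
        have : x * y ≤ q * x := by nlinarith
        rw [hxy] at this
        nlinarith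
    _ = Mb X Crat n I ^ q * (((q : ℝ) * Real.exp x) ^ q * Real.exp (-(9 / 10 * c0 * NN n))) := by
        rw [mul_pow]; ring
    _ ≤ Mb X Crat n I ^ q * (Mb X Crat n I ^ q * Real.exp (-(9 / 10 * c0 * NN n))) := by
        apply mul_le_mul_of_nonneg_left _ (by positivity)
        apply mul_le_mul_of_nonneg_right _ (Real.exp_pos _).le
        exact pow_le_pow_left₀ (by positivity) hMb q
    _ = Mb X Crat n I ^ (2 * q) * Real.exp (-(9 / 10 * c0 * NN n)) := by
        rw [two_mul, pow_add]; ring

end B5E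

end Crest.Agent.R225
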