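import Crest.Agent.R225.B5B
import Crest.Agent.R225.B5C
import Crest.Agent.R225.B5Energy

/-!
# Row 225, node B5: rank and energy of clean subsets of the alive set (assembly, helper979)
-/

set_option autoImplicit false

open Finset
open scoped BigOperators Nat

namespace Crest.Agent.R225

namespace B5C

/-- numerical facts used for the rank part -/
def Num5 (c1 Crat X : ℝ) : Prop := ∃ n0 : ℕ, ∀ n ≥ n0, ∀ I : ℕ,
  (n : ℝ) ^ (9 / 10 : ℝ) ≤ xl X I → xl X I ≤ 2 * (n : ℝ) ^ (9 / 10 : ℝ) →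
  ∃ q : ℕ, 1 ≤ q ∧ (n : ℝ) ^ (2 / 100 : ℝ) ≤ ((q + q : ℕ) : ℝ) ∧
    ((2 * kk X (c1 / 400) n (I - Rst) : ℕ) : ℝ) ≤ (n : ℝ) ^ (3 / 10 : ℝ) ∧
    ((2 * q * 16 : ℕ) : ℝ) ≤ sp X (c1 / 400) n (I - Rst) ∧
    1 ≤ Mb X Crat n I / tau X (I + 1) ∧
    (((2 * kk X (c1 / 400) n (I - Rst) : ℕ) : ℝ) + 1) * (Real.exp (c1 / 100 * n) ^ 16 *
      ((Mb X Crat n I / tau X (I + 1)) ^ (2 * kk X (c1 / 400) n (I - Rst)) *
        Real.exp (-(c1 * NN n)) ^ 16)) ≤ Real.exp (-(c1 / 3 * NN n))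

open scoped Classical in
theorem prf_B5_of (hB0 : S_B0) (hB2 : S_B2) (hE3 : S_E3) (hG3 : S_G3)
    (hnum : ∀ c1 Crat : ℝ, 0 < c1 → c1 ≤ 1 → 1 ≤ Crat → ∃ X0 : ℝ, ∀ X ≥ X0, Num5 c1 Crat X) :
    S_B5 := by
  intro c1 Crat hc1 hc1' hCrat
  obtain ⟨X0, hX0⟩ := hnum c1 Crat hc1 hc1' hCrat
  refine ⟨max X0 1, fun X hX => ?_⟩
  have hX1 : 1 ≤ X := (le_max_right _ _).trans hX
  obtain ⟨n1, hn1⟩ := hX0 X ((le_max_left _ _).trans hX)
  obtain ⟨n2, hn2⟩ := B5E.energy_clean c1 Crat X hc1 hc1' hCrat hX1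
  obtain ⟨n3, hn3⟩ := Ear.earN c1 hc1
  refine ⟨max n1 (max n2 n3), fun n hn m I h1 h2 _ _ G => ?_⟩
  have hN := hn3 n ((le_max_right _ _).trans ((le_max_right _ _).trans hn))
  have hen := hn2 n ((le_max_left _ _).trans ((le_max_right _ _).trans hn)) m I h1 h2
  obtain ⟨q, hq1, hq, hK, hsp, hR1, hfin⟩ := hn1 n ((le_max_left _ _).trans hn) I h1 h2
  have hn2' : 2 ≤ n := by have := hN.three_le; omega
  set K : ℕ := 2 * kk X (c1 / 400) n (I - Rst) with hKdef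
  obtain ⟨P0, hP0⟩ := Ear.surv hB0 n I K X G hn2'
  refine ⟨P0, fun P hP => ?_⟩
  intro _ α0 w hctx
  have hsurv := hP0 P hP c1 Crat α0 w hctx
  have hprob := prob_bad hE3 (P := P) (n := n) (m := m) (q := q) (K := K)
    (ρ := Ear.rho X α0 I) (R := Mb X Crat n I / tau X (I + 1)) hN hctx.grid hq hq1 hK
    (Ear.rho_pos hctx.hα0).le hR1 (Ear.R_le hctx) hsurv
  refine le_trans (expect_le_expect fun r _ => ?_) (hprob.trans hfin)
  by_cases hbad : Bad n q K (alive w G [r])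
  · rw [if_pos hbad]
    split_ifs <;> norm_num
  · rw [if_neg hbad, if_pos]
    intro G' hG' hcard hno
    refine ⟨fun Z hZ hZc hrk => hbad ?_, hen G' hcard hno⟩
    obtain ⟨g0, hg0⟩ := hctx.grid.box
    obtain ⟨Z1, hZ1, J, hJ, hJi, hc, hb⟩ := B5B.exists_badCols hB2 hG3 (d := 16) (q := q)
      (rX := n ^ 16) (W := G') (Z := Z) (g0 := g0) (by norm_num)
      (fun g hg k => by exact_mod_cast hg0 g (filter_subset _ _ (hG' hg)) k) hZ hno hsp hrk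
    exact ⟨Z1, hZ1.trans (hZ.trans hG'), (card_le_card hZ1).trans hZc, J, hJ, hJi, hc, hb⟩

end B5C

end Crest.Agent.R225
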