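import Crest.Agent.R225.Iface

/-!
# Row 225, node B5, part a: energy of a clean set (deterministic) (helper413)
-/

set_option autoImplicit false

open Finset
open scoped BigOperators Nat

namespace Crest.Agent.R225

namespace B5A

/-- two functions with the same fibre sizes differ by a permutation -/
lemma exists_perm_of_card_fiber {α : Type*} [DecidableEq α] {k : ℕ} (x y : Fin k → α)
    (h : ∀ g, (univ.filter fun i => x i = g).card = (univ.filter fun i => y i = g).card) :
    ∃ σ : Equiv.Perm (Fin k), y = x ∘ σ := by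
  have e : ∀ g : α, Nonempty ({i // y i = g} ≃ {i // x i = g}) := by
    intro g
    refine ⟨Fintype.equivOfCardEq ?_⟩
    rw [Fintype.card_subtype, Fintype.card_subtype, h g]
  refine ⟨Equiv.ofFiberEquiv (fun g => Classical.choice (e g)), ?_⟩
  funext i
  simp only [Function.comp]
  exact (Equiv.ofFiberEquiv_map _ i).symm

/-- A set without affine relations of support `≤ 2k` has only the trivial energy. -/
theorem En_le_of_noRelInf {m k : ℕ} {W : Finset (Pt m)} {s : ℝ} (hW : NoRelInf W s)
    (hk : 2 * (k : ℝ) ≤ s) : En k W ≤ k ! * W.card ^ k := by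
  classical
  unfold En
  have key : ((Fintype.piFinset fun _ : Fin k => W) ×ˢ (Fintype.piFinset fun _ : Fin k => W)).filter
      (fun p => ∑ i, p.1 i = ∑ i, p.2 i) ⊆
      ((univ : Finset (Equiv.Perm (Fin k))) ×ˢ (Fintype.piFinset fun _ : Fin k => W)).image
        (fun q => (q.2, q.2 ∘ q.1)) := by
    intro p hp
    rw [mem_filter, mem_product, Fintype.mem_piFinset, Fintype.mem_piFinset] at hp
    obtain ⟨⟨h1, h2⟩, h3⟩ := hp
    set Z : Finset (Pt m) := univ.image p.1 ∪ univ.image p.2 with hZ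
    have hZW : Z ⊆ W := by
      intro g hg
      rw [hZ, mem_union, mem_image, mem_image] at hg
      rcases hg with ⟨i, _, rfl⟩ | ⟨i, _, rfl⟩
      · exact h1 i
      · exact h2 i
    have hZc : (Z.card : ℝ) ≤ s := by
      have : Z.card ≤ k + k := by
        refine (card_union_le _ _).trans (add_le_add ?_ ?_)
        · exact card_image_le.trans (by simp)
        · exact card_image_le.trans (by simp)
      have h' : (Z.card : ℝ) ≤ k + k := by exact_mod_cast this
      linarith
    set h : Pt m → ℤ := fun g => ((univ.filter fun i => p.1 i = g).card : ℤ) -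
      ((univ.filter fun i => p.2 i = g).card : ℤ) with hh
    have hm1 : ∀ i, p.1 i ∈ Z := fun i => by
      rw [hZ, mem_union]; exact Or.inl (mem_image_of_mem _ (mem_univ i))
    have hm2 : ∀ i, p.2 i ∈ Z := fun i => by
      rw [hZ, mem_union]; exact Or.inr (mem_image_of_mem _ (mem_univ i))
    have hrel : ARel Z h := by
      refine ⟨fun g hg => ?_, ?_, ?_⟩
      · have e1 : (univ.filter fun i => p.1 i = g) = ∅ := by
          rw [filter_eq_empty_iff]; intro i _ hi; exact hg (hi ▸ hm1 i)
        have e2 : (univ.filter fun i => p.2 i = g) = ∅ := by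
          rw [filter_eq_empty_iff]; intro i _ hi; exact hg (hi ▸ hm2 i)
        simp only [hh, e1, e2, card_empty, sub_self]
      · have e1 : ∑ g ∈ Z, (univ.filter fun i => p.1 i = g).card = k := by
          rw [← card_eq_sum_card_fiberwise (s := univ) (fun i _ => hm1 i), card_univ,
            Fintype.card_fin]
        have e2 : ∑ g ∈ Z, (univ.filter fun i => p.2 i = g).card = k := by
          rw [← card_eq_sum_card_fiberwise (s := univ) (fun i _ => hm2 i), card_univ,
            Fintype.card_fin]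
        simp only [hh, sum_sub_distrib]
        rw [← Nat.cast_sum, ← Nat.cast_sum, e1, e2, sub_self]
      · have e1 : ∀ x : Fin k → Pt m, (∀ i, x i ∈ Z) →
            ∑ g ∈ Z, ((univ.filter fun i => x i = g).card : ℤ) • g = ∑ i, x i := by
          intro x hx
          rw [← sum_fiberwise_of_maps_to (s := univ) (t := Z) (g := x) (fun i _ => hx i)]
          refine sum_congr rfl fun g _ => ?_
          rw [sum_congr rfl (g := fun _ => g) (fun i hi => (mem_filter.1 hi).2), sum_const]
          simp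
        simp only [hh, sub_smul, sum_sub_distrib]
        rw [e1 _ hm1, e1 _ hm2, h3, sub_self]
    have h0 := hW Z hZW hZc h hrel
    obtain ⟨σ, hσ⟩ := exists_perm_of_card_fiber p.1 p.2 (fun g => by
      have := congrFun h0 g
      simp only [hh, Pi.zero_apply, sub_eq_zero] at this
      exact_mod_cast this)
    rw [mem_image]
    refine ⟨(σ, p.1), ?_, ?_⟩
    · rw [mem_product, Fintype.mem_piFinset]
      exact ⟨mem_univ _, h1⟩
    · exact Prod.ext rfl hσ.symm
  refine (card_le_card key).trans (card_image_le.trans (le_of_eq ?_))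
  rw [card_product, card_univ, Fintype.card_perm, Fintype.card_fin, Fintype.card_piFinset]
  simp

lemma tau_pos' (X : ℝ) (i : ℕ) : 0 < tau X i := by
  unfold tau lam
  exact prod_pos fun j _ => by positivity

lemma tau_le_one' (X : ℝ) (i : ℕ) : tau X i ≤ 1 := by
  unfold tau lam
  refine prod_le_one (fun j _ => by positivity) fun j _ => ?_
  rw [div_le_one (by positivity)]
  have : 1 ≤ Real.exp (Real.sqrt (xl X j)) := Real.one_le_exp (Real.sqrt_nonneg _)
  nlinarith

lemma one_le_xl (X : ℝ) (hX : 1 ≤ X) (i : ℕ) : 1 ≤ xl X i := by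
  unfold xl
  have h1 : 1 ≤ (1 + theta) ^ i := one_le_pow₀ (by unfold theta; norm_num)
  nlinarith

lemma one_le_NN {n : ℕ} (hn : 3 ≤ n) : 1 ≤ NN n := by
  unfold NN
  have h3 : (3 : ℝ) ≤ n := by exact_mod_cast hn
  have h1 : 1 ≤ Real.log n := by
    rw [Real.le_log_iff_exp_le (by linarith)]
    have := Real.exp_one_lt_d9
    linarith
  nlinarith

/-- The numerical side of the energy bound in B5 (works at every level). -/
theorem factorial_mul_pow_le {m : ℕ} (X c0 Crat : ℝ) (n i : ℕ) (G : Finset (Pt m))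
    (hX : 1 ≤ X) (hn : 3 ≤ n) (hc0 : 0 < c0) (hc1 : c0 ≤ 1) (hC : 1 ≤ Crat)
    (hG : (G.card : ℝ) ≤ Mb X Crat n i) :
    (((kk X c0 n i) ! * G.card ^ (kk X c0 n i) : ℕ) : ℝ) ≤
      Mb X Crat n i ^ (2 * kk X c0 n i) * Real.exp (-(9 / 10 * c0 * NN n)) := by
  set k := kk X c0 n i with hk
  have hN := one_le_NN hn
  have hx := one_le_xl X hX i
  have hτ := tau_pos' X i
  have hτ1 := tau_le_one' X i
  have hM1 : 2 * NN n * Real.exp (xl X i) ≤ Mb X Crat n i := by
    unfold Mb
    rw [le_div_iff₀ hτ]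
    have h0 : 0 ≤ NN n * Real.exp (xl X i) := by positivity
    have h1 : 2 * NN n * Real.exp (xl X i) * tau X i ≤ 2 * NN n * Real.exp (xl X i) * 1 :=
      mul_le_mul_of_nonneg_left hτ1 (by positivity)
    have h2 : 1 * (NN n * Real.exp (xl X i)) ≤ Crat * (NN n * Real.exp (xl X i)) :=
      mul_le_mul_of_nonneg_right hC h0
    nlinarith
  have hM0 : 0 ≤ Mb X Crat n i := le_trans (by positivity) hM1
  have hk1 : (k : ℝ) ≤ 2 * NN n := by
    have h1 : (k : ℝ) ≤ c0 * NN n / xl X i + 1 := by
      rw [hk]; unfold kk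
      exact (Nat.ceil_lt_add_one (by positivity)).le
    have h2 : c0 * NN n / xl X i ≤ NN n := by
      rw [div_le_iff₀ (by linarith)]
      nlinarith
    linarith
  have hk2 : c0 * NN n ≤ k * xl X i := by
    have h1 : c0 * NN n / xl X i ≤ k := by rw [hk]; unfold kk; exact Nat.le_ceil _
    rwa [div_le_iff₀ (by linarith)] at h1
  have h1 : ((k ! : ℕ) : ℝ) ≤ (2 * NN n) ^ k := by
    have h2 : ((k ! : ℕ) : ℝ) ≤ (k : ℝ) ^ k := by exact_mod_cast Nat.factorial_le_pow k
    exact h2.trans (pow_le_pow_left₀ (Nat.cast_nonneg _) hk1 k)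
  have h3 : (2 * NN n) ^ k * Real.exp (9 / 10 * c0 * NN n) ≤ Mb X Crat n i ^ k := by
    calc (2 * NN n) ^ k * Real.exp (9 / 10 * c0 * NN n)
        ≤ (2 * NN n) ^ k * Real.exp (k * xl X i) := by
          refine mul_le_mul_of_nonneg_left (Real.exp_le_exp.2 ?_) (by positivity)
          nlinarith [mul_pos hc0 (lt_of_lt_of_le one_pos hN)]
      _ = (2 * NN n * Real.exp (xl X i)) ^ k := by
          rw [mul_pow (2 * NN n), ← Real.exp_nat_mul]
      _ ≤ _ := pow_le_pow_left₀ (by positivity) hM1 k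
  have h4 : (2 * NN n) ^ k ≤ Mb X Crat n i ^ k * Real.exp (-(9 / 10 * c0 * NN n)) := by
    rw [Real.exp_neg, ← div_eq_mul_inv, le_div_iff₀ (Real.exp_pos _)]
    exact h3
  push_cast
  calc ((k ! : ℕ) : ℝ) * (G.card : ℝ) ^ k
      ≤ (Mb X Crat n i ^ k * Real.exp (-(9 / 10 * c0 * NN n))) * Mb X Crat n i ^ k :=
        mul_le_mul (h1.trans h4) (pow_le_pow_left₀ (Nat.cast_nonneg _) hG k) (by positivity)
          (by positivity)
    _ = _ := by ring

/-- The energy part of B5. -/
theorem energy_of_clean {m : ℕ} (X c0 Crat s : ℝ) (n i : ℕ) (G : Finset (Pt m))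
    (hX : 1 ≤ X) (hn : 3 ≤ n) (hc0 : 0 < c0) (hc1 : c0 ≤ 1) (hC : 1 ≤ Crat)
    (hG : (G.card : ℝ) ≤ Mb X Crat n i) (hclean : NoRelInf G s)
    (hs : 2 * (kk X c0 n i : ℝ) ≤ s) :
    (En (kk X c0 n i) G : ℝ) ≤ Mb X Crat n i ^ (2 * kk X c0 n i) *
      Real.exp (-(9 / 10 * c0 * NN n)) :=
  (Nat.cast_le.2 (En_le_of_noRelInf hclean hs)).trans
    (factorial_mul_pow_le X c0 Crat n i G hX hn hc0 hc1 hC hG)

end B5A

end Crest.Agent.R225
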