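import Crest.Agent.R225.HRCa

/-!
# Row 225, node B5, part b: structure of sets carrying `d` independent relations (helper413)
-/

set_option autoImplicit false

open Finset
open scoped BigOperators

namespace Crest.Agent.R225

namespace B5B

variable {m : ℕ}

/-- an integer relation is a rational linear relation between the vectors `aff g` -/
lemma ARel.sum_aff {Z : Finset (Pt m)} {h : Pt m → ℤ} (H : ARel Z h) :
    ∑ g ∈ Z, ((h g : ℤ) : ℚ) • aff g = 0 := by
  obtain ⟨_, h2, h3⟩ := H
  refine Prod.ext ?_ ?_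
  · rw [Prod.fst_sum]
    funext k
    rw [Finset.sum_apply]
    have := congrFun h3 k
    rw [Finset.sum_apply] at this
    simp only [aff, Prod.smul_mk, Pi.smul_apply, smul_eq_mul, Prod.fst_zero, Pi.zero_apply] at this ⊢
    exact_mod_cast this
  · rw [Prod.snd_sum]
    simp only [aff, Prod.smul_mk, smul_eq_mul, mul_one, Prod.snd_zero]
    exact_mod_cast h2

/-- a relation supported on an affinely independent set vanishes -/
lemma ARel.eq_zero_of_indep {Z J : Finset (Pt m)} {h : Pt m → ℤ} (H : ARel Z h)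
    (hJ : LinearIndepOn ℚ aff (J : Set (Pt m))) (hJZ : J ⊆ Z) (hs : ∀ g ∈ Z, g ∉ J → h g = 0) :
    h = 0 := by
  classical
  have h1 := ARel.sum_aff H
  have h2 : ∑ g ∈ J, ((h g : ℤ) : ℚ) • aff g = 0 := by
    rw [← h1]
    refine sum_subset hJZ fun g hg hg' => ?_
    rw [hs g hg hg']; simp
  rw [linearIndepOn_finset_iff] at hJ
  have h3 := hJ (fun g => ((h g : ℤ) : ℚ)) h2
  funext g
  by_cases hg : g ∈ J
  · have := h3 g hg
    exact_mod_cast this
  · by_cases hgZ : g ∈ Z
    · exact hs g hgZ hg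
    · exact H.1 g hgZ

/-- Structure of a set carrying `d` independent relations. -/
theorem exists_basis (hB2 : S_B2) {d rX : ℕ} {Z : Finset (Pt m)} {g0 : Pt m}
    (hbox : ∀ g ∈ Z, ∀ k, |g k - g0 k| ≤ rX) (hrk : RkGeInf Z d) :
    ∃ Z1 ⊆ Z, ∃ J ⊆ Z1, LinearIndepOn ℚ aff (J : Set (Pt m)) ∧ Z1.card = J.card + d ∧
      ∃ v : Fin d → Pt m → ℤ, (∀ l, BRel Z1 ((Z1.card * (rX + 1) : ℝ) ^ Z1.card) (v l)) ∧
        LinearIndependent ℚ (fun l : Fin d => fun g : Pt m => ((v l g : ℤ) : ℚ)) := by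
  classical
  -- a maximal affinely independent subset
  obtain ⟨J', hJ'Z, -, hspan, hJ'⟩ := exists_linearIndepOn_extension
    (K := ℚ) (v := (aff : Pt m → _)) (s := (∅ : Set (Pt m))) (t := (Z : Set (Pt m)))
    (linearIndepOn_empty ℚ _) (Set.empty_subset _)
  have hfin : J'.Finite := Z.finite_toSet.subset hJ'Z
  set J : Finset (Pt m) := hfin.toFinset with hJdef
  have hJc : (J : Set (Pt m)) = J' := by rw [hJdef]; simp
  have hJZ : J ⊆ Z := by
    intro g hg
    have : g ∈ (J : Set (Pt m)) := hg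
    rw [hJc] at this
    exact hJ'Z this
  have hJ : LinearIndepOn ℚ aff (J : Set (Pt m)) := by rw [hJc]; exact hJ'
  -- dependent extensions
  have hdep : ∀ z ∈ Z, z ∉ J → ¬ LinearIndepOn ℚ aff ((insert z J : Finset (Pt m)) : Set (Pt m)) := by
    intro z hz hzJ hcon
    rw [coe_insert, linearIndepOn_insert (by simpa using hzJ)] at hcon
    refine hcon.2 ?_
    rw [hJc]
    exact hspan ⟨z, hz, rfl⟩
  -- at least `d` further points
  obtain ⟨u, hu, huli⟩ := hrk
  have hd : d ≤ (Z \ J).card := by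
    have hli : LinearIndependent ℚ (fun l : Fin d => fun g : (Z \ J : Finset (Pt m)) =>
        ((u l g : ℤ) : ℚ)) := by
      rw [Fintype.linearIndependent_iff] at huli ⊢
      intro c hc
      refine huli c ?_
      -- clear denominators: an integer multiple
      have hc' : ∀ g ∈ Z, g ∉ J → ∑ l, c l * ((u l g : ℤ) : ℚ) = 0 := by
        intro g hg hgJ
        have := congrFun hc ⟨g, mem_sdiff.2 ⟨hg, hgJ⟩⟩
        simpa [Finset.sum_apply] using this
      have hsum : ∑ g ∈ J, (∑ l, c l * ((u l g : ℤ) : ℚ)) • aff g = 0 := by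
        have h1 : ∑ g ∈ Z, (∑ l, c l * ((u l g : ℤ) : ℚ)) • aff g = 0 := by
          simp only [sum_smul, mul_smul]
          rw [sum_comm]
          refine sum_eq_zero fun l _ => ?_
          rw [← smul_sum, ARel.sum_aff (hu l), smul_zero]
        rw [← h1]
        refine sum_subset hJZ fun g hg hg' => ?_
        rw [hc' g hg hg', zero_smul]
      rw [linearIndepOn_finset_iff] at hJ
      have h3 := hJ _ hsum
      funext g
      simp only [Finset.sum_apply, Pi.smul_apply, smul_eq_mul, Pi.zero_apply]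
      by_cases hg : g ∈ J
      · exact h3 g hg
      · by_cases hgZ : g ∈ Z
        · exact hc' g hgZ hg
        · refine sum_eq_zero fun l _ => ?_
          rw [(hu l).1 g hgZ]; simp
    have := hli.fintype_card_le_finrank
    simpa using this
  obtain ⟨T, hT, hTc⟩ := exists_subset_card_eq hd
  have hTZ : T ⊆ Z := hT.trans sdiff_subset
  have hTJ : Disjoint J T := by
    rw [disjoint_right]
    intro g hg
    exact (mem_sdiff.1 (hT hg)).2
  have hZ1 : J ∪ T ⊆ Z := union_subset hJZ hTZ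
  have hcard : (J ∪ T).card = J.card + d := by rw [card_union_of_disjoint hTJ, hTc]
  refine ⟨J ∪ T, hZ1, J, subset_union_left, hJ, hcard, ?_⟩
  -- enumerate `T`
  set e : Fin d ≃ T := (finCongr hTc.symm).trans T.equivFin.symm with he
  have heT : ∀ l, ((e l : T) : Pt m) ∈ T := fun l => (e l).2
  have heZ : ∀ l, ((e l : T) : Pt m) ∈ Z := fun l => hTZ (heT l)
  have heJ : ∀ l, ((e l : T) : Pt m) ∉ J := fun l => (mem_sdiff.1 (hT (heT l))).2
  have hex : ∀ l : Fin d, ∃ h, h ≠ 0 ∧ BRel (insert ((e l : T) : Pt m) J)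
      (((insert ((e l : T) : Pt m) J).card * (rX + 1) : ℝ) ^
        (insert ((e l : T) : Pt m) J).card) h := by
    intro l
    refine hB2 m rX _ g0 ?_ (hdep _ (heZ l) (heJ l))
    intro g hg
    rw [mem_insert] at hg
    rcases hg with rfl | hg
    · exact hbox _ (heZ l)
    · exact hbox _ (hJZ hg)
  choose v hv0 hv using hex
  have hvz : ∀ l, v l ((e l : T) : Pt m) ≠ 0 := by
    intro l hz
    refine hv0 l (ARel.eq_zero_of_indep (hv l).1 hJ (subset_insert _ _) fun g hg hgJ => ?_)
    rw [mem_insert] at hg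
    rcases hg with rfl | hg
    · exact hz
    · exact absurd hg hgJ
  have hvn : ∀ l l', l ≠ l' → v l ((e l' : T) : Pt m) = 0 := by
    intro l l' hll
    refine (hv l).1.1 _ ?_
    rw [mem_insert]
    rintro (h | h)
    · exact hll (e.injective (Subtype.ext h)).symm
    · exact heJ l' h
  refine ⟨v, fun l => ?_, ?_⟩
  · have hsub : insert ((e l : T) : Pt m) J ⊆ J ∪ T := by
      intro g hg
      rw [mem_insert] at hg
      rw [mem_union]
      rcases hg with rfl | hg
      · exact Or.inr (heT l)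
      · exact Or.inl hg
    refine ((hv l).mono_left hsub).mono_right ?_
    have hc1 : (insert ((e l : T) : Pt m) J).card ≤ (J ∪ T).card := card_le_card hsub
    have hc0 : 1 ≤ (insert ((e l : T) : Pt m) J).card :=
      card_pos.2 ⟨_, mem_insert_self _ _⟩
    have hc1' : ((insert ((e l : T) : Pt m) J).card : ℝ) ≤ ((J ∪ T).card : ℝ) := by
      exact_mod_cast hc1
    have hc0' : (1 : ℝ) ≤ ((insert ((e l : T) : Pt m) J).card : ℝ) := by exact_mod_cast hc0
    have hr : (1 : ℝ) ≤ rX + 1 := by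
      have : (0 : ℝ) ≤ rX := Nat.cast_nonneg _
      linarith
    calc _ ≤ ((J ∪ T).card * (rX + 1) : ℝ) ^ (insert ((e l : T) : Pt m) J).card :=
          pow_le_pow_left₀ (by positivity) (mul_le_mul_of_nonneg_right hc1' (by linarith)) _
      _ ≤ _ := pow_le_pow_right₀ (by nlinarith) hc1
  · rw [Fintype.linearIndependent_iff]
    intro c hc l
    have := congrFun hc ((e l : T) : Pt m)
    simp only [Finset.sum_apply, Pi.smul_apply, smul_eq_mul, Pi.zero_apply] at this
    rw [sum_eq_single l] at this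
    · rcases mul_eq_zero.1 this with h | h
      · exact h
      · exact absurd (by exact_mod_cast h) (hvz l)
    · intro l' _ hl'
      rw [hvn l' l hl']; simp
    · intro h; exact absurd (mem_univ l) h

/-- A clean set containing `d` independent relations contains a set with many disjoint column
bases and an affinely independent subset of codimension `d`. -/
theorem exists_badCols (hB2 : S_B2) (hG3 : S_G3) {d q rX : ℕ} {W Z : Finset (Pt m)} {g0 : Pt m}
    {s : ℝ} (hd : 1 ≤ d) (hbox : ∀ g ∈ W, ∀ k, |g k - g0 k| ≤ rX) (hZW : Z ⊆ W)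
    (hclean : NoRelInf W s) (hs : ((2 * q * d : ℕ) : ℝ) ≤ s) (hrk : RkGeInf Z d) :
    ∃ Z1 ⊆ Z, ∃ J ⊆ Z1, LinearIndepOn ℚ aff (J : Set (Pt m)) ∧ Z1.card = J.card + d ∧
      BadCols q d ((Z1.card * (rX + 1) : ℝ) ^ Z1.card) Z1 := by
  classical
  obtain ⟨Z1, hZ1, J, hJ, hJi, hc, v, hv, hli⟩ :=
    exists_basis hB2 (fun g hg => hbox g (hZW hg)) hrk
  refine ⟨Z1, hZ1, J, hJ, hJi, hc, ?_⟩
  have hc1 : (1 : ℝ) ≤ Z1.card := by
    have : 1 ≤ Z1.card := by omega
    exact_mod_cast this
  have hr : (1 : ℝ) ≤ rX + 1 := by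
    have : (0 : ℝ) ≤ rX := Nat.cast_nonneg _
    linarith
  have hB1 : (1 : ℝ) ≤ (Z1.card * (rX + 1) : ℝ) ^ Z1.card := one_le_pow₀ (by nlinarith)
  rcases hG3 m d (2 * q) Z1 _ v hd hB1 hv hli with ⟨e, he, heZ, hdet⟩ | ⟨h, hne, hrel, hsup⟩
  · exact ⟨v, hv, e, he, heZ, hdet⟩
  · exfalso
    refine hne (hclean (Z1.filter fun g => h g ≠ 0) ((filter_subset _ _).trans (hZ1.trans hZW)) ?_ h
      hrel.1.filter_ne)
    refine le_trans ?_ hs
    exact_mod_cast hsup.le

end B5B

end Crest.Agent.R225
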