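import Crest.Agent.R225.Iface
import Crest.Agent.R225.L.Reduce

/-! Row 225: nodes D1 and Small. -/

set_option autoImplicit false

open Finset MeasureTheory

namespace Crest.Agent.R225

open L in
theorem prf_Small : S_Small := by
  intro n
  refine ⟨(2 * (n:ℝ)) ^ n, fun K hK hc hi => ?_⟩
  rcases Nat.eq_zero_or_pos n with rfl | hn
  · refine ⟨1, by simp, fun x => ⟨0, ?_⟩, ?_⟩
    · obtain ⟨y, hy⟩ := hi
      have : x - (1 : Matrix (Fin 0) (Fin 0) ℝ).mulVec (fun i => (((0 : Fin 0 → ℤ) i : ℤ) : ℝ)) = y :=
        Subsingleton.elim _ _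
      rw [this]; exact interior_subset hy
    · simp only [Matrix.det_one, abs_one, div_one, pow_zero]
      refine ENNReal.toReal_le_of_le_ofReal zero_le_one ?_
      refine (measure_mono (Set.subset_univ K)).trans ?_
      have : (Set.univ : Set (Fin 0 → ℝ)) = Set.Icc (fun _ => 0) (fun _ => 1) := by
        ext x; simp [Subsingleton.elim x (fun _ => 0), Subsingleton.elim (fun _ : Fin 0 => (0:ℝ)) (fun _ => 1)]
      rw [this, Real.volume_Icc_pi]
      simp
  · obtain ⟨x0, M, hM, h1, h2⟩ := exists_normal K hK hc hi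
    exact cov_of_pull hM (cov_of_normal hn _ h1 h2)

open L in
theorem prf_D1 : S_D1 := by
  classical
  intro d S hc hb hi
  -- near-maximal simplex with vertices in `S`
  obtain ⟨c, hc0⟩ := hi
  have hcS : c ∈ S := interior_subset hc0
  let V : Set ℝ := {t | ∃ x : Fin (d + 1) → (Fin d → ℝ), (∀ i, x i ∈ S) ∧ t = |(dmat x).det|}
  have hVne : V.Nonempty := ⟨_, fun _ => c, fun _ => hcS, rfl⟩
  have hVbdd : BddAbove V := by
    have hcomp : IsCompact (Set.pi Set.univ (fun _ : Fin (d + 1) => closure S)) :=
      isCompact_univ_pi fun _ => hb.isCompact_closure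
    obtain ⟨B, hB⟩ := (hcomp.image (continuous_dmat_det (n := d))).bddAbove
    refine ⟨B, ?_⟩
    rintro t ⟨x, hx, rfl⟩
    exact hB ⟨x, fun i _ => subset_closure (hx i), rfl⟩
  have hVpos : 0 < sSup V := by
    rw [mem_interior_iff_mem_nhds, Metric.mem_nhds_iff] at hc0
    obtain ⟨r, hr, hball⟩ := hc0
    have h1 : |(dmat (Fin.cons c (fun j => c + Pi.single j (r / 2)) : Fin (d + 1) → (Fin d → ℝ))).det| ∈ V := by
      refine ⟨_, fun i => ?_, rfl⟩
      refine Fin.cases ?_ (fun j => ?_) i
      · simpa using hcS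
      · simp only [Fin.cons_succ]
        refine hball ?_
        rw [Metric.mem_ball, dist_eq_norm, add_sub_cancel_left, Pi.norm_single]
        rw [Real.norm_of_nonneg (by positivity)]
        linarith
    have h2 : dmat (Fin.cons c (fun j => c + Pi.single j (r / 2)) : Fin (d + 1) → (Fin d → ℝ)) =
        Matrix.diagonal (fun _ => r / 2) := by
      ext i j
      simp only [dmat, Matrix.of_apply, Fin.cons_succ, Fin.cons_zero, Pi.add_apply,
        add_sub_cancel_left, Matrix.diagonal_apply, Pi.single_apply]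
    rw [h2, Matrix.det_diagonal, Finset.prod_const] at h1
    have h3 : 0 < |(r / 2) ^ (Finset.univ : Finset (Fin d)).card| := abs_pos.2 (by positivity)
    exact h3.trans_le (le_csSup hVbdd h1)
  obtain ⟨t, ⟨x, hx, rfl⟩, hlt⟩ := exists_lt_of_lt_csSup hVne (half_lt_self hVpos)
  have hmax : ∀ y : Fin (d + 1) → (Fin d → ℝ), (∀ i, y i ∈ S) →
      |(dmat y).det| ≤ 2 * |(dmat x).det| := by
    intro y hy
    have h1 : |(dmat y).det| ≤ sSup V := le_csSup hVbdd ⟨y, hy, rfl⟩
    linarith
  have hdet : (dmat x).det ≠ 0 := by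
    have : 0 < |(dmat x).det| := (half_pos hVpos).trans hlt
    exact abs_pos.1 this
  refine ⟨dmat x, x 0, hdet, ?_, ?_⟩
  · intro z hz
    rw [dmat_mulVec]
    have hsum : ∑ j, z j ≤ 1 := by
      calc ∑ j, z j ≤ ∑ _j : Fin d, 1 / ((d:ℝ) + 1) := Finset.sum_le_sum fun j _ => (hz j).2
        _ = d / (d + 1) := by
            rw [Finset.sum_const, Finset.card_univ, Fintype.card_fin, nsmul_eq_mul]; ring
        _ ≤ 1 := by rw [div_le_one (by positivity)]; linarith
    have h1 : (1 - ∑ j, z j) • x 0 + ∑ j, z j • x j.succ =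
        ∑ i : Fin (d + 1), (Fin.cons (1 - ∑ j, z j) z : Fin (d + 1) → ℝ) i • x i := by
      rw [Fin.sum_univ_succ]; simp
    rw [h1]
    refine hc.sum_mem (fun i _ => ?_) ?_ (fun i _ => hx i)
    · refine Fin.cases ?_ (fun j => ?_) i
      · simp; linarith
      · simpa using (hz j).1
    · rw [Fin.sum_univ_succ]; simp
  · intro w hw
    have hu : IsUnit (dmat x).det := isUnit_iff_ne_zero.2 hdet
    refine ⟨(dmat x)⁻¹.mulVec (w - x 0), fun i => ?_, ?_⟩
    · set y := (dmat x)⁻¹.mulVec (w - x 0) with hy
      have hwy : w = x 0 + (dmat x).mulVec y := by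
        rw [hy, Matrix.mulVec_mulVec, Matrix.mul_nonsing_inv _ hu, Matrix.one_mulVec]; abel
      have h1 := hmax (Function.update x i.succ w) (by
        intro j
        rcases eq_or_ne j i.succ with rfl | h
        · simpa using hw
        · rw [Function.update_of_ne h]; exact hx j)
      have h2 : dmat (Function.update x i.succ w) =
          (dmat x).updateCol i ((dmat x).mulVec y) := by
        ext k j
        simp only [dmat, Matrix.of_apply, Matrix.updateCol_apply]
        rw [Function.update_of_ne (Fin.succ_ne_zero i).symm]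
        split_ifs with h
        · subst h
          rw [Function.update_self, hwy]
          simp [dmat]
        · rw [Function.update_of_ne (fun h' => h (Fin.succ_injective _ h'))]
      rw [h2] at h1
      have h3 : ((dmat x).updateCol i ((dmat x).mulVec y)).det = (dmat x).det * y i := by
        have h4 := Matrix.cramer_apply (dmat x) ((dmat x).mulVec y) i
        rw [← h4]
        have h6 : (dmat x).cramer ((dmat x).mulVec y) = (dmat x).det • y := by
          rw [Matrix.cramer_eq_adjugate_mulVec, Matrix.mulVec_mulVec, Matrix.adjugate_mul,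
            Matrix.smul_mulVec, Matrix.one_mulVec]
        rw [h6]; simp
      rw [h3, abs_mul] at h1
      have h7 : 0 < |(dmat x).det| := abs_pos.2 hdet
      nlinarith
    · rw [Matrix.mulVec_mulVec, Matrix.mul_nonsing_inv _ hu, Matrix.one_mulVec]; abel

end Crest.Agent.R225
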