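import Mathlib

/-!
# Row 225 (S0347, lattice coverings of density `C n log n`): shared definitions

Paper: notes of row 225 (blueprint note 6019 and the docstrings of `Iface.lean`).
FROZEN: do not change; ask helper575 (captain) / helper16 (deputy).
-/

set_option autoImplicit false

open Finset MeasureTheory
open scoped BigOperators ENNReal

namespace Crest.Agent.R225

/-! ## Base points, rows, residues -/

/-- base grid points -/
abbrev Pt (m : ℕ) := Fin m → ℤ

/-- one random row: an affine functional `c + ⟨ψ, g⟩` with values in `ZMod P` -/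
abbrev Row (P m : ℕ) := ZMod P × (Fin m → ZMod P)

/-- the residue of the base point `g` in the row `r` -/
def res {P m : ℕ} (r : Row P m) (g : Pt m) : ZMod P := r.1 + ∑ k, r.2 k * (g k : ZMod P)

/-- residues of `g` in a list of rows; the most recent row comes first -/
def hist {P m : ℕ} (rows : List (Row P m)) (g : Pt m) : List (ZMod P) :=
  rows.map (fun r => res r g)

/-- weight of `g` after the rows `rows` (most recent first) -/
def wt {P m : ℕ} (w : Pt m → List (ZMod P) → ℝ) (rows : List (Row P m)) (g : Pt m) : ℝ :=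
  w g (hist rows g)

open scoped Classical in
/-- the set `W_j` of atoms still alive after the rows `rows` -/
noncomputable def alive {P m : ℕ} (w : Pt m → List (ZMod P) → ℝ) (G : Finset (Pt m))
    (rows : List (Row P m)) : Finset (Pt m) := G.filter (fun g => 0 < wt w rows g)

/-- total weight `S_j` -/
noncomputable def Stot {P m : ℕ} (w : Pt m → List (ZMod P) → ℝ) (G : Finset (Pt m))
    (rows : List (Row P m)) : ℝ := ∑ g ∈ G, wt w rows g

/-- weights after the first (= oldest) row `r` has been played -/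
def shiftw {P m : ℕ} (w : Pt m → List (ZMod P) → ℝ) (r : Row P m) :
    Pt m → List (ZMod P) → ℝ := fun g l => w g (l ++ [res r g])

/-- `Ex k F rows` : expectation of `F` after `k` further independent uniform rows -/
noncomputable def Ex {P m : ℕ} [NeZero P] :
    ℕ → (List (Row P m) → ℝ) → List (Row P m) → ℝ
  | 0, F => F
  | k + 1, F => fun rows => 𝔼 r : Row P m, Ex k F (r :: rows)

/-- the equation lemmas of `Ex`, generated here once for all modules -/
theorem Ex_eqns {P m : ℕ} [NeZero P] (k : ℕ) (F : List (Row P m) → ℝ) :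
    Ex 0 F = F ∧ (Ex (k + 1) F = fun rows => 𝔼 r : Row P m, Ex k F (r :: rows)) ∧
      Ex k F = Ex k F := by
  refine ⟨by rw [Ex], by rw [Ex], ?_⟩
  rw [Ex.eq_def k F]

/-- Hypotheses on the weights. `α j`, `τ j`: after `j` rows the weight of an atom is `0` or
in `[τ j * α j, α j]`; martingale property up to `ε`; bounded variation in the next residue. -/
structure WHyp {P m : ℕ} [NeZero P] (w : Pt m → List (ZMod P) → ℝ) (b : ℕ) (α τ : ℕ → ℝ)
    (ε : ℝ) : Prop where
  dead : ∀ g l ξ, w g l = 0 → w g (ξ :: l) = 0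
  rng : ∀ g l, l.length ≤ b → w g l = 0 ∨ (τ l.length * α l.length ≤ w g l ∧ w g l ≤ α l.length)
  mart : ∀ g l, l.length < b → |(𝔼 ξ, w g (ξ :: l)) - w g l| ≤ ε * α (l.length + 1)
  tv : ∀ g l, l.length < b → ∑ ξ, |w g ((ξ + 1) :: l) - w g (ξ :: l)| ≤ 2 * α (l.length + 1)

/-! ## Additive energies and relation counts -/

open scoped Classical in
/-- additive energy of order `2k` -/
noncomputable def En {m : ℕ} (k : ℕ) (W : Finset (Pt m)) : ℕ :=
  (((Fintype.piFinset fun _ : Fin k => W) ×ˢ (Fintype.piFinset fun _ : Fin k => W)).filter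
    fun p => ∑ i, p.1 i = ∑ i, p.2 i).card

open scoped Classical in
/-- number of `z ∈ W^k` with `∑ h_i z_i = y` -/
noncomputable def relCount {m k : ℕ} (W : Finset (Pt m)) (h : Fin k → ℤ) (y : Pt m) : ℕ :=
  ((Fintype.piFinset fun _ : Fin k => W).filter fun z => ∑ i, h i • z i = y).card

/-! ## Affine integer relations -/

/-- `h` is an affine integer relation between the points of `Z` -/
def ARel {m : ℕ} (Z : Finset (Pt m)) (h : Pt m → ℤ) : Prop :=
  (∀ g, g ∉ Z → h g = 0) ∧ ∑ g ∈ Z, h g = 0 ∧ ∑ g ∈ Z, h g • g = 0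

/-- affine integer relation with coefficients bounded by `B` -/
def BRel {m : ℕ} (Z : Finset (Pt m)) (B : ℝ) (h : Pt m → ℤ) : Prop :=
  ARel Z h ∧ ∀ g, |(h g : ℝ)| ≤ B

/-- `Z` supports `k` linearly independent `B`-bounded relations -/
def RkGe {m : ℕ} (Z : Finset (Pt m)) (B : ℝ) (k : ℕ) : Prop :=
  ∃ v : Fin k → Pt m → ℤ, (∀ l, BRel Z B (v l)) ∧
    LinearIndependent ℚ (fun l : Fin k => fun g : Pt m => ((v l g : ℤ) : ℚ))

/-- `Z` supports `k` linearly independent relations (no bound) -/
def RkGeInf {m : ℕ} (Z : Finset (Pt m)) (k : ℕ) : Prop :=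
  ∃ v : Fin k → Pt m → ℤ, (∀ l, ARel Z (v l)) ∧
    LinearIndependent ℚ (fun l : Fin k => fun g : Pt m => ((v l g : ℤ) : ℚ))

/-- no nonzero `B`-bounded relation of support `≤ s` in `W` -/
def NoRel {m : ℕ} (W : Finset (Pt m)) (B s : ℝ) : Prop :=
  ∀ Z ⊆ W, (Z.card : ℝ) ≤ s → ∀ h, BRel Z B h → h = 0

/-- no nonzero relation of support `≤ s` in `W` -/
def NoRelInf {m : ℕ} (W : Finset (Pt m)) (s : ℝ) : Prop :=
  ∀ Z ⊆ W, (Z.card : ℝ) ≤ s → ∀ h, ARel Z h → h = 0

/-- the points `(g, 1)`, for affine independence over `ℚ` -/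
def aff {m : ℕ} (g : Pt m) : (Fin m → ℚ) × ℚ := (fun k => (g k : ℚ), 1)

/-! ## Numerical parameters (functions of the level `i` = number of remaining rows) -/

/-- `n log n` -/
noncomputable def NN (n : ℕ) : ℝ := n * Real.log n

noncomputable def theta : ℝ := 1 / 200000

/-- number of rows that multiply the level by about `600` -/
noncomputable def Rst : ℕ := ⌈Real.log 600 / Real.log (1 + theta)⌉₊

/-- the level `x_i = X (1+θ)^i` -/
noncomputable def xl (X : ℝ) (i : ℕ) : ℝ := X * (1 + theta) ^ i

/-- `λ_i = exp √x_i` -/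
noncomputable def lam (X : ℝ) (i : ℕ) : ℝ := Real.exp (Real.sqrt (xl X i))

/-- lower truncation `τ_i = ∏_{j<i} 1/(2 λ_j²)` -/
noncomputable def tau (X : ℝ) (i : ℕ) : ℝ := ∏ j ∈ range i, 1 / (2 * (lam X j) ^ 2)

/-- upper bound `α_i = exp(-(x_i - X))` for the weights at level `i` -/
noncomputable def al (X : ℝ) (i : ℕ) : ℝ := Real.exp (-(xl X i - X))

/-- bound for the number of atoms at level `i` -/
noncomputable def Mb (X Crat : ℝ) (n i : ℕ) : ℝ := 2 * Crat * NN n * Real.exp (xl X i) / tau X i

/-- half the order of the energies used at level `i` -/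
noncomputable def kk (X c0 : ℝ) (n i : ℕ) : ℕ := ⌈c0 * NN n / xl X i⌉₊

/-- height bound of the relations excluded at level `i` -/
noncomputable def Bh (X : ℝ) (i : ℕ) : ℝ := Real.exp (3 / 10 * xl X i)

/-- support bound of the relations excluded at level `i` -/
noncomputable def sp (X c0 : ℝ) (n i : ℕ) : ℝ := c0 / 16 * NN n / xl X i

/-- accuracy of the majorants in the row from level `i+1` to level `i` -/
noncomputable def dl (X : ℝ) (i : ℕ) : ℝ :=
  tau X (i + 1) * Real.exp (-(theta * xl X i)) / (8 * lam X i)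

/-- degree of the majorants in the row from level `i+1` to level `i` -/
noncomputable def Hd (X : ℝ) (i : ℕ) : ℕ := ⌈1000 / (dl X i) ^ 2⌉₊

/-! ## Log-concave functions -/

/-- log-concave functions with values in `[0,∞]` -/
def LC {E : Type*} [AddCommGroup E] [Module ℝ E] (f : E → ℝ≥0∞) : Prop :=
  ∀ x y : E, ∀ t : ℝ, 0 < t → t < 1 → f x ^ (1 - t) * f y ^ t ≤ f ((1 - t) • x + t • y)

end Crest.Agent.R225
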