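import Crest.Agent.R225.Iface

/-!
# Row 225 (S0347): node `Disc` (discretisation of the windows to residues mod `P`)
-/

set_option autoImplicit false

open Finset MeasureTheory
open scoped BigOperators ENNReal

namespace Crest.Agent.R225
namespace Disc

/-! ## total variation of quasi-concave sequences -/

lemma tv_seq (g : ℕ → ℝ) (n : ℕ)
    (hq : ∀ i j k, i ≤ j → j ≤ k → k ≤ n → min (g i) (g k) ≤ g j) :
    ∃ M, (∃ j ≤ n, g j = M) ∧ (∀ j ≤ n, g j ≤ M) ∧
      ∑ k ∈ range n, |g (k + 1) - g k| + g 0 + g n = 2 * M := by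
  induction n with
  | zero =>
    refine ⟨g 0, ⟨0, le_rfl, rfl⟩, ?_, by simp; ring⟩
    intro j hj
    obtain rfl : j = 0 := by omega
    exact le_rfl
  | succ n ih =>
    obtain ⟨M, ⟨j, hj, hjM⟩, hM, hs⟩ := ih (fun i j k h1 h2 h3 => hq i j k h1 h2 (by omega))
    rw [sum_range_succ]
    have hjn := hq j n (n + 1) hj (by omega) le_rfl
    rw [hjM] at hjn
    rcases le_or_gt M (g (n + 1)) with h | h
    · rw [min_eq_left h] at hjn
      have h2 : g n = M := le_antisymm (hM n le_rfl) hjn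
      refine ⟨g (n + 1), ⟨n + 1, le_rfl, rfl⟩, ?_, ?_⟩
      · intro i hi
        rcases Nat.lt_or_ge i (n + 1) with h' | h'
        · exact (hM i (by omega)).trans h
        · obtain rfl : i = n + 1 := by omega
          exact le_rfl
      · rw [h2] at hs ⊢
        rw [abs_of_nonneg (by linarith)]
        linarith
    · rw [min_eq_right h.le] at hjn
      refine ⟨M, ⟨j, by omega, hjM⟩, ?_, ?_⟩
      · intro i hi
        rcases Nat.lt_or_ge i (n + 1) with h' | h'
        · exact hM i (by omega)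
        · obtain rfl : i = n + 1 := by omega
          exact h.le
      · rw [abs_of_nonpos (by linarith)]
        linarith

/-- quasi-concavity on `ℝ` -/
def QC (F : ℝ → ℝ) : Prop := ∀ x y z, x ≤ y → y ≤ z → min (F x) (F z) ≤ F y

lemma tv_mono {F : ℝ → ℝ} (hF : QC F) {α : ℝ} (hα : ∀ s, F s ≤ α) (t : ℕ → ℝ) (ht : Monotone t)
    (n : ℕ) : ∑ k ∈ range n, |F (t (k + 1)) - F (t k)| + F (t 0) + F (t n) ≤ 2 * α := by
  obtain ⟨M, ⟨j, -, hj⟩, -, h⟩ := tv_seq (fun i => F (t i)) n
    (fun i j k h1 h2 _ => hF _ _ _ (ht h1) (ht h2))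
  rw [h, ← hj]
  have := hα (t j)
  linarith

lemma sum_pairs (f : ℕ → ℝ) (n : ℕ) :
    ∑ i ∈ range (2 * n), f i = ∑ k ∈ range n, (f (2 * k) + f (2 * k + 1)) := by
  induction n with
  | zero => simp
  | succ n ih =>
    rw [show 2 * (n + 1) = 2 * n + 1 + 1 by ring, sum_range_succ, sum_range_succ, ih,
      sum_range_succ]
    ring

/-- interleaved sequence -/
noncomputable def tt (s0 h u : ℝ) (i : ℕ) : ℝ :=
  s0 + ((i / 2 : ℕ) : ℝ) * h + if i % 2 = 0 then 0 else u

lemma tt_even (s0 h u : ℝ) (k : ℕ) : tt s0 h u (2 * k) = s0 + k * h := by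
  simp [tt]

lemma tt_odd (s0 h u : ℝ) (k : ℕ) : tt s0 h u (2 * k + 1) = s0 + k * h + u := by
  have h1 : (2 * k + 1) / 2 = k := by omega
  have h2 : (2 * k + 1) % 2 = 1 := by omega
  simp [tt, h1, h2]

lemma tt_mono {s0 h u : ℝ} (h0 : 0 ≤ u) (h1 : u ≤ h) : Monotone (tt s0 h u) := by
  refine monotone_nat_of_le_succ fun i => ?_
  rcases Nat.even_or_odd' i with ⟨k, rfl | rfl⟩
  · rw [tt_even, tt_odd]; linarith
  · rw [show 2 * k + 1 + 1 = 2 * (k + 1) by ring, tt_even, tt_odd]
    push_cast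
    linarith

lemma tv_pairs {F : ℝ → ℝ} (hF : QC F) {α : ℝ} (h0 : ∀ s, 0 ≤ F s) (hα : ∀ s, F s ≤ α)
    (s0 h u : ℝ) (hu : 0 ≤ u) (hu' : u ≤ h) (n : ℕ) :
    ∑ k ∈ range n, |F (s0 + k * h + u) - F (s0 + k * h)| ≤ 2 * α := by
  have h1 := tv_mono hF hα (tt s0 h u) (tt_mono hu hu') (2 * n)
  rw [sum_pairs (fun i => |F (tt s0 h u (i + 1)) - F (tt s0 h u i)|)] at h1
  have h2 : ∑ k ∈ range n, |F (s0 + k * h + u) - F (s0 + k * h)| ≤
      ∑ k ∈ range n, (|F (tt s0 h u (2 * k + 1)) - F (tt s0 h u (2 * k))| +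
        |F (tt s0 h u (2 * k + 1 + 1)) - F (tt s0 h u (2 * k + 1))|) := by
    refine sum_le_sum fun k _ => ?_
    rw [tt_odd, tt_even]
    have := abs_nonneg (F (tt s0 h u (2 * k + 1 + 1)) - F (s0 + k * h + u))
    linarith
  have h3 := h0 (tt s0 h u 0)
  have h4 := h0 (tt s0 h u (2 * n))
  linarith

/-- Riemann sums of quasi-concave functions -/
lemma riemann {F : ℝ → ℝ} (hF : QC F) (hm : Measurable F) {α : ℝ} (h0 : ∀ s, 0 ≤ F s)
    (hα : ∀ s, F s ≤ α) {h : ℝ} (hh : 0 < h) (s0 : ℝ) (n : ℕ) :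
    |(∑ k ∈ range n, h * F (s0 + k * h)) - ∫ s in s0..(s0 + n * h), F s| ≤ 2 * α * h := by
  have hint : ∀ a b : ℝ, IntervalIntegrable F volume a b := by
    intro a b
    refine (intervalIntegrable_const (c := α)).mono_fun hm.aestronglyMeasurable ?_
    refine Filter.Eventually.of_forall fun s => ?_
    simp only [Real.norm_eq_abs]
    rw [abs_of_nonneg (h0 s)]
    exact (hα s).trans (le_abs_self α)
  have hsum : ∫ s in s0..(s0 + n * h), F s =
      ∑ k ∈ range n, ∫ u in (0 : ℝ)..h, F (s0 + k * h + u) := by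
    have := intervalIntegral.sum_integral_adjacent_intervals (f := F) (μ := volume)
      (a := fun k : ℕ => s0 + k * h) (n := n) (fun k _ => hint _ _)
    simp only [Nat.cast_zero, zero_mul, add_zero] at this
    rw [← this]
    refine sum_congr rfl fun k _ => ?_
    rw [intervalIntegral.integral_comp_add_left (fun s => F s)]
    congr 1
    · ring
    · push_cast; ring
  have hconst : ∀ k : ℕ, h * F (s0 + k * h) = ∫ _u in (0 : ℝ)..h, F (s0 + k * h) := by
    intro k
    simp
  have hint2 : ∀ c : ℝ, IntervalIntegrable (fun u => F (c + u)) volume 0 h := by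
    intro c
    refine (intervalIntegrable_const (c := α)).mono_fun
      (hm.comp (measurable_const_add c)).aestronglyMeasurable ?_
    refine Filter.Eventually.of_forall fun s => ?_
    simp only [Real.norm_eq_abs]
    rw [abs_of_nonneg (h0 _)]
    exact (hα _).trans (le_abs_self α)
  rw [hsum, ← sum_sub_distrib]
  have hrw : ∑ k ∈ range n, (h * F (s0 + k * h) - ∫ u in (0 : ℝ)..h, F (s0 + k * h + u)) =
      ∫ u in (0 : ℝ)..h, ∑ k ∈ range n, (F (s0 + k * h) - F (s0 + k * h + u)) := by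
    rw [intervalIntegral.integral_finsetSum]
    · refine sum_congr rfl fun k _ => ?_
      rw [hconst, intervalIntegral.integral_sub intervalIntegrable_const (hint2 _)]
    · intro k _
      exact intervalIntegrable_const.sub (hint2 _)
  rw [hrw]
  have hb := intervalIntegral.norm_integral_le_of_norm_le_const (a := (0 : ℝ)) (b := h)
    (f := fun u => ∑ k ∈ range n, (F (s0 + k * h) - F (s0 + k * h + u))) (C := 2 * α) ?_
  · rw [sub_zero, abs_of_pos hh] at hb
    exact hb
  · intro u hu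
    rw [Set.uIoc_of_le hh.le] at hu
    refine (abs_sum_le_sum_abs _ _).trans ?_
    refine le_trans (le_of_eq ?_) (tv_pairs hF h0 hα s0 h u hu.1.le hu.2 n)
    exact sum_congr rfl fun k _ => abs_sub_comm _ _

/-! ## residues -/

lemma sum_val (P : ℕ) [NeZero P] (f : ℕ → ℝ) : ∑ ξ : ZMod P, f ξ.val = ∑ i ∈ range P, f i := by
  cases P with
  | zero => exact absurd rfl (NeZero.ne 0)
  | succ n => exact Fin.sum_univ_eq_sum_range f (n + 1)

/-- the integer in `[k0, k0 + P)` congruent to `ξ` -/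
def kq {P : ℕ} (k0 : ℤ) (ξ : ZMod P) : ℤ := k0 + ((ξ - (k0 : ZMod P)).val : ℤ)

lemma kq_cast {P : ℕ} [NeZero P] (k0 : ℤ) (ξ : ZMod P) : ((kq k0 ξ : ℤ) : ZMod P) = ξ := by
  simp [kq]

lemma sum_kq {P : ℕ} [NeZero P] (k0 : ℤ) (G : ℤ → ℝ) :
    ∑ ξ : ZMod P, G (kq k0 ξ) = ∑ i ∈ range P, G (k0 + i) := by
  rw [← sum_val P (fun i => G (k0 + i))]
  exact Fintype.sum_equiv (Equiv.subRight (k0 : ZMod P)) _ _ (fun ξ => rfl)

lemma sum_kq_succ {P : ℕ} [NeZero P] (k0 : ℤ) (G : ℤ → ℝ) :
    ∑ ξ : ZMod P, |G (kq k0 (ξ + 1)) - G (kq k0 ξ)| =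
      ∑ i ∈ range P, |G (k0 + ((i + 1) % P : ℕ)) - G (k0 + i)| := by
  rw [← sum_val P (fun i => |G (k0 + ((i + 1) % P : ℕ)) - G (k0 + i)|)]
  refine Fintype.sum_equiv (Equiv.subRight (k0 : ZMod P)) _ _ (fun ξ => ?_)
  have : (ξ + 1 - (k0 : ZMod P)).val = ((ξ - (k0 : ZMod P)).val + 1) % P := by
    rw [show ξ + 1 - (k0 : ZMod P) = (ξ - (k0 : ZMod P)) + 1 by ring, ZMod.val_add,
      ZMod.val_one_eq_one_mod, Nat.add_mod_mod]
  simp only [kq, this, Equiv.subRight_apply]

/-- cyclic total variation -/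
lemma tv_cyc {F : ℝ → ℝ} (hF : QC F) {α : ℝ} (h0 : ∀ s, 0 ≤ F s) (hα : ∀ s, F s ≤ α)
    {P : ℕ} [NeZero P] (k0 : ℤ) {h : ℝ} (hh : 0 < h) :
    ∑ ξ : ZMod P, |F (kq k0 (ξ + 1) * h) - F (kq k0 ξ * h)| ≤ 2 * α := by
  rw [sum_kq_succ k0 (fun k => F (k * h))]
  obtain ⟨n, rfl⟩ : ∃ n, P = n + 1 := ⟨P - 1, by have := NeZero.pos P; omega⟩
  rw [sum_range_succ, Nat.mod_self]
  have h1 := tv_mono hF hα (fun i => ((k0 + i : ℤ) : ℝ) * h) (by
    intro i j hij
    have : ((k0 + i : ℤ) : ℝ) ≤ ((k0 + j : ℤ) : ℝ) := by exact_mod_cast (by omega)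
    exact mul_le_mul_of_nonneg_right this hh.le) n
  have h2 : ∑ i ∈ range n, |F (((k0 + ((i + 1) % (n + 1) : ℕ) : ℤ) : ℝ) * h) -
      F (((k0 + i : ℤ) : ℝ) * h)| =
      ∑ i ∈ range n, |F (((k0 + (i + 1 : ℕ) : ℤ) : ℝ) * h) - F (((k0 + i : ℤ) : ℝ) * h)| := by
    refine sum_congr rfl fun i hi => ?_
    rw [Nat.mod_eq_of_lt (by have := mem_range.1 hi; omega)]
  rw [h2]
  have h3 := h0 (((k0 + (0 : ℕ) : ℤ) : ℝ) * h)
  have h4 := h0 (((k0 + (n : ℕ) : ℤ) : ℝ) * h)
  have h5 : |F (((k0 + (0 : ℕ) : ℤ) : ℝ) * h) - F (((k0 + (n : ℕ) : ℤ) : ℝ) * h)| ≤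
      F (((k0 + (0 : ℕ) : ℤ) : ℝ) * h) + F (((k0 + (n : ℕ) : ℤ) : ℝ) * h) := by
    rw [abs_le]; constructor <;> linarith
  linarith

/-- mean of the samples versus the integral over the window -/
lemma mean_window {F : ℝ → ℝ} (hF : QC F) (hm : Measurable F) {α : ℝ} (h0 : ∀ s, 0 ≤ F s)
    (hα : ∀ s, F s ≤ α) {P : ℕ} [NeZero P] {a c c' : ℝ} (ha : 0 < a) (hc : c' ≤ c + a)
    (hsupp : ∀ s, s ∉ Set.Ico c c' → F s = 0) :
    |(𝔼 ξ : ZMod P, F (kq ⌈c * P / a⌉ ξ * (a / P))) - 1 / a * ∫ s, F s| ≤ 4 / P * α := by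
  have hP : (0 : ℝ) < P := by exact_mod_cast NeZero.pos P
  have hα0 : 0 ≤ α := (h0 0).trans (hα 0)
  set k0 : ℤ := ⌈c * P / a⌉ with hk0
  set h : ℝ := a / P with hh
  have hpos : 0 < h := div_pos ha hP
  have e1 : c ≤ k0 * h := by
    have := Int.le_ceil (c * P / a)
    rw [← hk0] at this
    rw [hh]
    rw [div_le_iff₀ ha] at this
    rw [← mul_div_assoc, le_div_iff₀ hP]
    exact this
  have e2 : (k0 - 1 : ℝ) * h < c := by
    have := Int.ceil_lt_add_one (c * P / a)
    rw [← hk0] at this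
    have h3 : (k0 - 1 : ℝ) < c * P / a := by linarith
    rw [lt_div_iff₀ ha] at h3
    rw [hh, ← mul_div_assoc, div_lt_iff₀ hP]
    exact h3
  have hr := riemann hF hm h0 hα hpos ((k0 - 1) * h) (P + 1)
  have hend : (k0 - 1 : ℝ) * h + ((P + 1 : ℕ) : ℝ) * h = k0 * h + a := by
    have : (P : ℝ) * h = a := by rw [hh]; field_simp
    push_cast
    linarith
  rw [hend] at hr
  have hI : ∫ s in ((k0 - 1 : ℝ) * h)..(k0 * h + a), F s = ∫ s, F s := by
    rw [intervalIntegral.integral_of_le (by nlinarith)]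
    refine setIntegral_eq_integral_of_forall_compl_eq_zero fun s hs => hsupp s fun hs' => hs ?_
    exact ⟨lt_of_lt_of_le e2 hs'.1, by linarith [hs'.2]⟩
  rw [hI] at hr
  have hS : ∑ k ∈ range (P + 1), h * F ((k0 - 1) * h + k * h) =
      h * ∑ ξ : ZMod P, F (kq k0 ξ * h) := by
    rw [sum_kq k0 (fun k => F (k * h)), sum_range_succ', mul_sum]
    have hz : F ((k0 - 1) * h + ((0 : ℕ) : ℝ) * h) = 0 := by
      apply hsupp
      intro hs
      have := hs.1
      simp only [Nat.cast_zero, zero_mul, add_zero] at this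
      linarith
    rw [hz, mul_zero, add_zero]
    refine sum_congr rfl fun i _ => ?_
    congr 2
    push_cast
    ring
  rw [hS] at hr
  rw [Fintype.expect_eq_sum_div_card, ZMod.card]
  set S := ∑ ξ : ZMod P, F (kq k0 ξ * h) with hSdef
  have hfin : S / P - 1 / a * ∫ s, F s = (1 / a) * (h * S - ∫ s, F s) := by
    rw [hh]; field_simp
  rw [hfin, abs_mul, abs_of_pos (by positivity : 0 < 1 / a)]
  calc 1 / a * |h * S - ∫ s, F s| ≤ 1 / a * (2 * α * h) := by gcongr
    _ = 2 / P * α := by rw [hh]; field_simp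
    _ ≤ 4 / P * α := by gcongr; norm_num

/-! ## positivity of the parameters -/

lemma tau_pos (X : ℝ) (i : ℕ) : 0 < tau X i := by
  unfold tau lam
  positivity

lemma al_pos (X : ℝ) (i : ℕ) : 0 < al X i := Real.exp_pos _

lemma alf_pos {X α0 : ℝ} (h : 0 < α0) (I j : ℕ) : 0 < alf X α0 I j := by
  unfold alf
  split_ifs
  · exact h
  · exact al_pos _ _

/-! ## log-concave functions in the last variable -/

lemma LC.min_le {E : Type*} [AddCommGroup E] [Module ℝ E] {f : E → ℝ≥0∞} (hf : LC f)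
    (x y : E) (t : ℝ) (h0 : 0 ≤ t) (h1 : t ≤ 1) :
    min (f x) (f y) ≤ f ((1 - t) • x + t • y) := by
  rcases h0.eq_or_lt with rfl | h0
  · simp
  rcases h1.eq_or_lt with rfl | h1
  · simp
  refine le_trans ?_ (hf x y t h0 h1)
  set v := min (f x) (f y)
  rcases eq_or_ne v 0 with hv | hv
  · rw [hv]; exact zero_le
  rcases eq_or_ne v ∞ with hv' | hv'
  · have hx : f x = ∞ := top_le_iff.1 (hv' ▸ min_le_left (f x) (f y))
    have hy : f y = ∞ := top_le_iff.1 (hv' ▸ min_le_right (f x) (f y))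
    rw [hx, hy, ENNReal.top_rpow_of_pos (by linarith), ENNReal.top_rpow_of_pos h0]
    simp
  calc v = v ^ ((1 - t) + t) := by rw [sub_add_cancel, ENNReal.rpow_one]
    _ = v ^ (1 - t) * v ^ t := ENNReal.rpow_add _ _ hv hv'
    _ ≤ f x ^ (1 - t) * f y ^ t := by
        gcongr
        · exact min_le_left _ _
        · exact min_le_right _ _

lemma snoc_comb {n : ℕ} (x : Fin n → ℝ) (s s' t : ℝ) :
    (Fin.snoc x ((1 - t) * s + t * s') : Fin (n + 1) → ℝ) =
      (1 - t) • (Fin.snoc x s : Fin (n + 1) → ℝ) + t • (Fin.snoc x s' : Fin (n + 1) → ℝ) := by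
  funext i
  refine Fin.lastCases ?_ (fun i => ?_) i
  · simp
  · simp only [Fin.snoc_castSucc, Pi.add_apply, Pi.smul_apply, smul_eq_mul]
    ring

lemma measurable_snoc {n : ℕ} (x : Fin n → ℝ) :
    Measurable fun s : ℝ => (Fin.snoc x s : Fin (n + 1) → ℝ) := by
  refine measurable_pi_iff.2 fun i => ?_
  refine Fin.lastCases ?_ (fun i => ?_) i
  · simpa using measurable_id'
  · simp

open Classical in
/-- the function of the last variable in the window -/
noncomputable def FF' {n : ℕ} (f : (Fin (n + 1) → ℝ) → ℝ≥0∞) (x : Fin n → ℝ) (c c' : ℝ) : ℝ → ℝ :=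
  (Set.Ico c c').indicator fun s => (f (Fin.snoc x s)).toReal

lemma FF'_nonneg {n : ℕ} (f : (Fin (n + 1) → ℝ) → ℝ≥0∞) (x : Fin n → ℝ) (c c' s : ℝ) :
    0 ≤ FF' f x c c' s := Set.indicator_nonneg (fun _ _ => ENNReal.toReal_nonneg) _

lemma FF'_qc {n : ℕ} {f : (Fin (n + 1) → ℝ) → ℝ≥0∞} (hf : LC f) (hfin : ∀ x, f x ≠ ∞)
    (x : Fin n → ℝ) (c c' : ℝ) : QC (FF' f x c c') := by
  intro r s t hrs hst
  by_cases hr : r ∈ Set.Ico c c'
  · by_cases ht : t ∈ Set.Ico c c'
    · have hs : s ∈ Set.Ico c c' := ⟨hr.1.trans hrs, lt_of_le_of_lt hst ht.2⟩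
      simp only [FF', Set.indicator_of_mem hr, Set.indicator_of_mem hs, Set.indicator_of_mem ht]
      rcases hrs.eq_or_lt with rfl | hrs'
      · exact min_le_left _ _
      have hrt : 0 < t - r := by linarith
      have hmin := LC.min_le hf (Fin.snoc x r) (Fin.snoc x t) ((s - r) / (t - r))
        (div_nonneg (by linarith) hrt.le) ((div_le_one hrt).2 (by linarith))
      rw [← snoc_comb] at hmin
      have he : (1 - (s - r) / (t - r)) * r + (s - r) / (t - r) * t = s := by
        field_simp; ring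
      rw [he] at hmin
      rw [← ENNReal.toReal_min (hfin _) (hfin _)]
      exact ENNReal.toReal_mono (hfin _) hmin
    · have : FF' f x c c' t = 0 := Set.indicator_of_notMem ht _
      rw [this]
      exact (min_le_right _ _).trans (FF'_nonneg _ _ _ _ _)
  · have : FF' f x c c' r = 0 := Set.indicator_of_notMem hr _
    rw [this]
    exact (min_le_left _ _).trans (FF'_nonneg _ _ _ _ _)

lemma FF'_meas {n : ℕ} {f : (Fin (n + 1) → ℝ) → ℝ≥0∞} (hf : Measurable f)
    (x : Fin n → ℝ) (c c' : ℝ) : Measurable (FF' f x c c') :=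
  ((hf.comp (measurable_snoc x)).ennreal_toReal).indicator measurableSet_Ico

lemma FF'_integral {n : ℕ} {f : (Fin (n + 1) → ℝ) → ℝ≥0∞} (hf : Measurable f)
    (hfin : ∀ x, f x ≠ ∞) (x : Fin n → ℝ) (c c' : ℝ) :
    ∫ s, FF' f x c c' s = (∫⁻ s in Set.Ico c c', f (Fin.snoc x s)).toReal := by
  unfold FF'
  rw [integral_indicator measurableSet_Ico]
  exact integral_toReal (hf.comp (measurable_snoc x)).aemeasurable
    (Filter.Eventually.of_forall fun s => lt_top_iff_ne_top.2 (hfin _))

/-! ## the process -/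

section
variable {X : ℝ} {d I : ℕ} {α0 : ℝ} {K : Set (Fin (d + (I + 1)) → ℝ)} {a : ℕ → ℝ}
  {U : ∀ j : ℕ, (Fin (d + j) → ℝ) → ℝ≥0∞}

open Classical in
/-- left end of the window -/
noncomputable def cL (C : Chain X d I α0 K a U) (j : ℕ) (x : Fin (d + j) → ℝ) : ℝ :=
  if h : j ≤ I ∧ U j x ≠ 0 then (C.win j h.1 x h.2).choose else 0

open Classical in
/-- right end of the window -/
noncomputable def cR (C : Chain X d I α0 K a U) (j : ℕ) (x : Fin (d + j) → ℝ) : ℝ :=
  if h : j ≤ I ∧ U j x ≠ 0 then (C.win j h.1 x h.2).choose_spec.choose else 0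

lemma window (C : Chain X d I α0 K a U) (j : ℕ) (x : Fin (d + j) → ℝ) (hj : j ≤ I)
    (hx : U j x ≠ 0) : cL C j x ≤ cR C j x ∧ cR C j x ≤ cL C j x + a j ∧
    U j x = ENNReal.ofReal (1 / a j) *
      ∫⁻ s in Set.Ico (cL C j x) (cR C j x), U (j + 1) (Fin.snoc x s) := by
  have h : j ≤ I ∧ U j x ≠ 0 := ⟨hj, hx⟩
  have e1 : cL C j x = (C.win j h.1 x h.2).choose := dif_pos h
  have e2 : cR C j x = (C.win j h.1 x h.2).choose_spec.choose := dif_pos h
  rw [e1, e2]
  exact (C.win j h.1 x h.2).choose_spec.choose_spec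

/-- first index of the window -/
noncomputable def i0 (C : Chain X d I α0 K a U) (P j : ℕ) (x : Fin (d + j) → ℝ) : ℤ :=
  ⌈cL C j x * P / a j⌉

/-- position after the residues `l` -/
noncomputable def pos (C : Chain X d I α0 K a U) (P : ℕ) (x : Fin d → ℝ) :
    (l : List (ZMod P)) → (Fin (d + l.length) → ℝ)
  | [] => x
  | ξ :: l => (Fin.snoc (pos C P x l)
      (kq (i0 C P l.length (pos C P x l)) ξ * (a l.length / P)) : Fin (d + l.length + 1) → ℝ)

open Classical in
/-- weight after the residues `l` -/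
noncomputable def W (C : Chain X d I α0 K a U) (P : ℕ) (x : Fin d → ℝ) : List (ZMod P) → ℝ
  | [] => (U 0 x).toReal
  | ξ :: l => if W C P x l ≠ 0 ∧ l.length ≤ I then
      FF' (U (l.length + 1)) (pos C P x l) (cL C l.length (pos C P x l))
        (cR C l.length (pos C P x l))
        (kq (i0 C P l.length (pos C P x l)) ξ * (a l.length / P)) else 0

lemma W_spec (C : Chain X d I α0 K a U) (P : ℕ) (x : Fin d → ℝ) (l : List (ZMod P)) :
    W C P x l = 0 ∨ (l.length ≤ I + 1 ∧ W C P x l = (U l.length (pos C P x l)).toReal) := by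
  cases l with
  | nil => exact Or.inr ⟨by simp, rfl⟩
  | cons ξ l =>
    by_cases h : W C P x l ≠ 0 ∧ l.length ≤ I
    · have e : W C P x (ξ :: l) = FF' (U (l.length + 1)) (pos C P x l)
          (cL C l.length (pos C P x l)) (cR C l.length (pos C P x l))
          (kq (i0 C P l.length (pos C P x l)) ξ * (a l.length / P)) := if_pos h
      by_cases h2 : (kq (i0 C P l.length (pos C P x l)) ξ * (a l.length / P) : ℝ) ∈
          Set.Ico (cL C l.length (pos C P x l)) (cR C l.length (pos C P x l))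
      · right
        refine ⟨by simp only [List.length_cons]; omega, ?_⟩
        rw [e, FF', Set.indicator_of_mem h2]
        rfl
      · left
        rw [e, FF', Set.indicator_of_notMem h2]
    · left
      exact if_neg h

lemma fin_U (C : Chain X d I α0 K a U) (j : ℕ) (hj : j ≤ I + 1) (x : Fin (d + j) → ℝ) :
    U j x ≠ ∞ := by
  rcases C.rng j hj x with h | h
  · rw [h]; exact ENNReal.zero_ne_top
  · exact ne_top_of_le_ne_top ENNReal.ofReal_ne_top h.2

lemma toReal_le (hα : 0 < α0) (C : Chain X d I α0 K a U) (j : ℕ) (hj : j ≤ I + 1)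
    (x : Fin (d + j) → ℝ) : (U j x).toReal ≤ alf X α0 I j := by
  rcases C.rng j hj x with h | h
  · rw [h]; simpa using (alf_pos hα I j).le
  · exact ENNReal.toReal_le_of_le_ofReal (alf_pos hα I j).le h.2

lemma FF'_le (hα : 0 < α0) (C : Chain X d I α0 K a U) (j : ℕ) (hj : j ≤ I)
    (x : Fin (d + j) → ℝ) (c c' s : ℝ) : FF' (U (j + 1)) x c c' s ≤ alf X α0 I (j + 1) := by
  unfold FF'
  by_cases hs : s ∈ Set.Ico c c'
  · rw [Set.indicator_of_mem hs]
    exact toReal_le hα C (j + 1) (by omega) _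
  · rw [Set.indicator_of_notMem hs]
    exact (alf_pos hα I _).le

lemma pos_spec (C : Chain X d I α0 K a U) (P : ℕ) [NeZero P] (x : Fin d → ℝ)
    (l : List (ZMod P)) : ∃ k : Fin l.length → ℤ,
      l.reverse = List.ofFn (fun j => (k j : ZMod P)) ∧
      pos C P x l = Fin.append x (fun j : Fin l.length => a j * k j / P) := by
  induction l with
  | nil =>
    refine ⟨Fin.elim0, by simp, ?_⟩
    funext i
    exact (Fin.append_left x (fun j : Fin 0 => a j * (Fin.elim0 j : ℤ) / P) i).symm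
  | cons ξ l ih =>
    obtain ⟨k, hk, hp⟩ := ih
    refine ⟨(Fin.snoc k (kq (i0 C P l.length (pos C P x l)) ξ) : Fin (l.length + 1) → ℤ),
      ?_, ?_⟩
    · rw [List.reverse_cons, hk]
      show _ = List.ofFn (n := l.length + 1) _
      rw [List.ofFn_succ']
      simp [kq_cast]
    · have : (fun j : Fin (l.length + 1) => a j *
          ((Fin.snoc k (kq (i0 C P l.length (pos C P x l)) ξ) : Fin (l.length + 1) → ℤ) j : ℝ)
            / P) = (Fin.snoc (fun j : Fin l.length => a j * k j / P)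
            (kq (i0 C P l.length (pos C P x l)) ξ * (a l.length / P)) :
              Fin (l.length + 1) → ℝ) := by
        funext j
        refine Fin.lastCases ?_ (fun i => ?_) j
        · simp only [Fin.snoc_last, Fin.val_last]
          ring
        · simp
      refine Eq.trans ?_ (congrArg (Fin.append (n := l.length + 1) x) this.symm)
      rw [Fin.append_snoc, ← hp]
      rfl

end

end Disc

open Disc

theorem prf_Disc : S_Disc := by
  intro X d I α0 K a U hα C P _ x
  refine ⟨W C P x, rfl, ?_, ?_, ?_, ?_, ?_⟩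
  · intro l ξ h
    exact if_neg (fun h' => h'.1 h)
  · intro l hl
    rcases W_spec C P x l with h | h
    · exact Or.inl h
    · rcases C.rng l.length hl (pos C P x l) with h1 | h1
      · left
        rw [h.2, h1]
        rfl
      · right
        rw [h.2]
        refine ⟨?_, ENNReal.toReal_le_of_le_ofReal (alf_pos hα I _).le h1.2⟩
        exact (ENNReal.ofReal_le_iff_le_toReal (fin_U C _ hl _)).1 h1.1
  · intro l hl
    have hlI : l.length ≤ I := by omega
    by_cases h : W C P x l = 0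
    · have h0 : ∀ ξ, W C P x (ξ :: l) = 0 := fun ξ => if_neg (fun h' => h'.1 h)
      simp only [h0, h]
      simp only [Finset.expect_const_zero, sub_zero, abs_zero]
      have := (alf_pos (X := X) hα I (l.length + 1)).le
      positivity
    · have hs : W C P x l = (U l.length (pos C P x l)).toReal := by
        rcases W_spec C P x l with h' | h'
        · exact absurd h' h
        · exact h'.2
      have hU : U l.length (pos C P x l) ≠ 0 := by
        intro h'
        rw [hs, h'] at h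
        exact h rfl
      obtain ⟨w1, w2, w3⟩ := window C l.length (pos C P x l) hlI hU
      have hW : ∀ ξ : ZMod P, W C P x (ξ :: l) = FF' (U (l.length + 1)) (pos C P x l)
          (cL C l.length (pos C P x l)) (cR C l.length (pos C P x l))
          (kq (i0 C P l.length (pos C P x l)) ξ * (a l.length / P)) := fun ξ => if_pos ⟨h, hlI⟩
      simp only [hW]
      have hfin := fin_U C (l.length + 1) (by omega)
      have hI : W C P x l = 1 / a l.length * ∫ s, FF' (U (l.length + 1)) (pos C P x l)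
          (cL C l.length (pos C P x l)) (cR C l.length (pos C P x l)) s := by
        rw [FF'_integral (C.meas (l.length + 1) (by omega)) hfin, hs, w3, ENNReal.toReal_mul,
          ENNReal.toReal_ofReal (by have := C.pos l.length; positivity)]
      rw [hI]
      have q1 := FF'_qc (C.lc (l.length + 1) (by omega)) hfin (pos C P x l)
        (cL C l.length (pos C P x l)) (cR C l.length (pos C P x l))
      have q2 := FF'_meas (C.meas (l.length + 1) (by omega)) (pos C P x l)
        (cL C l.length (pos C P x l)) (cR C l.length (pos C P x l))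
      have q3 := FF'_nonneg (U (l.length + 1)) (pos C P x l)
        (cL C l.length (pos C P x l)) (cR C l.length (pos C P x l))
      have q4 := FF'_le hα C l.length hlI (pos C P x l)
        (cL C l.length (pos C P x l)) (cR C l.length (pos C P x l))
      exact mean_window q1 q2 q3 q4 (C.pos _) w2 (fun s hs => Set.indicator_of_notMem hs _)
  · intro l hl
    have hlI : l.length ≤ I := by omega
    by_cases h : W C P x l = 0
    · have h0 : ∀ ξ, W C P x (ξ :: l) = 0 := fun ξ => if_neg (fun h' => h'.1 h)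
      simp only [h0]
      have := (alf_pos (X := X) hα I (l.length + 1)).le
      simpa using this
    · have hW : ∀ ξ, W C P x (ξ :: l) = FF' (U (l.length + 1)) (pos C P x l)
          (cL C l.length (pos C P x l)) (cR C l.length (pos C P x l))
          (kq (i0 C P l.length (pos C P x l)) ξ * (a l.length / P)) := fun ξ => if_pos ⟨h, hlI⟩
      simp only [hW]
      have hfin := fin_U C (l.length + 1) (by omega)
      have hP : (0 : ℝ) < P := by exact_mod_cast NeZero.pos P
      have q1 := FF'_qc (C.lc (l.length + 1) (by omega)) hfin (pos C P x l)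
        (cL C l.length (pos C P x l)) (cR C l.length (pos C P x l))
      have q3 := FF'_nonneg (U (l.length + 1)) (pos C P x l)
        (cL C l.length (pos C P x l)) (cR C l.length (pos C P x l))
      have q4 := FF'_le hα C l.length hlI (pos C P x l)
        (cL C l.length (pos C P x l)) (cR C l.length (pos C P x l))
      exact tv_cyc q1 q3 q4 _ (div_pos (C.pos _) hP)
  · intro l hl h
    have hs : W C P x l = (U l.length (pos C P x l)).toReal := by
      rcases W_spec C P x l with h' | h'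
      · exact absurd h' h
      · exact h'.2
    have hU : U l.length (pos C P x l) ≠ 0 := by
      intro h'
      rw [hs, h'] at h
      exact h rfl
    obtain ⟨k, hk, hp⟩ := pos_spec C P x l
    rw [hp] at hU
    have key : ∀ (n : ℕ) (hn : l.length = n), ∃ k' : Fin n → ℤ,
        l.reverse = List.ofFn (fun j => (k' j : ZMod P)) ∧
        U n (Fin.append x (fun j : Fin n => a j * k' j / P)) ≠ 0 := by
      intro n hn
      subst hn
      exact ⟨k, hk, hU⟩
    obtain ⟨k', h1, h2⟩ := key (I + 1) hl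
    refine ⟨k', h1, ?_⟩
    rw [C.top] at h2
    exact Set.mem_of_indicator_ne_zero h2

end Crest.Agent.R225
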