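import Crest.Agent.R225.EarSurv

/-!
Row 225 (S0347): shared library for the base nodes B3, B4, B5 (helper565), part 3:
numerical form of the ear count and first moments.
-/

set_option autoImplicit false

open Finset Filter
open scoped BigOperators

namespace Crest.Agent.R225
namespace Ear

/-- `(2 hb + 1)^k ≤ exp (20 k² log n)` -/
lemma hb_pow_le {n k : ℕ} (hn : 2 ≤ n) (hk : k ≤ n) :
    (2 * (hb (n ^ 16) k : ℝ) + 1) ^ k ≤ Real.exp (20 * (k : ℝ) ^ 2 * Real.log n) := by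
  have hn2 : (2 : ℝ) ≤ n := by exact_mod_cast hn
  have hnpos : (0 : ℝ) < n := by linarith
  rcases Nat.eq_zero_or_pos k with rfl | hk0
  · simp
  have hkn : (k : ℝ) ≤ n := by exact_mod_cast hk
  have h1 : (hb (n ^ 16) k : ℝ) ≤ ((n : ℝ) ^ 18) ^ k := by
    unfold hb
    push_cast
    gcongr
    have h2 : (1 : ℝ) ≤ (n : ℝ) ^ 16 := one_le_pow₀ (by linarith)
    calc (k : ℝ) * ((n : ℝ) ^ 16 + 1) ≤ n * ((n : ℝ) ^ 16 + (n : ℝ) ^ 16) := by gcongr
      _ = 2 * (n : ℝ) ^ 17 := by ring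
      _ ≤ n * (n : ℝ) ^ 17 := by gcongr
      _ = (n : ℝ) ^ 18 := by ring
  have h3 : 2 * (hb (n ^ 16) k : ℝ) + 1 ≤ ((n : ℝ) ^ 20) ^ k := by
    have h4 : (1 : ℝ) ≤ ((n : ℝ) ^ 18) ^ k := one_le_pow₀ (one_le_pow₀ (by linarith))
    have h5 : (3 : ℝ) ≤ ((n : ℝ) ^ 2) ^ k := by
      have h6 : (4 : ℝ) ≤ (n : ℝ) ^ 2 := by nlinarith
      have h7 : (n : ℝ) ^ 2 ≤ ((n : ℝ) ^ 2) ^ k := le_self_pow₀ (by linarith) (by omega)
      linarith
    calc 2 * (hb (n ^ 16) k : ℝ) + 1 ≤ 3 * ((n : ℝ) ^ 18) ^ k := by linarith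
      _ ≤ ((n : ℝ) ^ 2) ^ k * ((n : ℝ) ^ 18) ^ k := by gcongr
      _ = ((n : ℝ) ^ 20) ^ k := by rw [← mul_pow]; congr 1; ring
  calc (2 * (hb (n ^ 16) k : ℝ) + 1) ^ k ≤ (((n : ℝ) ^ 20) ^ k) ^ k := by gcongr
    _ = (n : ℝ) ^ (20 * k ^ 2) := by rw [← pow_mul, ← pow_mul]; congr 1; ring
    _ = Real.exp (20 * (k : ℝ) ^ 2 * Real.log n) := by
        rw [← Real.rpow_natCast, Real.rpow_def_of_pos hnpos]
        congr 1
        push_cast
        ring

lemma isLittleO_aux (a : ℝ) (ha : 0 < a) : ∀ᶠ n : ℕ in atTop,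
    20 * ((n : ℝ) ^ (3 / 10 : ℝ)) ^ 2 * Real.log n ≤ a * n := by
  have h1 : Tendsto (fun x : ℝ => Real.log x / x ^ (4 / 10 : ℝ)) atTop (nhds 0) :=
    (isLittleO_log_rpow_atTop (by norm_num : (0 : ℝ) < 4 / 10)).tendsto_div_nhds_zero
  have h2 : ∀ᶠ x : ℝ in atTop, Real.log x / x ^ (4 / 10 : ℝ) < a / 20 :=
    h1.eventually_lt_const (by positivity)
  have h3 := tendsto_natCast_atTop_atTop (R := ℝ) |>.eventually h2
  filter_upwards [h3, eventually_ge_atTop 1] with n hn hn1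
  have hnpos : (0 : ℝ) < n := by exact_mod_cast hn1
  rw [div_lt_iff₀ (Real.rpow_pos_of_pos hnpos _)] at hn
  have h4 : ((n : ℝ) ^ (3 / 10 : ℝ)) ^ 2 = (n : ℝ) ^ (6 / 10 : ℝ) := by
    rw [← Real.rpow_natCast, ← Real.rpow_mul hnpos.le]
    norm_num
  rw [h4]
  have h5 : (n : ℝ) ^ (6 / 10 : ℝ) * (n : ℝ) ^ (4 / 10 : ℝ) = n := by
    rw [← Real.rpow_add hnpos]
    norm_num
  have h6 : 0 < (n : ℝ) ^ (6 / 10 : ℝ) := Real.rpow_pos_of_pos hnpos _
  calc 20 * (n : ℝ) ^ (6 / 10 : ℝ) * Real.log n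
      ≤ 20 * (n : ℝ) ^ (6 / 10 : ℝ) * (a / 20 * (n : ℝ) ^ (4 / 10 : ℝ)) := by gcongr
    _ = a * ((n : ℝ) ^ (6 / 10 : ℝ) * (n : ℝ) ^ (4 / 10 : ℝ)) := by ring
    _ = a * n := by rw [h5]

/-- numerical facts for ear counts -/
structure EarN (c1 : ℝ) (n : ℕ) : Prop where
  three_le : 3 ≤ n
  small : 20 * ((n : ℝ) ^ (3 / 10 : ℝ)) ^ 2 * Real.log n ≤ c1 / 100 * n

lemma earN (c1 : ℝ) (hc1 : 0 < c1) : ∃ n0 : ℕ, ∀ n ≥ n0, EarN c1 n := by
  obtain ⟨n0, hn0⟩ := eventually_atTop.mp (isLittleO_aux (c1 / 100) (by positivity))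
  exact ⟨max n0 3, fun n hn => ⟨(le_max_right _ _).trans hn, hn0 n ((le_max_left _ _).trans hn)⟩⟩

lemma EarN.le {c1 : ℝ} {n k : ℕ} (h : EarN c1 n) (hk : (k : ℝ) ≤ (n : ℝ) ^ (3 / 10 : ℝ)) :
    (2 * (hb (n ^ 16) k : ℝ) + 1) ^ k ≤ Real.exp (c1 / 100 * n) := by
  have hn3 := h.three_le
  have hn1 : (1 : ℝ) ≤ n := by
    have : 1 ≤ n := by omega
    exact_mod_cast this
  have hkn : k ≤ n := by
    have h1 : (n : ℝ) ^ (3 / 10 : ℝ) ≤ n := by
      calc (n : ℝ) ^ (3 / 10 : ℝ) ≤ (n : ℝ) ^ (1 : ℝ) :=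
            Real.rpow_le_rpow_of_exponent_le hn1 (by norm_num)
        _ = n := Real.rpow_one _
    exact_mod_cast hk.trans h1
  refine (hb_pow_le (by omega) hkn).trans ?_
  apply Real.exp_le_exp.mpr
  refine le_trans ?_ h.small
  have hlog : 0 ≤ Real.log n := Real.log_nonneg hn1
  gcongr

open scoped Classical in
/-- ear count, `s ≥ 3` -/
lemma ear3 (hB2 : S_B2) {m n s : ℕ} {c1 : ℝ} {G J : Finset (Pt m)} (hc1 : 0 < c1)
    (hN : EarN c1 n) (hG : GridHyp n m (n ^ 16) c1 G) (hJ : J ⊆ G) (hs : 3 ≤ s)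
    (hk : ((J.card + s : ℕ) : ℝ) ≤ (n : ℝ) ^ (3 / 10 : ℝ)) :
    (((Fintype.piFinset fun _ : Fin s => G).filter fun z => CircMod J z).card : ℝ) ≤
      (G.card : ℝ) ^ (s - 1) * Real.exp (-(c1 / 2 * n)) := by
  obtain ⟨g0, hg0⟩ := hG.box
  have h1 := ear_count hB2 (s := s) G J g0 (by exact_mod_cast hg0)
    (fun g hg => by exact_mod_cast hg0 g (hJ hg)) ((G.card : ℝ) ^ (s - 1) * Real.exp (-(c1 * n)))
    (fun h y hh => hG.rel3 s h y hs hh)
  refine h1.trans ?_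
  have h2 := hN.le hk
  calc (2 * (hb (n ^ 16) (J.card + s) : ℝ) + 1) ^ (J.card + s) *
        ((G.card : ℝ) ^ (s - 1) * Real.exp (-(c1 * n)))
      ≤ Real.exp (c1 / 100 * n) * ((G.card : ℝ) ^ (s - 1) * Real.exp (-(c1 * n))) := by gcongr
    _ = (G.card : ℝ) ^ (s - 1) * (Real.exp (c1 / 100 * n) * Real.exp (-(c1 * n))) := by ring
    _ ≤ (G.card : ℝ) ^ (s - 1) * Real.exp (-(c1 / 2 * n)) := by
        rw [← Real.exp_add]
        have hn : (0 : ℝ) ≤ n := Nat.cast_nonneg n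
        gcongr
        nlinarith

open scoped Classical in
/-- ear count for long circuits, `s ≥ n^{0.02}` -/
lemma earL (hB2 : S_B2) {m n s : ℕ} {c1 : ℝ} {G J : Finset (Pt m)} (hc1 : 0 < c1)
    (hN : EarN c1 n) (hG : GridHyp n m (n ^ 16) c1 G) (hJ : J ⊆ G)
    (hs : (n : ℝ) ^ (2 / 100 : ℝ) ≤ s)
    (hk : ((J.card + s : ℕ) : ℝ) ≤ (n : ℝ) ^ (3 / 10 : ℝ)) :
    (((Fintype.piFinset fun _ : Fin s => G).filter fun z => CircMod J z).card : ℝ) ≤
      (G.card : ℝ) ^ (s - 1) * Real.exp (-(99 / 100 * c1 * NN n)) := by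
  obtain ⟨g0, hg0⟩ := hG.box
  have h1 := ear_count hB2 (s := s) G J g0 (by exact_mod_cast hg0)
    (fun g hg => by exact_mod_cast hg0 g (hJ hg))
    ((G.card : ℝ) ^ (s - 1) * Real.exp (-(c1 * NN n))) (fun h y hh => hG.relL s h y hs hh)
  refine h1.trans ?_
  have h2 := hN.le hk
  have hn3 : (3 : ℝ) ≤ n := by exact_mod_cast hN.three_le
  have hlog1 : 1 ≤ Real.log n := by
    rw [Real.le_log_iff_exp_le (by linarith)]
    exact (Real.exp_one_lt_d9.le.trans (by norm_num)).trans hn3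
  have hNn : (n : ℝ) ≤ NN n := by
    unfold NN; nlinarith
  calc (2 * (hb (n ^ 16) (J.card + s) : ℝ) + 1) ^ (J.card + s) *
        ((G.card : ℝ) ^ (s - 1) * Real.exp (-(c1 * NN n)))
      ≤ Real.exp (c1 / 100 * n) * ((G.card : ℝ) ^ (s - 1) * Real.exp (-(c1 * NN n))) := by gcongr
    _ = (G.card : ℝ) ^ (s - 1) * (Real.exp (c1 / 100 * n) * Real.exp (-(c1 * NN n))) := by ring
    _ ≤ (G.card : ℝ) ^ (s - 1) * Real.exp (-(99 / 100 * c1 * NN n)) := by
        rw [← Real.exp_add]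
        gcongr
        nlinarith

/-! ### first moments -/

open scoped Classical in
/-- expected number of circuits modulo `J` inside the alive set, from a survival bound -/
lemma first_moment {P m s k : ℕ} [NeZero P] {w : Pt m → List (ZMod P) → ℝ}
    {G J : Finset (Pt m)} {ρ : ℝ} (hs : 1 ≤ s) (hJ : J ⊆ G) (hk : J.card + s ≤ k + 1)
    (hsurv : ∀ J' ⊆ G, J'.card ≤ k → LinearIndepOn ℚ aff (J' : Set (Pt m)) →
        (𝔼 r : Row P m, if J' ⊆ alive w G [r] then (1 : ℝ) else 0) ≤ ρ ^ J'.card) :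
    (𝔼 r : Row P m, ∑ z ∈ (Fintype.piFinset fun _ : Fin s => G).filter (fun z => CircMod J z),
        (if J ∪ univ.image z ⊆ alive w G [r] then (1 : ℝ) else 0)) ≤
      (((Fintype.piFinset fun _ : Fin s => G).filter fun z => CircMod J z).card : ℝ) *
        ρ ^ (J.card + s - 1) := by
  rw [Finset.expect_sum_comm]
  have h1 : ∀ z ∈ (Fintype.piFinset fun _ : Fin s => G).filter (fun z => CircMod J z),
      (𝔼 r : Row P m, if J ∪ univ.image z ⊆ alive w G [r] then (1 : ℝ) else 0) ≤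
        ρ ^ (J.card + s - 1) := by
    intro z hz
    rw [Finset.mem_filter] at hz
    obtain ⟨hzG, hinj, hdisj, hdep, hmin⟩ := hz
    have hzG' : ∀ i, z i ∈ G := fun i => by
      have := Fintype.mem_piFinset.mp hzG i
      simpa using this
    let i0 : Fin s := ⟨0, hs⟩
    set J' : Finset (Pt m) := J ∪ (univ.image z).erase (z i0) with hJ'
    have hcardZ : (univ.image z).card = s := by
      rw [Finset.card_image_of_injective _ hinj]; simp
    have hz0 : z i0 ∈ univ.image z := Finset.mem_image_of_mem _ (Finset.mem_univ _)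
    have hcard : J'.card = J.card + s - 1 := by
      rw [hJ', Finset.card_union_of_disjoint (hdisj.mono_right (Finset.erase_subset _ _)),
        Finset.card_erase_of_mem hz0, hcardZ]
      omega
    have hJ'G : J' ⊆ G := by
      apply Finset.union_subset hJ
      intro g hg
      obtain ⟨i, _, rfl⟩ := Finset.mem_image.mp (Finset.mem_of_mem_erase hg)
      exact hzG' i
    have h2 := hsurv J' hJ'G (by rw [hcard]; omega) (hmin i0)
    rw [hcard] at h2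
    refine le_trans (Finset.expect_le_expect fun r _ => ?_) h2
    have hsub : J' ⊆ J ∪ univ.image z :=
      Finset.union_subset_union_right (Finset.erase_subset _ _)
    split_ifs with h3 h4
    · exact le_rfl
    · exact absurd (hsub.trans h3) h4
    · norm_num
    · exact le_rfl
  refine (Finset.sum_le_sum h1).trans ?_
  rw [Finset.sum_const, nsmul_eq_mul]

end Ear
end Crest.Agent.R225
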