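import Mathlib

/-!
Row 225: abstract lemmas for the END of S0347 (helper418).
`expand_mem` : `K + {∑ s_i (u_i - v_i) : |s_i| ≤ 1/(2n²)} ⊆ (1+1/n) K - p/n`.
`tri_classes` : triangular system of directions reaches at least `∏ ρ_j` residue classes.
-/

set_option autoImplicit false

open Finset
open scoped BigOperators

namespace Crest.Agent.R225

/-- the expanded body contains `K` plus small combinations of chords -/
theorem expand_mem {E : Type*} [AddCommGroup E] [Module ℝ E] {K : Set E} (hK : Convex ℝ K)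
    {ι : Type*} [Fintype ι] (u v : ι → E) (hu : ∀ i, u i ∈ K) (hv : ∀ i, v i ∈ K)
    (n : ℝ) (hn : 1 ≤ n) (hcard : (Fintype.card ι : ℝ) = n) (s : ι → ℝ)
    (hs : ∀ i, |s i| ≤ 1 / (2 * n ^ 2)) (k : E) (hk : k ∈ K) :
    ∃ k' ∈ K, k + ∑ i, s i • (u i - v i) =
      (1 + 1 / n) • k' - (1 / n) • ((1 / (2 * n)) • ∑ i, (u i + v i)) := by
  have hn0 : 0 < n := by linarith
  -- the convex combination of the `u i`, `v i`
  set w : E := ∑ i, ((1 / (2 * n)) * (1 + 2 * n ^ 2 * s i)) • u i +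
    ∑ i, ((1 / (2 * n)) * (1 - 2 * n ^ 2 * s i)) • v i with hw
  have hsi : ∀ i, |2 * n ^ 2 * s i| ≤ 1 := by
    intro i
    rw [abs_mul, abs_of_pos (by positivity)]
    calc 2 * n ^ 2 * |s i| ≤ 2 * n ^ 2 * (1 / (2 * n ^ 2)) :=
          mul_le_mul_of_nonneg_left (hs i) (by positivity)
      _ = 1 := by field_simp
  have hwK : w ∈ K := by
    have h1 : w = ∑ j : ι ⊕ ι, (Sum.elim (fun i => (1 / (2 * n)) * (1 + 2 * n ^ 2 * s i))
        (fun i => (1 / (2 * n)) * (1 - 2 * n ^ 2 * s i)) j) • (Sum.elim u v j) := by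
      rw [Fintype.sum_sum_type]; simp [hw]
    rw [h1]
    refine hK.sum_mem (fun j _ => ?_) ?_ (fun j _ => ?_)
    · rcases j with i | i
      · have := (abs_le.1 (hsi i)).1
        simp only [Sum.elim_inl]
        have h2 : 0 ≤ 1 + 2 * n ^ 2 * s i := by linarith
        positivity
      · have := (abs_le.1 (hsi i)).2
        simp only [Sum.elim_inr]
        have h2 : 0 ≤ 1 - 2 * n ^ 2 * s i := by linarith
        positivity
    · rw [Fintype.sum_sum_type]
      simp only [Sum.elim_inl, Sum.elim_inr]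
      rw [← Finset.sum_add_distrib]
      have : ∀ i : ι, 1 / (2 * n) * (1 + 2 * n ^ 2 * s i) + 1 / (2 * n) * (1 - 2 * n ^ 2 * s i) = 1 / n := by
        intro i; field_simp; ring
      simp only [this]
      rw [Finset.sum_const, Finset.card_univ, nsmul_eq_mul, hcard]
      field_simp
    · rcases j with i | i
      · exact hu i
      · exact hv i
  refine ⟨(n / (n + 1)) • k + (1 / (n + 1)) • w, ?_, ?_⟩
  · exact hK hk hwK (by positivity) (by positivity) (by field_simp)
  · have h3 : w = (1 / (2 * n)) • ∑ i, (u i + v i) + n • ∑ i, s i • (u i - v i) := by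
      rw [hw, Finset.smul_sum, Finset.smul_sum, ← Finset.sum_add_distrib, ← Finset.sum_add_distrib]
      refine Finset.sum_congr rfl fun i _ => ?_
      rw [smul_add, smul_smul, smul_sub, ]
      have e1 : 1 / (2 * n) * (1 + 2 * n ^ 2 * s i) = 1 / (2 * n) + n * s i := by field_simp
      have e2 : 1 / (2 * n) * (1 - 2 * n ^ 2 * s i) = 1 / (2 * n) - n * s i := by field_simp
      rw [e1, e2, add_smul, sub_smul]
      abel
    have e3 : (1 + 1 / n) * (n / (n + 1)) = 1 := by field_simp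
    have e4 : (1 + 1 / n) * (1 / (n + 1)) = 1 / n := by field_simp
    have e6 : (1 + 1 / n) • ((n / (n + 1)) • k + (1 / (n + 1)) • w) = k + (1 / n) • w := by
      rw [smul_add, smul_smul, smul_smul, e3, e4, one_smul]
    have e7 : 1 / n * n = 1 := by field_simp
    rw [e6, h3, smul_add (1 / n), smul_smul (1 / n) n, e7, one_smul]
    abel

/-- Triangular counting. -/
theorem tri_classes (P : ℕ) [NeZero P] (sb : ℝ) :
    ∀ (b : ℕ) (a : Fin b → ℝ) (w : Fin b → Fin b → ℝ) (ρ : Fin b → ℕ),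
      (∀ j, 0 < a j) → (∀ j i, i < j → w j i = 0) → (∀ j, 0 < w j j) →
      (∀ j, ρ j ≤ P) → (∀ j, a j * ρ j ≤ P * (w j j * sb)) → ∀ x : Fin b → ℝ,
      ∃ T : Finset (Fin b → ZMod P), ∏ j, ρ j ≤ T.card ∧ ∀ c ∈ T, ∃ κ : Fin b → ℤ,
        (∀ j, ((κ j : ℤ) : ZMod P) = c j) ∧ ∃ s : Fin b → ℝ, (∀ j, 0 ≤ s j ∧ s j ≤ sb) ∧
          ∀ i, x i - ∑ j, s j * w j i = a i * κ i / P := by
  classical
  intro b
  induction b with
  | zero =>
    intro a w ρ _ _ _ _ _ x
    refine ⟨{fun i => i.elim0}, by simp, fun c hc => ⟨fun i => i.elim0, fun j => j.elim0,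
      fun i => i.elim0, fun j => j.elim0, fun j => j.elim0⟩⟩
  | succ b ih =>
    intro a w ρ ha hw0 hw1 hρP hρ x
    have hP : (0:ℝ) < P := by exact_mod_cast Nat.pos_of_ne_zero (NeZero.ne P)
    -- the first coordinate: `κ₀ = t₀ + i`, `t₀ = ⌈P (x 0 - w₀₀ sb)/a₀⌉`
    set t0 : ℤ := ⌈P * (x 0 - w 0 0 * sb) / a 0⌉ with ht0
    have hs0 : ∀ i0 : Fin (ρ 0), ∃ s0 : ℝ, (0 ≤ s0 ∧ s0 ≤ sb) ∧
        x 0 - s0 * w 0 0 = a 0 * ((t0 + (i0 : ℕ) : ℤ) : ℝ) / P := by
      intro i0
      refine ⟨(x 0 - a 0 * ((t0 + (i0 : ℕ) : ℤ) : ℝ) / P) / w 0 0, ⟨?_, ?_⟩, ?_⟩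
      · refine div_nonneg ?_ (hw1 0).le
        rw [sub_nonneg, div_le_iff₀ hP]
        have h1 : (t0 : ℝ) < P * (x 0 - w 0 0 * sb) / a 0 + 1 := Int.ceil_lt_add_one _
        have h2 : ((i0 : ℕ) : ℝ) + 1 ≤ ρ 0 := by exact_mod_cast i0.2
        have h3 := hρ 0
        have h4 : a 0 * (P * (x 0 - w 0 0 * sb) / a 0) = P * (x 0 - w 0 0 * sb) := by
          have := (ha 0).ne'; field_simp
        push_cast
        have h5 := mul_lt_mul_of_pos_left h1 (ha 0)
        rw [mul_add, h4] at h5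
        have h6 := mul_le_mul_of_nonneg_left h2 (ha 0).le
        nlinarith
      · rw [div_le_iff₀ (hw1 0), sub_le_iff_le_add, ← sub_le_iff_le_add', le_div_iff₀ hP]
        have h1 : P * (x 0 - w 0 0 * sb) / a 0 ≤ (t0 : ℝ) := Int.le_ceil _
        have h2 : (0:ℝ) ≤ ((i0 : ℕ) : ℝ) := Nat.cast_nonneg _
        rw [div_le_iff₀ (ha 0)] at h1
        push_cast
        nlinarith [mul_nonneg (ha 0).le h2]
      · have := (hw1 0).ne'
        field_simp
        ring
    choose s0 hs0b hs0e using hs0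
    have hIH : ∀ i0 : Fin (ρ 0), ∃ T : Finset (Fin b → ZMod P), ∏ j : Fin b, ρ j.succ ≤ T.card ∧
        ∀ c ∈ T, ∃ κ : Fin b → ℤ, (∀ j, ((κ j : ℤ) : ZMod P) = c j) ∧ ∃ s : Fin b → ℝ,
          (∀ j, 0 ≤ s j ∧ s j ≤ sb) ∧
          ∀ i : Fin b, (x i.succ - s0 i0 * w 0 i.succ) - ∑ j : Fin b, s j * w j.succ i.succ =
            a i.succ * κ i / P := fun i0 =>
      ih (fun j => a j.succ) (fun j i => w j.succ i.succ) (fun j => ρ j.succ)
        (fun j => ha _) (fun j i hij => hw0 _ _ (Fin.succ_lt_succ_iff.2 hij)) (fun j => hw1 _)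
        (fun j => hρP _) (fun j => hρ _) (fun i => x i.succ - s0 i0 * w 0 i.succ)
    choose T hTc hT using hIH
    refine ⟨(univ : Finset (Fin (ρ 0))).biUnion (fun i0 => (T i0).image
      (fun c => (Fin.cons (((t0 + (i0 : ℕ) : ℤ)) : ZMod P) c : Fin (b + 1) → ZMod P))), ?_, ?_⟩
    · rw [Finset.card_biUnion]
      · have h1 : ∀ i0 ∈ (univ : Finset (Fin (ρ 0))), ∏ j : Fin b, ρ j.succ ≤
            ((T i0).image (fun c => (Fin.cons (((t0 + (i0 : ℕ) : ℤ)) : ZMod P) c :
              Fin (b + 1) → ZMod P))).card := by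
          intro i0 _
          rw [Finset.card_image_of_injective _ (Fin.cons_right_injective _)]
          exact hTc i0
        refine le_trans ?_ (Finset.sum_le_sum h1)
        rw [Finset.sum_const, Finset.card_univ, Fintype.card_fin, smul_eq_mul, Fin.prod_univ_succ]
      · intro i0 _ i1 _ hne
        rw [Function.onFun, Finset.disjoint_left]
        intro c hc hc'
        obtain ⟨c0, _, rfl⟩ := Finset.mem_image.1 hc
        obtain ⟨c1, _, h1⟩ := Finset.mem_image.1 hc'
        have h2 := congrFun h1 0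
        simp only [Fin.cons_zero] at h2
        apply hne
        have h3 : (((i1 : ℕ) : ℤ) : ZMod P) = (((i0 : ℕ) : ℤ) : ZMod P) := by
          push_cast at h2 ⊢
          exact add_left_cancel h2
        have h4 : ((i1 : ℕ) : ZMod P) = ((i0 : ℕ) : ZMod P) := by exact_mod_cast h3
        rw [ZMod.natCast_eq_natCast_iff'] at h4
        have h5 : (i1 : ℕ) < P := i1.2.trans_le (hρP 0)
        have h6 : (i0 : ℕ) < P := i0.2.trans_le (hρP 0)
        rw [Nat.mod_eq_of_lt h5, Nat.mod_eq_of_lt h6] at h4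
        exact (Fin.ext h4).symm
    · intro c hc
      obtain ⟨i0, _, hc⟩ := Finset.mem_biUnion.1 hc
      obtain ⟨c', hc', rfl⟩ := Finset.mem_image.1 hc
      obtain ⟨κ, hκ, s, hs, hx⟩ := hT i0 c' hc'
      refine ⟨Fin.cons (t0 + (i0 : ℕ) : ℤ) κ, fun j => ?_, Fin.cons (s0 i0) s, fun j => ?_,
        fun i => ?_⟩
      · refine Fin.cases ?_ (fun j => ?_) j
        · simp
        · simpa using hκ j
      · refine Fin.cases ?_ (fun j => ?_) j
        · simpa using hs0b i0
        · simpa using hs j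
      · rw [Fin.sum_univ_succ]
        simp only [Fin.cons_zero, Fin.cons_succ]
        refine Fin.cases ?_ (fun i => ?_) i
        · simp only [Fin.cons_zero]
          have h1 : ∑ j : Fin b, s j * w j.succ 0 = 0 :=
            Finset.sum_eq_zero fun j _ => by rw [hw0 _ _ (Fin.succ_pos j), mul_zero]
          rw [h1, add_zero]
          exact hs0e i0
        · simp only [Fin.cons_succ]
          rw [← hx i]; ring

end Crest.Agent.R225
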