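import Crest.Agent.R225.Defs

/-!
# Row 225 (S0347): calculus of `Ex` (expectation over further uniform rows)

Linearity, monotonicity, tower law, suffix functions, Markov and union bounds, products of one-step
bounds, union bound over the first failing time.
-/

set_option autoImplicit false

open Finset
open scoped BigOperators

namespace Crest.Agent.R225.ExCalc

variable {P m : ℕ} [NeZero P]

theorem Ex_zero (F : List (Row P m) → ℝ) (rows : List (Row P m)) : Ex 0 F rows = F rows := rfl

theorem Ex_succ (k : ℕ) (F : List (Row P m) → ℝ) (rows : List (Row P m)) :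
    Ex (k + 1) F rows = 𝔼 r : Row P m, Ex k F (r :: rows) := rfl

/-- only lists `l ++ rows` with `l.length = k` matter -/
theorem Ex_congr (k : ℕ) {F G : List (Row P m) → ℝ} (rows : List (Row P m))
    (h : ∀ l : List (Row P m), l.length = k → F (l ++ rows) = G (l ++ rows)) :
    Ex k F rows = Ex k G rows := by
  induction k generalizing rows with
  | zero => exact h [] rfl
  | succ k ih =>
    rw [Ex_succ, Ex_succ]
    refine Finset.expect_congr rfl fun r _ => ih (r :: rows) fun l hl => ?_
    have := h (l ++ [r]) (by simp [hl])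
    simpa using this

theorem Ex_mono (k : ℕ) {F G : List (Row P m) → ℝ} (rows : List (Row P m))
    (h : ∀ l : List (Row P m), l.length = k → F (l ++ rows) ≤ G (l ++ rows)) :
    Ex k F rows ≤ Ex k G rows := by
  induction k generalizing rows with
  | zero => exact h [] rfl
  | succ k ih =>
    rw [Ex_succ, Ex_succ]
    refine Finset.expect_le_expect fun r _ => ih (r :: rows) fun l hl => ?_
    have := h (l ++ [r]) (by simp [hl])
    simpa using this

theorem Ex_const (k : ℕ) (c : ℝ) (rows : List (Row P m)) : Ex k (fun _ => c) rows = c := by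
  induction k generalizing rows with
  | zero => rfl
  | succ k ih =>
    rw [Ex_succ]
    simp only [ih]
    exact Finset.expect_const univ_nonempty c

theorem Ex_nonneg (k : ℕ) {F : List (Row P m) → ℝ} (rows : List (Row P m))
    (h : ∀ l : List (Row P m), l.length = k → 0 ≤ F (l ++ rows)) : 0 ≤ Ex k F rows := by
  have := Ex_mono k (F := fun _ => (0 : ℝ)) (G := F) rows h
  rwa [Ex_const] at this

theorem Ex_le_const (k : ℕ) {F : List (Row P m) → ℝ} {c : ℝ} (rows : List (Row P m))
    (h : ∀ l : List (Row P m), l.length = k → F (l ++ rows) ≤ c) : Ex k F rows ≤ c := by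
  have := Ex_mono k (F := F) (G := fun _ => c) rows h
  rwa [Ex_const] at this

theorem Ex_add (k : ℕ) (F G : List (Row P m) → ℝ) (rows : List (Row P m)) :
    Ex k (fun l => F l + G l) rows = Ex k F rows + Ex k G rows := by
  induction k generalizing rows with
  | zero => rfl
  | succ k ih =>
    rw [Ex_succ, Ex_succ, Ex_succ, ← Finset.expect_add_distrib]
    exact Finset.expect_congr rfl fun r _ => ih (r :: rows)

theorem Ex_mul_left (k : ℕ) (c : ℝ) (F : List (Row P m) → ℝ) (rows : List (Row P m)) :
    Ex k (fun l => c * F l) rows = c * Ex k F rows := by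
  induction k generalizing rows with
  | zero => rfl
  | succ k ih =>
    rw [Ex_succ, Ex_succ, Finset.mul_expect]
    exact Finset.expect_congr rfl fun r _ => ih (r :: rows)

theorem Ex_mul_right (k : ℕ) (c : ℝ) (F : List (Row P m) → ℝ) (rows : List (Row P m)) :
    Ex k (fun l => F l * c) rows = Ex k F rows * c := by
  simp_rw [mul_comm _ c]
  exact Ex_mul_left k c F rows

theorem Ex_neg (k : ℕ) (F : List (Row P m) → ℝ) (rows : List (Row P m)) :
    Ex k (fun l => -F l) rows = -Ex k F rows := by
  have := Ex_mul_left k (-1) F rows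
  simpa using this

theorem Ex_sub (k : ℕ) (F G : List (Row P m) → ℝ) (rows : List (Row P m)) :
    Ex k (fun l => F l - G l) rows = Ex k F rows - Ex k G rows := by
  have := Ex_add k F (fun l => -G l) rows
  simp only [Ex_neg] at this
  simpa [sub_eq_add_neg] using this

theorem Ex_sum {ι : Type*} (s : Finset ι) (k : ℕ) (F : ι → List (Row P m) → ℝ)
    (rows : List (Row P m)) :
    Ex k (fun l => ∑ i ∈ s, F i l) rows = ∑ i ∈ s, Ex k (F i) rows := by
  classical
  induction s using Finset.induction_on with
  | empty => simp [Ex_const]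
  | insert a s ha ih =>
    simp only [Finset.sum_insert ha]
    rw [Ex_add, ih]

theorem abs_Ex_le (k : ℕ) (F : List (Row P m) → ℝ) (rows : List (Row P m)) :
    |Ex k F rows| ≤ Ex k (fun l => |F l|) rows := by
  rw [abs_le]
  constructor
  · rw [← Ex_neg]
    exact Ex_mono k rows fun l _ => neg_abs_le _
  · exact Ex_mono k rows fun l _ => le_abs_self _

/-- tower law -/
theorem Ex_tower (j k : ℕ) (F : List (Row P m) → ℝ) (rows : List (Row P m)) :
    Ex (j + k) F rows = Ex j (fun l => Ex k F l) rows := by
  induction j generalizing rows with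
  | zero => simp [Ex_zero]
  | succ j ih =>
    rw [show j + 1 + k = (j + k) + 1 by ring, Ex_succ, Ex_succ]
    exact Finset.expect_congr rfl fun r _ => ih (r :: rows)

theorem Ex_succ' (k : ℕ) (F : List (Row P m) → ℝ) (rows : List (Row P m)) :
    Ex (k + 1) F rows = Ex k (fun l => 𝔼 r : Row P m, F (r :: l)) rows := by
  rw [Ex_tower k 1]
  rfl

/-- a function of the first `j` of `j + k` new rows -/
theorem Ex_drop (j k : ℕ) (F : List (Row P m) → ℝ) (rows : List (Row P m)) :
    Ex (j + k) (fun l => F (l.drop k)) rows = Ex j F rows := by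
  rw [Ex_tower]
  refine Ex_congr j rows fun l _ => ?_
  rw [Ex_congr k (F := fun l => F (l.drop k)) (G := fun _ => F (l ++ rows)) (l ++ rows), Ex_const]
  intro l' hl'
  rw [List.drop_append_of_le_length (by omega), List.drop_of_length_le (by omega)]
  simp

/-- a property of the first `j` of `k ≥ j` new rows -/
theorem Ex_drop_of_le {j k : ℕ} (hjk : j ≤ k) (F : List (Row P m) → ℝ) (rows : List (Row P m)) :
    Ex k (fun l => F (l.drop (k - j))) rows = Ex j F rows := by
  have := Ex_drop j (k - j) F rows
  rwa [Nat.add_sub_cancel' hjk] at this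

open scoped Classical in
/-- probability of an event -/
theorem Ex_ind_le_one (k : ℕ) (A : List (Row P m) → Prop) (rows : List (Row P m)) :
    Ex k (fun l => if A l then (1 : ℝ) else 0) rows ≤ 1 :=
  Ex_le_const k rows fun l _ => by split_ifs <;> norm_num

open scoped Classical in
theorem Ex_ind_nonneg (k : ℕ) (A : List (Row P m) → Prop) (rows : List (Row P m)) :
    0 ≤ Ex k (fun l => if A l then (1 : ℝ) else 0) rows :=
  Ex_nonneg k rows fun l _ => by split_ifs <;> norm_num

open scoped Classical in
theorem Ex_ind_mono (k : ℕ) {A B : List (Row P m) → Prop} (rows : List (Row P m))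
    (h : ∀ l : List (Row P m), l.length = k → A (l ++ rows) → B (l ++ rows)) :
    Ex k (fun l => if A l then (1 : ℝ) else 0) rows ≤
      Ex k (fun l => if B l then (1 : ℝ) else 0) rows :=
  Ex_mono k rows fun l hl => by
    by_cases hA : A (l ++ rows)
    · simp [hA, h l hl hA]
    · simp only [hA, if_false]
      split_ifs <;> norm_num

open scoped Classical in
theorem Ex_ind_or_le (k : ℕ) (A B : List (Row P m) → Prop) (rows : List (Row P m)) :
    Ex k (fun l => if A l ∨ B l then (1 : ℝ) else 0) rows ≤
      Ex k (fun l => if A l then (1 : ℝ) else 0) rows +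
      Ex k (fun l => if B l then (1 : ℝ) else 0) rows := by
  rw [← Ex_add]
  refine Ex_mono k rows fun l _ => ?_
  by_cases hA : A (l ++ rows) <;> by_cases hB : B (l ++ rows) <;> simp [hA, hB]

open scoped Classical in
/-- union bound -/
theorem Ex_ind_exists_le {ι : Type*} (s : Finset ι) (k : ℕ) (A : ι → List (Row P m) → Prop)
    (rows : List (Row P m)) :
    Ex k (fun l => if ∃ i ∈ s, A i l then (1 : ℝ) else 0) rows ≤
      ∑ i ∈ s, Ex k (fun l => if A i l then (1 : ℝ) else 0) rows := by
  rw [← Ex_sum]
  refine Ex_mono k rows fun l _ => ?_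
  split_ifs with h
  · obtain ⟨i, hi, hA⟩ := h
    refine le_trans ?_ (Finset.single_le_sum (f := fun i => if A i (l ++ rows) then (1 : ℝ) else 0)
      (fun j _ => by split_ifs <;> norm_num) hi)
    simp [hA]
  · exact Finset.sum_nonneg fun i _ => by split_ifs <;> norm_num

open scoped Classical in
/-- Markov's inequality -/
theorem Ex_markov (k : ℕ) (F : List (Row P m) → ℝ) (rows : List (Row P m)) {a : ℝ} (ha : 0 < a)
    (hF : ∀ l : List (Row P m), l.length = k → 0 ≤ F (l ++ rows)) :
    Ex k (fun l => if a ≤ F l then (1 : ℝ) else 0) rows ≤ Ex k F rows / a := by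
  rw [le_div_iff₀ ha, ← Ex_mul_right]
  refine Ex_mono k rows fun l hl => ?_
  split_ifs with h
  · simpa using h
  · simpa using hF l hl

open scoped Classical in
theorem Ex_markov_lt (k : ℕ) (F : List (Row P m) → ℝ) (rows : List (Row P m)) {a : ℝ} (ha : 0 < a)
    (hF : ∀ l : List (Row P m), l.length = k → 0 ≤ F (l ++ rows)) :
    Ex k (fun l => if a < F l then (1 : ℝ) else 0) rows ≤ Ex k F rows / a :=
  le_trans (Ex_ind_mono k (A := fun l => a < F l) (B := fun l => a ≤ F l) rows
    fun _ _ h => le_of_lt h) (Ex_markov k F rows ha hF)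

/-- product of one-step bounds (supermartingale with factors) -/
theorem Ex_le_prod (t : ℕ) (c : ℕ → ℝ) (Φ : List (Row P m) → ℝ) (rows : List (Row P m))
    (hc : ∀ j < t, 0 ≤ c j)
    (h : ∀ l : List (Row P m), l.length < t →
      𝔼 r : Row P m, Φ (r :: (l ++ rows)) ≤ c l.length * Φ (l ++ rows)) :
    Ex t Φ rows ≤ (∏ j ∈ range t, c j) * Φ rows := by
  induction t with
  | zero => simp [Ex_zero]
  | succ t ih =>
    rw [Ex_succ', Finset.prod_range_succ]
    calc Ex t (fun l => 𝔼 r : Row P m, Φ (r :: l)) rows
        ≤ Ex t (fun l => c t * Φ l) rows :=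
          Ex_mono t rows fun l hl => by
            have := h l (by omega)
            rwa [hl] at this
      _ = c t * Ex t Φ rows := Ex_mul_left t _ _ rows
      _ ≤ c t * ((∏ j ∈ range t, c j) * Φ rows) :=
          mul_le_mul_of_nonneg_left
            (ih (fun j hj => hc j (by omega)) fun l hl => h l (by omega)) (hc t (by omega))
      _ = _ := by ring

open scoped Classical in
/-- first failing time: `C` is a property of row lists; if not all suffixes (extending `rows`)
satisfy `C` then there is a first one that does not. -/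
theorem Ex_first_fail (k : ℕ) (C : List (Row P m) → Prop) (rows : List (Row P m)) :
    Ex k (fun l => if ∀ s, s <:+ l → rows.length ≤ s.length → C s then (0 : ℝ) else 1) rows ≤
      ∑ j ∈ range (k + 1), Ex j (fun l => if (∀ s, s <:+ l → rows.length ≤ s.length →
        s.length < l.length → C s) ∧ ¬ C l then (1 : ℝ) else 0) rows := by
  have key : ∀ j ∈ range (k + 1),
      Ex j (fun l => if (∀ s, s <:+ l → rows.length ≤ s.length →
        s.length < l.length → C s) ∧ ¬ C l then (1 : ℝ) else 0) rows =
      Ex k (fun l => if (∀ s, s <:+ (l.drop (k - j)) → rows.length ≤ s.length →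
        s.length < (l.drop (k - j)).length → C s) ∧ ¬ C (l.drop (k - j)) then (1 : ℝ) else 0)
        rows := by
    intro j hj
    have hj' : j ≤ k := by
      have := mem_range.1 hj
      omega
    exact (Ex_drop_of_le hj' (fun l => if (∀ s, s <:+ l → rows.length ≤ s.length →
        s.length < l.length → C s) ∧ ¬ C l then (1 : ℝ) else 0) rows).symm
  rw [Finset.sum_congr rfl key, ← Ex_sum]
  refine Ex_mono k rows fun l hl => ?_
  split_ifs with h
  · exact Finset.sum_nonneg fun i _ => by split_ifs <;> norm_num
  · push Not at h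
    -- choose the shortest failing suffix
    have hex : ∃ n : ℕ, ∃ s, s <:+ l ++ rows ∧ rows.length ≤ s.length ∧ ¬ C s ∧ s.length = n := by
      obtain ⟨s, h1, h2, h3⟩ := h
      exact ⟨s.length, s, h1, h2, h3, rfl⟩
    obtain ⟨s, hs1, hs2, hs3, hs4⟩ := Nat.find_spec hex
    have hmin := fun n hn => Nat.find_min hex (m := n) hn
    have hslen : s.length ≤ k + rows.length := by
      have := hs1.length_le
      simpa [hl] using this
    have hdrop : (l ++ rows).drop (k - (s.length - rows.length)) = s := by
      have h1 := List.suffix_iff_eq_drop.1 hs1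
      have h2 : (l ++ rows).length - s.length = k - (s.length - rows.length) := by
        rw [List.length_append, hl]
        omega
      rw [h2] at h1
      exact h1.symm
    have hmem : s.length - rows.length ∈ range (k + 1) := by
      rw [mem_range]; omega
    refine le_trans ?_ (Finset.single_le_sum (f := fun j => if (∀ s, s <:+ ((l ++ rows).drop (k - j)) →
      rows.length ≤ s.length → s.length < ((l ++ rows).drop (k - j)).length → C s) ∧
      ¬ C ((l ++ rows).drop (k - j)) then (1 : ℝ) else 0)
      (fun j _ => by split_ifs <;> norm_num) hmem)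
    rw [hdrop, if_pos]
    refine ⟨fun s' hs' hlen hlt => ?_, hs3⟩
    by_contra hC
    exact hmin s'.length (by rw [← hs4]; exact hlt) ⟨s', hs'.trans hs1, hlen, hC, rfl⟩

end Crest.Agent.R225.ExCalc
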