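import Crest.Agent.R225.Defs
import Crest.Agent.R225.Iface

/-!
# Row 225: basic library for the iterated expectation `Ex`, alive sets and weights
-/

set_option autoImplicit false
set_option linter.unusedSectionVars false

open Finset
open scoped BigOperators

namespace Crest.Agent.R225

variable {P m : ℕ} [NeZero P]

theorem Ex_zero (F : List (Row P m) → ℝ) (rows : List (Row P m)) : Ex 0 F rows = F rows := rfl

theorem Ex_succ (k : ℕ) (F : List (Row P m) → ℝ) (rows : List (Row P m)) :
    Ex (k + 1) F rows = 𝔼 r : Row P m, Ex k F (r :: rows) := rfl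

/-- tower law -/
theorem Ex_add (j k : ℕ) (F : List (Row P m) → ℝ) (rows : List (Row P m)) :
    Ex (j + k) F rows = Ex j (fun rows' => Ex k F rows') rows := by
  induction j generalizing rows with
  | zero => simp [Ex_zero]
  | succ j ih =>
    rw [show j + 1 + k = (j + k) + 1 by ring, Ex_succ, Ex_succ]
    exact Finset.expect_congr rfl (fun r _ => ih (r :: rows))

theorem Ex_succ' (k : ℕ) (F : List (Row P m) → ℝ) (rows : List (Row P m)) :
    Ex (k + 1) F rows = Ex k (fun rows' => 𝔼 r : Row P m, F (r :: rows')) rows := by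
  rw [Ex_add k 1]; rfl

/-- monotonicity; the hypothesis is only needed at the lists reached by the process -/
theorem Ex_mono_of (k : ℕ) (F G : List (Row P m) → ℝ) (rows : List (Row P m))
    (h : ∀ l : List (Row P m), l.length = k → F (l ++ rows) ≤ G (l ++ rows)) :
    Ex k F rows ≤ Ex k G rows := by
  induction k generalizing rows with
  | zero => simpa [Ex_zero] using h [] rfl
  | succ k ih =>
    rw [Ex_succ, Ex_succ]
    refine Finset.expect_le_expect (fun r _ => ih (r :: rows) ?_)
    intro l hl
    have := h (l ++ [r]) (by simp [hl])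
    simpa using this

theorem Ex_congr_of (k : ℕ) (F G : List (Row P m) → ℝ) (rows : List (Row P m))
    (h : ∀ l : List (Row P m), l.length = k → F (l ++ rows) = G (l ++ rows)) :
    Ex k F rows = Ex k G rows :=
  le_antisymm (Ex_mono_of k F G rows fun l hl => (h l hl).le)
    (Ex_mono_of k G F rows fun l hl => (h l hl).ge)

theorem Ex_const (k : ℕ) (c : ℝ) (rows : List (Row P m)) : Ex k (fun _ => c) rows = c := by
  induction k generalizing rows with
  | zero => rfl
  | succ k ih =>
    rw [Ex_succ]
    simp only [ih]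
    exact Finset.expect_const univ_nonempty c

theorem Ex_le_of (k : ℕ) (F : List (Row P m) → ℝ) (c : ℝ) (rows : List (Row P m))
    (h : ∀ l : List (Row P m), l.length = k → F (l ++ rows) ≤ c) : Ex k F rows ≤ c := by
  calc Ex k F rows ≤ Ex k (fun _ => c) rows := Ex_mono_of k F _ rows h
    _ = c := Ex_const k c rows

theorem le_Ex_of (k : ℕ) (F : List (Row P m) → ℝ) (c : ℝ) (rows : List (Row P m))
    (h : ∀ l : List (Row P m), l.length = k → c ≤ F (l ++ rows)) : c ≤ Ex k F rows := by
  calc c = Ex k (fun _ => c) rows := (Ex_const k c rows).symm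
    _ ≤ Ex k F rows := Ex_mono_of k _ F rows h

theorem Ex_nonneg_of (k : ℕ) (F : List (Row P m) → ℝ) (rows : List (Row P m))
    (h : ∀ l : List (Row P m), l.length = k → 0 ≤ F (l ++ rows)) : 0 ≤ Ex k F rows :=
  le_Ex_of k F 0 rows h

theorem Ex_add_fun (k : ℕ) (F G : List (Row P m) → ℝ) (rows : List (Row P m)) :
    Ex k (fun l => F l + G l) rows = Ex k F rows + Ex k G rows := by
  induction k generalizing rows with
  | zero => rfl
  | succ k ih =>
    simp only [Ex_succ, ih]
    exact Finset.expect_add_distrib _ _ _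

theorem Ex_mul_left (k : ℕ) (c : ℝ) (F : List (Row P m) → ℝ) (rows : List (Row P m)) :
    Ex k (fun l => c * F l) rows = c * Ex k F rows := by
  induction k generalizing rows with
  | zero => rfl
  | succ k ih =>
    simp only [Ex_succ, ih]
    exact (Finset.mul_expect _ _ _).symm

theorem Ex_mul_right (k : ℕ) (c : ℝ) (F : List (Row P m) → ℝ) (rows : List (Row P m)) :
    Ex k (fun l => F l * c) rows = Ex k F rows * c := by
  have := Ex_mul_left k c F rows
  simp only [mul_comm c] at this
  exact this

theorem Ex_neg (k : ℕ) (F : List (Row P m) → ℝ) (rows : List (Row P m)) :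
    Ex k (fun l => - F l) rows = - Ex k F rows := by
  have := Ex_mul_left k (-1) F rows
  simpa using this

theorem Ex_sub_fun (k : ℕ) (F G : List (Row P m) → ℝ) (rows : List (Row P m)) :
    Ex k (fun l => F l - G l) rows = Ex k F rows - Ex k G rows := by
  have := Ex_add_fun k F (fun l => - G l) rows
  simp only [← sub_eq_add_neg, Ex_neg] at this
  exact this

theorem Ex_finset_sum {ι : Type*} (k : ℕ) (s : Finset ι) (F : ι → List (Row P m) → ℝ)
    (rows : List (Row P m)) :
    Ex k (fun l => ∑ i ∈ s, F i l) rows = ∑ i ∈ s, Ex k (F i) rows := by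
  classical
  induction s using Finset.induction_on with
  | empty => simpa using Ex_const k 0 rows
  | insert a s ha ih =>
    simp only [Finset.sum_insert ha]
    rw [Ex_add_fun, ih]

open scoped Classical in
/-- Markov's inequality, `t ≤ F` version -/
theorem Ex_markov (k : ℕ) (F : List (Row P m) → ℝ) (t : ℝ) (ht : 0 < t) (rows : List (Row P m))
    (hF : ∀ l : List (Row P m), l.length = k → 0 ≤ F (l ++ rows)) :
    Ex k (fun l => if t ≤ F l then (1 : ℝ) else 0) rows ≤ Ex k F rows / t := by
  rw [div_eq_mul_inv, ← Ex_mul_right]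
  refine Ex_mono_of k _ _ rows (fun l hl => ?_)
  split_ifs with h
  · rw [← div_eq_mul_inv, le_div_iff₀ ht]; linarith
  · exact mul_nonneg (hF l hl) (by positivity)

open scoped Classical in
/-- Markov's inequality restricted to an event -/
theorem Ex_markov_and (k : ℕ) (A : List (Row P m) → Prop) (F : List (Row P m) → ℝ) (t : ℝ)
    (ht : 0 < t) (rows : List (Row P m))
    (hF : ∀ l : List (Row P m), l.length = k → 0 ≤ F (l ++ rows)) :
    Ex k (fun l => if A l ∧ t ≤ F l then (1 : ℝ) else 0) rows
      ≤ Ex k (fun l => if A l then F l else 0) rows / t := by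
  rw [div_eq_mul_inv, ← Ex_mul_right]
  refine Ex_mono_of k _ _ rows (fun l hl => ?_)
  split_ifs with h1 h2 h2
  · rw [← div_eq_mul_inv, le_div_iff₀ ht]; linarith [h1.2]
  · exact absurd h1.1 h2
  · exact mul_nonneg (hF l hl) (by positivity)
  · simp

open scoped Classical in
/-- union bound -/
theorem Ex_union {ι : Type*} (k : ℕ) (s : Finset ι) (A : List (Row P m) → Prop)
    (B : ι → List (Row P m) → Prop) (rows : List (Row P m))
    (h : ∀ l : List (Row P m), l.length = k → A (l ++ rows) → ∃ i ∈ s, B i (l ++ rows)) :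
    Ex k (fun l => if A l then (1 : ℝ) else 0) rows
      ≤ ∑ i ∈ s, Ex k (fun l => if B i l then (1 : ℝ) else 0) rows := by
  rw [← Ex_finset_sum]
  refine Ex_mono_of k _ _ rows (fun l hl => ?_)
  by_cases hA : A (l ++ rows)
  · obtain ⟨i, hi, hB⟩ := h l hl hA
    rw [if_pos hA]
    calc (1 : ℝ) = (if B i (l ++ rows) then (1 : ℝ) else 0) := by rw [if_pos hB]
      _ ≤ _ := Finset.single_le_sum (f := fun i => if B i (l ++ rows) then (1 : ℝ) else 0)
        (fun j _ => by split_ifs <;> norm_num) hi
  · rw [if_neg hA]
    exact Finset.sum_nonneg (fun j _ => by split_ifs <;> norm_num)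

open scoped Classical in
/-- implication of events -/
theorem Ex_ind_mono (k : ℕ) (A B : List (Row P m) → Prop) (rows : List (Row P m))
    (h : ∀ l : List (Row P m), l.length = k → A (l ++ rows) → B (l ++ rows)) :
    Ex k (fun l => if A l then (1 : ℝ) else 0) rows
      ≤ Ex k (fun l => if B l then (1 : ℝ) else 0) rows := by
  refine Ex_mono_of k _ _ rows (fun l hl => ?_)
  by_cases hA : A (l ++ rows)
  · rw [if_pos hA, if_pos (h l hl hA)]
  · rw [if_neg hA]; split_ifs <;> norm_num

open scoped Classical in
theorem Ex_compl (k : ℕ) (A : List (Row P m) → Prop) (rows : List (Row P m)) :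
    Ex k (fun l => if A l then (1 : ℝ) else 0) rows
      + Ex k (fun l => if A l then (0 : ℝ) else 1) rows = 1 := by
  rw [← Ex_add_fun]
  rw [show (fun l : List (Row P m) => (if A l then (1 : ℝ) else 0) + (if A l then (0 : ℝ) else 1))
    = fun _ => (1 : ℝ) from by funext l; split_ifs <;> norm_num]
  exact Ex_const k 1 rows

open scoped Classical in
/-- the expectation after `k` rows is bounded by `b` if it is on an event after the first `j`
rows, whose complement has probability `≤ a` -/
theorem Ex_split (j k : ℕ) (A : List (Row P m) → Prop) (F : List (Row P m) → ℝ) (a b : ℝ)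
    (rows : List (Row P m)) (hb : 0 ≤ b)
    (hF : ∀ l : List (Row P m), l.length = j + k → F (l ++ rows) ≤ 1)
    (hA : Ex j (fun l => if A l then (0 : ℝ) else 1) rows ≤ a)
    (hB : ∀ l : List (Row P m), l.length = j → A (l ++ rows) → Ex k F (l ++ rows) ≤ b) :
    Ex (j + k) F rows ≤ a + b := by
  rw [Ex_add]
  calc Ex j (fun rows' => Ex k F rows') rows
      ≤ Ex j (fun l => (if A l then (0 : ℝ) else 1) + b) rows := by
        refine Ex_mono_of j _ _ rows (fun l hl => ?_)
        by_cases hAl : A (l ++ rows)
        · rw [if_pos hAl]; linarith [hB l hl hAl]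
        · rw [if_neg hAl]
          have : Ex k F (l ++ rows) ≤ 1 := by
            refine Ex_le_of k F 1 _ (fun l' hl' => ?_)
            have := hF (l' ++ l) (by simp [hl, hl']; omega)
            simpa using this
          linarith
    _ = Ex j (fun l => if A l then (0 : ℝ) else 1) rows + b := by
        rw [Ex_add_fun, Ex_const]
    _ ≤ a + b := by linarith

/-! ### one point: the residue is uniform -/

theorem expect_res (g : Pt m) (f : ZMod P → ℝ) :
    𝔼 r : Row P m, f (res r g) = 𝔼 x, f x := by
  have h1 : (𝔼 r : Row P m, f (res r g)) =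
      𝔼 c : ZMod P, 𝔼 ψ : Fin m → ZMod P, f (c + ∑ k, ψ k * (g k : ZMod P)) := by
    rw [← Finset.expect_product' (s := (univ : Finset (ZMod P)))
      (t := (univ : Finset (Fin m → ZMod P)))
      (f := fun c ψ => f (c + ∑ k, ψ k * (g k : ZMod P)))]
    rw [Finset.univ_product_univ]
    rfl
  rw [h1, Finset.expect_comm]
  calc (𝔼 ψ : Fin m → ZMod P, 𝔼 c : ZMod P, f (c + ∑ k, ψ k * (g k : ZMod P)))
      = 𝔼 _ψ : Fin m → ZMod P, 𝔼 x, f x := by
        refine Finset.expect_congr rfl (fun ψ _ => ?_)
        exact Fintype.expect_equiv (Equiv.addRight (∑ k, ψ k * (g k : ZMod P))) _ _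
          (fun c => by simp)
    _ = 𝔼 x, f x := Fintype.expect_const _

/-! ### alive sets -/

variable {w : Pt m → List (ZMod P) → ℝ} {b : ℕ} {α τ : ℕ → ℝ} {ε : ℝ} {G : Finset (Pt m)}

theorem mem_alive {rows : List (Row P m)} {g : Pt m} :
    g ∈ alive w G rows ↔ g ∈ G ∧ 0 < wt w rows g := by
  classical
  simp [alive]

theorem alive_subset (rows : List (Row P m)) : alive w G rows ⊆ G := fun _ hg =>
  (mem_alive.1 hg).1

theorem hist_cons (r : Row P m) (rows : List (Row P m)) (g : Pt m) :
    hist (r :: rows) g = res r g :: hist rows g := rfl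

theorem hist_length (rows : List (Row P m)) (g : Pt m) : (hist rows g).length = rows.length := by
  simp [hist]

theorem hist_append (l rows : List (Row P m)) (g : Pt m) :
    hist (l ++ rows) g = hist l g ++ hist rows g := by simp [hist]

theorem wt_cons (r : Row P m) (rows : List (Row P m)) (g : Pt m) :
    wt w (r :: rows) g = w g (res r g :: hist rows g) := rfl

theorem WHyp.wt_dead (hw : WHyp w b α τ ε) {rows : List (Row P m)} {g : Pt m}
    (h : wt w rows g = 0) (r : Row P m) : wt w (r :: rows) g = 0 :=
  hw.dead g _ _ h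

theorem WHyp.wt_dead_append (hw : WHyp w b α τ ε) {rows : List (Row P m)} {g : Pt m}
    (h : wt w rows g = 0) (l : List (Row P m)) : wt w (l ++ rows) g = 0 := by
  induction l with
  | nil => simpa using h
  | cons r l ih => simpa using hw.wt_dead ih r

theorem WHyp.wt_rng (hw : WHyp w b α τ ε) {rows : List (Row P m)} (hl : rows.length ≤ b)
    (g : Pt m) : wt w rows g = 0 ∨
      (τ rows.length * α rows.length ≤ wt w rows g ∧ wt w rows g ≤ α rows.length) := by
  have := hw.rng g (hist rows g) (by simpa [hist_length] using hl)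
  simpa [hist_length, wt] using this

theorem WHyp.wt_nonneg (hw : WHyp w b α τ ε) {rows : List (Row P m)} (hl : rows.length ≤ b)
    (h0 : 0 ≤ τ rows.length * α rows.length) (g : Pt m) : 0 ≤ wt w rows g := by
  rcases hw.wt_rng hl g with h | h
  · exact h.ge
  · exact h0.trans h.1

theorem WHyp.le_wt (hw : WHyp w b α τ ε) {rows : List (Row P m)} (hl : rows.length ≤ b)
    {g : Pt m} (hg : g ∈ alive w G rows) : τ rows.length * α rows.length ≤ wt w rows g := by
  rcases hw.wt_rng hl g with h | h
  · exact absurd (mem_alive.1 hg).2 (by rw [h]; exact lt_irrefl 0)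
  · exact h.1

theorem WHyp.wt_le (hw : WHyp w b α τ ε) {rows : List (Row P m)} (hl : rows.length ≤ b)
    (h0 : 0 ≤ α rows.length) (g : Pt m) : wt w rows g ≤ α rows.length := by
  rcases hw.wt_rng hl g with h | h
  · rw [h]; exact h0
  · exact h.2

theorem WHyp.not_mem_alive (hw : WHyp w b α τ ε) {rows : List (Row P m)} (hl : rows.length ≤ b)
    (h0 : 0 ≤ τ rows.length * α rows.length) {g : Pt m} (hg : g ∈ G)
    (hga : g ∉ alive w G rows) : wt w rows g = 0 := by
  rcases (hw.wt_nonneg hl h0 g).lt_or_eq with h | h
  · exact absurd (mem_alive.2 ⟨hg, h⟩) hga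
  · exact h.symm

/-- alive sets are decreasing (weights nonnegative is not needed) -/
theorem WHyp.alive_append_subset (hw : WHyp w b α τ ε) {rows : List (Row P m)}
    (hl : rows.length ≤ b) (h0 : 0 ≤ τ rows.length * α rows.length) (l : List (Row P m)) :
    alive w G (l ++ rows) ⊆ alive w G rows := by
  intro g hg
  by_contra hga
  have h1 := hw.not_mem_alive hl h0 (mem_alive.1 hg).1 hga
  have h2 := hw.wt_dead_append h1 l
  exact absurd (mem_alive.1 hg).2 (by rw [h2]; exact lt_irrefl 0)

theorem WHyp.alive_cons_subset (hw : WHyp w b α τ ε) {rows : List (Row P m)}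
    (hl : rows.length ≤ b) (h0 : 0 ≤ τ rows.length * α rows.length) (r : Row P m) :
    alive w G (r :: rows) ⊆ alive w G rows :=
  hw.alive_append_subset hl h0 [r]

/-- the total weight is carried by the alive set -/
theorem WHyp.Stot_eq (hw : WHyp w b α τ ε) {rows : List (Row P m)} (hl : rows.length ≤ b)
    (h0 : 0 ≤ τ rows.length * α rows.length) :
    Stot w G rows = ∑ g ∈ alive w G rows, wt w rows g := by
  rw [Stot]
  refine (Finset.sum_subset (alive_subset rows) (fun g hg hga => ?_)).symm
  exact hw.not_mem_alive hl h0 hg hga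

theorem WHyp.card_mul_le_Stot (hw : WHyp w b α τ ε) {rows : List (Row P m)}
    (hl : rows.length ≤ b) (h0 : 0 ≤ τ rows.length * α rows.length) :
    ((alive w G rows).card : ℝ) * (τ rows.length * α rows.length) ≤ Stot w G rows := by
  rw [hw.Stot_eq hl h0, ← nsmul_eq_mul]
  exact Finset.card_nsmul_le_sum _ _ _ (fun g hg => hw.le_wt hl hg)

theorem WHyp.Stot_le_card_mul (hw : WHyp w b α τ ε) {rows : List (Row P m)}
    (hl : rows.length ≤ b) (h0 : 0 ≤ τ rows.length * α rows.length)
    (h1 : 0 ≤ α rows.length) :
    Stot w G rows ≤ ((alive w G rows).card : ℝ) * α rows.length := by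
  rw [hw.Stot_eq hl h0, ← nsmul_eq_mul]
  exact Finset.sum_le_card_nsmul _ _ _ (fun g hg => hw.wt_le hl h1 g)

/-- the next-step weight function of the atom `g` -/
theorem WHyp.tvok (hw : WHyp w b α τ ε) {rows : List (Row P m)} (hl : rows.length < b)
    (h0 : 0 ≤ τ (rows.length + 1) * α (rows.length + 1)) (h1 : 0 ≤ α (rows.length + 1))
    (g : Pt m) : TVok (α (rows.length + 1)) (fun ξ => w g (ξ :: hist rows g)) := by
  refine ⟨fun ξ => ?_, ?_⟩
  · have := hw.rng g (ξ :: hist rows g) (by simpa [hist_length] using hl)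
    simp only [List.length_cons, hist_length] at this
    change 0 ≤ w g (ξ :: hist rows g) ∧ w g (ξ :: hist rows g) ≤ α (rows.length + 1)
    rcases this with h | h
    · rw [h]; exact ⟨le_rfl, h1⟩
    · exact ⟨h0.trans h.1, h.2⟩
  · have := hw.tv g (hist rows g) (by simpa [hist_length] using hl)
    simpa only [hist_length] using this

theorem WHyp.mart_wt (hw : WHyp w b α τ ε) {rows : List (Row P m)} (hl : rows.length < b)
    (g : Pt m) : |(𝔼 ξ, w g (ξ :: hist rows g)) - wt w rows g| ≤ ε * α (rows.length + 1) := by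
  have := hw.mart g (hist rows g) (by simpa [hist_length] using hl)
  rw [hist_length] at this
  exact this

/-- the sum of the conditional means over the alive set is close to the present total weight -/
theorem WHyp.sum_mart (hw : WHyp w b α τ ε) {rows : List (Row P m)} (hl : rows.length < b)
    (h0 : 0 ≤ τ rows.length * α rows.length) :
    |(∑ g ∈ alive w G rows, 𝔼 ξ, w g (ξ :: hist rows g)) - Stot w G rows|
      ≤ (alive w G rows).card * (ε * α (rows.length + 1)) := by
  rw [hw.Stot_eq hl.le h0, ← Finset.sum_sub_distrib, ← nsmul_eq_mul]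
  refine (Finset.abs_sum_le_sum_abs _ _).trans ?_
  exact Finset.sum_le_card_nsmul _ _ _ (fun g _ => hw.mart_wt hl g)

/-- after one more row only the atoms alive before carry weight -/
theorem WHyp.Stot_cons (hw : WHyp w b α τ ε) {rows : List (Row P m)} (hl : rows.length ≤ b)
    (h0 : 0 ≤ τ rows.length * α rows.length) (r : Row P m) :
    Stot w G (r :: rows) = ∑ g ∈ alive w G rows, w g (res r g :: hist rows g) := by
  rw [Stot]
  refine (Finset.sum_subset (alive_subset rows) (fun g hg hga => ?_)).symm
  exact hw.wt_dead (hw.not_mem_alive hl h0 hg hga) r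

end Crest.Agent.R225
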