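import Crest.Agent.R225.Iface

/-!
# Row 225 (S0347): final statement from `S_Large` and `S_Small`
-/

set_option autoImplicit false

open MeasureTheory

namespace Crest.Agent.R225

theorem final_result (hL : S_Large) (hS : S_Small) :
    ∃ C : ℝ, ∀ (n : ℕ), 2 ≤ n → ∀ (K : Set (Fin n → ℝ)),
      IsCompact K → Convex ℝ K → (interior K).Nonempty →
        ∃ g : Matrix (Fin n) (Fin n) ℝ, g.det ≠ 0 ∧
          (∀ x : Fin n → ℝ, ∃ z : Fin n → ℤ, x - g.mulVec (fun i => (z i : ℝ)) ∈ K) ∧
          (volume K).toReal / |g.det| ≤ C * n * Real.log n := by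
  obtain ⟨C, n0, hL⟩ := hL
  choose Cs hCs using hS
  -- constant for small dimensions
  set D : ℝ := ∑ n ∈ Finset.range n0, |Cs n| with hD
  have hD0 : 0 ≤ D := Finset.sum_nonneg fun _ _ => abs_nonneg _
  have hlog2 : 0 < Real.log 2 := Real.log_pos (by norm_num)
  refine ⟨|C| + D / Real.log 2, fun n hn K hK hc hi => ?_⟩
  have hnR : (2 : ℝ) ≤ n := by exact_mod_cast hn
  have hlogn : Real.log 2 ≤ Real.log n := Real.log_le_log (by norm_num) hnR
  have hnlog : 0 ≤ (n : ℝ) * Real.log n := by positivity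
  by_cases h : n0 ≤ n
  · obtain ⟨g, hg, hcov, hd⟩ := hL n h K hK hc hi
    refine ⟨g, hg, hcov, hd.trans ?_⟩
    have h1 : C * NN n ≤ |C| * (n * Real.log n) :=
      mul_le_mul_of_nonneg_right (le_abs_self C) hnlog
    have h2 : 0 ≤ D / Real.log 2 * (n * Real.log n) := by positivity
    calc C * NN n ≤ |C| * (n * Real.log n) := h1
      _ ≤ (|C| + D / Real.log 2) * n * Real.log n := by nlinarith
  · obtain ⟨g, hg, hcov, hd⟩ := hCs n K hK hc hi
    refine ⟨g, hg, hcov, hd.trans ?_⟩
    have h1 : Cs n ≤ D := (le_abs_self _).trans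
      (Finset.single_le_sum (f := fun n => |Cs n|) (fun _ _ => abs_nonneg _)
        (Finset.mem_range.2 (not_le.1 h)))
    have h2 : D ≤ D / Real.log 2 * (n * Real.log n) := by
      have : D / Real.log 2 * (n * Real.log n) = D * (n * (Real.log n / Real.log 2)) := by
        field_simp
      rw [this]
      have h3 : 1 ≤ Real.log n / Real.log 2 := (one_le_div hlog2).2 hlogn
      have h4 : 1 ≤ (n : ℝ) * (Real.log n / Real.log 2) := by nlinarith
      nlinarith
    have h3 : 0 ≤ |C| * (n * Real.log n) := by positivity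
    calc Cs n ≤ D := h1
      _ ≤ D / Real.log 2 * (n * Real.log n) := h2
      _ ≤ (|C| + D / Real.log 2) * n * Real.log n := by nlinarith

end Crest.Agent.R225
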