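import Mathlib
import Crest.Agent.Lib.PrekopaLeindler

/-!
# Row 225 (S0347), geometry: one-step module for log-concave weights.
-/

set_option autoImplicit false

open MeasureTheory Set Filter Topology
open scoped ENNReal Pointwise

namespace Crest.Agent.R225.Geo

open Crest.Agent.Lib.PrekopaLeindler

section LC

variable {E : Type*} [AddCommGroup E] [Module ℝ E]

/-- log-concavity of an `ℝ≥0∞`-valued function. -/
def LC (f : E → ℝ≥0∞) : Prop :=
  ∀ ⦃t : ℝ⦄, 0 < t → t < 1 → ∀ x y, f x ^ (1 - t) * f y ^ t ≤ f ((1 - t) • x + t • y)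

lemma LC.marginal {F : Type*} [AddCommGroup F] [Module ℝ F] [MeasurableSpace E]
    [MeasurableSpace F] {ν : Measure F}
    [SFinite ν] (hF : PL F ν) {f : E × F → ℝ≥0∞} (hm : Measurable f) (hf : LC f) :
    LC (fun x => ∫⁻ y, f (x, y) ∂ν) := by
  intro t ht0 ht1 x x'
  refine hF t ht0 ht1 _ _ _ (hm.comp measurable_prodMk_left) (hm.comp measurable_prodMk_left)
    (hm.comp measurable_prodMk_left) ?_
  intro y y'
  exact hf ht0 ht1 (x, y) (x', y')

lemma rpow_iSup {ι : Sort*} (f : ι → ℝ≥0∞) {p : ℝ} (hp : 0 < p) :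
    (⨆ i, f i) ^ p = ⨆ i, f i ^ p :=
  (ENNReal.orderIsoRpow p hp).map_iSup f

lemma LC.iSup {F : Type*} [AddCommGroup F] [Module ℝ F] {f : E × F → ℝ≥0∞} (hf : LC f) :
    LC (fun x => ⨆ y, f (x, y)) := by
  intro t ht0 ht1 x x'
  simp only
  rw [rpow_iSup _ (by linarith : 0 < 1 - t), rpow_iSup _ ht0, ENNReal.iSup_mul]
  refine iSup_le fun y => ?_
  rw [ENNReal.mul_iSup]
  refine iSup_le fun y' => ?_
  exact (hf ht0 ht1 (x, y) (x', y')).trans (le_iSup (fun z => f ((1 - t) • x + t • x', z)) _)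

lemma rpow_mul_rpow_self (c : ℝ≥0∞) {t : ℝ} (ht0 : 0 < t) (ht1 : t < 1) :
    c ^ (1 - t) * c ^ t = c := by
  rw [← ENNReal.rpow_add_of_nonneg _ _ (by linarith) ht0.le]
  simp

lemma LC.min_const {f : E → ℝ≥0∞} (hf : LC f) (c : ℝ≥0∞) : LC (fun x => min (f x) c) := by
  intro t ht0 ht1 x y
  refine le_min ?_ ?_
  · refine le_trans ?_ (hf ht0 ht1 x y)
    gcongr
    · exact min_le_left _ _
    · exact min_le_left _ _
  · calc (min (f x) c) ^ (1 - t) * (min (f y) c) ^ t ≤ c ^ (1 - t) * c ^ t := by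
          gcongr
          · exact min_le_right _ _
          · exact min_le_right _ _
      _ = c := rpow_mul_rpow_self c ht0 ht1

lemma LC.const_mul {f : E → ℝ≥0∞} (hf : LC f) (c : ℝ≥0∞) : LC (fun x => c * f x) := by
  intro t ht0 ht1 x y
  simp only
  rw [ENNReal.mul_rpow_of_nonneg _ _ (by linarith : (0:ℝ) ≤ 1 - t),
    ENNReal.mul_rpow_of_nonneg _ _ ht0.le]
  calc c ^ (1 - t) * f x ^ (1 - t) * (c ^ t * f y ^ t)
      = (c ^ (1 - t) * c ^ t) * (f x ^ (1 - t) * f y ^ t) := by ring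
    _ = c * (f x ^ (1 - t) * f y ^ t) := by rw [rpow_mul_rpow_self c ht0 ht1]
    _ ≤ _ := by gcongr; exact hf ht0 ht1 x y

open Classical in
/-- floor: cut at a level. -/
noncomputable def cut (r : ℝ≥0∞) (f : E → ℝ≥0∞) : E → ℝ≥0∞ := fun x => if r ≤ f x then f x else 0

lemma LC.cut {f : E → ℝ≥0∞} (hf : LC f) (r : ℝ≥0∞) : LC (cut r f) := by
  intro t ht0 ht1 x y
  unfold Geo.cut
  by_cases hx : r ≤ f x
  · by_cases hy : r ≤ f y
    · have h := hf ht0 ht1 x y
      have h2 : r ≤ f ((1 - t) • x + t • y) := by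
        refine le_trans ?_ h
        calc r = r ^ (1 - t) * r ^ t := (rpow_mul_rpow_self r ht0 ht1).symm
          _ ≤ _ := by
            gcongr
      simp only [hx, hy, h2, if_true]
      exact h
    · simp only [hy, if_false]
      rw [ENNReal.zero_rpow_of_pos ht0, mul_zero]
      exact bot_le
  · simp only [hx, if_false]
    rw [ENNReal.zero_rpow_of_pos (by linarith : 0 < 1 - t), zero_mul]
    exact bot_le

lemma LC.mul {f g : E → ℝ≥0∞} (hf : LC f) (hg : LC g) : LC (fun x => f x * g x) := by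
  intro t ht0 ht1 x y
  simp only
  rw [ENNReal.mul_rpow_of_nonneg _ _ (by linarith : (0:ℝ) ≤ 1 - t),
    ENNReal.mul_rpow_of_nonneg _ _ ht0.le]
  calc f x ^ (1 - t) * g x ^ (1 - t) * (f y ^ t * g y ^ t)
      = (f x ^ (1 - t) * f y ^ t) * (g x ^ (1 - t) * g y ^ t) := by ring
    _ ≤ _ := mul_le_mul' (hf ht0 ht1 x y) (hg ht0 ht1 x y)

lemma LC.indicator_one {K : Set E} (hK : Convex ℝ K) : LC (K.indicator (fun _ => (1:ℝ≥0∞))) := by
  intro t ht0 ht1 x y
  by_cases hx : x ∈ K
  · by_cases hy : y ∈ K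
    · have : (1 - t) • x + t • y ∈ K := hK hx hy (by linarith) ht0.le (by ring)
      simp [hx, hy, this]
    · simp [hy, ht0]
  · simp [hx, ENNReal.zero_rpow_of_pos (by linarith : 0 < 1 - t)]

lemma LC.comp_linear {F : Type*} [AddCommGroup F] [Module ℝ F] {f : F → ℝ≥0∞} (hf : LC f)
    (L : E →ₗ[ℝ] F) : LC (fun x => f (L x)) := by
  intro t ht0 ht1 x y
  simp only [map_add, map_smul]
  exact hf ht0 ht1 _ _

end LC





/-- layer cake in logarithmic scale, for one number -/
lemma lintegral_exp_lt (c : ℝ≥0∞) :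
    ∫⁻ w : ℝ, {w : ℝ | ENNReal.ofReal (Real.exp w) < c}.indicator
      (fun w => ENNReal.ofReal (Real.exp w)) w = c := by
  have hmeas : MeasurableSet {w : ℝ | ENNReal.ofReal (Real.exp w) < c} :=
    measurableSet_lt (by fun_prop) measurable_const
  rw [lintegral_indicator hmeas]
  induction c using ENNReal.recTopCoe with
  | top =>
    have : {w : ℝ | ENNReal.ofReal (Real.exp w) < ∞} = univ := by ext w; simp
    rw [this, setLIntegral_univ]
    -- ∫ exp = ∞
    have h1 : ∀ n : ℕ, (n : ℝ≥0∞) ≤ ∫⁻ w : ℝ, ENNReal.ofReal (Real.exp w) := by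
      intro n
      calc (n : ℝ≥0∞) = ∫⁻ w in Ioc (0:ℝ) n, 1 := by simp
        _ ≤ ∫⁻ w in Ioc (0:ℝ) n, ENNReal.ofReal (Real.exp w) := by
            refine setLIntegral_mono (by fun_prop) ?_
            intro w hw
            rw [← ENNReal.ofReal_one]
            exact ENNReal.ofReal_le_ofReal (Real.one_le_exp hw.1.le)
        _ ≤ _ := setLIntegral_le_lintegral _ _
    exact ENNReal.eq_top_of_forall_nnreal_le fun r => by
      obtain ⟨n, hn⟩ := exists_nat_ge r
      exact le_trans (by exact_mod_cast hn) (h1 n)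
  | coe c =>
    rcases eq_or_lt_of_le (bot_le : (⊥:NNReal) ≤ c) with hc | hc
    · have hc' : c = 0 := hc.symm
      subst hc'; simp
    · have hcr : (0:ℝ) < c := by exact_mod_cast hc
      have hset : {w : ℝ | ENNReal.ofReal (Real.exp w) < (c : ℝ≥0∞)} = Iio (Real.log c) := by
        ext w
        simp only [mem_ofPred_eq, mem_Iio]
        rw [← ENNReal.ofReal_coe_nnreal, ENNReal.ofReal_lt_ofReal_iff hcr,
          Real.lt_log_iff_exp_lt hcr]
      rw [hset]
      have hint : IntegrableOn (fun w => Real.exp w) (Iic (Real.log c)) := integrableOn_exp_Iic _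
      rw [← ofReal_integral_eq_lintegral_ofReal (hint.mono_set Iio_subset_Iic_self)
        (Eventually.of_forall fun w => (Real.exp_pos w).le), ← integral_Iic_eq_integral_Iio,
        integral_exp_Iic, Real.exp_log hcr, ENNReal.ofReal_coe_nnreal]

lemma lintegral_ofReal_le (c : ℝ≥0∞) :
    ∫⁻ r in Ioi (0:ℝ), {r : ℝ | ENNReal.ofReal r ≤ c}.indicator (fun _ => (1:ℝ≥0∞)) r = c := by
  have hmeas : MeasurableSet {r : ℝ | ENNReal.ofReal r ≤ c} :=
    measurableSet_le (by fun_prop) measurable_const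
  rw [lintegral_indicator hmeas, Measure.restrict_restrict hmeas]
  simp only [lintegral_const, MeasurableSet.univ, Measure.restrict_apply, univ_inter, one_mul]
  induction c using ENNReal.recTopCoe with
  | top => simp
  | coe c =>
    have : {r : ℝ | ENNReal.ofReal r ≤ (c : ℝ≥0∞)} ∩ Ioi 0 = Ioc 0 (c:ℝ) := by
      ext r
      simp only [mem_inter_iff, mem_ofPred_eq, mem_Ioi, mem_Ioc]
      rw [← ENNReal.ofReal_coe_nnreal, ENNReal.ofReal_le_ofReal_iff c.coe_nonneg]
      tauto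
    rw [this]
    simp

lemma lintegral_ofReal_le_two (c : ℝ≥0∞) :
    ∫⁻ r in Ioi (0:ℝ), {r : ℝ | ENNReal.ofReal r ≤ c}.indicator
      (fun r => 2 * ENNReal.ofReal r) r = c ^ 2 := by
  have hmeas : MeasurableSet {r : ℝ | ENNReal.ofReal r ≤ c} :=
    measurableSet_le (by fun_prop) measurable_const
  rw [lintegral_indicator hmeas, Measure.restrict_restrict hmeas]
  induction c using ENNReal.recTopCoe with
  | top =>
    have : {r : ℝ | ENNReal.ofReal r ≤ ∞} ∩ Ioi 0 = Ioi 0 := by ext; simp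
    rw [this]
    have h1 : ∀ n : ℕ, (n : ℝ≥0∞) ≤ ∫⁻ w in Ioi (0:ℝ), 2 * ENNReal.ofReal w := by
      intro n
      calc (n : ℝ≥0∞) = ∫⁻ w in Ioc (1:ℝ) (n+1), 1 := by simp
        _ ≤ ∫⁻ w in Ioc (1:ℝ) (n+1), 2 * ENNReal.ofReal w := by
            refine setLIntegral_mono (by fun_prop) ?_
            intro w hw
            calc (1:ℝ≥0∞) ≤ 2 * 1 := by norm_num
              _ ≤ 2 * ENNReal.ofReal w := by
                gcongr
                rw [← ENNReal.ofReal_one]
                exact ENNReal.ofReal_le_ofReal hw.1.le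
        _ ≤ _ := lintegral_mono_set fun w hw => lt_trans one_pos hw.1
    have h2 : ∫⁻ w in Ioi (0:ℝ), 2 * ENNReal.ofReal w = ∞ :=
      ENNReal.eq_top_of_forall_nnreal_le fun r => by
        obtain ⟨n, hn⟩ := exists_nat_ge r
        exact le_trans (by exact_mod_cast hn) (h1 n)
    rw [h2]; simp
  | coe c =>
    have : {r : ℝ | ENNReal.ofReal r ≤ (c : ℝ≥0∞)} ∩ Ioi 0 = Ioc 0 (c:ℝ) := by
      ext r
      simp only [mem_inter_iff, mem_ofPred_eq, mem_Ioi, mem_Ioc]
      rw [← ENNReal.ofReal_coe_nnreal, ENNReal.ofReal_le_ofReal_iff c.coe_nonneg]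
      tauto
    rw [this]
    have h1 : ∀ r : ℝ, r ∈ Ioc (0:ℝ) c → (2 * ENNReal.ofReal r) = ENNReal.ofReal (2 * r) := by
      intro r hr
      rw [ENNReal.ofReal_mul (by norm_num)]; norm_num
    rw [setLIntegral_congr_fun measurableSet_Ioc h1,
      ← ofReal_integral_eq_lintegral_ofReal]
    · rw [← intervalIntegral.integral_of_le c.coe_nonneg]
      rw [intervalIntegral.integral_const_mul, integral_id]
      rw [show (2:ℝ) * (((c:ℝ)^2 - 0^2)/2) = (c:ℝ)^2 by ring]
      rw [ENNReal.ofReal_pow c.coe_nonneg, ENNReal.ofReal_coe_nnreal]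
    · exact (Continuous.integrableOn_Icc (by fun_prop)).mono_set Ioc_subset_Icc_self
    · filter_upwards [ae_restrict_mem measurableSet_Ioc] with r hr
      simp only [Pi.zero_apply]
      linarith [hr.1]





/-- 1-D Brunn–Minkowski with weights. -/
lemma bm_comb {A B S : Set ℝ} (hA : MeasurableSet A) (hB : MeasurableSet B)
    (hAn : A.Nonempty) (hBn : B.Nonempty) {t : ℝ} (ht0 : 0 < t) (ht1 : t < 1)
    (hS : ∀ a ∈ A, ∀ b ∈ B, (1 - t) * a + t * b ∈ S) :
    ENNReal.ofReal (1 - t) * volume A + ENNReal.ofReal t * volume B ≤ volume S := by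
  have ht1' : 0 < 1 - t := by linarith
  have h1 : volume ((1 - t) • A) = ENNReal.ofReal (1 - t) * volume A := by
    rw [Measure.addHaar_smul]; simp [abs_of_pos ht1']
  have h2 : volume (t • B) = ENNReal.ofReal t * volume B := by
    rw [Measure.addHaar_smul]; simp [abs_of_pos ht0]
  rw [← h1, ← h2]
  refine (volume_add_le (hA.const_smul₀ _) (hB.const_smul₀ _) hAn.smul_set hBn.smul_set).trans
    (measure_mono ?_)
  rintro _ ⟨_, ⟨a, ha, rfl⟩, _, ⟨b, hb, rfl⟩, rfl⟩
  exact hS a ha b hb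

section key
variable {E : Type*} [AddCommGroup E] [Module ℝ E] [MeasurableSpace E] {μ : Measure E}

/-- length of the superlevel set in logarithmic scale -/
noncomputable def ell (f : E × ℝ → ℝ≥0∞) (x : E) (w : ℝ) : ℝ≥0∞ :=
  volume {s : ℝ | ENNReal.ofReal (Real.exp w) < f (x, s)}

/-- superlevel function -/
noncomputable def GG (μ : Measure E) (f : E × ℝ → ℝ≥0∞) (m : E → ℝ≥0∞) (r : ℝ) : ℝ≥0∞ :=
  ∫⁻ p, {p : E × ℝ | ENNReal.ofReal (Real.exp p.2) < m p.1 ∧ ENNReal.ofReal r ≤ ell f p.1 p.2}.indicator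
    (fun p => ENNReal.ofReal (Real.exp p.2)) p ∂(μ.prod (volume : Measure ℝ))

omit [AddCommGroup E] [Module ℝ E] in
lemma measurable_ell {f : E × ℝ → ℝ≥0∞} (hf : Measurable f) :
    Measurable (fun p : E × ℝ => ell f p.1 p.2) := by
  unfold ell
  have hS : MeasurableSet {q : (E × ℝ) × ℝ | ENNReal.ofReal (Real.exp q.1.2) < f (q.1.1, q.2)} :=
    measurableSet_lt (by fun_prop) (by fun_prop)
  exact measurable_measure_prodMk_left hS

lemma GG_logconc [SFinite μ] (hPL : PL E μ) {f : E × ℝ → ℝ≥0∞} (hf : Measurable f) (hlc : LC f)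
    {m : E → ℝ≥0∞} (hm : Measurable m) (hmf : ∀ x, m x = ⨆ s, f (x, s)) {t r : ℝ}
    (ht0 : 0 < t) (ht1 : t < 1) :
    GG μ f m 0 ^ (1 - t) * GG μ f m r ^ t ≤ GG μ f m (t * r) := by
  have hmeas : ∀ r : ℝ, MeasurableSet {p : E × ℝ | ENNReal.ofReal (Real.exp p.2) < m p.1 ∧
      ENNReal.ofReal r ≤ ell f p.1 p.2} := fun r =>
    (measurableSet_lt (by fun_prop) (hm.comp measurable_fst)).inter
      (measurableSet_le measurable_const (measurable_ell hf))
  have hF : ∀ r : ℝ, Measurable ({p : E × ℝ | ENNReal.ofReal (Real.exp p.2) < m p.1 ∧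
      ENNReal.ofReal r ≤ ell f p.1 p.2}.indicator
        (fun p => ENNReal.ofReal (Real.exp p.2))) := fun r =>
    Measurable.indicator (by fun_prop) (hmeas r)
  refine (hPL.prod PL_real) t ht0 ht1 _ _ _ (hF 0) (hF r) (hF (t * r)) ?_
  rintro ⟨x0, w0⟩ ⟨x1, w1⟩
  by_cases h0 : ENNReal.ofReal (Real.exp w0) < m x0 ∧ ENNReal.ofReal 0 ≤ ell f x0 w0
  swap
  · rw [indicator_of_notMem (by simpa using h0), ENNReal.zero_rpow_of_pos (by linarith), zero_mul]
    exact bot_le
  by_cases h1 : ENNReal.ofReal (Real.exp w1) < m x1 ∧ ENNReal.ofReal r ≤ ell f x1 w1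
  swap
  · rw [indicator_of_notMem (s := {p : E × ℝ | ENNReal.ofReal (Real.exp p.2) < m p.1 ∧
      ENNReal.ofReal r ≤ ell f p.1 p.2}) (by simpa using h1), ENNReal.zero_rpow_of_pos ht0, mul_zero]
    exact bot_le
  have ht1' : 0 < 1 - t := by linarith
  have hexp : ENNReal.ofReal (Real.exp w0) ^ (1 - t) * ENNReal.ofReal (Real.exp w1) ^ t =
      ENNReal.ofReal (Real.exp ((1 - t) * w0 + t * w1)) := by
    rw [ENNReal.ofReal_rpow_of_pos (Real.exp_pos _), ENNReal.ofReal_rpow_of_pos (Real.exp_pos _),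
      ← ENNReal.ofReal_mul (Real.rpow_nonneg (Real.exp_pos _).le _), ← Real.exp_mul, ← Real.exp_mul,
      ← Real.exp_add]
    congr 2; ring
  have hstrict : ∀ s0 s1 : ℝ, ENNReal.ofReal (Real.exp w0) < f (x0, s0) →
      ENNReal.ofReal (Real.exp w1) < f (x1, s1) →
      ENNReal.ofReal (Real.exp ((1 - t) * w0 + t * w1)) <
        f ((1 - t) • x0 + t • x1, (1 - t) * s0 + t * s1) := by
    intro s0 s1 hs0 hs1
    rw [← hexp]
    refine lt_of_lt_of_le ?_ (hlc ht0 ht1 (x0, s0) (x1, s1))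
    exact ENNReal.mul_lt_mul (ENNReal.rpow_lt_rpow hs0 ht1') (ENNReal.rpow_lt_rpow hs1 ht0)
  obtain ⟨s0, hs0⟩ := lt_iSup_iff.1 (hmf x0 ▸ h0.1)
  obtain ⟨s1, hs1⟩ := lt_iSup_iff.1 (hmf x1 ▸ h1.1)
  have hin : ((1 - t) • (x0, w0) + t • (x1, w1) : E × ℝ) ∈ {p : E × ℝ |
      ENNReal.ofReal (Real.exp p.2) < m p.1 ∧ ENNReal.ofReal (t * r) ≤ ell f p.1 p.2} := by
    refine ⟨?_, ?_⟩
    · show ENNReal.ofReal (Real.exp ((1 - t) * w0 + t * w1)) < m ((1 - t) • x0 + t • x1)
      rw [hmf]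
      exact lt_of_lt_of_le (hstrict s0 s1 hs0 hs1)
        (le_iSup (fun s => f ((1 - t) • x0 + t • x1, s)) _)
    · show ENNReal.ofReal (t * r) ≤ ell f ((1 - t) • x0 + t • x1) ((1 - t) * w0 + t * w1)
      have hmA : ∀ (x : E) (w : ℝ), MeasurableSet {s : ℝ | ENNReal.ofReal (Real.exp w) < f (x, s)} :=
        fun x w => measurableSet_lt measurable_const (hf.comp measurable_prodMk_left)
      have := bm_comb (hmA x0 w0) (hmA x1 w1) ⟨s0, hs0⟩ ⟨s1, hs1⟩ ht0 ht1
        (S := {s : ℝ | ENNReal.ofReal (Real.exp ((1 - t) * w0 + t * w1)) <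
          f ((1 - t) • x0 + t • x1, s)}) (fun a ha b hb => hstrict a b ha hb)
      refine le_trans ?_ this
      rw [ENNReal.ofReal_mul ht0.le]
      refine le_trans ?_ le_add_self
      gcongr
      exact h1.2
  rw [indicator_of_mem hin, indicator_of_mem (by exact h0),
    indicator_of_mem (s := {p : E × ℝ | ENNReal.ofReal (Real.exp p.2) < m p.1 ∧
      ENNReal.ofReal r ≤ ell f p.1 p.2}) h1, hexp]
  exact le_rfl

end key



lemma lintegral_exp1 {M lam : ℝ} (hM : 0 < M) (hl : 0 < lam) :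
    ∫⁻ r in Ioi (0:ℝ), ENNReal.ofReal (M * Real.exp (-(lam * r))) = ENNReal.ofReal (M / lam) := by
  have h := Real.integral_rpow_mul_exp_neg_mul_Ioi (a := 1) (r := lam) one_pos hl
  simp only [sub_self, Real.rpow_zero, one_mul, Real.rpow_one, Real.Gamma_one, mul_one] at h
  have h2 : ∫ r in Ioi (0:ℝ), M * Real.exp (-(lam * r)) = M / lam := by
    rw [integral_const_mul, h]; ring
  rw [← ofReal_integral_eq_lintegral_ofReal _ (Eventually.of_forall fun r => by positivity), h2]
  by_contra hn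
  have := integral_undef hn
  rw [h2] at this
  have : 0 < M / lam := by positivity
  linarith

lemma lintegral_exp2 {M lam : ℝ} (hM : 0 < M) (hl : 0 < lam) :
    ∫⁻ r in Ioi (0:ℝ), ENNReal.ofReal r * ENNReal.ofReal (M * Real.exp (-(lam * r))) =
      ENNReal.ofReal (M / lam ^ 2) := by
  have h := Real.integral_rpow_mul_exp_neg_mul_Ioi (a := 2) (r := lam) two_pos hl
  rw [show (2:ℝ) - 1 = 1 by norm_num] at h
  simp only [Real.rpow_one, Real.Gamma_two, mul_one] at h
  have h2 : ∫ r in Ioi (0:ℝ), r * (M * Real.exp (-(lam * r))) = M / lam ^ 2 := by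
    have : (fun r : ℝ => r * (M * Real.exp (-(lam * r)))) =
      fun r => M * (r * Real.exp (-(lam * r))) := by ext; ring
    rw [this, integral_const_mul, h]
    rw [show (1 / lam) ^ (2:ℝ) = (1/lam)^(2:ℕ) from by exact_mod_cast Real.rpow_natCast _ 2]
    ring
  have h3 : ∀ r ∈ Ioi (0:ℝ), ENNReal.ofReal r * ENNReal.ofReal (M * Real.exp (-(lam * r))) =
      ENNReal.ofReal (r * (M * Real.exp (-(lam * r)))) := by
    intro r hr
    rw [ENNReal.ofReal_mul (le_of_lt hr)]
  rw [setLIntegral_congr_fun measurableSet_Ioi h3,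
    ← ofReal_integral_eq_lintegral_ofReal _ ?_, h2]
  · by_contra hn
    have := integral_undef hn
    rw [h2] at this
    have : 0 < M / lam ^ 2 := by positivity
    linarith
  · filter_upwards [ae_restrict_mem measurableSet_Ioi] with r hr
    have : (0:ℝ) < r := hr
    simp only [Pi.zero_apply]
    positivity

lemma crossing {G : ℝ → ℝ≥0∞} (hG : Measurable G) (hM0 : G 0 ≠ 0) (hMt : G 0 ≠ ∞)
    (hI : ∫⁻ r in Ioi (0:ℝ), G r ≠ ∞)
    (hlc : ∀ t r : ℝ, 0 < t → t < 1 → G 0 ^ (1 - t) * G r ^ t ≤ G (t * r)) :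
    (∫⁻ r in Ioi (0:ℝ), ENNReal.ofReal r * G r) * G 0 ≤ (∫⁻ r in Ioi (0:ℝ), G r) ^ 2 := by
  set I := ∫⁻ r in Ioi (0:ℝ), G r with hIdef
  by_cases hI0 : I = 0
  · have h0 : G =ᵐ[volume.restrict (Ioi (0:ℝ))] 0 := by
      rwa [hIdef, lintegral_eq_zero_iff hG] at hI0
    have : ∫⁻ r in Ioi (0:ℝ), ENNReal.ofReal r * G r = 0 := by
      rw [lintegral_eq_zero_iff (by fun_prop)]
      filter_upwards [h0] with r hr
      simp [hr]
    rw [this, zero_mul]
    exact bot_le
  have hMpos : 0 < (G 0).toReal := ENNReal.toReal_pos hM0 hMt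
  have hIpos : 0 < I.toReal := ENNReal.toReal_pos hI0 hI
  set M := (G 0).toReal with hM
  set lam := M / I.toReal with hlam
  have hlpos : 0 < lam := by positivity
  have hGM : G 0 = ENNReal.ofReal M := (ENNReal.ofReal_toReal hMt).symm
  have hII : I = ENNReal.ofReal I.toReal := (ENNReal.ofReal_toReal hI).symm
  set e : ℝ → ℝ≥0∞ := fun r => ENNReal.ofReal (M * Real.exp (-(lam * r))) with he
  have hem : Measurable e := by
    simp only [he]
    fun_prop
  have hIe : ∫⁻ r in Ioi (0:ℝ), e r = I := by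
    rw [he, lintegral_exp1 hMpos hlpos, hII]
    congr 1
    rw [hlam]; field_simp
  have hIe2 : (∫⁻ r in Ioi (0:ℝ), ENNReal.ofReal r * e r) * G 0 = I ^ 2 := by
    rw [he, lintegral_exp2 hMpos hlpos, hGM, ← ENNReal.ofReal_mul (by positivity), hII,
      ← ENNReal.ofReal_pow (by positivity)]
    congr 1
    rw [hlam]; field_simp
  suffices hmain : ∫⁻ r in Ioi (0:ℝ), ENNReal.ofReal r * G r ≤
      ∫⁻ r in Ioi (0:ℝ), ENNReal.ofReal r * e r by
    rw [← hIe2]; gcongr
  -- downward closed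
  have hdown : ∀ r r' : ℝ, 0 < r → r < r' → e r' ≤ G r' → e r ≤ G r := by
    intro r r' hr hrr h
    have hr' : 0 < r' := hr.trans hrr
    have ht0 : 0 < r / r' := by positivity
    have ht1 : r / r' < 1 := by rw [div_lt_one hr']; exact hrr
    have h1 := hlc (r / r') r' ht0 ht1
    rw [div_mul_cancel₀ _ hr'.ne'] at h1
    refine le_trans ?_ h1
    have h2 : e r = G 0 ^ (1 - r / r') * e r' ^ (r / r') := by
      simp only [he]
      rw [hGM, ENNReal.ofReal_rpow_of_pos hMpos, ENNReal.ofReal_rpow_of_pos (by positivity),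
        ← ENNReal.ofReal_mul (by positivity)]
      congr 1
      rw [Real.mul_rpow hMpos.le (Real.exp_pos _).le, ← Real.exp_mul, ← mul_assoc,
        ← Real.rpow_add hMpos]
      rw [show 1 - r / r' + r / r' = 1 by ring, Real.rpow_one]
      congr 2
      field_simp
    rw [h2]
    gcongr
  by_cases hall : ∀ r : ℝ, 0 < r → e r ≤ G r
  · have hae : e =ᵐ[volume.restrict (Ioi (0:ℝ))] G := by
      refine ae_eq_of_ae_le_of_lintegral_le ?_ (by rw [hIe]; exact hI) hG.aemeasurable ?_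
      · filter_upwards [ae_restrict_mem measurableSet_Ioi] with r hr using hall r hr
      · rw [hIe]
    refine le_of_eq (lintegral_congr_ae ?_)
    filter_upwards [hae] with r hr
    rw [hr]
  · push Not at hall
    obtain ⟨r1, hr1, hr1'⟩ := hall
    set D : Set ℝ := {r | 0 < r ∧ e r ≤ G r} ∪ {0} with hD
    have hDb : BddAbove D := by
      refine ⟨r1, ?_⟩
      rintro r (⟨hr, hr'⟩ | hr)
      · by_contra hlt
        push Not at hlt
        exact absurd (hdown r1 r hr1 hlt hr') (not_le.2 hr1')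
      · rw [mem_singleton_iff] at hr; rw [hr]; exact hr1.le
    have hD0 : (0:ℝ) ∈ D := Or.inr rfl
    set r0 := sSup D with hr0
    have hr0n : 0 ≤ r0 := le_csSup hDb hD0
    have hlow : ∀ r, 0 < r → r < r0 → e r ≤ G r := by
      intro r hr hrr
      obtain ⟨r', hr', hlt⟩ := exists_lt_of_lt_csSup ⟨0, hD0⟩ hrr
      rcases hr' with ⟨h1, h2⟩ | h1
      · exact hdown r r' hr hlt h2
      · rw [mem_singleton_iff] at h1; linarith
    have hhigh : ∀ r, 0 < r → r0 < r → G r ≤ e r := by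
      intro r hr hrr
      by_contra hlt
      push Not at hlt
      exact absurd (le_csSup hDb (Or.inl ⟨hr, hlt.le⟩ : r ∈ D)) (not_le.2 hrr)
    have hpt : ∀ r ∈ Ioi (0:ℝ), ENNReal.ofReal r * G r + ENNReal.ofReal r0 * e r ≤
        ENNReal.ofReal r * e r + ENNReal.ofReal r0 * G r := by
      intro r hr
      have hr' : 0 < r := hr
      rcases lt_trichotomy r r0 with h | h | h
      · have hd : ENNReal.ofReal r0 = ENNReal.ofReal r + ENNReal.ofReal (r0 - r) := by
          rw [← ENNReal.ofReal_add hr'.le (by linarith)]; congr 1; ring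
        rw [hd]
        calc ENNReal.ofReal r * G r + (ENNReal.ofReal r + ENNReal.ofReal (r0 - r)) * e r
            = (ENNReal.ofReal r * e r + ENNReal.ofReal r * G r) + ENNReal.ofReal (r0 - r) * e r := by
              ring
          _ ≤ (ENNReal.ofReal r * e r + ENNReal.ofReal r * G r) + ENNReal.ofReal (r0 - r) * G r := by
              gcongr; exact hlow r hr' h
          _ = _ := by ring
      · rw [h]; exact le_of_eq (add_comm _ _)
      · have hd : ENNReal.ofReal r = ENNReal.ofReal r0 + ENNReal.ofReal (r - r0) := by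
          rw [← ENNReal.ofReal_add hr0n (by linarith)]; congr 1; ring
        rw [hd]
        calc (ENNReal.ofReal r0 + ENNReal.ofReal (r - r0)) * G r + ENNReal.ofReal r0 * e r
            = (ENNReal.ofReal r0 * e r + ENNReal.ofReal r0 * G r) + ENNReal.ofReal (r - r0) * G r := by
              ring
          _ ≤ (ENNReal.ofReal r0 * e r + ENNReal.ofReal r0 * G r) + ENNReal.ofReal (r - r0) * e r := by
              gcongr; exact hhigh r hr' h
          _ = _ := by ring
    have hint := setLIntegral_mono (μ := volume) (s := Ioi (0:ℝ)) (by fun_prop) hpt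
    rw [lintegral_add_left (by fun_prop), lintegral_add_left (by fun_prop),
      lintegral_const_mul _ hem, lintegral_const_mul _ hG, hIe] at hint
    exact (ENNReal.add_le_add_iff_right (ENNReal.mul_ne_top ENNReal.ofReal_ne_top hI)).1 hint





section key
variable {E : Type*} [MeasurableSpace E] {μ : Measure E}

/-- the density `e^w 1[e^w < m x]` -/
noncomputable def phi (m : E → ℝ≥0∞) (p : E × ℝ) : ℝ≥0∞ :=
  {w : ℝ | ENNReal.ofReal (Real.exp w) < m p.1}.indicator (fun w => ENNReal.ofReal (Real.exp w)) p.2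

lemma measurable_phi {m : E → ℝ≥0∞} (hm : Measurable m) : Measurable (phi m) := by
  have : phi m = {p : E × ℝ | ENNReal.ofReal (Real.exp p.2) < m p.1}.indicator
      (fun p => ENNReal.ofReal (Real.exp p.2)) := by
    ext p; rfl
  rw [this]
  exact Measurable.indicator (by fun_prop)
    (measurableSet_lt (by fun_prop) (hm.comp measurable_fst))

lemma GG_eq (f : E × ℝ → ℝ≥0∞) (m : E → ℝ≥0∞) (r : ℝ) :
    GG μ f m r = ∫⁻ p, phi m p * {r : ℝ | ENNReal.ofReal r ≤ ell f p.1 p.2}.indicator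
      (fun _ => (1:ℝ≥0∞)) r ∂(μ.prod (volume : Measure ℝ)) := by
  unfold GG
  refine lintegral_congr fun p => ?_
  unfold phi
  by_cases h1 : ENNReal.ofReal (Real.exp p.2) < m p.1
  · by_cases h2 : ENNReal.ofReal r ≤ ell f p.1 p.2
    · simp [indicator, h1, h2]
    · simp [indicator, h1, h2]
  · simp [indicator, h1]

lemma GG_zero [SFinite μ] {m : E → ℝ≥0∞} (hm : Measurable m) (f : E × ℝ → ℝ≥0∞) :
    GG μ f m 0 = ∫⁻ x, m x ∂μ := by
  rw [GG_eq]
  have : ∀ p : E × ℝ, phi m p * {r : ℝ | ENNReal.ofReal r ≤ ell f p.1 p.2}.indicator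
      (fun _ => (1:ℝ≥0∞)) 0 = phi m p := by
    intro p
    rw [indicator_of_mem (show (0:ℝ) ∈ {r : ℝ | ENNReal.ofReal r ≤ ell f p.1 p.2} by simp), mul_one]
  simp_rw [this]
  rw [lintegral_prod _ (measurable_phi hm).aemeasurable]
  refine lintegral_congr fun x => ?_
  exact lintegral_exp_lt (m x)

lemma measurable_phi_ind {f : E × ℝ → ℝ≥0∞} (hf : Measurable f) {m : E → ℝ≥0∞} (hm : Measurable m)
    {h : ℝ → ℝ≥0∞} (hh : Measurable h) :
    Measurable (fun q : ℝ × (E × ℝ) => phi m q.2 *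
      {r : ℝ | ENNReal.ofReal r ≤ ell f q.2.1 q.2.2}.indicator h q.1) := by
  refine ((measurable_phi hm).comp measurable_snd).mul ?_
  have : (fun q : ℝ × (E × ℝ) => {r : ℝ | ENNReal.ofReal r ≤ ell f q.2.1 q.2.2}.indicator h q.1) =
      {q : ℝ × (E × ℝ) | ENNReal.ofReal q.1 ≤ ell f q.2.1 q.2.2}.indicator (fun q => h q.1) := by
    ext q; rfl
  rw [this]
  refine (hh.comp measurable_fst).indicator ?_
  exact measurableSet_le (by fun_prop) ((measurable_ell hf).comp measurable_snd)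

lemma measurable_GG [SFinite μ] {f : E × ℝ → ℝ≥0∞} (hf : Measurable f) {m : E → ℝ≥0∞}
    (hm : Measurable m) : Measurable (GG μ f m) := by
  have : GG μ f m = fun r => ∫⁻ p, phi m p * {r : ℝ | ENNReal.ofReal r ≤ ell f p.1 p.2}.indicator
      (fun _ => (1:ℝ≥0∞)) r ∂(μ.prod (volume : Measure ℝ)) := funext fun r => GG_eq f m r
  rw [this]
  exact (measurable_phi_ind hf hm measurable_const).lintegral_prod_right'

lemma int_GG [SFinite μ] {f : E × ℝ → ℝ≥0∞} (hf : Measurable f) {m : E → ℝ≥0∞}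
    (hm : Measurable m) :
    ∫⁻ r in Ioi (0:ℝ), GG μ f m r = ∫⁻ p, phi m p * ell f p.1 p.2 ∂(μ.prod (volume : Measure ℝ)) := by
  simp_rw [GG_eq]
  rw [lintegral_lintegral_swap]
  · refine lintegral_congr fun p => ?_
    rw [lintegral_const_mul]
    · rw [lintegral_ofReal_le]
    · exact measurable_const.indicator (measurableSet_le (by fun_prop) measurable_const)
  · exact (measurable_phi_ind hf hm measurable_const).aemeasurable

lemma int_rGG [SFinite μ] {f : E × ℝ → ℝ≥0∞} (hf : Measurable f) {m : E → ℝ≥0∞}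
    (hm : Measurable m) :
    2 * ∫⁻ r in Ioi (0:ℝ), ENNReal.ofReal r * GG μ f m r =
      ∫⁻ p, phi m p * ell f p.1 p.2 ^ 2 ∂(μ.prod (volume : Measure ℝ)) := by
  have hmg := measurable_GG (μ := μ) hf hm
  rw [← lintegral_const_mul 2 (show Measurable fun r : ℝ => ENNReal.ofReal r * GG μ f m r by
    fun_prop)]
  have h1 : ∀ r : ℝ, 2 * (ENNReal.ofReal r * GG μ f m r) = ∫⁻ p, phi m p *
      {r : ℝ | ENNReal.ofReal r ≤ ell f p.1 p.2}.indicator (fun r => 2 * ENNReal.ofReal r) r
        ∂(μ.prod (volume : Measure ℝ)) := by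
    intro r
    rw [GG_eq, ← mul_assoc, ← lintegral_const_mul]
    · refine lintegral_congr fun p => ?_
      by_cases h2 : ENNReal.ofReal r ≤ ell f p.1 p.2
      · rw [indicator_of_mem (show r ∈ {r : ℝ | ENNReal.ofReal r ≤ ell f p.1 p.2} from h2),
          indicator_of_mem (show r ∈ {r : ℝ | ENNReal.ofReal r ≤ ell f p.1 p.2} from h2)]
        ring
      · rw [indicator_of_notMem (show r ∉ {r : ℝ | ENNReal.ofReal r ≤ ell f p.1 p.2} from h2),
          indicator_of_notMem (show r ∉ {r : ℝ | ENNReal.ofReal r ≤ ell f p.1 p.2} from h2)]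
        simp
    · exact (measurable_phi_ind hf hm measurable_const).comp measurable_prodMk_left
  simp_rw [h1]
  rw [lintegral_lintegral_swap]
  · refine lintegral_congr fun p => ?_
    rw [lintegral_const_mul]
    · rw [lintegral_ofReal_le_two]
    · exact Measurable.indicator (by fun_prop) (measurableSet_le (by fun_prop) measurable_const)
  · exact (measurable_phi_ind hf hm (by fun_prop)).aemeasurable

/-- one fibre: `∫ f = ∫ phi * ell` -/
lemma fibre_eq {f : E × ℝ → ℝ≥0∞} (hf : Measurable f) {m : E → ℝ≥0∞}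
    (hmf : ∀ x, m x = ⨆ s, f (x, s)) (x : E) :
    ∫⁻ s : ℝ, f (x, s) = ∫⁻ w : ℝ, phi m (x, w) * ell f x w := by
  have hfx : Measurable fun s => f (x, s) := hf.comp measurable_prodMk_left
  calc ∫⁻ s : ℝ, f (x, s) = ∫⁻ s : ℝ, ∫⁻ w : ℝ,
        {w : ℝ | ENNReal.ofReal (Real.exp w) < f (x, s)}.indicator
          (fun w : ℝ => ENNReal.ofReal (Real.exp w)) w := by
        refine lintegral_congr fun s => (lintegral_exp_lt _).symm
    _ = ∫⁻ w : ℝ, ∫⁻ s : ℝ, {w : ℝ | ENNReal.ofReal (Real.exp w) < f (x, s)}.indicator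
          (fun w : ℝ => ENNReal.ofReal (Real.exp w)) w := by
        refine lintegral_lintegral_swap ?_
        have : (Function.uncurry fun (s w : ℝ) => {w : ℝ | ENNReal.ofReal (Real.exp w) < f (x, s)}.indicator
          (fun w => ENNReal.ofReal (Real.exp w)) w) =
          {q : ℝ × ℝ | ENNReal.ofReal (Real.exp q.2) < f (x, q.1)}.indicator
            (fun q => ENNReal.ofReal (Real.exp q.2)) := by
          ext ⟨s, w⟩; rfl
        rw [this]
        exact (Measurable.indicator (by fun_prop)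
          (measurableSet_lt (by fun_prop) (hfx.comp measurable_fst))).aemeasurable
    _ = ∫⁻ w : ℝ, phi m (x, w) * ell f x w := by
        refine lintegral_congr fun w => ?_
        have h1 : ∀ s : ℝ, {w : ℝ | ENNReal.ofReal (Real.exp w) < f (x, s)}.indicator
            (fun w => ENNReal.ofReal (Real.exp w)) w =
            {s : ℝ | ENNReal.ofReal (Real.exp w) < f (x, s)}.indicator
              (fun _ => ENNReal.ofReal (Real.exp w)) s := fun s => rfl
        simp_rw [h1]
        rw [lintegral_indicator (measurableSet_lt measurable_const hfx)]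
        simp only [lintegral_const, MeasurableSet.univ, Measure.restrict_apply, univ_inter]
        unfold phi ell
        by_cases h2 : ENNReal.ofReal (Real.exp w) < m x
        · rw [indicator_of_mem (show w ∈ {w : ℝ | ENNReal.ofReal (Real.exp w) < m x} from h2)]
        · rw [indicator_of_notMem (show w ∉ {w : ℝ | ENNReal.ofReal (Real.exp w) < m x} from h2),
            zero_mul]
          have : {s : ℝ | ENNReal.ofReal (Real.exp w) < f (x, s)} = ∅ := by
            ext s
            simp only [mem_ofPred_eq, mem_empty_iff_false, iff_false, not_lt]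
            rw [not_lt, hmf] at h2
            exact (le_iSup (fun s => f (x, s)) s).trans h2
          rw [this]; simp

/-- Cauchy–Schwarz on one fibre -/
lemma fibre_sq {f : E × ℝ → ℝ≥0∞} (hf : Measurable f) {m : E → ℝ≥0∞} (hm : Measurable m)
    (hmf : ∀ x, m x = ⨆ s, f (x, s)) (x : E) (hmx : m x ≠ ∞) :
    (∫⁻ s, f (x, s)) ^ 2 / m x ≤ ∫⁻ w, phi m (x, w) * ell f x w ^ 2 := by
  rw [fibre_eq hf hmf x]
  have hphi : Measurable fun w => phi m (x, w) := (measurable_phi hm).comp measurable_prodMk_left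
  have hell : Measurable fun w => ell f x w := (measurable_ell hf).comp measurable_prodMk_left
  have hcs : (∫⁻ w, phi m (x, w) * ell f x w) ^ 2 ≤ m x * ∫⁻ w, phi m (x, w) * ell f x w ^ 2 := by
    have h2 : (2:ℝ).HolderConjugate 2 := Real.HolderConjugate.two_two
    have h := ENNReal.lintegral_mul_le_Lp_mul_Lq (volume.withDensity fun w => phi m (x, w)) h2
      (f := fun _ => (1:ℝ≥0∞)) (g := fun w => ell f x w) (by fun_prop) hell.aemeasurable
    simp only [Pi.mul_apply, one_mul, ENNReal.one_rpow, lintegral_one] at h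
    rw [lintegral_withDensity_eq_lintegral_mul _ hphi hell,
      lintegral_withDensity_eq_lintegral_mul _ hphi (hell.pow_const _),
      withDensity_apply _ MeasurableSet.univ, setLIntegral_univ] at h
    have hm2 : ∫⁻ w, phi m (x, w) = m x := lintegral_exp_lt (m x)
    rw [hm2] at h
    simp only [Pi.mul_apply] at h
    have h3 := ENNReal.rpow_le_rpow h (show (0:ℝ) ≤ 2 by norm_num)
    rw [ENNReal.mul_rpow_of_nonneg _ _ (by norm_num), ← ENNReal.rpow_mul, ← ENNReal.rpow_mul] at h3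
    norm_num at h3
    exact_mod_cast h3
  by_cases hm0 : m x = 0
  · have : ∫⁻ w, phi m (x, w) * ell f x w = 0 := by
      rw [lintegral_eq_zero_iff (show Measurable fun w => phi m (x, w) * ell f x w from
        hphi.mul hell)]
      refine Eventually.of_forall fun w => ?_
      unfold phi
      simp [hm0]
    rw [this]; simp
  · rw [ENNReal.div_le_iff_le_mul (Or.inl hm0) (Or.inl hmx), mul_comm]
    exact hcs

/-- **Key inequality** : `(∫ g²/m) (∫ m) ≤ 2 (∫ g)²`. -/
theorem key_ineq [AddCommGroup E] [Module ℝ E] [SFinite μ] (hPL : PL E μ)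
    {f : E × ℝ → ℝ≥0∞} (hf : Measurable f) (hlc : LC f)
    {m : E → ℝ≥0∞} (hm : Measurable m) (hmf : ∀ x, m x = ⨆ s, f (x, s))
    (hmt : ∫⁻ x, m x ∂μ ≠ ∞) (hI : ∫⁻ x, (∫⁻ s : ℝ, f (x, s)) ∂μ ≠ ∞) :
    (∫⁻ x, (∫⁻ s : ℝ, f (x, s)) ^ 2 / m x ∂μ) * ∫⁻ x, m x ∂μ ≤ 2 * (∫⁻ x, (∫⁻ s : ℝ, f (x, s)) ∂μ) ^ 2 := by
  by_cases hm0 : ∫⁻ x, m x ∂μ = 0
  · rw [hm0, mul_zero]; exact bot_le
  have hpm : Measurable fun p : E × ℝ => phi m p * ell f p.1 p.2 :=
    (measurable_phi hm).mul (measurable_ell hf)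
  have hpm2 : Measurable fun p : E × ℝ => phi m p * ell f p.1 p.2 ^ 2 :=
    (measurable_phi hm).mul ((measurable_ell hf).pow_const _)
  have hIeq : ∫⁻ r in Ioi (0:ℝ), GG μ f m r = ∫⁻ x, (∫⁻ s : ℝ, f (x, s)) ∂μ := by
    rw [int_GG hf hm, lintegral_prod _ hpm.aemeasurable]
    exact lintegral_congr fun x => (fibre_eq hf hmf x).symm
  have hcr := crossing (G := GG μ f m) (measurable_GG hf hm) (by rwa [GG_zero hm])
    (by rwa [GG_zero hm]) (by rwa [hIeq]) (fun t r ht0 ht1 => GG_logconc hPL hf hlc hm hmf ht0 ht1)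
  rw [GG_zero hm, hIeq] at hcr
  have h1 : ∫⁻ x, (∫⁻ s : ℝ, f (x, s)) ^ 2 / m x ∂μ ≤
      2 * ∫⁻ r in Ioi (0:ℝ), ENNReal.ofReal r * GG μ f m r := by
    rw [int_rGG hf hm, lintegral_prod _ hpm2.aemeasurable]
    refine lintegral_mono_ae ?_
    filter_upwards [ae_lt_top hm hmt] with x hx
    exact fibre_sq hf hm hmf x hx.ne
  calc (∫⁻ x, (∫⁻ s : ℝ, f (x, s)) ^ 2 / m x ∂μ) * ∫⁻ x, m x ∂μ
      ≤ (2 * ∫⁻ r in Ioi (0:ℝ), ENNReal.ofReal r * GG μ f m r) * ∫⁻ x, m x ∂μ := by gcongr
    _ = 2 * ((∫⁻ r in Ioi (0:ℝ), ENNReal.ofReal r * GG μ f m r) * ∫⁻ x, m x ∂μ) := by ring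
    _ ≤ _ := by gcongr

end key

end Crest.Agent.R225.Geo
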