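import Crest.Agent.Lib.PrekopaLeindler

/-!
Row 225 (S0347), geometry 1: reverse Hölder inequality for functions whose tails are log-concave.
-/

set_option autoImplicit false

namespace Crest.Agent.R225.GS

open MeasureTheory Set Filter
open scoped ENNReal

/-- product form of log-concavity -/
theorem logconc_four {T : ℝ → ℝ≥0∞}
    (hT : ∀ t : ℝ, 0 < t → t < 1 → ∀ r s : ℝ, 0 < r → 0 < s →
      T r ^ (1 - t) * T s ^ t ≤ T ((1 - t) * r + t * s))
    (ε r s : ℝ) (hε : 0 < ε) (hr : 0 < r) (hs : 0 < s) :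
    T ε * T (ε + r + s) ≤ T (ε + r) * T (ε + s) := by
  have hrs : 0 < r + s := by linarith
  have hne : r + s ≠ 0 := hrs.ne'
  set a := r / (r + s) with ha
  have ha0 : 0 < a := div_pos hr hrs
  have ha1 : a < 1 := (div_lt_one hrs).2 (by linarith)
  have e1 : (1 - a) * ε + a * (ε + r + s) = ε + r := by
    rw [ha]; field_simp; ring
  have e2 : (1 - (1 - a)) * ε + (1 - a) * (ε + r + s) = ε + s := by
    rw [ha]; field_simp; ring
  have h1 := hT a ha0 ha1 ε (ε + r + s) hε (by linarith)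
  have h2 := hT (1 - a) (by linarith) (by linarith) ε (ε + r + s) hε (by linarith)
  rw [e1] at h1
  rw [e2] at h2
  have h3 := mul_le_mul' h1 h2
  have key : ∀ x : ℝ≥0∞, x ^ (1 - a) * x ^ a = x := by
    intro x
    rw [← ENNReal.rpow_add_of_nonneg _ _ (by linarith) ha0.le]
    simp
  have e3 : 1 - (1 - a) = a := by ring
  rw [e3] at h3
  calc T ε * T (ε + r + s) = (T ε ^ (1 - a) * T ε ^ a) * (T (ε + r + s) ^ (1 - a) *
        T (ε + r + s) ^ a) := by rw [key, key]
    _ = (T ε ^ (1 - a) * T (ε + r + s) ^ a) * (T ε ^ a * T (ε + r + s) ^ (1 - a)) := by ring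
    _ ≤ _ := h3

/-- double integral of a function of `r + s` -/
theorem lintegral_add_eq {F : ℝ → ℝ≥0∞} (hF : Measurable F) :
    ∫⁻ r in Ioi (0 : ℝ), ∫⁻ s in Ioi (0 : ℝ), F (r + s) =
      ∫⁻ ρ in Ioi (0 : ℝ), F ρ * ENNReal.ofReal ρ := by
  have h1 : ∀ r : ℝ, ∫⁻ s in Ioi (0 : ℝ), F (r + s) = ∫⁻ ρ in Ioi r, F ρ := by
    intro r
    have h := (measurePreserving_add_left (volume : Measure ℝ) r).setLIntegral_comp_preimage
      (s := Ioi r) measurableSet_Ioi hF
    rw [← h]
    congr 2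
    ext x
    simp
  simp_rw [h1]
  have h2 : ∀ r : ℝ, ∫⁻ ρ in Ioi r, F ρ = ∫⁻ ρ, (Ioi r).indicator F ρ := fun r =>
    (lintegral_indicator measurableSet_Ioi _).symm
  simp_rw [h2]
  rw [lintegral_lintegral_swap]
  · rw [← lintegral_indicator measurableSet_Ioi]
    apply lintegral_congr
    intro ρ
    by_cases hρ : 0 < ρ
    · rw [indicator_of_mem (show ρ ∈ Ioi (0 : ℝ) from hρ)]
      have : ∀ r : ℝ, (Ioi r).indicator F ρ = (Iio ρ).indicator (fun _ => F ρ) r := by
        intro r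
        by_cases h : r < ρ
        · rw [indicator_of_mem (show ρ ∈ Ioi r from h), indicator_of_mem (show r ∈ Iio ρ from h)]
        · rw [indicator_of_notMem (show ρ ∉ Ioi r from h), indicator_of_notMem (show r ∉ Iio ρ from h)]
      simp_rw [this]
      rw [lintegral_indicator measurableSet_Iio, lintegral_const, Measure.restrict_restrict
        measurableSet_Iio, Measure.restrict_apply MeasurableSet.univ, univ_inter]
      congr 1
      have : Iio ρ ∩ Ioi 0 = Ioo 0 ρ := by ext x; simp [and_comm]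
      rw [this, Real.volume_Ioo, sub_zero]
    · rw [indicator_of_notMem (show ρ ∉ Ioi (0 : ℝ) from hρ)]
      rw [setLIntegral_congr_fun (g := fun _ => 0) measurableSet_Ioi]
      · simp
      · intro r hr
        exact indicator_of_notMem (fun h => hρ (lt_trans (mem_Ioi.1 hr) (mem_Ioi.1 h))) _
  · apply Measurable.aemeasurable
    have hs : MeasurableSet {p : ℝ × ℝ | p.1 < p.2} := measurableSet_lt measurable_fst measurable_snd
    have : (Function.uncurry fun r ρ : ℝ => (Ioi r).indicator F ρ) =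
        {p : ℝ × ℝ | p.1 < p.2}.indicator (fun p => F p.2) := by
      funext p
      simp only [Function.uncurry, indicator, mem_Ioi, mem_ofPred_eq]
    rw [this]
    exact (hF.comp measurable_snd).indicator hs

/-- reverse Hölder for antitone `T`, log-concave on `(0, ∞)` -/
theorem tail_rev_holder {T : ℝ → ℝ≥0∞} (hanti : Antitone T)
    (hT : ∀ t : ℝ, 0 < t → t < 1 → ∀ r s : ℝ, 0 < r → 0 < s →
      T r ^ (1 - t) * T s ^ t ≤ T ((1 - t) * r + t * s)) :
    (⨆ n : ℕ, T (1 / ((n : ℝ) + 1))) * ∫⁻ ρ in Ioi (0 : ℝ), T ρ * ENNReal.ofReal ρ ≤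
      (∫⁻ r in Ioi (0 : ℝ), T r) ^ 2 := by
  have hTm : Measurable T := hanti.measurable
  -- fixed ε
  have key : ∀ ε : ℝ, 0 < ε →
      T ε * ∫⁻ ρ in Ioi (0 : ℝ), T (ε + ρ) * ENNReal.ofReal ρ ≤ (∫⁻ r in Ioi (0 : ℝ), T r) ^ 2 := by
    intro ε hε
    have hm1 : Measurable fun ρ => T (ε + ρ) := hTm.comp (measurable_const_add ε)
    rw [← lintegral_add_eq (F := fun ρ => T (ε + ρ)) hm1]
    have hin : ∀ r : ℝ, Measurable fun s : ℝ => T (ε + (r + s)) := fun r =>
      hm1.comp (measurable_const_add r)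
    have hmm : Measurable fun r : ℝ => ∫⁻ s in Ioi (0 : ℝ), T (ε + (r + s)) := by
      apply Measurable.lintegral_prod_right'
        (f := fun p : ℝ × ℝ => T (ε + (p.1 + p.2)))
      exact hm1.comp (measurable_fst.add measurable_snd)
    rw [← lintegral_const_mul _ hmm]
    calc ∫⁻ r in Ioi (0 : ℝ), T ε * ∫⁻ s in Ioi (0 : ℝ), T (ε + (r + s))
        ≤ ∫⁻ r in Ioi (0 : ℝ), T r * ∫⁻ s in Ioi (0 : ℝ), T s := by
          refine setLIntegral_mono' measurableSet_Ioi fun r hr => ?_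
          rw [← lintegral_const_mul _ (hin r), ← lintegral_const_mul _ hTm]
          refine setLIntegral_mono' measurableSet_Ioi fun s hs => ?_
          have h := logconc_four hT ε r s hε hr hs
          rw [← add_assoc]
          refine h.trans ?_
          exact mul_le_mul' (hanti (by linarith)) (hanti (by linarith))
      _ = (∫⁻ r in Ioi (0 : ℝ), T r) ^ 2 := by
          rw [lintegral_mul_const _ hTm, sq]
  -- limit
  have hε : ∀ n : ℕ, 0 < 1 / ((n : ℝ) + 1) := fun n => by positivity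
  have hmono : ∀ {m n : ℕ}, m ≤ n → 1 / ((n : ℝ) + 1) ≤ 1 / ((m : ℝ) + 1) := by
    intro m n h
    apply one_div_le_one_div_of_le (by positivity)
    have : (m : ℝ) ≤ n := by exact_mod_cast h
    linarith
  -- the shifted integrals
  have hshift : ∀ ε : ℝ, 0 < ε → ∫⁻ ρ in Ioi (0 : ℝ), T (ε + ρ) * ENNReal.ofReal ρ =
      ∫⁻ ρ in Ioi (0 : ℝ), T ρ * ENNReal.ofReal (ρ - ε) := by
    intro ε hε
    have h := (measurePreserving_add_left (volume : Measure ℝ) ε).setLIntegral_comp_preimage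
      (s := Ioi ε) (f := fun ρ => T ρ * ENNReal.ofReal (ρ - ε)) measurableSet_Ioi
      (hTm.mul (ENNReal.measurable_ofReal.comp (measurable_id.sub_const ε)))
    have e1 : (fun x => ε + x) ⁻¹' Ioi ε = Ioi 0 := by ext x; simp
    rw [e1] at h
    have e2 : ∫⁻ ρ in Ioi (0 : ℝ), T ρ * ENNReal.ofReal (ρ - ε) =
        ∫⁻ ρ in Ioi ε, T ρ * ENNReal.ofReal (ρ - ε) := by
      have hU : Ioi (0 : ℝ) = Ioc 0 ε ∪ Ioi ε := (Ioc_union_Ioi_eq_Ioi hε.le).symm
      have hd : Disjoint (Ioc (0 : ℝ) ε) (Ioi ε) := by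
        rw [Set.disjoint_left]
        intro x hx hx'
        exact absurd hx.2 (not_le.2 hx')
      rw [hU, lintegral_union measurableSet_Ioi hd]
      rw [setLIntegral_congr_fun (g := fun _ => 0) measurableSet_Ioc]
      · simp
      · intro x hx
        have : ENNReal.ofReal (x - ε) = 0 := ENNReal.ofReal_of_nonpos (by linarith [hx.2])
        simp [this]
    rw [e2, ← h]
    refine setLIntegral_congr_fun measurableSet_Ioi fun ρ _ => ?_
    simp only [add_sub_cancel_left]
  have hsup : ∫⁻ ρ in Ioi (0 : ℝ), T ρ * ENNReal.ofReal ρ =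
      ⨆ n : ℕ, ∫⁻ ρ in Ioi (0 : ℝ), T ρ * ENNReal.ofReal (ρ - 1 / ((n : ℝ) + 1)) := by
    rw [← lintegral_iSup]
    · refine lintegral_congr fun ρ => ?_
      rw [← ENNReal.mul_iSup]
      congr 1
      apply le_antisymm
      · have h1 : Tendsto (fun n : ℕ => ENNReal.ofReal (ρ - 1 / ((n : ℝ) + 1))) atTop
            (nhds (ENNReal.ofReal ρ)) := by
          have : Tendsto (fun n : ℕ => ρ - 1 / ((n : ℝ) + 1)) atTop (nhds (ρ - 0)) :=
            tendsto_const_nhds.sub tendsto_one_div_add_atTop_nhds_zero_nat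
          rw [sub_zero] at this
          exact (ENNReal.continuous_ofReal.tendsto ρ).comp this
        exact le_of_tendsto' h1 fun n => le_iSup
          (fun n : ℕ => ENNReal.ofReal (ρ - 1 / ((n : ℝ) + 1))) n
      · exact iSup_le fun n => ENNReal.ofReal_le_ofReal (by linarith [hε n])
    · intro n
      exact hTm.mul (ENNReal.measurable_ofReal.comp (measurable_id.sub_const _))
    · intro m n hmn ρ
      refine mul_le_mul' le_rfl (ENNReal.ofReal_le_ofReal ?_)
      linarith [hmono hmn]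
  rw [hsup, ENNReal.iSup_mul]
  refine iSup_le fun i => ?_
  rw [ENNReal.mul_iSup]
  refine iSup_le fun j => ?_
  have hk := key _ (hε (max i j))
  rw [hshift _ (hε (max i j))] at hk
  refine le_trans (mul_le_mul' (hanti (hmono (le_max_left i j))) ?_) hk
  refine lintegral_mono fun ρ => mul_le_mul' le_rfl (ENNReal.ofReal_le_ofReal ?_)
  linarith [hmono (le_max_right i j)]

/-- reverse Hölder: a nonnegative function `W` whose tail `r ↦ ν {r ≤ W}` is log-concave on
`(0, ∞)` satisfies `ν {0 < W} ∫ W² ≤ 2 (∫ W)²`. -/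
theorem rev_holder {Ω : Type*} [MeasurableSpace Ω] (ν : Measure Ω) {W : Ω → ℝ}
    (hW : Measurable W) (hW0 : ∀ x, 0 ≤ W x)
    (hT : ∀ t : ℝ, 0 < t → t < 1 → ∀ r s : ℝ, 0 < r → 0 < s →
      ν {x | r ≤ W x} ^ (1 - t) * ν {x | s ≤ W x} ^ t ≤ ν {x | (1 - t) * r + t * s ≤ W x}) :
    ν {x | 0 < W x} * ∫⁻ x, ENNReal.ofReal (W x ^ 2) ∂ν ≤
      2 * (∫⁻ x, ENNReal.ofReal (W x) ∂ν) ^ 2 := by
  set T : ℝ → ℝ≥0∞ := fun r => ν {x | r ≤ W x} with hTdef
  have hanti : Antitone T := fun r s h => measure_mono fun x hx => le_trans h hx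
  have h1 := tail_rev_holder hanti hT
  have e1 : ∫⁻ x, ENNReal.ofReal (W x) ∂ν = ∫⁻ r in Ioi (0 : ℝ), T r :=
    lintegral_eq_lintegral_meas_le ν (Eventually.of_forall hW0) hW.aemeasurable
  have e2 : ∫⁻ x, ENNReal.ofReal (W x ^ 2) ∂ν = 2 * ∫⁻ ρ in Ioi (0 : ℝ), T ρ * ENNReal.ofReal ρ := by
    have h := lintegral_rpow_eq_lintegral_meas_le_mul ν (Eventually.of_forall hW0) hW.aemeasurable
      (p := 2) (by norm_num)
    have e3 : (ENNReal.ofReal 2) = 2 := by simp
    rw [e3] at h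
    norm_num at h
    exact h
  have e3 : ν {x | 0 < W x} = ⨆ n : ℕ, T (1 / ((n : ℝ) + 1)) := by
    have : {x | 0 < W x} = ⋃ n : ℕ, {x | 1 / ((n : ℝ) + 1) ≤ W x} := by
      ext x
      simp only [mem_ofPred_eq, mem_iUnion]
      constructor
      · intro h
        obtain ⟨n, hn⟩ := exists_nat_one_div_lt h
        exact ⟨n, hn.le⟩
      · rintro ⟨n, hn⟩
        exact lt_of_lt_of_le (by positivity) hn
    rw [this, Monotone.measure_iUnion]
    intro m n hmn x hx
    have hx' : 1 / ((m : ℝ) + 1) ≤ W x := hx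
    show 1 / ((n : ℝ) + 1) ≤ W x
    refine le_trans ?_ hx'
    apply one_div_le_one_div_of_le (by positivity)
    have : (m : ℝ) ≤ n := by exact_mod_cast hmn
    linarith
  rw [e1, e2, e3]
  calc _ = 2 * ((⨆ n : ℕ, T (1 / ((n : ℝ) + 1))) * ∫⁻ ρ in Ioi (0 : ℝ), T ρ * ENNReal.ofReal ρ) := by
        ring
    _ ≤ _ := by gcongr

end Crest.Agent.R225.GS
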