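import Crest.Agent.R225.Geo1

/-!
Row 225 (S0347), geometry 2: level sets of a log-concave function on `E × ℝ`.
-/

set_option autoImplicit false
set_option linter.unusedSectionVars false

namespace Crest.Agent.R225.GS

open MeasureTheory Set Filter Crest.Agent.Lib.PrekopaLeindler
open scoped ENNReal Pointwise

/-- log-concave functions with values in `{0} ∪ [lo, hi]`, bounded support in the last variable -/
structure Adm {E : Type*} [AddCommGroup E] [Module ℝ E] [MeasurableSpace E] (u : E × ℝ → ℝ)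
    (lo hi : ℝ) : Prop where
  meas : Measurable u
  nonneg : ∀ x, 0 ≤ u x
  le : ∀ x, u x ≤ hi
  ge : ∀ x, 0 < u x → lo ≤ u x
  lc : ∀ t : ℝ, 0 < t → t < 1 → ∀ x y, 0 < u x → 0 < u y →
    u x ^ (1 - t) * u y ^ t ≤ u ((1 - t) • x + t • y)
  bdd : ∃ R : ℝ, ∀ x, 0 < u x → |x.2| ≤ R

/-- layer cake with the levels `exp (-t)` -/
theorem layer_exp {Ω : Type*} [MeasurableSpace Ω] (κ : Measure Ω) {v : Ω → ℝ} (hv : Measurable v)
    (h0 : ∀ ω, 0 ≤ v ω) :
    ∫⁻ ω, ENNReal.ofReal (v ω) ∂κ =
      ∫⁻ t : ℝ, ENNReal.ofReal (Real.exp (-t)) * κ {ω | Real.exp (-t) ≤ v ω} := by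
  rw [lintegral_eq_lintegral_meas_le κ (Eventually.of_forall h0) hv.aemeasurable]
  have himg : (fun t : ℝ => Real.exp (-t)) '' univ = Ioi 0 := by
    ext z
    simp only [image_univ, mem_range, mem_Ioi]
    constructor
    · rintro ⟨t, rfl⟩; exact Real.exp_pos _
    · intro hz
      exact ⟨-Real.log z, by rw [neg_neg, Real.exp_log hz]⟩
  rw [← himg]
  rw [lintegral_image_eq_lintegral_abs_deriv_mul (f' := fun t => -Real.exp (-t)) MeasurableSet.univ]
  · rw [Measure.restrict_univ]
    refine lintegral_congr fun t => ?_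
    rw [abs_neg, abs_of_pos (Real.exp_pos _)]
  · intro t _
    have h1 : HasDerivAt (fun t : ℝ => Real.exp (-t)) (-Real.exp (-t)) t := by
      simpa using (hasDerivAt_neg t).exp
    exact h1.hasDerivWithinAt
  · intro a _ b _ h
    have : -a = -b := Real.exp_injective h
    linarith

variable {E : Type*} [AddCommGroup E] [Module ℝ E] [MeasurableSpace E]

/-- level set -/
def lev (u : E × ℝ → ℝ) (p : E × ℝ) : Set ℝ := {s | Real.exp (-p.2) ≤ u (p.1, s)}

/-- length of the level set -/
noncomputable def wid (u : E × ℝ → ℝ) (p : E × ℝ) : ℝ := (volume (lev u p)).toReal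

/-- the measure `e^{-t} dμ dt` -/
noncomputable def nuE (μ : Measure E) : Measure (E × ℝ) :=
  (μ.prod (volume : Measure ℝ)).withDensity fun p => ENNReal.ofReal (Real.exp (-p.2))

section

variable {u : E × ℝ → ℝ} {lo hi : ℝ}

theorem lev_meas (h : Adm u lo hi) (p : E × ℝ) : MeasurableSet (lev u p) :=
  measurableSet_le measurable_const (h.meas.comp measurable_prodMk_left)

theorem lev_vol_ne_top (h : Adm u lo hi) (p : E × ℝ) : volume (lev u p) ≠ ∞ := by
  obtain ⟨R, hR⟩ := h.bdd
  have hsub : lev u p ⊆ Icc (-R) R := fun s hs => by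
    have := hR (p.1, s) ((Real.exp_pos _).trans_le hs)
    exact abs_le.1 this
  exact ((measure_mono hsub).trans_lt (by rw [Real.volume_Icc]; exact ENNReal.ofReal_lt_top)).ne

theorem ofReal_wid (h : Adm u lo hi) (p : E × ℝ) : ENNReal.ofReal (wid u p) = volume (lev u p) :=
  ENNReal.ofReal_toReal (lev_vol_ne_top h p)

theorem wid_nonneg (p : E × ℝ) : 0 ≤ wid u p := ENNReal.toReal_nonneg

theorem wid_measurable (h : Adm u lo hi) : Measurable (wid u) := by
  apply Measurable.ennreal_toReal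
  have hs : MeasurableSet {q : (E × ℝ) × ℝ | Real.exp (-q.1.2) ≤ u (q.1.1, q.2)} := by
    apply measurableSet_le
    · exact (Real.measurable_exp.comp (measurable_snd.comp measurable_fst).neg)
    · exact h.meas.comp ((measurable_fst.comp measurable_fst).prodMk measurable_snd)
  exact measurable_measure_prodMk_left hs

/-- the level sets combine -/
theorem wid_concave (h : Adm u lo hi) {θ : ℝ} (hθ0 : 0 < θ) (hθ1 : θ < 1) {p q : E × ℝ}
    (hp : 0 < wid u p) (hq : 0 < wid u q) :
    (1 - θ) * wid u p + θ * wid u q ≤ wid u ((1 - θ) • p + θ • q) := by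
  have hθ1' : 0 < 1 - θ := by linarith
  have hpn : (lev u p).Nonempty := by
    by_contra hne
    rw [not_nonempty_iff_eq_empty] at hne
    rw [wid, hne] at hp
    simp at hp
  have hqn : (lev u q).Nonempty := by
    by_contra hne
    rw [not_nonempty_iff_eq_empty] at hne
    rw [wid, hne] at hq
    simp at hq
  have hsub : (1 - θ) • lev u p + θ • lev u q ⊆ lev u ((1 - θ) • p + θ • q) := by
    rintro _ ⟨_, ⟨s, hs, rfl⟩, _, ⟨r, hr, rfl⟩, rfl⟩
    have hs' : Real.exp (-p.2) ≤ u (p.1, s) := hs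
    have hr' : Real.exp (-q.2) ≤ u (q.1, r) := hr
    have h1 := h.lc θ hθ0 hθ1 (p.1, s) (q.1, r) ((Real.exp_pos _).trans_le hs')
      ((Real.exp_pos _).trans_le hr')
    show Real.exp (-((1 - θ) • p + θ • q).2) ≤
      u (((1 - θ) • p + θ • q).1, (1 - θ) • s + θ • r)
    have e1 : (1 - θ) • (p.1, s) + θ • (q.1, r) =
        (((1 - θ) • p + θ • q).1, (1 - θ) • s + θ • r) := by
      ext1 <;> simp
    rw [← e1]
    refine le_trans ?_ h1
    have e2 : Real.exp (-((1 - θ) • p + θ • q).2) =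
        Real.exp (-p.2) ^ (1 - θ) * Real.exp (-q.2) ^ θ := by
      rw [← Real.exp_mul, ← Real.exp_mul, ← Real.exp_add]
      congr 1
      simp
      ring
    rw [e2]
    exact mul_le_mul (Real.rpow_le_rpow (Real.exp_pos _).le hs' hθ1'.le)
      (Real.rpow_le_rpow (Real.exp_pos _).le hr' hθ0.le) (by positivity) (by
        exact Real.rpow_nonneg (h.nonneg _) _)
  have hBM := volume_add_le ((lev_meas h p).const_smul₀ (1 - θ))
    ((lev_meas h q).const_smul₀ θ) (hpn.smul_set) (hqn.smul_set)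
  have h2 := hBM.trans (measure_mono hsub)
  rw [Measure.addHaar_smul, Measure.addHaar_smul] at h2
  simp only [Module.finrank_self, pow_one, abs_of_pos hθ1', abs_of_pos hθ0] at h2
  rw [← ofReal_wid h, ← ofReal_wid h, ← ofReal_wid h, ← ENNReal.ofReal_mul hθ1'.le,
    ← ENNReal.ofReal_mul hθ0.le, ← ENNReal.ofReal_add (by positivity) (by positivity)] at h2
  exact (ENNReal.ofReal_le_ofReal_iff (wid_nonneg _)).1 h2

variable {μ : Measure E} [SFinite μ]

theorem nuE_apply {A : Set (E × ℝ)} (hA : MeasurableSet A) :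
    nuE μ A = ∫⁻ p, A.indicator (fun p => ENNReal.ofReal (Real.exp (-p.2))) p ∂(μ.prod volume) := by
  rw [nuE, withDensity_apply _ hA, lintegral_indicator hA]

/-- the tails of the length are log-concave -/
theorem tail_logconc (hE : PL E μ) (h : Adm u lo hi) (θ : ℝ) (hθ0 : 0 < θ) (hθ1 : θ < 1)
    (r s : ℝ) (hr : 0 < r) (hs : 0 < s) :
    nuE μ {p | r ≤ wid u p} ^ (1 - θ) * nuE μ {p | s ≤ wid u p} ^ θ ≤
      nuE μ {p | (1 - θ) * r + θ * s ≤ wid u p} := by
  have hθ1' : 0 < 1 - θ := by linarith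
  have hm : ∀ c : ℝ, MeasurableSet {p : E × ℝ | c ≤ wid u p} := fun c =>
    measurableSet_le measurable_const (wid_measurable h)
  have hmE : Measurable fun p : E × ℝ => ENNReal.ofReal (Real.exp (-p.2)) :=
    ENNReal.measurable_ofReal.comp (Real.measurable_exp.comp measurable_snd.neg)
  rw [nuE_apply (hm _), nuE_apply (hm _), nuE_apply (hm _)]
  refine (hE.prod PL_real) θ hθ0 hθ1 _ _ _ (hmE.indicator (hm _)) (hmE.indicator (hm _))
    (hmE.indicator (hm _)) ?_
  intro p q
  by_cases hp : r ≤ wid u p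
  · by_cases hq : s ≤ wid u q
    · rw [indicator_of_mem (show p ∈ {p | r ≤ wid u p} from hp),
        indicator_of_mem (show q ∈ {p | s ≤ wid u p} from hq), indicator_of_mem]
      · rw [ENNReal.ofReal_rpow_of_pos (Real.exp_pos _), ENNReal.ofReal_rpow_of_pos (Real.exp_pos _),
          ← ENNReal.ofReal_mul (by positivity)]
        apply ENNReal.ofReal_le_ofReal
        rw [← Real.exp_mul, ← Real.exp_mul, ← Real.exp_add]
        apply le_of_eq
        congr 1
        simp
        ring
      · show (1 - θ) * r + θ * s ≤ wid u ((1 - θ) • p + θ • q)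
        refine le_trans ?_ (wid_concave h hθ0 hθ1 (hr.trans_le hp) (hs.trans_le hq))
        gcongr
    · rw [indicator_of_notMem (show q ∉ {p | s ≤ wid u p} from hq), ENNReal.zero_rpow_of_pos hθ0,
        mul_zero]
      exact bot_le
  · rw [indicator_of_notMem (show p ∉ {p | r ≤ wid u p} from hp), ENNReal.zero_rpow_of_pos hθ1',
      zero_mul]
    exact bot_le

/-- **chord lemma** -/
theorem chord (hE : PL E μ) (h : Adm u lo hi) :
    nuE μ {p | 0 < wid u p} * ∫⁻ p, ENNReal.ofReal (wid u p ^ 2) ∂(nuE μ) ≤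
      2 * (∫⁻ p, ENNReal.ofReal (wid u p) ∂(nuE μ)) ^ 2 :=
  rev_holder (nuE μ) (wid_measurable h) wid_nonneg
    (fun t h0 h1 r s hr hs => tail_logconc hE h t h0 h1 r s hr hs)

theorem lintegral_nuE {F : E × ℝ → ℝ≥0∞} (hF : Measurable F) :
    ∫⁻ p, F p ∂(nuE μ) = ∫⁻ x, (∫⁻ t : ℝ, ENNReal.ofReal (Real.exp (-t)) * F (x, t)) ∂μ := by
  have hmE : Measurable fun p : E × ℝ => ENNReal.ofReal (Real.exp (-p.2)) :=
    ENNReal.measurable_ofReal.comp (Real.measurable_exp.comp measurable_snd.neg)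
  rw [nuE, lintegral_withDensity_eq_lintegral_mul _ hmE hF, lintegral_prod _ (hmE.mul hF).aemeasurable]
  rfl

end

end Crest.Agent.R225.GS
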