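import Crest.Agent.R225.Geo2

/-!
Row 225 (S0347), geometry 3: windows, caps, floors (pointwise in `x`).
-/

set_option autoImplicit false
set_option linter.unusedSectionVars false

namespace Crest.Agent.R225.GS

open MeasureTheory Set Filter Crest.Agent.Lib.PrekopaLeindler
open scoped ENNReal Pointwise Topology

variable {E : Type*} [AddCommGroup E] [Module ℝ E] [MeasurableSpace E] {u : E × ℝ → ℝ} {lo hi : ℝ}

/-- `∫ u(x, s) ds` -/
noncomputable def gg (u : E × ℝ → ℝ) (x : E) : ℝ≥0∞ := ∫⁻ s, ENNReal.ofReal (u (x, s))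

/-- `∫ W(x, t)^2 e^{-t} dt` -/
noncomputable def ww (u : E × ℝ → ℝ) (x : E) : ℝ≥0∞ :=
  ∫⁻ t : ℝ, ENNReal.ofReal (Real.exp (-t)) * ENNReal.ofReal (wid u (x, t) ^ 2)

/-- integral over a window of length `a` -/
noncomputable def win (u : E × ℝ → ℝ) (a : ℝ) (x : E) (c : ℝ) : ℝ≥0∞ :=
  ∫⁻ s in Ico c (c + a), ENNReal.ofReal (u (x, s))

/-- largest window integral -/
noncomputable def SS (u : E × ℝ → ℝ) (a : ℝ) (x : E) : ℝ≥0∞ := ⨆ c : ℝ, win u a x c

theorem meas_sec (h : Adm u lo hi) (x : E) : Measurable fun s => u (x, s) :=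
  h.meas.comp measurable_prodMk_left

theorem gg_eq (h : Adm u lo hi) (x : E) :
    gg u x = ∫⁻ t : ℝ, ENNReal.ofReal (Real.exp (-t)) * ENNReal.ofReal (wid u (x, t)) := by
  unfold gg
  rw [layer_exp volume (meas_sec h x) (fun s => h.nonneg _)]
  refine lintegral_congr fun t => ?_
  rw [ofReal_wid h]
  rfl

theorem setint_eq (h : Adm u lo hi) (x : E) (A : Set ℝ) (_hA : MeasurableSet A) :
    ∫⁻ s in A, ENNReal.ofReal (u (x, s)) =
      ∫⁻ t : ℝ, ENNReal.ofReal (Real.exp (-t)) * volume (lev u (x, t) ∩ A) := by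
  rw [layer_exp (volume.restrict A) (meas_sec h x) (fun s => h.nonneg _)]
  refine lintegral_congr fun t => ?_
  congr 1
  exact Measure.restrict_apply (lev_meas h (x, t))

theorem exp_le_int (c : ℝ) (hc : 0 ≤ c) :
    ∫⁻ t : ℝ, ENNReal.ofReal (Real.exp (-t)) * (if Real.exp (-t) ≤ c then 1 else 0) =
      ENNReal.ofReal c := by
  have h := layer_exp (Measure.dirac ()) (v := fun _ => c) measurable_const (fun _ => hc)
  rw [lintegral_dirac] at h
  rw [h]
  refine lintegral_congr fun t => ?_
  congr 1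
  by_cases ht : Real.exp (-t) ≤ c
  · simp [ht]
  · simp [ht]

theorem lev_convex (h : Adm u lo hi) (p : E × ℝ) : (lev u p).OrdConnected := by
  rw [ordConnected_iff]
  intro s hs r hr hsr q hq
  have hs' : Real.exp (-p.2) ≤ u (p.1, s) := hs
  have hr' : Real.exp (-p.2) ≤ u (p.1, r) := hr
  rcases eq_or_lt_of_le hq.1 with h1 | h1
  · rw [← h1]; exact hs
  rcases eq_or_lt_of_le hq.2 with h2 | h2
  · rw [h2]; exact hr
  have hsr' : 0 < r - s := by linarith
  set θ := (q - s) / (r - s) with hθ
  have hθ0 : 0 < θ := div_pos (by linarith) hsr'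
  have hθ1 : θ < 1 := (div_lt_one hsr').2 (by linarith)
  have h3 := h.lc θ hθ0 hθ1 (p.1, s) (p.1, r) ((Real.exp_pos _).trans_le hs')
    ((Real.exp_pos _).trans_le hr')
  have e1 : (1 - θ) • (p.1, s) + θ • (p.1, r) = (p.1, q) := by
    ext1
    · simp only [Prod.fst_add, Prod.smul_fst]
      rw [← add_smul]; simp
    · simp only [Prod.snd_add, Prod.smul_snd, smul_eq_mul]
      rw [hθ]; field_simp; ring
  rw [e1] at h3
  show Real.exp (-p.2) ≤ u (p.1, q)
  refine le_trans ?_ h3
  have e2 : Real.exp (-p.2) = Real.exp (-p.2) ^ (1 - θ) * Real.exp (-p.2) ^ θ := by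
    rw [← Real.rpow_add (Real.exp_pos _)]; simp
  rw [e2]
  exact mul_le_mul (Real.rpow_le_rpow (Real.exp_pos _).le hs' (by linarith))
    (Real.rpow_le_rpow (Real.exp_pos _).le hr' hθ0.le) (by positivity)
    (Real.rpow_nonneg (h.nonneg _) _)

theorem dist_le_wid (h : Adm u lo hi) (p : E × ℝ) {s r : ℝ} (hs : s ∈ lev u p) (hr : r ∈ lev u p) :
    r - s ≤ wid u p := by
  rcases le_or_gt r s with h1 | h1
  · linarith [wid_nonneg (u := u) p]
  · have hsub : Icc s r ⊆ lev u p := (lev_convex h p).out hs hr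
    have h2 := measure_mono (μ := volume) hsub
    rw [Real.volume_Icc, ← ofReal_wid h] at h2
    exact (ENNReal.ofReal_le_ofReal_iff (wid_nonneg _)).1 h2

theorem lev_mono {x : E} {t t' : ℝ} (htt : t ≤ t') : lev u (x, t) ⊆ lev u (x, t') := by
  intro s hs
  have hs' : Real.exp (-t) ≤ u (x, s) := hs
  show Real.exp (-t') ≤ u (x, s)
  exact le_trans (Real.exp_le_exp.2 (by linarith)) hs'

/-- a common limit point of all nonempty level sets -/
theorem exists_center (h : Adm u lo hi) (x : E) :
    ∃ s₀ : ℝ, ∀ t : ℝ, (lev u (x, t)).Nonempty → s₀ ∈ closure (lev u (x, t)) := by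
  obtain ⟨R, hR⟩ := h.bdd
  by_cases hne : ∃ t : ℝ, (lev u (x, t)).Nonempty
  · obtain ⟨t₀, ht₀⟩ := hne
    let ι := {t : ℝ // (lev u (x, t)).Nonempty}
    have : Nonempty ι := ⟨⟨t₀, ht₀⟩⟩
    have hcl : ∀ i : ι, IsClosed (closure (lev u (x, i.1))) := fun i => isClosed_closure
    have hcpt : ∀ i : ι, IsCompact (closure (lev u (x, i.1))) := by
      intro i
      apply Bornology.IsBounded.isCompact_closure
      apply (Metric.isBounded_Icc (-R) R).subset
      intro s hs
      have := hR (x, s) ((Real.exp_pos _).trans_le hs)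
      exact abs_le.1 this
    have hdir : Directed (· ⊇ ·) fun i : ι => closure (lev u (x, i.1)) := by
      intro i j
      rcases le_total i.1 j.1 with hij | hij
      · exact ⟨i, le_refl _, closure_mono (lev_mono hij)⟩
      · exact ⟨j, closure_mono (lev_mono hij), le_refl _⟩
    obtain ⟨s₀, hs₀⟩ := IsCompact.nonempty_iInter_of_directed_nonempty_isCompact_isClosed
      (fun i : ι => closure (lev u (x, i.1))) hdir (fun i => i.2.closure) hcpt hcl
    refine ⟨s₀, fun t ht => ?_⟩
    exact mem_iInter.1 hs₀ ⟨t, ht⟩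
  · exact ⟨0, fun t ht => absurd ⟨t, ht⟩ hne⟩

/-- loss of the window -/
theorem window_loss (h : Adm u lo hi) (x : E) (a : ℝ) (ha : 0 < a) :
    gg u x ≤ SS u a x + ENNReal.ofReal (2 / a) * ww u x := by
  obtain ⟨s₀, hs₀⟩ := exists_center h x
  have key : ∀ t : ℝ, ENNReal.ofReal (wid u (x, t)) ≤
      volume (lev u (x, t) ∩ Ico (s₀ - a / 2) (s₀ - a / 2 + a)) +
        ENNReal.ofReal (2 / a) * ENNReal.ofReal (wid u (x, t) ^ 2) := by
    intro t
    rcases le_or_gt (a / 2) (wid u (x, t)) with h1 | h1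
    · refine le_trans ?_ le_add_self
      rw [← ENNReal.ofReal_mul (by positivity)]
      apply ENNReal.ofReal_le_ofReal
      have hw := wid_nonneg (u := u) (x, t)
      rw [div_mul_eq_mul_div, le_div_iff₀ ha]
      nlinarith
    · refine le_trans ?_ le_self_add
      rw [ofReal_wid h]
      apply measure_mono
      intro s hs
      refine ⟨hs, ?_⟩
      have hcl : s₀ ∈ closure (lev u (x, t)) := hs₀ t ⟨s, hs⟩
      have h2 : |s - s₀| ≤ wid u (x, t) := by
        have hclosed : IsClosed {q : ℝ | |s - q| ≤ wid u (x, t)} :=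
          isClosed_le (by fun_prop) continuous_const
        have hsub : lev u (x, t) ⊆ {q : ℝ | |s - q| ≤ wid u (x, t)} := by
          intro q hq
          rw [mem_ofPred_eq, abs_le]
          constructor
          · linarith [dist_le_wid h (x, t) hs hq]
          · linarith [dist_le_wid h (x, t) hq hs]
        exact (closure_minimal hsub hclosed) hcl
      rw [abs_le] at h2
      constructor <;> linarith [h2.1, h2.2]
  have hmt : Measurable fun t : ℝ => ENNReal.ofReal (Real.exp (-t)) :=
    ENNReal.measurable_ofReal.comp (Real.measurable_exp.comp measurable_neg)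
  have hmw : Measurable fun t : ℝ => ENNReal.ofReal (wid u (x, t) ^ 2) :=
    ENNReal.measurable_ofReal.comp (((wid_measurable h).comp measurable_prodMk_left).pow_const 2)
  calc gg u x = ∫⁻ t : ℝ, ENNReal.ofReal (Real.exp (-t)) * ENNReal.ofReal (wid u (x, t)) :=
        gg_eq h x
    _ ≤ ∫⁻ t : ℝ, (ENNReal.ofReal (Real.exp (-t)) *
          volume (lev u (x, t) ∩ Ico (s₀ - a / 2) (s₀ - a / 2 + a)) +
        ENNReal.ofReal (2 / a) * (ENNReal.ofReal (Real.exp (-t)) *
          ENNReal.ofReal (wid u (x, t) ^ 2))) := by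
        refine lintegral_mono fun t => ?_
        refine (mul_le_mul_right (key t) _).trans (le_of_eq ?_)
        ring
    _ = win u a x (s₀ - a / 2) + ENNReal.ofReal (2 / a) * ww u x := by
        have hp : Measurable fun t : ℝ => ENNReal.ofReal (Real.exp (-t)) *
          ENNReal.ofReal (wid u (x, t) ^ 2) := hmt.mul hmw
        have hp2 : Measurable fun t : ℝ => ENNReal.ofReal (2 / a) * (ENNReal.ofReal (Real.exp (-t)) *
          ENNReal.ofReal (wid u (x, t) ^ 2)) := hp.const_mul _
        rw [lintegral_add_right _ hp2, lintegral_const_mul _ hp,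
          win, setint_eq h x _ measurableSet_Ico]
        rfl
    _ ≤ _ := by
        gcongr
        exact le_iSup (fun c => win u a x c) _

/-- loss of the cap -/
theorem cap_loss (h : Adm u lo hi) (x : E) (A : ℝ) (hA : 0 < A) (hhi : 0 ≤ hi) :
    gg u x ≤ ENNReal.ofReal (A * hi) + ENNReal.ofReal (1 / (4 * A)) * ww u x := by
  have key : ∀ t : ℝ, ENNReal.ofReal (wid u (x, t)) ≤
      ENNReal.ofReal A * (if Real.exp (-t) ≤ hi then 1 else 0) +
        ENNReal.ofReal (1 / (4 * A)) * ENNReal.ofReal (wid u (x, t) ^ 2) := by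
    intro t
    by_cases ht : Real.exp (-t) ≤ hi
    · rw [if_pos ht, mul_one, ← ENNReal.ofReal_mul (by positivity), ← ENNReal.ofReal_add hA.le
        (by positivity)]
      apply ENNReal.ofReal_le_ofReal
      have : 0 ≤ (wid u (x, t) - 2 * A) ^ 2 / (4 * A) := by positivity
      have e : A + 1 / (4 * A) * wid u (x, t) ^ 2 - wid u (x, t) =
          (wid u (x, t) - 2 * A) ^ 2 / (4 * A) := by
        field_simp; ring
      linarith
    · have he : lev u (x, t) = ∅ := by
        ext s
        constructor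
        · intro hs
          exact absurd (le_trans hs (h.le _)) ht
        · intro hs; exact absurd hs (notMem_empty _)
      have : wid u (x, t) = 0 := by rw [wid, he]; simp
      rw [this]; simp
  have hmt : Measurable fun t : ℝ => ENNReal.ofReal (Real.exp (-t)) :=
    ENNReal.measurable_ofReal.comp (Real.measurable_exp.comp measurable_neg)
  have hmw : Measurable fun t : ℝ => ENNReal.ofReal (wid u (x, t) ^ 2) :=
    ENNReal.measurable_ofReal.comp (((wid_measurable h).comp measurable_prodMk_left).pow_const 2)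
  have hmi : Measurable fun t : ℝ => (if Real.exp (-t) ≤ hi then 1 else 0 : ℝ≥0∞) := by
    apply Measurable.ite _ measurable_const measurable_const
    exact measurableSet_le (Real.measurable_exp.comp measurable_neg) measurable_const
  calc gg u x = ∫⁻ t : ℝ, ENNReal.ofReal (Real.exp (-t)) * ENNReal.ofReal (wid u (x, t)) :=
        gg_eq h x
    _ ≤ ∫⁻ t : ℝ, (ENNReal.ofReal A * (ENNReal.ofReal (Real.exp (-t)) *
          (if Real.exp (-t) ≤ hi then 1 else 0)) +
        ENNReal.ofReal (1 / (4 * A)) * (ENNReal.ofReal (Real.exp (-t)) *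
          ENNReal.ofReal (wid u (x, t) ^ 2))) := by
        refine lintegral_mono fun t => ?_
        refine (mul_le_mul_right (key t) _).trans (le_of_eq ?_)
        ring
    _ = _ := by
        have hp : Measurable fun t : ℝ => ENNReal.ofReal (Real.exp (-t)) *
          ENNReal.ofReal (wid u (x, t) ^ 2) := hmt.mul hmw
        have hp2 : Measurable fun t : ℝ => ENNReal.ofReal (1 / (4 * A)) *
          (ENNReal.ofReal (Real.exp (-t)) * ENNReal.ofReal (wid u (x, t) ^ 2)) := hp.const_mul _
        have hp3 : Measurable fun t : ℝ => ENNReal.ofReal (Real.exp (-t)) *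
          (if Real.exp (-t) ≤ hi then 1 else 0 : ℝ≥0∞) := hmt.mul hmi
        rw [lintegral_add_right _ hp2, lintegral_const_mul _ hp,
          lintegral_const_mul _ hp3, exp_le_int hi hhi, ENNReal.ofReal_mul hA.le]
        rfl

/-- the measure of the levels `t` with a level set of positive length -/
noncomputable def bb (u : E × ℝ → ℝ) (x : E) : ℝ≥0∞ :=
  ∫⁻ t : ℝ, ENNReal.ofReal (Real.exp (-t)) * (if 0 < wid u (x, t) then 1 else 0)

theorem lo_le_bb (h : Adm u lo hi) (hlo : 0 ≤ lo) (x : E) (hx : gg u x ≠ 0) :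
    ENNReal.ofReal lo ≤ bb u x := by
  rw [← exp_le_int lo hlo]
  refine lintegral_mono fun t => ?_
  dsimp only
  gcongr
  by_cases ht : Real.exp (-t) ≤ lo
  · rw [if_pos ht, if_pos]
    have hsub : {s | 0 < u (x, s)} ⊆ lev u (x, t) := fun s hs => by
      show Real.exp (-t) ≤ u (x, s)
      exact ht.trans (h.ge _ hs)
    have hpos : 0 < volume {s | 0 < u (x, s)} := by
      rw [pos_iff_ne_zero]
      intro h0
      apply hx
      unfold gg
      have hms : Measurable fun s => ENNReal.ofReal (u (x, s)) :=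
        ENNReal.measurable_ofReal.comp (meas_sec h x)
      rw [lintegral_eq_zero_iff hms]
      have : ∀ᵐ s : ℝ, ¬ 0 < u (x, s) := by
        rw [ae_iff]; simpa using h0
      filter_upwards [this] with s hs
      simp only [Pi.zero_apply, ENNReal.ofReal_eq_zero]
      exact not_lt.1 hs
    rw [wid, ENNReal.toReal_pos_iff]
    exact ⟨hpos.trans_le (measure_mono hsub), lt_top_iff_ne_top.2 (lev_vol_ne_top h _)⟩
  · rw [if_neg ht]; exact bot_le

end Crest.Agent.R225.GS
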