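import Crest.Agent.R225.Geo3
import Crest.Agent.R225.Defs

/-!
Row 225 (S0347), geometry 4: one step of the row recursion on `E × ℝ`.
-/

set_option autoImplicit false
set_option linter.unusedSectionVars false

namespace Crest.Agent.R225.GS

open MeasureTheory Set Filter Crest.Agent.Lib.PrekopaLeindler
open scoped ENNReal Pointwise Topology

variable {E : Type*} [AddCommGroup E] [Module ℝ E] [MeasurableSpace E] {u : E × ℝ → ℝ} {lo hi : ℝ}

/-- primitive -/
noncomputable def VV (u : E × ℝ → ℝ) (x : E) (c : ℝ) : ℝ := ∫ s in (0 : ℝ)..c, u (x, s)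

theorem sec_integrable (h : Adm u lo hi) (x : E) : Integrable (fun s => u (x, s)) := by
  obtain ⟨R, hR⟩ := h.bdd
  have h1 : (fun s => u (x, s)) = (Icc (-R) R).indicator (fun s => u (x, s)) := by
    funext s
    by_cases hs : s ∈ Icc (-R) R
    · rw [indicator_of_mem hs]
    · rw [indicator_of_notMem hs]
      by_contra hne
      exact hs (abs_le.1 (hR (x, s) (lt_of_le_of_ne (h.nonneg _) (Ne.symm hne))))
  rw [h1, integrable_indicator_iff measurableSet_Icc]
  refine Measure.integrableOn_of_bounded (M := hi) ?_ (meas_sec h x).aestronglyMeasurable ?_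
  · rw [Real.volume_Icc]; exact ENNReal.ofReal_ne_top
  · refine Eventually.of_forall fun s => ?_
    rw [Real.norm_eq_abs, abs_of_nonneg (h.nonneg _)]
    exact h.le _

theorem VV_continuous (h : Adm u lo hi) (x : E) : Continuous (VV u x) :=
  intervalIntegral.continuous_primitive (fun _ _ => (sec_integrable h x).intervalIntegrable) 0

theorem setint_VV (h : Adm u lo hi) (x : E) {c c' : ℝ} (hc : c ≤ c') :
    ∫⁻ s in Ico c c', ENNReal.ofReal (u (x, s)) = ENNReal.ofReal (VV u x c' - VV u x c) := by
  have hi' : ∀ a b : ℝ, IntervalIntegrable (fun s => u (x, s)) volume a b :=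
    fun _ _ => (sec_integrable h x).intervalIntegrable
  unfold VV
  rw [intervalIntegral.integral_interval_sub_left (hi' _ _) (hi' _ _),
    intervalIntegral.integral_of_le hc, ← integral_Icc_eq_integral_Ioc, integral_Icc_eq_integral_Ico,
    ofReal_integral_eq_lintegral_ofReal (sec_integrable h x).integrableOn
      (Eventually.of_forall fun s => h.nonneg _)]

theorem VV_mono (h : Adm u lo hi) (x : E) : Monotone (VV u x) := by
  intro c c' hc
  have hi' : ∀ a b : ℝ, IntervalIntegrable (fun s => u (x, s)) volume a b :=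
    fun _ _ => (sec_integrable h x).intervalIntegrable
  have : 0 ≤ VV u x c' - VV u x c := by
    unfold VV
    rw [intervalIntegral.integral_interval_sub_left (hi' _ _) (hi' _ _)]
    exact intervalIntegral.integral_nonneg hc fun s _ => h.nonneg _
  linarith

theorem win_eq (h : Adm u lo hi) {a : ℝ} (ha : 0 ≤ a) (x : E) (c : ℝ) :
    win u a x c = ENNReal.ofReal (VV u x (c + a) - VV u x c) :=
  setint_VV h x (by linarith)

theorem win_continuous (h : Adm u lo hi) {a : ℝ} (ha : 0 ≤ a) (x : E) :
    Continuous (win u a x) := by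
  have : win u a x = fun c => ENNReal.ofReal (VV u x (c + a) - VV u x c) :=
    funext fun c => win_eq h ha x c
  rw [this]
  have hV := VV_continuous h x
  exact ENNReal.continuous_ofReal.comp ((hV.comp (continuous_id.add continuous_const)).sub hV)

theorem SS_eq_rat (h : Adm u lo hi) {a : ℝ} (ha : 0 ≤ a) (x : E) :
    SS u a x = ⨆ q : ℚ, win u a x q := by
  apply le_antisymm
  · refine iSup_le fun c => ?_
    refine Rat.denseRange_cast.induction_on (p := fun c => win u a x c ≤ ⨆ q : ℚ, win u a x q) c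
      (isClosed_le (win_continuous h ha x) continuous_const) fun q => ?_
    exact le_iSup (fun q : ℚ => win u a x q) q
  · exact iSup_le fun q => le_iSup (fun c : ℝ => win u a x c) q

theorem SS_measurable (h : Adm u lo hi) {a : ℝ} (ha : 0 ≤ a) : Measurable (SS u a) := by
  have : SS u a = fun x => ⨆ q : ℚ, win u a x q := funext fun x => SS_eq_rat h ha x
  rw [this]
  refine Measurable.iSup fun q => ?_
  unfold win
  exact Measurable.lintegral_prod_right' (f := fun p : E × ℝ => ENNReal.ofReal (u p))
    (ENNReal.measurable_ofReal.comp h.meas)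

/-- the largest window integral is attained -/
theorem exists_win (h : Adm u lo hi) {a : ℝ} (ha : 0 ≤ a) (x : E) : ∃ c, SS u a x = win u a x c := by
  obtain ⟨R, hR⟩ := h.bdd
  obtain ⟨c, hc, hmax⟩ := (isCompact_Icc (a := -(|R| + a)) (b := |R| + a)).exists_isMaxOn
    ⟨0, by constructor <;> linarith [abs_nonneg R]⟩ (win_continuous h ha x).continuousOn
  refine ⟨c, le_antisymm (iSup_le fun d => ?_) (le_iSup (fun c => win u a x c) c)⟩
  by_cases hd : d ∈ Icc (-(|R| + a)) (|R| + a)
  · exact hmax hd
  · have : win u a x d = 0 := by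
      unfold win
      rw [setLIntegral_congr_fun (g := fun _ => 0) measurableSet_Ico]
      · simp
      · intro s hs
        have : u (x, s) ≤ 0 := by
          by_contra hpos
          have h1 := abs_le.1 ((hR (x, s) (not_le.1 hpos)).trans (le_abs_self R))
          apply hd
          constructor
          · linarith [hs.2, h1.1]
          · linarith [hs.1, h1.2]
        simp [ENNReal.ofReal_of_nonpos this]
    rw [this]; exact bot_le

/-- log-concavity of the largest window integral -/
theorem SS_lc (h : Adm u lo hi) {a : ℝ} (ha : 0 ≤ a) : Crest.Agent.R225.LC (SS u a) := by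
  intro x y θ hθ0 hθ1
  obtain ⟨c, hc⟩ := exists_win h ha x
  obtain ⟨d, hd⟩ := exists_win h ha y
  rw [hc, hd]
  have hθ1' : 0 < 1 - θ := by linarith
  refine le_trans ?_ (le_iSup (fun c => win u a ((1 - θ) • x + θ • y) c) ((1 - θ) * c + θ * d))
  unfold win
  rw [← lintegral_indicator measurableSet_Ico, ← lintegral_indicator measurableSet_Ico,
    ← lintegral_indicator measurableSet_Ico]
  have hm : ∀ z : E, Measurable fun s => ENNReal.ofReal (u (z, s)) := fun z =>
    ENNReal.measurable_ofReal.comp (meas_sec h z)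
  refine PL_real θ hθ0 hθ1 _ _ _ ((hm _).indicator measurableSet_Ico)
    ((hm _).indicator measurableSet_Ico) ((hm _).indicator measurableSet_Ico) ?_
  intro s r
  by_cases hs : s ∈ Ico c (c + a)
  · by_cases hr : r ∈ Ico d (d + a)
    · have hz : (1 - θ) • s + θ • r ∈ Ico ((1 - θ) * c + θ * d) ((1 - θ) * c + θ * d + a) := by
        simp only [smul_eq_mul]
        constructor
        · have := mul_le_mul_of_nonneg_left hs.1 hθ1'.le
          have := mul_le_mul_of_nonneg_left hr.1 hθ0.le
          linarith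
        · have := mul_lt_mul_of_pos_left hs.2 hθ1'
          have := mul_lt_mul_of_pos_left hr.2 hθ0
          linarith
      rw [indicator_of_mem hs, indicator_of_mem hr, indicator_of_mem hz]
      rcases eq_or_lt_of_le (h.nonneg (x, s)) with h1 | h1
      · rw [← h1, ENNReal.ofReal_zero, ENNReal.zero_rpow_of_pos hθ1', zero_mul]; exact bot_le
      rcases eq_or_lt_of_le (h.nonneg (y, r)) with h2 | h2
      · rw [← h2, ENNReal.ofReal_zero, ENNReal.zero_rpow_of_pos hθ0, mul_zero]; exact bot_le
      rw [ENNReal.ofReal_rpow_of_pos h1, ENNReal.ofReal_rpow_of_pos h2,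
        ← ENNReal.ofReal_mul (by positivity)]
      exact ENNReal.ofReal_le_ofReal (h.lc θ hθ0 hθ1 (x, s) (y, r) h1 h2)
    · rw [indicator_of_notMem hr, ENNReal.zero_rpow_of_pos hθ0, mul_zero]; exact bot_le
  · rw [indicator_of_notMem hs, ENNReal.zero_rpow_of_pos hθ1', zero_mul]; exact bot_le

/-- value of the next function before the floor -/
noncomputable def vv (u : E × ℝ → ℝ) (a hi' : ℝ) (x : E) : ℝ≥0∞ :=
  min (ENNReal.ofReal hi') (ENNReal.ofReal (1 / a) * SS u a x)

open scoped Classical in
/-- the next function -/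
noncomputable def nx (u : E × ℝ → ℝ) (a lo' hi' : ℝ) (x : E) : ℝ≥0∞ :=
  if ENNReal.ofReal lo' ≤ vv u a hi' x then vv u a hi' x else 0

theorem rpow_split (x : ℝ≥0∞) {θ : ℝ} (hθ0 : 0 < θ) (hθ1 : θ < 1) : x ^ (1 - θ) * x ^ θ = x := by
  rw [← ENNReal.rpow_add_of_nonneg _ _ (by linarith) hθ0.le]; simp

theorem vv_measurable (h : Adm u lo hi) {a hi' : ℝ} (ha : 0 ≤ a) : Measurable (vv u a hi') :=
  measurable_const.min ((SS_measurable h ha).const_mul _)

theorem nx_measurable (h : Adm u lo hi) {a lo' hi' : ℝ} (ha : 0 ≤ a) :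
    Measurable (nx u a lo' hi') := by
  classical
  unfold nx
  exact Measurable.ite (measurableSet_le measurable_const (vv_measurable h ha)) (vv_measurable h ha)
    measurable_const

theorem vv_lc (h : Adm u lo hi) {a hi' : ℝ} (ha : 0 ≤ a) : Crest.Agent.R225.LC (vv u a hi') := by
  intro x y θ hθ0 hθ1
  have hθ1' : 0 ≤ 1 - θ := by linarith
  unfold vv
  refine le_min ?_ ?_
  · calc _ ≤ ENNReal.ofReal hi' ^ (1 - θ) * ENNReal.ofReal hi' ^ θ :=
        mul_le_mul' (ENNReal.rpow_le_rpow (min_le_left _ _) hθ1')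
          (ENNReal.rpow_le_rpow (min_le_left _ _) hθ0.le)
      _ = _ := rpow_split _ hθ0 hθ1
  · calc _ ≤ (ENNReal.ofReal (1 / a) * SS u a x) ^ (1 - θ) * (ENNReal.ofReal (1 / a) * SS u a y) ^ θ :=
        mul_le_mul' (ENNReal.rpow_le_rpow (min_le_right _ _) hθ1')
          (ENNReal.rpow_le_rpow (min_le_right _ _) hθ0.le)
      _ = (ENNReal.ofReal (1 / a) ^ (1 - θ) * ENNReal.ofReal (1 / a) ^ θ) *
            (SS u a x ^ (1 - θ) * SS u a y ^ θ) := by
          rw [ENNReal.mul_rpow_of_nonneg _ _ hθ1', ENNReal.mul_rpow_of_nonneg _ _ hθ0.le]; ring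
      _ ≤ _ := by
          rw [rpow_split _ hθ0 hθ1]
          exact mul_le_mul_right (SS_lc h ha x y θ hθ0 hθ1) _

theorem nx_lc (h : Adm u lo hi) {a lo' hi' : ℝ} (ha : 0 ≤ a) :
    Crest.Agent.R225.LC (nx u a lo' hi') := by
  intro x y θ hθ0 hθ1
  have hθ1' : 0 < 1 - θ := by linarith
  by_cases hx : ENNReal.ofReal lo' ≤ vv u a hi' x
  · by_cases hy : ENNReal.ofReal lo' ≤ vv u a hi' y
    · have h1 := vv_lc h (hi' := hi') ha x y θ hθ0 hθ1
      have h2 : ENNReal.ofReal lo' ≤ vv u a hi' ((1 - θ) • x + θ • y) := by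
        refine le_trans ?_ h1
        calc ENNReal.ofReal lo' = ENNReal.ofReal lo' ^ (1 - θ) * ENNReal.ofReal lo' ^ θ :=
              (rpow_split _ hθ0 hθ1).symm
          _ ≤ _ := mul_le_mul' (ENNReal.rpow_le_rpow hx hθ1'.le) (ENNReal.rpow_le_rpow hy hθ0.le)
      unfold nx
      rw [if_pos hx, if_pos hy, if_pos h2]
      exact h1
    · have : nx u a lo' hi' y = 0 := by unfold nx; rw [if_neg hy]
      rw [this, ENNReal.zero_rpow_of_pos hθ0, mul_zero]; exact bot_le
  · have : nx u a lo' hi' x = 0 := by unfold nx; rw [if_neg hx]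
    rw [this, ENNReal.zero_rpow_of_pos hθ1', zero_mul]; exact bot_le

/-- the value is the average over a window of length at most `a` -/
theorem nx_window (h : Adm u lo hi) {a lo' hi' : ℝ} (ha : 0 < a) (hhi' : 0 ≤ hi') (x : E)
    (hx : nx u a lo' hi' x ≠ 0) :
    ∃ c c', c ≤ c' ∧ c' ≤ c + a ∧
      nx u a lo' hi' x = ENNReal.ofReal (1 / a) * ∫⁻ s in Ico c c', ENNReal.ofReal (u (x, s)) := by
  obtain ⟨c, hc⟩ := exists_win h ha.le x
  have hnx : nx u a lo' hi' x = vv u a hi' x := by
    unfold nx
    split_ifs with h1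
    · rfl
    · exact absurd (by unfold nx; rw [if_neg h1]) hx
  rw [hnx]
  unfold vv
  rcases le_total (ENNReal.ofReal (1 / a) * SS u a x) (ENNReal.ofReal hi') with h1 | h1
  · refine ⟨c, c + a, by linarith, le_rfl, ?_⟩
    rw [min_eq_right h1, hc]
    rfl
  · rw [min_eq_left h1]
    -- intermediate value theorem
    have hV := VV_continuous h x
    have h2 : a * hi' ≤ VV u x (c + a) - VV u x c := by
      rw [hc, win_eq h ha.le, ← ENNReal.ofReal_mul (by positivity)] at h1
      have h3 : 0 ≤ 1 / a * (VV u x (c + a) - VV u x c) :=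
        mul_nonneg (by positivity) (sub_nonneg.2 (VV_mono h x (by linarith)))
      have h4 := (ENNReal.ofReal_le_ofReal_iff h3).1 h1
      rw [one_div, inv_mul_eq_div, le_div_iff₀ ha] at h4
      linarith
    have h3 : VV u x c + a * hi' ∈ Icc (VV u x c) (VV u x (c + a)) := by
      constructor
      · have := mul_nonneg ha.le hhi'; linarith
      · linarith
    obtain ⟨c', hc', hval⟩ := intermediate_value_Icc (show c ≤ c + a by linarith) hV.continuousOn h3
    refine ⟨c, c', hc'.1, hc'.2, ?_⟩
    rw [setint_VV h x hc'.1, hval, add_sub_cancel_left, ← ENNReal.ofReal_mul (by positivity)]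
    congr 1
    field_simp

variable {μ : Measure E} [SFinite μ]

theorem gg_measurable (h : Adm u lo hi) : Measurable (gg u) :=
  Measurable.lintegral_prod_right' (f := fun p : E × ℝ => ENNReal.ofReal (u p))
    (ENNReal.measurable_ofReal.comp h.meas)

theorem int_gg (h : Adm u lo hi) :
    ∫⁻ x, gg u x ∂μ = ∫⁻ p, ENNReal.ofReal (wid u p) ∂(nuE μ) := by
  rw [lintegral_nuE (F := fun p => ENNReal.ofReal (wid u p))
    (ENNReal.measurable_ofReal.comp (wid_measurable h))]
  exact lintegral_congr fun x => gg_eq h x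

theorem int_ww (h : Adm u lo hi) :
    ∫⁻ x, ww u x ∂μ = ∫⁻ p, ENNReal.ofReal (wid u p ^ 2) ∂(nuE μ) := by
  rw [lintegral_nuE (F := fun p => ENNReal.ofReal (wid u p ^ 2))
    (ENNReal.measurable_ofReal.comp ((wid_measurable h).pow_const 2))]
  rfl

theorem int_bb (h : Adm u lo hi) : ∫⁻ x, bb u x ∂μ = nuE μ {p | 0 < wid u p} := by
  have hms : MeasurableSet {p : E × ℝ | 0 < wid u p} :=
    measurableSet_lt measurable_const (wid_measurable h)
  have h1 := lintegral_nuE (μ := μ) (F := {p : E × ℝ | 0 < wid u p}.indicator 1)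
    (measurable_one.indicator hms)
  rw [lintegral_indicator_one hms] at h1
  rw [h1]
  refine lintegral_congr fun x => ?_
  unfold bb
  refine lintegral_congr fun t => ?_
  congr 1

end Crest.Agent.R225.GS
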