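import Crest.Agent.R225.Iface

/-!
# Row 225 (S0347), node Geom: existence of the chain (iterate Row)
-/

set_option autoImplicit false

open Finset MeasureTheory
open scoped BigOperators ENNReal

namespace Crest.Agent.R225

namespace GeomAux

/-- properties of one function of the chain -/
def PP (X : ℝ) (d I : ℕ) (α0 : ℝ) (j : ℕ) (F : (Fin (d + j) → ℝ) → ℝ≥0∞) : Prop :=
  LC F ∧ Measurable F ∧ BddSupp F ∧ Vals (alf X α0 I j) (tauf X I j) F ∧ ∫⁻ x, F x ≠ 0

/-- relation between two consecutive functions -/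
def RR (X : ℝ) (d I : ℕ) (α0 : ℝ) (j : ℕ) (a : ℝ) (F' : (Fin (d + j) → ℝ) → ℝ≥0∞)
    (F : (Fin (d + (j + 1)) → ℝ) → ℝ≥0∞) : Prop :=
  0 < a ∧ (∀ x : Fin (d + j) → ℝ, F' x ≠ 0 → ∃ c c', c ≤ c' ∧ c' ≤ c + a ∧
    F' x = ENNReal.ofReal (1 / a) * ∫⁻ s in Set.Ico c c', F (Fin.snoc x s)) ∧
  (ENNReal.ofReal (1 - 100 / lam X (I - j)) * ∫⁻ x, F x ≤ ENNReal.ofReal a * ∫⁻ x, F' x) ∧
  ∃ (x : Fin (d + j) → ℝ) (s1 s2 : ℝ), F (Fin.snoc x s1) ≠ 0 ∧
    F (Fin.snoc x s2) ≠ 0 ∧ a ≤ 2 * Qf X α0 I j * (s2 - s1)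

/-- numerical conditions -/
structure NumOk (X Λ : ℝ) : Prop where
  X0 : 0 ≤ X
  lamΛ : ∀ i, Λ ≤ lam X i
  lamθ : ∀ i, lam X i ≤ Real.exp (theta * xl X i)
  sum : ∀ i, ∑ j ∈ range i, 1 / lam X j ≤ 1 / 200

lemma lam_pos (X : ℝ) (i : ℕ) : 0 < lam X i := Real.exp_pos _

lemma al_pos (X : ℝ) (i : ℕ) : 0 < al X i := Real.exp_pos _

lemma al_zero (X : ℝ) : al X 0 = 1 := by simp [al, xl]

lemma al_succ (X : ℝ) (i : ℕ) :
    al X (i + 1) = al X i * lam X i / (lam X i * Real.exp (theta * xl X i)) := by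
  have : al X (i + 1) = al X i / Real.exp (theta * xl X i) := by
    unfold al
    rw [← Real.exp_sub]
    congr 1
    unfold xl
    ring
  rw [this]
  field_simp [(lam_pos X i).ne', (Real.exp_pos (theta * xl X i)).ne']

lemma tau_zero (X : ℝ) : tau X 0 = 1 := by simp [tau]

lemma tau_succ (X : ℝ) (i : ℕ) : tau X (i + 1) = tau X i / (2 * lam X i ^ 2) := by
  unfold tau
  rw [prod_range_succ]; ring

lemma tau_pos (X : ℝ) (i : ℕ) : 0 < tau X i := by
  unfold tau
  exact prod_pos fun j _ => by have := lam_pos X j; positivity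

lemma tau_le_one (X : ℝ) (i : ℕ) : tau X i ≤ 1 := by
  unfold tau
  refine prod_le_one (fun j _ => by have := lam_pos X j; positivity) fun j _ => ?_
  have h1 : 1 ≤ lam X j := Real.one_le_exp (Real.sqrt_nonneg _)
  rw [div_le_one (by positivity)]
  nlinarith

lemma step (hRowΛ : ℝ)
    (hRow : ∀ (k : ℕ) (α τ lm Q : ℝ) (f : (Fin (k + 1) → ℝ) → ℝ≥0∞),
      0 < α → 0 < τ → τ ≤ 1 → hRowΛ ≤ lm → lm ^ 2 ≤ Q → LC f → Measurable f → BddSupp f →
      Vals α τ f → ∫⁻ x, f x ≠ 0 → ∃ (a : ℝ) (f' : (Fin k → ℝ) → ℝ≥0∞), 0 < a ∧ LC f' ∧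
      Measurable f' ∧ BddSupp f' ∧ Vals (α * lm / Q) (τ / (2 * lm ^ 2)) f' ∧
      (∀ x, f' x ≠ 0 → ∃ c c', c ≤ c' ∧ c' ≤ c + a ∧
        f' x = ENNReal.ofReal (1 / a) * ∫⁻ s in Set.Ico c c', f (Fin.snoc x s)) ∧
      ENNReal.ofReal (1 - 100 / lm) * ∫⁻ x, f x ≤ ENNReal.ofReal a * ∫⁻ x, f' x ∧
      ∃ (x : Fin k → ℝ) (s1 s2 : ℝ), f (Fin.snoc x s1) ≠ 0 ∧ f (Fin.snoc x s2) ≠ 0 ∧
        a ≤ 2 * Q * (s2 - s1))
    {X : ℝ} (hnum : NumOk X hRowΛ) (d I : ℕ) (α0 : ℝ) (hα0 : 0 < α0)
    (hα0' : α0 * Real.exp (theta * xl X I) ≤ al X I) (j : ℕ) (hj : j ≤ I)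
    (F : (Fin (d + (j + 1)) → ℝ) → ℝ≥0∞) (hF : PP X d I α0 (j + 1) F) :
    ∃ (a : ℝ) (F' : (Fin (d + j) → ℝ) → ℝ≥0∞), PP X d I α0 j F' ∧ RR X d I α0 j a F' F := by
  obtain ⟨hlc, hmeas, hbdd, hvals, hint⟩ := hF
  have hidx : I + 1 - (j + 1) = I - j := by omega
  have hidx' : I + 1 - j = I - j + 1 := by omega
  have hα : alf X α0 I (j + 1) = al X (I - j) := by
    unfold alf; rw [if_neg (Nat.succ_ne_zero j), hidx]
  have hτ : tauf X I (j + 1) = tau X (I - j) := by unfold tauf; rw [hidx]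
  have hτ' : tauf X I j = tau X (I - j) / (2 * lam X (I - j) ^ 2) := by
    unfold tauf; rw [hidx', tau_succ]
  rw [hα, hτ] at hvals
  have hlm := hnum.lamΛ (I - j)
  have hlmθ := hnum.lamθ (I - j)
  have hlpos := lam_pos X (I - j)
  have hQ : lam X (I - j) ^ 2 ≤ Qf X α0 I j := by
    unfold Qf
    split_ifs with h0
    · subst h0
      rw [le_div_iff₀ hα0, Nat.sub_zero]
      rw [Nat.sub_zero] at hlmθ hlpos
      calc lam X I ^ 2 * α0 = lam X I * (α0 * lam X I) := by ring
        _ ≤ lam X I * (α0 * Real.exp (theta * xl X I)) := by gcongr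
        _ ≤ lam X I * al X I := by gcongr
        _ = al X I * lam X I := by ring
    · rw [sq]; gcongr
  have hα' : al X (I - j) * lam X (I - j) / Qf X α0 I j = alf X α0 I j := by
    unfold Qf alf
    split_ifs with h0
    · subst h0
      rw [Nat.sub_zero] at hlpos ⊢
      have := al_pos X I
      field_simp
    · rw [hidx', al_succ]
  obtain ⟨a, F', ha, hlc', hmeas', hbdd', hvals', hwin, hmass, hseg⟩ :=
    hRow (d + j) (al X (I - j)) (tau X (I - j)) (lam X (I - j)) (Qf X α0 I j) F (al_pos _ _)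
      (tau_pos _ _) (tau_le_one _ _) hlm hQ hlc hmeas hbdd hvals hint
  rw [hα', ← hτ'] at hvals'
  refine ⟨a, F', ⟨hlc', hmeas', hbdd', hvals', ?_⟩, ha, hwin, hmass, hseg⟩
  intro h0
  rw [h0, mul_zero] at hmass
  have h1 : ENNReal.ofReal (1 - 100 / lam X (I - j)) * ∫⁻ x, F x = 0 := le_antisymm hmass bot_le
  rcases mul_eq_zero.1 h1 with h2 | h2
  · rw [ENNReal.ofReal_eq_zero] at h2
    have h3 := hnum.sum (I - j + 1)
    rw [sum_range_succ] at h3
    have h4 : 0 ≤ ∑ x ∈ range (I - j), 1 / lam X x :=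
      sum_nonneg fun x _ => by have := lam_pos X x; positivity
    have h5 : 1 / lam X (I - j) ≤ 1 / 200 := by linarith
    have h6 : 100 / lam X (I - j) = 100 * (1 / lam X (I - j)) := by ring
    rw [h6] at h2
    linarith
  · exact hint h2

end GeomAux

open GeomAux in
theorem prf_Geom (hNum : S_Num) (hRow : S_Row) : S_Geom := by
  obtain ⟨Λ, hΛ1, hRow⟩ := hRow
  set K0 : ℝ := max (max 200 (1 / theta ^ 2)) ((Real.log Λ) ^ 2) with hK0
  have hθ : 0 < theta := by unfold theta; norm_num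
  obtain ⟨X0, hX1, hX0⟩ := hNum K0
  have hK200 : (200:ℝ) ≤ K0 := (le_max_left _ _).trans (le_max_left _ _)
  have hKθ : 1 / theta ^ 2 ≤ K0 := (le_max_right _ _).trans (le_max_left _ _)
  have hKΛ : (Real.log Λ) ^ 2 ≤ K0 := le_max_right _ _
  refine ⟨X0, fun X hX d I α0 K hα0 hα0' hKc hKconv hKv => ?_⟩
  have hnum : NumOk X Λ := by
    refine ⟨by linarith, fun i => ?_, fun i => ?_, fun i => ?_⟩
    · have hx := (hX0 X hX i).1
      unfold lam
      rw [← Real.log_le_iff_le_exp (by linarith)]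
      refine Real.le_sqrt_of_sq_le ?_
      linarith
    · have hx := (hX0 X hX i).1
      unfold lam
      apply Real.exp_le_exp.2
      have hxpos : 0 < xl X i := by linarith
      rw [Real.sqrt_le_left (by positivity)]
      have h1 : 1 ≤ theta ^ 2 * xl X i := by
        have : 1 / theta ^ 2 ≤ xl X i := hKθ.trans hx
        rw [div_le_iff₀ (by positivity)] at this
        linarith
      nlinarith
    · obtain ⟨-, -, -, -, -, -, -, h⟩ := hX0 X hX i
      refine h.trans ?_
      rw [abs_of_nonneg (by linarith)]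
      exact one_div_le_one_div_of_le (by norm_num) (by linarith)
  -- the top function
  have hKmeas : MeasurableSet K := hKc.measurableSet
  have htop : PP X d I α0 (I + 1) (K.indicator 1) := by
    refine ⟨?_, measurable_one.indicator hKmeas, ?_, ?_, ?_⟩
    · intro x y t ht0 ht1
      by_cases hx : x ∈ K
      · by_cases hy : y ∈ K
        · have : (1 - t) • x + t • y ∈ K := hKconv hx hy (by linarith) ht0.le (by ring)
          simp [hx, hy, this]
        · simp [hy, ht0]
      · simp [hx, ENNReal.zero_rpow_of_pos (by linarith : 0 < 1 - t)]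
    · obtain ⟨B, hB⟩ := hKc.isBounded.exists_norm_le
      refine ⟨B, fun x hx i => ?_⟩
      have hxK : x ∈ K := by
        by_contra h; exact hx (by simp [h])
      have := hB x hxK
      exact (norm_le_pi_norm x i).trans this
    · intro x
      have h1 : alf X α0 I (I + 1) = 1 := by
        unfold alf; rw [if_neg (Nat.succ_ne_zero I), Nat.sub_self, al_zero]
      have h2 : tauf X I (I + 1) = 1 := by
        unfold tauf; rw [Nat.sub_self, tau_zero]
      rw [h1, h2]
      by_cases hx : x ∈ K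
      · right; simp [hx]
      · left; simp [hx]
    · rw [lintegral_indicator_one hKmeas]; exact hKv
  -- downward induction
  have hmain : ∀ t : ℕ, t ≤ I + 1 → ∃ (a : ℕ → ℝ) (U : ∀ j : ℕ, (Fin (d + j) → ℝ) → ℝ≥0∞),
      U (I + 1) = K.indicator 1 ∧ (∀ j, 0 < a j) ∧
      (∀ j, I + 1 - t ≤ j → j ≤ I + 1 → PP X d I α0 j (U j)) ∧
      (∀ j, I + 1 - t ≤ j → j ≤ I → RR X d I α0 j (a j) (U j) (U (j + 1))) := by
    intro t
    induction t with
    | zero =>
      intro _
      refine ⟨fun _ => 1, Function.update (fun _ _ => 0) (I + 1) (K.indicator 1),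
        Function.update_self _ _ _, fun _ => one_pos, ?_, ?_⟩
      · intro j hj hj'
        have : j = I + 1 := by omega
        subst this
        rw [Function.update_self]
        exact htop
      · intro j hj hj'; omega
    | succ t ih =>
      intro ht
      obtain ⟨a, U, hU, ha, hP, hR⟩ := ih (by omega)
      have hj0 : I + 1 - t = (I - t) + 1 := by omega
      obtain ⟨a', F', hP', hR'⟩ := step Λ hRow hnum d I α0 hα0 hα0' (I - t) (by omega)
        (U (I - t + 1)) (hP (I - t + 1) (by omega) (by omega))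
      refine ⟨Function.update a (I - t) a', Function.update U (I - t) F', ?_, ?_, ?_, ?_⟩
      · rw [Function.update_of_ne (by omega)]; exact hU
      · intro j
        by_cases hj : j = I - t
        · subst hj; rw [Function.update_self]; exact hR'.1
        · rw [Function.update_of_ne hj]; exact ha j
      · intro j hj hj'
        by_cases hjj : j = I - t
        · subst hjj; rw [Function.update_self]; exact hP'
        · rw [Function.update_of_ne hjj]; exact hP j (by omega) hj'
      · intro j hj hj'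
        by_cases hjj : j = I - t
        · subst hjj
          rw [Function.update_self, Function.update_self, Function.update_of_ne (by omega)]
          exact hR'
        · rw [Function.update_of_ne hjj, Function.update_of_ne hjj,
            Function.update_of_ne (by omega)]
          exact hR j (by omega) hj'
  obtain ⟨a, U, hU, ha, hP, hR⟩ := hmain (I + 1) le_rfl
  rw [Nat.sub_self] at hP hR
  refine ⟨a, U, ⟨ha, fun x => by rw [hU], fun j hj => (hP j (Nat.zero_le _) hj).1,
    fun j hj => (hP j (Nat.zero_le _) hj).2.1, fun j hj => (hP j (Nat.zero_le _) hj).2.2.1,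
    fun j hj => (hP j (Nat.zero_le _) hj).2.2.2.1, fun j hj => (hR j (Nat.zero_le _) hj).2.1,
    ?_, fun j hj => (hR j (Nat.zero_le _) hj).2.2.2⟩⟩
  -- mass
  have hq : ∀ i, 0 ≤ 1 - 100 / lam X i := by
    intro i
    have h3 := hnum.sum (i + 1)
    rw [sum_range_succ] at h3
    have h4 : 0 ≤ ∑ x ∈ range i, 1 / lam X x :=
      sum_nonneg fun x _ => by have := lam_pos X x; positivity
    have h6 : 100 / lam X i = 100 * (1 / lam X i) := by ring
    rw [h6]
    linarith
  have htel : ∀ k : ℕ, k ≤ I + 1 →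
      ENNReal.ofReal (∏ j ∈ range k, (1 - 100 / lam X (I - j))) * ∫⁻ x, U k x ≤
      ENNReal.ofReal (∏ j ∈ range k, a j) * ∫⁻ x, U 0 x := by
    intro k
    induction k with
    | zero => intro _; simp
    | succ k ih =>
      intro hk
      have hR' := (hR k (Nat.zero_le _) (by omega)).2.2.1
      rw [prod_range_succ, prod_range_succ, ENNReal.ofReal_mul (prod_nonneg fun i _ => hq _),
        ENNReal.ofReal_mul (prod_nonneg fun i _ => (ha _).le)]
      calc ENNReal.ofReal (∏ j ∈ range k, (1 - 100 / lam X (I - j))) *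
            ENNReal.ofReal (1 - 100 / lam X (I - k)) * ∫⁻ x, U (k + 1) x
          = ENNReal.ofReal (∏ j ∈ range k, (1 - 100 / lam X (I - j))) *
            (ENNReal.ofReal (1 - 100 / lam X (I - k)) * ∫⁻ x, U (k + 1) x) := by ring
        _ ≤ ENNReal.ofReal (∏ j ∈ range k, (1 - 100 / lam X (I - j))) *
            (ENNReal.ofReal (a k) * ∫⁻ x, U k x) := by gcongr
        _ = ENNReal.ofReal (a k) * (ENNReal.ofReal (∏ j ∈ range k, (1 - 100 / lam X (I - j))) *
            ∫⁻ x, U k x) := by ring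
        _ ≤ ENNReal.ofReal (a k) * (ENNReal.ofReal (∏ j ∈ range k, a j) * ∫⁻ x, U 0 x) :=
            mul_le_mul_right (ih (by omega)) _
        _ = _ := by ring
  have hprod : (1:ℝ) / 2 ≤ ∏ j ∈ range (I + 1), (1 - 100 / lam X (I - j)) := by
    have h1 : ∏ j ∈ range (I + 1), (1 - 100 / lam X (I - j)) =
        ∏ j ∈ range (I + 1), (1 - 100 / lam X j) := by
      rw [← prod_range_reflect]
      refine prod_congr rfl fun j hj => ?_
      rw [mem_range] at hj
      congr 3
      omega
    rw [h1]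
    have h2 : ∀ k : ℕ, 1 - ∑ j ∈ range k, 100 / lam X j ≤ ∏ j ∈ range k, (1 - 100 / lam X j) := by
      intro k
      induction k with
      | zero => simp
      | succ k ih =>
        rw [sum_range_succ, prod_range_succ]
        have hp1 : ∏ j ∈ range k, (1 - 100 / lam X j) ≤ 1 := by
          refine prod_le_one (fun j _ => hq j) fun j _ => ?_
          have : 0 < 100 / lam X j := by have := lam_pos X j; positivity
          linarith
        have hp2 : 0 < 100 / lam X k := by have := lam_pos X k; positivity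
        nlinarith [hq k]
    have h3 : ∑ j ∈ range (I + 1), 100 / lam X j ≤ 1 / 2 := by
      have h4 : ∑ j ∈ range (I + 1), 100 / lam X j = 100 * ∑ j ∈ range (I + 1), 1 / lam X j := by
        rw [mul_sum]; exact sum_congr rfl fun j _ => by ring
      rw [h4]
      have := hnum.sum (I + 1)
      linarith
    linarith [h2 (I + 1)]
  have hfin := htel (I + 1) le_rfl
  have hUK : ∫⁻ x, U (I + 1) x = volume K := by
    rw [hU, lintegral_indicator_one hKmeas]
  rw [hUK] at hfin
  have h2 : (1:ℝ≥0∞) ≤ 2 * ENNReal.ofReal (∏ j ∈ range (I + 1), (1 - 100 / lam X (I - j))) := by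
    have : (1:ℝ≥0∞) = 2 * ENNReal.ofReal (1 / 2) := by
      rw [show (2:ℝ≥0∞) = ENNReal.ofReal 2 by norm_num, ← ENNReal.ofReal_mul (by norm_num)]
      norm_num
    rw [this]
    gcongr
  calc volume K = 1 * volume K := (one_mul _).symm
    _ ≤ 2 * ENNReal.ofReal (∏ j ∈ range (I + 1), (1 - 100 / lam X (I - j))) * volume K := by
        gcongr
    _ = 2 * (ENNReal.ofReal (∏ j ∈ range (I + 1), (1 - 100 / lam X (I - j))) * volume K) := by
        ring
    _ ≤ 2 * (ENNReal.ofReal (∏ j ∈ range (I + 1), a j) * ∫⁻ x, U 0 x) := by gcongr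
    _ = _ := by ring

end Crest.Agent.R225
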