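import Crest.Agent.Lib.PrekopaLeindler

/-!
# Row 225, S0347: geometry of one row (log-concave bookkeeping)

For a log-concave `f : E × ℝ → ℝ≥0∞` with values in `{0} ∪ [τ α, α]` we produce the log-concave
function `nxt` on `E` (best window average, capped and cut off) and bound the mass loss.
-/

set_option autoImplicit false
set_option linter.unusedSectionVars false

open MeasureTheory Set
open scoped ENNReal Pointwise

namespace Crest.Agent.R225.Geom

open Crest.Agent.Lib.PrekopaLeindler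

/-- log-concavity -/
def LC {E : Type*} [AddCommGroup E] [Module ℝ E] (f : E → ℝ≥0∞) : Prop :=
  ∀ (x y : E) (t : ℝ), 0 < t → t < 1 → f x ^ (1 - t) * f y ^ t ≤ f ((1 - t) • x + t • y)

variable {E : Type*} [AddCommGroup E] [Module ℝ E] [MeasurableSpace E] {μ : Measure E} [SFinite μ]

/-- measure of a superlevel set of a fibre -/
noncomputable def W (f : E × ℝ → ℝ≥0∞) (x : E) (c : ℝ≥0∞) : ℝ≥0∞ := volume {s : ℝ | c < f (x, s)}

theorem W_anti (f : E × ℝ → ℝ≥0∞) (x : E) {c d : ℝ≥0∞} (h : c ≤ d) : W f x d ≤ W f x c :=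
  measure_mono fun _ hs => lt_of_le_of_lt h hs

theorem measurable_W {f : E × ℝ → ℝ≥0∞} (hf : Measurable f) (c : ℝ≥0∞) :
    Measurable fun x => W f x c :=
  measurable_measure_prodMk_left (ν := volume) (measurableSet_lt measurable_const hf)

/-- decreasing rearrangement of the fibres -/
noncomputable def mt (f : E × ℝ → ℝ≥0∞) (t : ℝ≥0∞) (x : E) : ℝ≥0∞ :=
  ⨆ q : ℚ, if t < W f x (ENNReal.ofReal q) then ENNReal.ofReal q else 0

theorem measurable_mt {f : E × ℝ → ℝ≥0∞} (hf : Measurable f) (t : ℝ≥0∞) :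
    Measurable (mt f t) := by
  refine Measurable.iSup fun q => ?_
  exact Measurable.ite (measurableSet_lt measurable_const (measurable_W hf _))
    measurable_const measurable_const

theorem lt_W_of_lt_mt {f : E × ℝ → ℝ≥0∞} {t : ℝ≥0∞} {x : E} {c : ℝ≥0∞} (h : c < mt f t x) :
    t < W f x c := by
  obtain ⟨q, hq⟩ := lt_iSup_iff.1 h
  by_cases h1 : t < W f x (ENNReal.ofReal q)
  · rw [if_pos h1] at hq
    exact lt_of_lt_of_le h1 (W_anti f x hq.le)
  · rw [if_neg h1] at hq
    exact absurd hq not_lt_zero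

theorem le_mt_of_lt_W {f : E × ℝ → ℝ≥0∞} {t : ℝ≥0∞} {x : E} {c : ℝ≥0∞} (h : t < W f x c) :
    c ≤ mt f t x := by
  refine le_of_forall_lt fun d hd => ?_
  obtain ⟨q, _, hq1, hq2⟩ := ENNReal.lt_iff_exists_rat_btwn.1 hd
  have hq2' : ENNReal.ofReal q < c := hq2
  have h2 : t < W f x (ENNReal.ofReal q) := lt_of_lt_of_le h (W_anti f x hq2'.le)
  have h3 : ENNReal.ofReal q ≤ mt f t x := by
    refine le_trans ?_ (le_iSup _ q)
    rw [if_pos h2]
  exact lt_of_lt_of_le hq1 h3

theorem mt_le {f : E × ℝ → ℝ≥0∞} {α : ℝ≥0∞} (hα : ∀ p, f p ≤ α) (t : ℝ≥0∞) (x : E) :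
    mt f t x ≤ α := by
  refine iSup_le fun q => ?_
  split_ifs with h
  · have h1 : ({s : ℝ | ENNReal.ofReal q < f (x, s)}).Nonempty := by
      by_contra h2
      rw [Set.not_nonempty_iff_eq_empty] at h2
      rw [W, h2, measure_empty] at h
      exact absurd h not_lt_zero
    obtain ⟨s, hs⟩ := h1
    exact le_trans (le_of_lt hs) (hα _)
  · exact zero_le

theorem mt_anti (f : E × ℝ → ℝ≥0∞) {s t : ℝ≥0∞} (h : s ≤ t) (x : E) : mt f t x ≤ mt f s x := by
  refine iSup_le fun q => ?_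
  split_ifs with h1
  · exact le_mt_of_lt_W (lt_of_le_of_lt h h1)
  · exact zero_le

/-- the scaled one-dimensional Brunn–Minkowski -/
theorem W_conc {f : E × ℝ → ℝ≥0∞} (hf : Measurable f) (hLC : LC f) {x y : E} {c d : ℝ≥0∞}
    {t : ℝ} (ht0 : 0 < t) (ht1 : t < 1)
    (h1 : 0 < W f x c) (h2 : 0 < W f y d) :
    ENNReal.ofReal (1 - t) * W f x c + ENNReal.ofReal t * W f y d ≤
      W f ((1 - t) • x + t • y) (c ^ (1 - t) * d ^ t) := by
  have ht1' : 0 < 1 - t := by linarith
  set A := {s : ℝ | c < f (x, s)} with hA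
  set B := {s : ℝ | d < f (y, s)} with hB
  have hAm : MeasurableSet A := measurableSet_lt measurable_const (hf.comp measurable_prodMk_left)
  have hBm : MeasurableSet B := measurableSet_lt measurable_const (hf.comp measurable_prodMk_left)
  have hAn : A.Nonempty := nonempty_of_measure_ne_zero h1.ne'
  have hBn : B.Nonempty := nonempty_of_measure_ne_zero h2.ne'
  have h3 : volume ((1 - t) • A) = ENNReal.ofReal (1 - t) * W f x c := by
    rw [Measure.addHaar_smul, Module.finrank_self, pow_one, abs_of_pos ht1']; rfl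
  have h4 : volume (t • B) = ENNReal.ofReal t * W f y d := by
    rw [Measure.addHaar_smul, Module.finrank_self, pow_one, abs_of_pos ht0]; rfl
  rw [← h3, ← h4]
  refine (volume_add_le (hAm.const_smul₀ _) (hBm.const_smul₀ _) (hAn.smul_set) (hBn.smul_set)).trans
    (measure_mono ?_)
  rintro z ⟨u, ⟨a, ha, rfl⟩, v, ⟨b, hb, rfl⟩, rfl⟩
  have h5 := hLC (x, a) (y, b) t ht0 ht1
  refine lt_of_lt_of_le ?_ h5
  have h6 : c ^ (1 - t) < f (x, a) ^ (1 - t) := ENNReal.rpow_lt_rpow ha ht1'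
  have h7 : d ^ t < f (y, b) ^ t := ENNReal.rpow_lt_rpow hb ht0
  exact ENNReal.mul_lt_mul h6 h7

theorem iSup_rpow' {ι : Sort*} (a : ι → ℝ≥0∞) {p : ℝ} (hp : 0 < p) :
    (⨆ i, a i) ^ p = ⨆ i, (a i) ^ p :=
  (ENNReal.orderIsoRpow p hp).map_iSup a

/-- joint log-concavity of the rearrangement -/
theorem mt_LC {f : E × ℝ → ℝ≥0∞} (hf : Measurable f) (hLC : LC f) {t₀ t₁ : ℝ≥0∞} (x y : E) {t : ℝ} (ht0 : 0 < t) (ht1 : t < 1) :
    mt f t₀ x ^ (1 - t) * mt f t₁ y ^ t ≤
      mt f (ENNReal.ofReal (1 - t) * t₀ + ENNReal.ofReal t * t₁) ((1 - t) • x + t • y) := by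
  have ht1' : 0 < 1 - t := by linarith
  conv_lhs => rw [mt, mt, iSup_rpow' _ ht1', iSup_rpow' _ ht0]
  rw [ENNReal.iSup_mul]
  refine iSup_le fun q => ?_
  rw [ENNReal.mul_iSup]
  refine iSup_le fun r => ?_
  split_ifs with h1 h2 h2
  · apply le_mt_of_lt_W
    refine lt_of_lt_of_le ?_ (W_conc hf hLC ht0 ht1 (lt_of_le_of_lt zero_le h1)
      (lt_of_le_of_lt zero_le h2))
    refine ENNReal.add_lt_add ?_ ?_
    · exact ENNReal.mul_lt_mul_right (by simpa using ht1') ENNReal.ofReal_ne_top h1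
    · exact ENNReal.mul_lt_mul_right (by simpa using ht0) ENNReal.ofReal_ne_top h2
  · rw [ENNReal.zero_rpow_of_pos ht0, mul_zero]; exact zero_le
  · rw [ENNReal.zero_rpow_of_pos ht1', zero_mul]; exact zero_le
  · rw [ENNReal.zero_rpow_of_pos ht1', zero_mul]; exact zero_le

/-- fibre integral -/
noncomputable def fib (f : E × ℝ → ℝ≥0∞) (x : E) : ℝ≥0∞ := ∫⁻ s, f (x, s)

theorem measurable_fib {f : E × ℝ → ℝ≥0∞} (hf : Measurable f) : Measurable (fib f) :=
  hf.lintegral_prod_right'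

theorem mul_mt_le_fib {f : E × ℝ → ℝ≥0∞} (hf : Measurable f) (t : ℝ≥0∞) (x : E) :
    t * mt f t x ≤ fib f x := by
  rw [mt, ENNReal.mul_iSup]
  refine iSup_le fun q => ?_
  split_ifs with h
  · calc t * ENNReal.ofReal q ≤ W f x (ENNReal.ofReal q) * ENNReal.ofReal q := by gcongr
      _ = ENNReal.ofReal q * W f x (ENNReal.ofReal q) := mul_comm _ _
      _ ≤ ENNReal.ofReal q * volume {s : ℝ | ENNReal.ofReal q ≤ f (x, s)} := by
          gcongr
          exact measure_mono fun s hs => (show ENNReal.ofReal q ≤ f (x, s) from le_of_lt hs)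
      _ ≤ fib f x := mul_meas_ge_le_lintegral (hf.comp measurable_prodMk_left) _
  · simp

/-- the total of the rearrangement at level `t` -/
noncomputable def Phi (μ : Measure E) (f : E × ℝ → ℝ≥0∞) (t : ℝ≥0∞) : ℝ≥0∞ := ∫⁻ x, mt f t x ∂μ

theorem Phi_anti (f : E × ℝ → ℝ≥0∞) {s t : ℝ≥0∞} (h : s ≤ t) : Phi μ f t ≤ Phi μ f s :=
  lintegral_mono fun x => mt_anti f h x

theorem Phi_LC (hPL : PL E μ) {f : E × ℝ → ℝ≥0∞} (hf : Measurable f) (hLC : LC f)
    {t₀ t₁ : ℝ≥0∞} {t : ℝ} (ht0 : 0 < t) (ht1 : t < 1) :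
    Phi μ f t₀ ^ (1 - t) * Phi μ f t₁ ^ t ≤
      Phi μ f (ENNReal.ofReal (1 - t) * t₀ + ENNReal.ofReal t * t₁) :=
  hPL t ht0 ht1 _ _ _ (measurable_mt hf _) (measurable_mt hf _) (measurable_mt hf _)
    fun x y => mt_LC hf hLC x y ht0 ht1

theorem mul_Phi_le {f : E × ℝ → ℝ≥0∞} (hf : Measurable f) (t : ℝ≥0∞) :
    t * Phi μ f t ≤ ∫⁻ x, fib f x ∂μ := by
  rw [Phi, ← lintegral_const_mul _ (measurable_mt hf t)]
  exact lintegral_mono fun x => mul_mt_le_fib hf t x

/-- geometric decay of `Phi` -/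
theorem Phi_decay (hPL : PL E μ) {f : E × ℝ → ℝ≥0∞} (hf : Measurable f) (hLC : LC f)
    {δ : ℝ≥0∞} (h0 : Phi μ f 0 ≠ ∞) (h1 : Phi μ f δ ≤ Phi μ f 0 / 2) (k : ℕ) :
    Phi μ f (k * δ) ≤ Phi μ f 0 / 2 ^ k := by
  rcases Nat.eq_zero_or_pos k with rfl | hk
  · simp
  rcases Nat.eq_or_lt_of_le hk with h | hk2
  · rw [← h]
    simpa using h1
  by_cases h00 : Phi μ f 0 = 0
  · have h2 : Phi μ f (k * δ) ≤ Phi μ f 0 := Phi_anti f zero_le
    rw [h00] at h2
    exact h2.trans zero_le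
  have hkpos : (0:ℝ) < k := by exact_mod_cast hk
  have hk1 : (1:ℝ) < k := by exact_mod_cast hk2
  have ht0 : (0:ℝ) < 1 / k := by positivity
  have ht1 : (1:ℝ) / k < 1 := by rw [div_lt_one hkpos]; exact hk1
  have h2 := Phi_LC hPL hf hLC (t₀ := 0) (t₁ := k * δ) ht0 ht1
  have h3 : ENNReal.ofReal (1 - 1 / (k:ℝ)) * 0 + ENNReal.ofReal (1 / (k:ℝ)) * (k * δ) = δ := by
    rw [mul_zero, zero_add, ← mul_assoc]
    have : ENNReal.ofReal (1 / (k:ℝ)) * (k : ℝ≥0∞) = 1 := by
      rw [← ENNReal.ofReal_natCast, ← ENNReal.ofReal_mul ht0.le, one_div, inv_mul_cancel₀ hkpos.ne']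
      simp
    rw [this, one_mul]
  rw [h3] at h2
  have h4 := ENNReal.rpow_le_rpow (h2.trans h1) hkpos.le
  rw [ENNReal.mul_rpow_of_nonneg _ _ hkpos.le, ← ENNReal.rpow_mul, ← ENNReal.rpow_mul,
    one_div, inv_mul_cancel₀ hkpos.ne', ENNReal.rpow_one, ENNReal.div_rpow_of_nonneg _ _ hkpos.le] at h4
  have h5 : (1 - (k:ℝ)⁻¹) * k = k - 1 := by
    rw [sub_mul, inv_mul_cancel₀ hkpos.ne', one_mul]
  rw [h5] at h4
  have h6 : Phi μ f 0 ^ (k : ℝ) = Phi μ f 0 ^ ((k:ℝ) - 1) * Phi μ f 0 := by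
    conv_rhs => rw [← ENNReal.rpow_one (Phi μ f 0), ← ENNReal.rpow_mul, one_mul]
    rw [← ENNReal.rpow_add _ _ h00 h0]
    congr 1; ring
  rw [h6, mul_div_assoc] at h4
  have h7 : Phi μ f 0 ^ ((k:ℝ) - 1) ≠ 0 := by
    intro h
    rw [ENNReal.rpow_eq_zero_iff] at h
    rcases h with h | h
    · exact h00 h.1
    · exact h0 h.1
  have h8 : Phi μ f 0 ^ ((k:ℝ) - 1) ≠ ∞ := ENNReal.rpow_ne_top_of_nonneg (by linarith) h0
  have h9 := (ENNReal.mul_le_mul_iff_right h7 h8).1 h4
  rwa [ENNReal.rpow_natCast] at h9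

theorem le_tsum_ite {δ : ℝ≥0∞} (h0 : δ ≠ 0) (w : ℝ≥0∞) :
    w ≤ ∑' k : ℕ, if k * δ < w then δ else 0 := by
  by_cases hw : w = ∞
  · rw [hw]
    by_cases hδ : δ = ∞
    · refine le_trans ?_ (ENNReal.le_tsum 0)
      simp [hδ]
    · have : (fun k : ℕ => if (k : ℝ≥0∞) * δ < ∞ then δ else 0) = fun _ => δ := by
        funext k
        rw [if_pos (ENNReal.mul_lt_top (by simp) (lt_top_iff_ne_top.2 hδ))]
      rw [this, ENNReal.tsum_const_eq_top_of_ne_zero h0]
  · have hex : ∃ n : ℕ, w ≤ n * δ := by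
      obtain ⟨n, hn⟩ := ENNReal.exists_nat_mul_gt h0 hw
      exact ⟨n, hn.le⟩
    classical
    set n := Nat.find hex with hn
    have h1 : w ≤ n * δ := Nat.find_spec hex
    have h2 : ∀ k < n, (k : ℝ≥0∞) * δ < w := fun k hk => not_le.1 (Nat.find_min hex hk)
    calc w ≤ n * δ := h1
      _ = ∑ k ∈ Finset.range n, δ := by simp
      _ = ∑ k ∈ Finset.range n, (if (k : ℝ≥0∞) * δ < w then δ else 0) := by
          refine Finset.sum_congr rfl fun k hk => ?_
          rw [if_pos (h2 k (Finset.mem_range.1 hk))]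
      _ ≤ _ := ENNReal.sum_le_tsum _

theorem fib_le_tsum {f : E × ℝ → ℝ≥0∞} (hf : Measurable f) {α : ℝ≥0∞} (hα0 : α ≠ 0)
    (hα : α ≠ ∞) (hfα : ∀ p, f p ≤ α) {δ : ℝ≥0∞} (h0 : δ ≠ 0) (x : E) :
    fib f x ≤ ∑' k : ℕ, δ * mt f (k * δ) x := by
  have h1 : fib f x = α * ∫⁻ r in Ioo (0:ℝ) 1, W f x (α * ENNReal.ofReal r) := by
    have h2 := layer_cake (u := fun s => f (x, s)) (hf.comp measurable_prodMk_left) hα0 hα
    have h3 : ∀ s, min (f (x, s)) α = f (x, s) := fun s => min_eq_left (hfα _)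
    simp only [h3] at h2
    exact h2
  rw [h1]
  have hanti : Antitone fun r : ℝ => W f x (α * ENNReal.ofReal r) := fun r r' h =>
    W_anti f x (by gcongr)
  have hmeas : ∀ k : ℕ, Measurable fun r : ℝ =>
      if (k : ℝ≥0∞) * δ < W f x (α * ENNReal.ofReal r) then δ else 0 := fun k =>
    Measurable.ite (measurableSet_lt measurable_const hanti.measurable)
      measurable_const measurable_const
  calc α * ∫⁻ r in Ioo (0:ℝ) 1, W f x (α * ENNReal.ofReal r)
      ≤ α * ∫⁻ r in Ioo (0:ℝ) 1, ∑' k : ℕ,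
          (if (k : ℝ≥0∞) * δ < W f x (α * ENNReal.ofReal r) then δ else 0) := by
        gcongr with r
        exact le_tsum_ite h0 _
    _ = ∑' k : ℕ, α * ∫⁻ r in Ioo (0:ℝ) 1,
          (if (k : ℝ≥0∞) * δ < W f x (α * ENNReal.ofReal r) then δ else 0) := by
        rw [lintegral_tsum fun k => (hmeas k).aemeasurable, ENNReal.tsum_mul_left]
    _ ≤ _ := by
        refine ENNReal.tsum_le_tsum fun k => ?_
        set m := mt f (k * δ) x with hm
        have hmα : m ≤ α := mt_le hfα _ _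
        have hm1 : m / α ≤ 1 := by
          rw [ENNReal.div_le_iff hα0 hα, one_mul]; exact hmα
        have hmt : m / α ≠ ∞ := (lt_of_le_of_lt hm1 ENNReal.one_lt_top).ne
        have h4 : ∫⁻ r in Ioo (0:ℝ) 1,
            (if (k : ℝ≥0∞) * δ < W f x (α * ENNReal.ofReal r) then δ else 0) ≤
            δ * (m / α) := by
          calc ∫⁻ r in Ioo (0:ℝ) 1,
              (if (k : ℝ≥0∞) * δ < W f x (α * ENNReal.ofReal r) then δ else 0)
              ≤ ∫⁻ r in Ioo (0:ℝ) 1, (Icc 0 (m / α).toReal).indicator (fun _ => δ) r := by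
                refine setLIntegral_mono (measurable_const.indicator measurableSet_Icc) ?_
                intro r hr
                split_ifs with h5
                · have h6 : α * ENNReal.ofReal r ≤ m := le_mt_of_lt_W h5
                  have h7 : ENNReal.ofReal r ≤ m / α := by
                    rw [ENNReal.le_div_iff_mul_le (Or.inl hα0) (Or.inl hα), mul_comm]
                    exact h6
                  have h8 : r ≤ (m / α).toReal := (ENNReal.ofReal_le_iff_le_toReal hmt).1 h7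
                  rw [Set.indicator_of_mem (show r ∈ Icc 0 (m / α).toReal from ⟨hr.1.le, h8⟩)]
                · exact zero_le
            _ ≤ ∫⁻ r, (Icc 0 (m / α).toReal).indicator (fun _ => δ) r :=
                setLIntegral_le_lintegral _ _
            _ = δ * (m / α) := by
                rw [lintegral_indicator measurableSet_Icc, setLIntegral_const, Real.volume_Icc,
                  sub_zero, ENNReal.ofReal_toReal hmt]
        calc α * ∫⁻ r in Ioo (0:ℝ) 1,
            (if (k : ℝ≥0∞) * δ < W f x (α * ENNReal.ofReal r) then δ else 0)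
            ≤ α * (δ * (m / α)) := by gcongr
          _ = δ * m := by
              rw [mul_left_comm, ENNReal.mul_div_cancel hα0 hα]

/-- the mass of the long fibres -/
theorem cap_loss (hPL : PL E μ) {f : E × ℝ → ℝ≥0∞} (hf : Measurable f) (hLC : LC f)
    {α : ℝ≥0∞} (hα0 : α ≠ 0) (hα : α ≠ ∞) (hfα : ∀ p, f p ≤ α)
    (hI0 : ∫⁻ x, fib f x ∂μ ≠ 0) (hI : ∫⁻ x, fib f x ∂μ ≠ ∞)
    (hM : Phi μ f 0 ≠ ∞) (J : ℕ) :
    ∫⁻ x in {x | 4 * J * α * ((∫⁻ x, fib f x ∂μ) / Phi μ f 0) < fib f x}, fib f x ∂μ ≤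
      8 * (∫⁻ x, fib f x ∂μ) / 2 ^ J := by
  set I := ∫⁻ x, fib f x ∂μ with hIdef
  set M := Phi μ f 0 with hMdef
  have hfm := measurable_fib hf
  have hM0 : M ≠ 0 := by
    intro h
    apply hI0
    have h1 : ∀ᵐ x ∂μ, mt f 0 x = 0 := by
      have := (lintegral_eq_zero_iff (measurable_mt hf 0)).1 h
      filter_upwards [this] with x hx using hx
    rw [hIdef, lintegral_eq_zero_iff hfm]
    filter_upwards [h1] with x hx
    have h2 := fib_le_tsum hf hα0 hα hfα (δ := 1) one_ne_zero x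
    have h3 : ∀ k : ℕ, (1 : ℝ≥0∞) * mt f (k * 1) x = 0 := by
      intro k
      have h4 := mt_anti f (s := 0) (t := (k : ℝ≥0∞) * 1) zero_le x
      rw [hx] at h4
      rw [one_mul]
      exact le_antisymm h4 zero_le
    simp only [h3, tsum_zero] at h2
    exact le_antisymm h2 zero_le
  set Lb := I / M with hLb
  have hLb0 : Lb ≠ 0 := ENNReal.div_ne_zero.2 ⟨hI0, hM⟩
  have hLbt : Lb ≠ ∞ := ENNReal.div_ne_top hI hM0
  set δ := 2 * Lb with hδ
  have hδ0 : δ ≠ 0 := mul_ne_zero two_ne_zero hLb0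
  have hδt : δ ≠ ∞ := ENNReal.mul_ne_top (by simp) hLbt
  have hLM : Lb * M = I := ENNReal.div_mul_cancel hM0 hM
  have h1 : Phi μ f δ ≤ M / 2 := by
    have h2 := mul_Phi_le (μ := μ) hf δ
    rw [← hIdef, ← hLM, hδ] at h2
    rw [ENNReal.le_div_iff_mul_le (by simp) (by simp)]
    have h3 : Lb * (Phi μ f δ * 2) ≤ Lb * M := by
      calc Lb * (Phi μ f δ * 2) = 2 * Lb * Phi μ f (2 * Lb) := by rw [hδ]; ring
        _ ≤ Lb * M := h2
    exact (ENNReal.mul_le_mul_iff_right hLb0 hLbt).1 h3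
  have hdec := Phi_decay hPL hf hLC hM h1
  set B := {x | 4 * J * α * Lb < fib f x} with hB
  have hpt : ∀ x ∈ B, fib f x ≤ 2 * ∑' k : ℕ, δ * mt f ((k + J : ℕ) * δ) x := by
    intro x hx
    have h2 := fib_le_tsum hf hα0 hα hfα hδ0 x
    rw [← ENNReal.summable.sum_add_tsum_nat_add' (k := J)] at h2
    have h3 : ∑ k ∈ Finset.range J, δ * mt f ((k : ℕ) * δ) x ≤ J * (δ * α) := by
      calc ∑ k ∈ Finset.range J, δ * mt f ((k : ℕ) * δ) x
          ≤ ∑ k ∈ Finset.range J, δ * α := by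
            gcongr with k _
            exact mt_le hfα _ _
        _ = J * (δ * α) := by simp
    set b := ∑' k : ℕ, δ * mt f ((k + J : ℕ) * δ) x with hb
    have h4 : fib f x ≤ J * (δ * α) + b := h2.trans (by gcongr)
    by_cases hft : fib f x = ∞
    · have h5 : (J : ℝ≥0∞) * (δ * α) ≠ ∞ :=
        ENNReal.mul_ne_top (by simp) (ENNReal.mul_ne_top hδt hα)
      rw [hft, top_le_iff, ENNReal.add_eq_top] at h4
      rcases h4 with h4 | h4
      · exact absurd h4 h5
      · rw [h4]; simp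
    · have h5 : 2 * (J * (δ * α)) ≤ fib f x := by
        refine le_trans (le_of_eq ?_) (le_of_lt hx)
        rw [hδ]; ring
      have h6 : fib f x + fib f x ≤ fib f x + 2 * b := by
        calc fib f x + fib f x = 2 * fib f x := by rw [two_mul]
          _ ≤ 2 * (J * (δ * α) + b) := by gcongr
          _ = 2 * (J * (δ * α)) + 2 * b := by rw [mul_add]
          _ ≤ fib f x + 2 * b := by gcongr
      exact (ENNReal.add_le_add_iff_left hft).1 h6
  have hBm : MeasurableSet B := measurableSet_lt measurable_const hfm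
  calc ∫⁻ x in B, fib f x ∂μ
      ≤ ∫⁻ x in B, 2 * ∑' k : ℕ, δ * mt f ((k + J : ℕ) * δ) x ∂μ :=
        setLIntegral_mono' hBm hpt
    _ ≤ ∫⁻ x, 2 * ∑' k : ℕ, δ * mt f ((k + J : ℕ) * δ) x ∂μ := setLIntegral_le_lintegral _ _
    _ = 2 * ∑' k : ℕ, δ * Phi μ f ((k + J : ℕ) * δ) := by
        rw [lintegral_const_mul, lintegral_tsum]
        · congr 1
          refine tsum_congr fun k => ?_
          rw [lintegral_const_mul _ (measurable_mt hf _)]; rfl
        · exact fun k => ((measurable_mt hf _).const_mul _).aemeasurable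
        · exact Measurable.tsum fun k => (measurable_mt hf _).const_mul _
    _ ≤ 2 * ∑' k : ℕ, δ * (M / 2 ^ (k + J)) := by
        gcongr with k
        exact hdec (k + J)
    _ = 2 * (δ * (M / 2 ^ J) * ∑' k : ℕ, (2⁻¹ : ℝ≥0∞) ^ k) := by
        congr 1
        rw [← ENNReal.tsum_mul_left]
        refine tsum_congr fun k => ?_
        rw [div_eq_mul_inv, div_eq_mul_inv, pow_add, ENNReal.mul_inv (by simp) (by simp),
          ENNReal.inv_pow]
        ring
    _ = 8 * I / 2 ^ J := by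
        rw [ENNReal.tsum_geometric, ENNReal.one_sub_inv_two, inv_inv, ← hLM, hδ,
          div_eq_mul_inv, div_eq_mul_inv]
        ring

/-! ### the best window -/

/-- mass of the window `[c, c + a]` of a fibre -/
noncomputable def win (f : E × ℝ → ℝ≥0∞) (a : ℝ) (x : E) (c : ℝ) : ℝ≥0∞ :=
  ∫⁻ s in Icc c (c + a), f (x, s)

/-- mass of the best window -/
noncomputable def hw (f : E × ℝ → ℝ≥0∞) (a : ℝ) (x : E) : ℝ≥0∞ := ⨆ q : ℚ, win f a x q

theorem measurable_hw {f : E × ℝ → ℝ≥0∞} (hf : Measurable f) (a : ℝ) : Measurable (hw f a) :=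
  Measurable.iSup fun _ => hf.lintegral_prod_right'

theorem win_le_fib (f : E × ℝ → ℝ≥0∞) (a : ℝ) (x : E) (c : ℝ) : win f a x c ≤ fib f x :=
  setLIntegral_le_lintegral _ _

theorem hw_le_fib (f : E × ℝ → ℝ≥0∞) (a : ℝ) (x : E) : hw f a x ≤ fib f x :=
  iSup_le fun _ => win_le_fib f a x _

theorem win_le_hw {f : E × ℝ → ℝ≥0∞} {α : ℝ≥0∞} (hα : α ≠ ∞) (hfα : ∀ p, f p ≤ α)
    (a : ℝ) (x : E) (c : ℝ) : win f a x c ≤ hw f a x := by
  refine ENNReal.le_of_forall_pos_le_add fun ε hε _ => ?_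
  have hA : 0 < α.toReal + 1 := by positivity
  have hη : 0 < (ε : ℝ) / (α.toReal + 1) := div_pos (by exact_mod_cast hε) hA
  obtain ⟨q, hq1, hq2⟩ := exists_rat_btwn (show c < c + (ε : ℝ) / (α.toReal + 1) by linarith)
  have h1 : win f a x c ≤ (∫⁻ s in Icc c q, f (x, s)) + win f a x q := by
    rw [win, win]
    refine le_trans (lintegral_mono_set (t := Icc c q ∪ Icc (q:ℝ) (q + a)) ?_)
      (lintegral_union_le _ _ _)
    intro s hs
    rcases le_total s q with h | h
    · exact Or.inl ⟨hs.1, h⟩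
    · exact Or.inr ⟨h, hs.2.trans (by linarith)⟩
  have h2 : ∫⁻ s in Icc c q, f (x, s) ≤ ε := by
    calc ∫⁻ s in Icc c q, f (x, s) ≤ ∫⁻ s in Icc c q, α := by
          gcongr; exact hfα _
      _ = α * ENNReal.ofReal (q - c) := by rw [setLIntegral_const, Real.volume_Icc]
      _ ≤ ENNReal.ofReal (α.toReal + 1) * ENNReal.ofReal ((ε : ℝ) / (α.toReal + 1)) := by
          gcongr
          · calc α = ENNReal.ofReal α.toReal := (ENNReal.ofReal_toReal hα).symm
              _ ≤ _ := ENNReal.ofReal_le_ofReal (by linarith)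
          · linarith
      _ = ε := by
          rw [← ENNReal.ofReal_mul hA.le, mul_div_cancel₀ _ hA.ne', ENNReal.ofReal_coe_nnreal]
  calc win f a x c ≤ ε + hw f a x := h1.trans (add_le_add h2 (le_iSup (fun q : ℚ => win f a x q) q))
    _ = hw f a x + ε := add_comm _ _

theorem hw_LC {f : E × ℝ → ℝ≥0∞} (hf : Measurable f) (hLC : LC f) {α : ℝ≥0∞} (hα : α ≠ ∞)
    (hfα : ∀ p, f p ≤ α) (a : ℝ) : LC (hw f a) := by
  intro x y t ht0 ht1
  have ht1' : 0 < 1 - t := by linarith
  conv_lhs => rw [hw, hw, iSup_rpow' _ ht1', iSup_rpow' _ ht0]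
  rw [ENNReal.iSup_mul]
  refine iSup_le fun q => ?_
  rw [ENNReal.mul_iSup]
  refine iSup_le fun r => ?_
  refine le_trans ?_ (win_le_hw hα hfα a _ ((1 - t) * q + t * r))
  have hx : ∀ z : E, Measurable fun s => f (z, s) := fun z => hf.comp measurable_prodMk_left
  simp only [win]
  rw [← lintegral_indicator measurableSet_Icc, ← lintegral_indicator measurableSet_Icc,
    ← lintegral_indicator measurableSet_Icc]
  refine pl_real ht0 ht1 ((hx x).indicator measurableSet_Icc) ((hx y).indicator measurableSet_Icc)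
    ((hx _).indicator measurableSet_Icc) ?_
  intro s s'
  by_cases h1 : s ∈ Icc (q:ℝ) (q + a)
  · by_cases h2 : s' ∈ Icc (r:ℝ) (r + a)
    · have h3 : (1 - t) * s + t * s' ∈ Icc ((1 - t) * q + t * r) ((1 - t) * q + t * r + a) := by
        constructor
        · nlinarith [h1.1, h2.1]
        · nlinarith [h1.2, h2.2]
      rw [Set.indicator_of_mem h1, Set.indicator_of_mem h2, Set.indicator_of_mem h3]
      exact hLC (x, s) (y, s') t ht0 ht1
    · rw [Set.indicator_of_notMem h2, ENNReal.zero_rpow_of_pos ht0, mul_zero]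
      exact zero_le
  · rw [Set.indicator_of_notMem h1, ENNReal.zero_rpow_of_pos ht1', zero_mul]
    exact zero_le

/-- short fibres are contained in one window -/
theorem fib_le_hw {f : E × ℝ → ℝ≥0∞} (hLC : LC f) {α : ℝ≥0∞} (hα : α ≠ ∞)
    (hfα : ∀ p, f p ≤ α) {a : ℝ} (ha : 0 ≤ a) (x : E) (hW : W f x 0 ≤ ENNReal.ofReal a) :
    fib f x ≤ hw f a x := by
  set S := {s : ℝ | 0 < f (x, s)} with hS
  have hlen : ∀ s ∈ S, ∀ s' ∈ S, s' - s ≤ a := by
    intro s hs s' hs'
    by_contra hcon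
    push Not at hcon
    have h1 : Icc s s' ⊆ S := by
      intro z hz
      rcases eq_or_lt_of_le hz.1 with h | h
      · rw [← h]; exact hs
      rcases eq_or_lt_of_le hz.2 with h' | h'
      · rw [h']; exact hs'
      have hd : 0 < s' - s := by linarith
      have ht0 : 0 < (z - s) / (s' - s) := div_pos (by linarith) hd
      have ht1 : (z - s) / (s' - s) < 1 := by rw [div_lt_one hd]; linarith
      have h2 := hLC (x, s) (x, s') _ ht0 ht1
      have h3 : (1 - (z - s) / (s' - s)) • ((x, s) : E × ℝ) + ((z - s) / (s' - s)) • (x, s') =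
          (x, z) := by
        ext
        · simp only [Prod.fst_add, Prod.smul_fst]
          rw [← add_smul, sub_add_cancel, one_smul]
        · simp only [Prod.snd_add, Prod.smul_snd, smul_eq_mul]
          field_simp
          ring
      rw [h3] at h2
      refine lt_of_lt_of_le ?_ h2
      exact ENNReal.mul_pos (ENNReal.rpow_pos hs (ne_top_of_le_ne_top hα (hfα _))).ne'
        (ENNReal.rpow_pos hs' (ne_top_of_le_ne_top hα (hfα _))).ne'
    have h4 : ENNReal.ofReal (s' - s) ≤ ENNReal.ofReal a := by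
      rw [← Real.volume_Icc]
      exact (measure_mono h1).trans hW
    have h5 := (ENNReal.ofReal_le_ofReal_iff ha).1 h4
    linarith
  by_cases hne : S.Nonempty
  · have hbdd : BddBelow S := by
      obtain ⟨s, hs⟩ := hne
      exact ⟨s - a, fun s' hs' => by linarith [hlen s' hs' s hs]⟩
    have hsub : S ⊆ Icc (sInf S) (sInf S + a) := by
      intro s hs
      refine ⟨csInf_le hbdd hs, ?_⟩
      have : s - a ≤ sInf S := le_csInf hne fun s' hs' => by linarith [hlen s' hs' s hs]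
      linarith
    refine le_trans ?_ (win_le_hw hα hfα a x (sInf S))
    rw [fib, win, ← lintegral_indicator measurableSet_Icc]
    refine lintegral_mono fun s => ?_
    by_cases h : s ∈ S
    · rw [Set.indicator_of_mem (hsub h)]
    · have : f (x, s) = 0 := by
        by_contra h'
        exact h (pos_iff_ne_zero.2 h')
      rw [this]; exact zero_le
  · have h1 : ∀ s, f (x, s) = 0 := by
      intro s
      by_contra h'
      exact hne ⟨s, pos_iff_ne_zero.2 h'⟩
    have : fib f x = 0 := by simp [fib, h1]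
    rw [this]; exact zero_le

/-! ### the next function -/

/-- cap and cut-off of the best window average -/
noncomputable def nxt (f : E × ℝ → ℝ≥0∞) (a : ℝ) (α' β : ℝ≥0∞) (x : E) : ℝ≥0∞ :=
  if β ≤ hw f a x / ENNReal.ofReal a then min α' (hw f a x / ENNReal.ofReal a) else 0

theorem measurable_nxt {f : E × ℝ → ℝ≥0∞} (hf : Measurable f) (a : ℝ) (α' β : ℝ≥0∞) :
    Measurable (nxt f a α' β) := by
  have h := (measurable_hw hf a).div_const (ENNReal.ofReal a)
  exact Measurable.ite (measurableSet_le measurable_const h) (measurable_const.min h)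
    measurable_const

theorem nxt_val (f : E × ℝ → ℝ≥0∞) (a : ℝ) {α' β : ℝ≥0∞} (h : β ≤ α') (x : E) :
    nxt f a α' β x = 0 ∨ (β ≤ nxt f a α' β x ∧ nxt f a α' β x ≤ α') := by
  rw [nxt]
  split_ifs with h1
  · exact Or.inr ⟨le_min h h1, min_le_left _ _⟩
  · exact Or.inl rfl

theorem nxt_LC {f : E × ℝ → ℝ≥0∞} (hf : Measurable f) (hLC : LC f) {α : ℝ≥0∞} (hα : α ≠ ∞)
    (hfα : ∀ p, f p ≤ α) {a : ℝ} (ha : 0 < a) (α' β : ℝ≥0∞) : LC (nxt f a α' β) := by
  intro x y t ht0 ht1
  have ht1' : 0 < 1 - t := by linarith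
  set A := ENNReal.ofReal a with hA
  have hA0 : A ≠ 0 := by simpa [hA] using ha
  have hAt : A ≠ ∞ := ENNReal.ofReal_ne_top
  have h1 := hw_LC hf hLC hα hfα a x y t ht0 ht1
  have h2 : (hw f a x / A) ^ (1 - t) * (hw f a y / A) ^ t ≤
      hw f a ((1 - t) • x + t • y) / A := by
    rw [ENNReal.div_rpow_of_nonneg _ _ ht1'.le, ENNReal.div_rpow_of_nonneg _ _ ht0.le,
      ENNReal.le_div_iff_mul_le (Or.inl hA0) (Or.inl hAt)]
    calc hw f a x ^ (1 - t) / A ^ (1 - t) * (hw f a y ^ t / A ^ t) * A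
        = (hw f a x ^ (1 - t) * hw f a y ^ t) * ((A ^ (1 - t) * A ^ t)⁻¹ * A) := by
          rw [ENNReal.mul_inv (Or.inr (ENNReal.rpow_ne_top_of_nonneg ht0.le hAt))
            (Or.inl (ENNReal.rpow_ne_top_of_nonneg ht1'.le hAt)), div_eq_mul_inv, div_eq_mul_inv]
          ring
      _ = hw f a x ^ (1 - t) * hw f a y ^ t := by
          rw [← ENNReal.rpow_add _ _ hA0 hAt, sub_add_cancel, ENNReal.rpow_one,
            ENNReal.inv_mul_cancel hA0 hAt, mul_one]
      _ ≤ _ := h1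
  simp only [nxt]
  split_ifs with h3 h4 h5 h5 h5 h5 h5
  · calc min α' (hw f a x / A) ^ (1 - t) * min α' (hw f a y / A) ^ t
        ≤ min α' ((hw f a x / A) ^ (1 - t) * (hw f a y / A) ^ t) := by
          refine le_min ?_ ?_
          · calc min α' (hw f a x / A) ^ (1 - t) * min α' (hw f a y / A) ^ t
                ≤ α' ^ (1 - t) * α' ^ t := by
                  gcongr <;> exact min_le_left _ _
              _ ≤ α' := by
                  by_cases h6 : α' = 0
                  · rw [h6, ENNReal.zero_rpow_of_pos ht0, mul_zero]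
                  by_cases h7 : α' = ∞
                  · rw [h7]; exact le_top
                  rw [← ENNReal.rpow_add _ _ h6 h7, sub_add_cancel, ENNReal.rpow_one]
          · gcongr <;> exact min_le_right _ _
      _ ≤ min α' (hw f a ((1 - t) • x + t • y) / A) := min_le_min le_rfl h2
  · exfalso
    apply h5
    refine le_trans ?_ h2
    calc β = β ^ (1 - t) * β ^ t := by
          by_cases h6 : β = 0
          · rw [h6, ENNReal.zero_rpow_of_pos ht0, mul_zero]
          by_cases h7 : β = ∞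
          · rw [h7, ENNReal.top_rpow_of_pos ht1', ENNReal.top_rpow_of_pos ht0]; simp
          rw [← ENNReal.rpow_add _ _ h6 h7, sub_add_cancel, ENNReal.rpow_one]
      _ ≤ _ := by gcongr
  · rw [ENNReal.zero_rpow_of_pos ht0, mul_zero]; exact zero_le
  · rw [ENNReal.zero_rpow_of_pos ht0, mul_zero]
  · rw [ENNReal.zero_rpow_of_pos ht1', zero_mul]; exact zero_le
  · rw [ENNReal.zero_rpow_of_pos ht1', zero_mul]
  · rw [ENNReal.zero_rpow_of_pos ht1', zero_mul]; exact zero_le
  · rw [ENNReal.zero_rpow_of_pos ht1', zero_mul]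

/-- every point with a nonzero fibre integral has `mt 0` at least the lower value -/
theorem le_mt_zero {f : E × ℝ → ℝ≥0∞} (hf : Measurable f) {b : ℝ≥0∞}
    (hval : ∀ p, f p = 0 ∨ b ≤ f p) {x : E} (hx : fib f x ≠ 0) : b ≤ mt f 0 x := by
  have hfx : Measurable fun s => f (x, s) := hf.comp measurable_prodMk_left
  have h1 : 0 < volume {s : ℝ | f (x, s) ≠ 0} := by
    rw [pos_iff_ne_zero]
    intro h
    apply hx
    rw [fib, lintegral_eq_zero_iff hfx]
    exact h
  refine le_of_forall_lt fun c hc => ?_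
  obtain ⟨d, hd1, hd2⟩ := exists_between hc
  have h2 : 0 < W f x d := by
    refine lt_of_lt_of_le h1 (measure_mono fun s hs => ?_)
    rcases hval (x, s) with h | h
    · exact absurd h hs
    · exact lt_of_lt_of_le hd2 h
  exact lt_of_lt_of_le hd1 (le_mt_of_lt_W h2)

/-- **One row of the geometric recursion**: mass loss. -/
theorem step (hPL : PL E μ) {f : E × ℝ → ℝ≥0∞} (hf : Measurable f) (hLC : LC f)
    {α τ κ Q : ℝ} {J : ℕ} (hα : 0 < α) (hτ : 0 < τ) (hτ1 : τ ≤ 1) (hκ : 0 < κ) (hJ : 1 ≤ J)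
    (hQ : 4 * J / τ ≤ Q)
    (hval : ∀ p, f p = 0 ∨ (ENNReal.ofReal (τ * α) ≤ f p ∧ f p ≤ ENNReal.ofReal α))
    (hI0 : ∫⁻ x, fib f x ∂μ ≠ 0) (hI : ∫⁻ x, fib f x ∂μ ≠ ∞) (hM : Phi μ f 0 ≠ ∞) :
    ∫⁻ x, fib f x ∂μ ≤
      ENNReal.ofReal (Q * ((∫⁻ x, fib f x ∂μ) / Phi μ f 0).toReal) *
        (∫⁻ x, nxt f (Q * ((∫⁻ x, fib f x ∂μ) / Phi μ f 0).toReal)
          (ENNReal.ofReal (α * (4 * J) / Q))
          (ENNReal.ofReal (τ * κ / (2 * (4 * J)) * (α * (4 * J) / Q))) x ∂μ) +
      ENNReal.ofReal (8 / 2 ^ J + κ / 2) * (∫⁻ x, fib f x ∂μ) := by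
  set I := ∫⁻ x, fib f x ∂μ with hIdef
  set M := Phi μ f 0 with hMdef
  have hfm := measurable_fib hf
  have hτα : 0 < τ * α := by positivity
  have hJ' : (1:ℝ) ≤ J := by exact_mod_cast hJ
  have hQ0 : 0 < Q := lt_of_lt_of_le (by positivity) hQ
  have hfα : ∀ p, f p ≤ ENNReal.ofReal α := by
    intro p
    rcases hval p with h | h
    · rw [h]; exact zero_le
    · exact h.2
  have hval' : ∀ p, f p = 0 ∨ ENNReal.ofReal (τ * α) ≤ f p := fun p =>
    (hval p).imp id fun h => h.1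
  have hα0 : ENNReal.ofReal α ≠ 0 := by simpa using hα
  -- `M ≠ 0`
  have hM0 : M ≠ 0 := by
    intro h
    apply hI0
    have h1 : ∀ᵐ x ∂μ, mt f 0 x = 0 := by
      have := (lintegral_eq_zero_iff (measurable_mt hf 0)).1 h
      filter_upwards [this] with x hx using hx
    rw [hIdef, lintegral_eq_zero_iff hfm]
    filter_upwards [h1] with x hx
    by_contra h2
    have h3 := le_mt_zero hf hval' (x := x) h2
    rw [hx] at h3
    have : ENNReal.ofReal (τ * α) = 0 := le_antisymm h3 zero_le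
    rw [ENNReal.ofReal_eq_zero] at this
    linarith
  set Lb := (I / M).toReal with hLb
  have hIM0 : I / M ≠ 0 := ENNReal.div_ne_zero.2 ⟨hI0, hM⟩
  have hIMt : I / M ≠ ∞ := ENNReal.div_ne_top hI hM0
  have hLb0 : 0 < Lb := ENNReal.toReal_pos hIM0 hIMt
  have hLbE : ENNReal.ofReal Lb = I / M := ENNReal.ofReal_toReal hIMt
  have hLM : ENNReal.ofReal Lb * M = I := by rw [hLbE]; exact ENNReal.div_mul_cancel hM0 hM
  set a := Q * Lb with ha
  have ha0 : 0 < a := mul_pos hQ0 hLb0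
  set α' := α * (4 * J) / Q with hα'
  have hα'0 : 0 < α' := by positivity
  set β := τ * κ / (2 * (4 * J)) * α' with hβ
  have hβ0 : 0 < β := by positivity
  have hA0 : ENNReal.ofReal a ≠ 0 := by simpa using ha0
  set B := {x | 4 * (J : ℝ≥0∞) * ENNReal.ofReal α * (I / M) < fib f x} with hB
  have hBm : MeasurableSet B := measurableSet_lt measurable_const hfm
  have hcap : ∫⁻ x in B, fib f x ∂μ ≤ 8 * I / 2 ^ J :=
    cap_loss hPL hf hLC hα0 ENNReal.ofReal_ne_top hfα hI0 hI hM J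
  have hBval : 4 * (J : ℝ≥0∞) * ENNReal.ofReal α * (I / M) = ENNReal.ofReal (4 * J * α * Lb) := by
    rw [← hLbE, ENNReal.ofReal_mul (by positivity), ENNReal.ofReal_mul (by positivity),
      ENNReal.ofReal_mul (by positivity)]
    simp
  -- the pointwise bound outside `B`
  have hpt : ∀ x ∈ Bᶜ, fib f x ≤ ENNReal.ofReal a * nxt f a (ENNReal.ofReal α')
      (ENNReal.ofReal β) x + {x | fib f x ≠ 0}.indicator (fun _ => ENNReal.ofReal (a * β)) x := by
    intro x hx
    by_cases hx0 : fib f x = 0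
    · rw [hx0]; exact zero_le
    have hx1 : fib f x ≤ ENNReal.ofReal (4 * J * α * Lb) := by
      rw [← hBval]; exact not_lt.1 hx
    have hW : W f x 0 ≤ ENNReal.ofReal a := by
      have h1 : ENNReal.ofReal (τ * α) * W f x 0 ≤ fib f x := by
        calc ENNReal.ofReal (τ * α) * W f x 0
            ≤ ENNReal.ofReal (τ * α) * volume {s : ℝ | ENNReal.ofReal (τ * α) ≤ f (x, s)} := by
              gcongr
              refine measure_mono fun s hs => ?_
              rcases hval' (x, s) with h | h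
              · have hs' : 0 < f (x, s) := hs
                rw [h] at hs'
                exact absurd hs' (lt_irrefl _)
              · exact h
          _ ≤ fib f x := mul_meas_ge_le_lintegral (hf.comp measurable_prodMk_left) _
      have h2 : ENNReal.ofReal (τ * α) * W f x 0 ≤ ENNReal.ofReal (τ * α) * ENNReal.ofReal a := by
        refine (h1.trans hx1).trans ?_
        rw [← ENNReal.ofReal_mul hτα.le]
        apply ENNReal.ofReal_le_ofReal
        rw [ha]
        have h3 : 4 * J ≤ Q * τ := by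
          rwa [div_le_iff₀ hτ] at hQ
        calc 4 * J * α * Lb = (4 * J) * (α * Lb) := by ring
          _ ≤ (Q * τ) * (α * Lb) := by gcongr
          _ = τ * α * (Q * Lb) := by ring
      have h4 : ENNReal.ofReal (τ * α) ≠ 0 := by simpa using hτα
      exact (ENNReal.mul_le_mul_iff_right h4 ENNReal.ofReal_ne_top).1 h2
    have h1 : hw f a x = fib f x :=
      le_antisymm (hw_le_fib f a x) (fib_le_hw hLC ENNReal.ofReal_ne_top hfα ha0.le x hW)
    have h2 : fib f x / ENNReal.ofReal a ≤ ENNReal.ofReal α' := by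
      rw [ENNReal.div_le_iff hA0 ENNReal.ofReal_ne_top, ← ENNReal.ofReal_mul hα'0.le]
      refine hx1.trans (ENNReal.ofReal_le_ofReal (le_of_eq ?_))
      rw [hα', ha]
      field_simp
    rw [nxt, h1]
    split_ifs with h3
    · rw [min_eq_right h2, ENNReal.mul_div_cancel hA0 ENNReal.ofReal_ne_top]
      exact le_self_add
    · rw [mul_zero, zero_add, Set.indicator_of_mem (show x ∈ {x | fib f x ≠ 0} from hx0)]
      rw [not_le, ENNReal.div_lt_iff (Or.inl hA0) (Or.inl ENNReal.ofReal_ne_top)] at h3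
      refine h3.le.trans (le_of_eq ?_)
      rw [← ENNReal.ofReal_mul hβ0.le, mul_comm]
  have hSm : MeasurableSet {x | fib f x ≠ 0} := hfm (measurableSet_singleton 0).compl
  have hSM : ENNReal.ofReal (τ * α) * μ {x | fib f x ≠ 0} ≤ M := by
    calc ENNReal.ofReal (τ * α) * μ {x | fib f x ≠ 0}
        ≤ ENNReal.ofReal (τ * α) * μ {x | ENNReal.ofReal (τ * α) ≤ mt f 0 x} := by
          have hsub : {x | fib f x ≠ 0} ⊆ {x | ENNReal.ofReal (τ * α) ≤ mt f 0 x} :=
            fun x hx => le_mt_zero hf hval' hx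
          gcongr
      _ ≤ M := mul_meas_ge_le_lintegral (measurable_mt hf 0) _
  have hcut : ENNReal.ofReal (a * β) * μ {x | fib f x ≠ 0} ≤ ENNReal.ofReal (κ / 2) * I := by
    have h1 : a * β = (κ / 2) * Lb * (τ * α) := by
      rw [ha, hβ, hα']
      field_simp
    rw [h1, ENNReal.ofReal_mul (by positivity), mul_assoc, ENNReal.ofReal_mul (by positivity)]
    calc ENNReal.ofReal (κ / 2) * ENNReal.ofReal Lb *
        (ENNReal.ofReal (τ * α) * μ {x | fib f x ≠ 0})
        ≤ ENNReal.ofReal (κ / 2) * ENNReal.ofReal Lb * M := by gcongr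
      _ = ENNReal.ofReal (κ / 2) * I := by rw [mul_assoc, hLM]
  have hnm := measurable_nxt hf a (ENNReal.ofReal α') (ENNReal.ofReal β)
  calc I = ∫⁻ x in B, fib f x ∂μ + ∫⁻ x in Bᶜ, fib f x ∂μ :=
        (lintegral_add_compl _ hBm).symm
    _ ≤ 8 * I / 2 ^ J + ∫⁻ x in Bᶜ, (ENNReal.ofReal a * nxt f a (ENNReal.ofReal α')
          (ENNReal.ofReal β) x + {x | fib f x ≠ 0}.indicator
            (fun _ => ENNReal.ofReal (a * β)) x) ∂μ := by
        exact add_le_add hcap (setLIntegral_mono' hBm.compl hpt)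
    _ ≤ 8 * I / 2 ^ J + ∫⁻ x, (ENNReal.ofReal a * nxt f a (ENNReal.ofReal α')
          (ENNReal.ofReal β) x + {x | fib f x ≠ 0}.indicator
            (fun _ => ENNReal.ofReal (a * β)) x) ∂μ := by
        exact add_le_add le_rfl (setLIntegral_le_lintegral _ _)
    _ = 8 * I / 2 ^ J + (ENNReal.ofReal a * (∫⁻ x, nxt f a (ENNReal.ofReal α')
          (ENNReal.ofReal β) x ∂μ) + ENNReal.ofReal (a * β) * μ {x | fib f x ≠ 0}) := by
        rw [lintegral_add_left (hnm.const_mul _), lintegral_const_mul _ hnm,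
          lintegral_indicator_const hSm]
    _ ≤ 8 * I / 2 ^ J + (ENNReal.ofReal a * (∫⁻ x, nxt f a (ENNReal.ofReal α')
          (ENNReal.ofReal β) x ∂μ) + ENNReal.ofReal (κ / 2) * I) := by gcongr
    _ = _ := by
        have h8 : ENNReal.ofReal (8 / 2 ^ J) = 8 / 2 ^ J := by
          rw [ENNReal.ofReal_div_of_pos (by positivity), ENNReal.ofReal_pow (by norm_num)]
          norm_num
        have h9 : (8 / 2 ^ J : ℝ≥0∞) * I = 8 * I / 2 ^ J := by
          rw [div_eq_mul_inv, div_eq_mul_inv]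
          ring
        rw [ENNReal.ofReal_add (by positivity) (by positivity), add_mul, h8, h9]
        ring

theorem nxt_ne_zero {f : E × ℝ → ℝ≥0∞} {a : ℝ} {α' β : ℝ≥0∞} (hβ : β ≠ 0) {x : E}
    (h : nxt f a α' β x ≠ 0) : ∃ s, f (x, s) ≠ 0 := by
  by_contra hcon
  push Not at hcon
  apply h
  have h1 : fib f x = 0 := by simp [fib, hcon]
  have h2 : hw f a x = 0 := le_antisymm (h1 ▸ hw_le_fib f a x) zero_le
  rw [nxt, h2, ENNReal.zero_div, if_neg (by simpa using hβ)]

/-- the windows: for every `ε > 0` some window has average at least `(1 - ε) nxt` -/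
theorem exists_win {f : E × ℝ → ℝ≥0∞} {a : ℝ} (ha : 0 < a) {α' β : ℝ≥0∞}
    {x : E} {c : ℝ≥0∞} (hc : c < nxt f a α' β x) :
    ∃ q : ℚ, ENNReal.ofReal a * c < win f a x q := by
  have hA0 : ENNReal.ofReal a ≠ 0 := by simpa using ha
  have h1 : nxt f a α' β x ≤ hw f a x / ENNReal.ofReal a := by
    rw [nxt]
    split_ifs
    · exact min_le_right _ _
    · exact zero_le
  have h2 : ENNReal.ofReal a * c < hw f a x := by
    have h3 := lt_of_lt_of_le hc h1
    rw [ENNReal.lt_div_iff_mul_lt (Or.inl hA0) (Or.inl ENNReal.ofReal_ne_top)] at h3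
    rwa [mul_comm]
  exact lt_iSup_iff.1 h2

end Crest.Agent.R225.Geom
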