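import Crest.Agent.R225.Iface
import Crest.Agent.Lib.PrekopaLeindler

/-!
# Row 225 (S0347): change of variables and marginals in the split `Fin (m + r)`
-/

set_option autoImplicit false

open Finset MeasureTheory
open scoped BigOperators ENNReal

namespace Crest.Agent.R225

namespace GridChange

theorem append_eq_elim {m r : ℕ} (u : Fin m → ℝ) (y : Fin r → ℝ) (i : Fin (m + r)) :
    Fin.append u y i = Sum.elim u y (finSumFinEquiv.symm i) := by
  refine Fin.addCases (fun j => ?_) (fun j => ?_) i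
  · simp
  · simp

/-- appending is measure preserving -/
theorem mp_append (m r : ℕ) :
    MeasurePreserving (fun p : (Fin m → ℝ) × (Fin r → ℝ) => (Fin.append p.1 p.2 : Fin (m + r) → ℝ))
      (volume.prod volume) volume := by
  have h1 := volume_measurePreserving_sumPiEquivProdPi_symm (fun _ : Fin m ⊕ Fin r => ℝ)
  have h2 := volume_measurePreserving_piCongrLeft (fun _ : Fin (m + r) => ℝ)
    (finSumFinEquiv : Fin m ⊕ Fin r ≃ Fin (m + r))
  have h3 := h2.comp h1
  have heq : (fun p : (Fin m → ℝ) × (Fin r → ℝ) => (Fin.append p.1 p.2 : Fin (m + r) → ℝ)) =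
      (MeasurableEquiv.piCongrLeft (fun _ : Fin (m + r) => ℝ)
        (finSumFinEquiv : Fin m ⊕ Fin r ≃ Fin (m + r))) ∘
      (MeasurableEquiv.sumPiEquivProdPi (fun _ : Fin m ⊕ Fin r => ℝ)).symm := by
    funext p i
    rw [append_eq_elim]
    simp only [Function.comp]
    obtain ⟨j, rfl⟩ := (finSumFinEquiv : Fin m ⊕ Fin r ≃ Fin (m + r)).surjective i
    rw [Equiv.symm_apply_apply]
    rw [MeasurableEquiv.coe_piCongrLeft, Equiv.piCongrLeft_apply_apply]
    rcases j with j | j <;> rfl
  rw [heq]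
  exact h3

theorem measurable_append (m r : ℕ) :
    Measurable (fun p : (Fin m → ℝ) × (Fin r → ℝ) => (Fin.append p.1 p.2 : Fin (m + r) → ℝ)) :=
  (mp_append m r).measurable

/-- Fubini in the split coordinates (slice variable outside) -/
theorem lintegral_append {m r : ℕ} (f : (Fin (m + r) → ℝ) → ℝ≥0∞) (hf : Measurable f) :
    ∫⁻ x, f x = ∫⁻ y : Fin r → ℝ, ∫⁻ u : Fin m → ℝ, f (Fin.append u y) := by
  rw [← (mp_append m r).lintegral_comp hf]
  exact lintegral_prod_symm (fun p : (Fin m → ℝ) × (Fin r → ℝ) => f (Fin.append p.1 p.2))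
    (hf.comp (measurable_append m r)).aemeasurable

end GridChange

open GridChange in
/-- GV. change of variables. -/
theorem grid_change {m r : ℕ} (f : (Fin (m + r) → ℝ) → ℝ≥0∞) (hf : Measurable f)
    (t : Fin (m + r) → ℝ) (A : Matrix (Fin (m + r)) (Fin (m + r)) ℝ) (hA : A.det ≠ 0) :
    ∫⁻ x, f x = ENNReal.ofReal |A.det| * ∫⁻ y : Fin r → ℝ, ∫⁻ u : Fin m → ℝ,
      f (t + A.mulVec (Fin.append u y)) := by
  have hmA : Measurable (fun x : Fin (m + r) → ℝ => A.mulVec x) := by
    have : Continuous (fun x : Fin (m + r) → ℝ => A.mulVec x) :=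
      (Matrix.toLin' A).continuous_of_finiteDimensional
    exact this.measurable
  have hg : Measurable (fun x : Fin (m + r) → ℝ => f (t + x)) := hf.comp (measurable_const_add t)
  have h1 : ∫⁻ x, f x = ∫⁻ x, f (t + x) := (lintegral_add_left_eq_self f t).symm
  have h2 : ∫⁻ x, f (t + A.mulVec x) = ENNReal.ofReal |A.det⁻¹| * ∫⁻ x, f (t + x) := by
    have h := Real.map_matrix_volume_pi_eq_smul_volume_pi hA
    have h3 : ∫⁻ x, f (t + x) ∂(Measure.map (Matrix.toLin' A) volume) =
        ∫⁻ x, f (t + A.mulVec x) := by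
      rw [lintegral_map hg]
      · rfl
      · exact hmA
    rw [← h3, h, lintegral_smul_measure]
    rfl
  have h4 : ∫⁻ x, f x = ENNReal.ofReal |A.det| * ∫⁻ x, f (t + A.mulVec x) := by
    rw [h2, ← mul_assoc, ← ENNReal.ofReal_mul (abs_nonneg _), ← abs_mul, mul_inv_cancel₀ hA,
      abs_one, ENNReal.ofReal_one, one_mul, h1]
  rw [h4, lintegral_append (fun x => f (t + A.mulVec x)) (hg.comp hmA)]

namespace GridChange

theorem append_comb {m r : ℕ} (a b : ℝ) (u u' : Fin m → ℝ) (y y' : Fin r → ℝ) :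
    (Fin.append (a • u + b • u') (a • y + b • y') : Fin (m + r) → ℝ) =
      a • Fin.append u y + b • Fin.append u' y' := by
  funext i
  refine Fin.addCases (fun j => ?_) (fun j => ?_) i
  · simp
  · simp

end GridChange

open GridChange in
/-- GP. marginals of log-concave functions are log-concave. -/
theorem grid_marginal {m r : ℕ} {f : (Fin (m + r) → ℝ) → ℝ≥0∞} (hf : Measurable f) (hLC : LC f) :
    Measurable (fun y : Fin r → ℝ => ∫⁻ u : Fin m → ℝ, f (Fin.append u y)) ∧
    LC (fun y : Fin r → ℝ => ∫⁻ u : Fin m → ℝ, f (Fin.append u y)) := by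
  have hfa := hf.comp (measurable_append m r)
  refine ⟨hfa.lintegral_prod_left', ?_⟩
  intro y y' t ht0 ht1
  have hs : ∀ z : Fin r → ℝ, Measurable (fun u : Fin m → ℝ => f (Fin.append u z)) := fun z =>
    hfa.comp measurable_prodMk_right
  refine Crest.Agent.Lib.PrekopaLeindler.PL_pi m t ht0 ht1 _ _ _ (hs y) (hs y') (hs _) ?_
  intro u u'
  have := hLC (Fin.append u y) (Fin.append u' y') t ht0 ht1
  rwa [← append_comb] at this

end Crest.Agent.R225
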