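import Crest.Agent.R225.Iface

/-!
# Row 225 (S0347), node Grid, part GR: grid sums versus integrals of a
log-concave function (helper227)
-/

set_option autoImplicit false

open Finset MeasureTheory
open scoped BigOperators ENNReal

namespace Crest.Agent.R225

namespace GridB

theorem lint_biUnion_le {α β : Type*} [MeasurableSpace α] {μ : Measure α} (G : Finset β)
    (s : β → Set α) (f : α → ℝ≥0∞) : ∫⁻ x in ⋃ g ∈ G, s g, f x ∂μ ≤ ∑ g ∈ G, ∫⁻ x in s g, f x ∂μ := by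
  classical
  induction G using Finset.induction_on with
  | empty => simp
  | insert a G ha ih =>
    rw [Finset.set_biUnion_insert, Finset.sum_insert ha]
    exact le_trans (lintegral_union_le _ _ _) (add_le_add le_rfl ih)

/-- homothety argument: `w` close to `(1-t) x + t p` -/
theorem key {m : ℕ} {U : (Fin m → ℝ) → ℝ≥0∞} (hU : LC U) {α τ : ℝ}
    (hτ : 0 < τ) (hV : Vals α τ U) {p : Fin m → ℝ} {L t : ℝ} (ht0 : 0 < t)
    (ht1 : t < 1)
    (hp : ∀ x : Fin m → ℝ, (∀ k, 0 ≤ x k - p k ∧ x k - p k ≤ L) → U x ≠ 0)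
    {x w : Fin m → ℝ}
    (hw : ∀ k, 0 ≤ w k - ((1 - t) * x k + t * p k) ∧ w k - ((1 - t) * x k + t * p k) ≤ t * L) :
    ENNReal.ofReal (τ ^ t) * U x ≤ U w := by
  by_cases hx : U x = 0
  · simp [hx]
  set z : Fin m → ℝ := fun k => (w k - (1 - t) * x k) / t with hz
  have hzC : U z ≠ 0 := by
    apply hp
    intro k
    obtain ⟨h1, h2⟩ := hw k
    have e : z k - p k = (w k - ((1 - t) * x k + t * p k)) / t := by
      simp only [hz]; field_simp; ring
    rw [e]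
    refine ⟨div_nonneg h1 ht0.le, ?_⟩
    rw [div_le_iff₀ ht0]; linarith
  have hwz : w = (1 - t) • x + t • z := by
    funext k
    simp only [hz, Pi.add_apply, Pi.smul_apply, smul_eq_mul]
    field_simp; ring
  have hUx : U x ≤ ENNReal.ofReal α := by
    rcases hV x with h | h
    · exact absurd h hx
    · exact h.2
  have hUz : ENNReal.ofReal (τ * α) ≤ U z := by
    rcases hV z with h | h
    · exact absurd h hzC
    · exact h.1
  have hUx' : U x ≠ ∞ := ne_top_of_le_ne_top ENNReal.ofReal_ne_top hUx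
  have h3 : ENNReal.ofReal τ * U x ≤ U z := by
    refine le_trans ?_ hUz
    rw [ENNReal.ofReal_mul hτ.le]
    exact mul_le_mul_right hUx _
  have h4 := hU x z t ht0 ht1
  rw [← hwz] at h4
  refine le_trans ?_ h4
  have h5 : (ENNReal.ofReal τ * U x) ^ t ≤ U z ^ t := ENNReal.rpow_le_rpow h3 ht0.le
  have h6 : U x ^ (1 - t) * (ENNReal.ofReal τ * U x) ^ t = ENNReal.ofReal (τ ^ t) * U x := by
    rw [ENNReal.mul_rpow_of_nonneg _ _ ht0.le, ENNReal.ofReal_rpow_of_pos hτ]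
    have : U x ^ (1 - t) * U x ^ t = U x := by
      rw [← ENNReal.rpow_add _ _ hx hUx']
      simp
    calc U x ^ (1 - t) * (ENNReal.ofReal (τ ^ t) * U x ^ t)
        = ENNReal.ofReal (τ ^ t) * (U x ^ (1 - t) * U x ^ t) := by ring
      _ = _ := by rw [this]
  rw [← h6]
  exact mul_le_mul_right h5 _

/-- integral ≤ sum -/
theorem int_le_sum {m : ℕ} {U : (Fin m → ℝ) → ℝ≥0∞} (hU : LC U) {α τ : ℝ}
    (hτ : 0 < τ) (hV : Vals α τ U) {p : Fin m → ℝ} {L t : ℝ} (ht0 : 0 < t)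
    (ht1 : t < 1) (htL : 1 ≤ t * L)
    (hp : ∀ x : Fin m → ℝ, (∀ k, 0 ≤ x k - p k ∧ x k - p k ≤ L) → U x ≠ 0)
    (G : Finset (Pt m)) (hG : ∀ g, g ∈ G ↔ U (fun k => (g k : ℝ)) ≠ 0) :
    ENNReal.ofReal (τ ^ t * (1 - t) ^ m) * ∫⁻ x, U x ≤ ∑ g ∈ G, U (fun k => (g k : ℝ)) := by
  have h1t : 0 < 1 - t := by linarith
  -- the cells
  set cell : Pt m → Set (Fin m → ℝ) := fun g =>
    Set.pi Set.univ (fun k => Set.Ico (((g k : ℝ) - 1 - t * p k) / (1 - t))
      (((g k : ℝ) - t * p k) / (1 - t))) with hcell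
  have hvol : ∀ g, volume (cell g) = ENNReal.ofReal (((1 - t) ^ m)⁻¹) := by
    intro g
    rw [hcell]
    simp only [Real.volume_pi_Ico]
    have : ∀ k, ((g k : ℝ) - t * p k) / (1 - t) - ((g k : ℝ) - 1 - t * p k) / (1 - t) =
        (1 - t)⁻¹ := by
      intro k; field_simp; ring
    simp_rw [this]
    rw [Finset.prod_const, Finset.card_univ, Fintype.card_fin, ← inv_pow,
      ENNReal.ofReal_pow (by positivity)]
  have hcl : ∀ g x, x ∈ cell g → ENNReal.ofReal (τ ^ t) * U x ≤ U (fun k => (g k : ℝ)) := by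
    intro g x hx
    refine key hU hτ hV ht0 ht1 hp ?_
    intro k
    have := hx k (Set.mem_univ _)
    obtain ⟨h1, h2⟩ := this
    rw [div_le_iff₀ h1t] at h1
    rw [lt_div_iff₀ h1t] at h2
    constructor <;> nlinarith
  have hcov : Function.support U ⊆ ⋃ g ∈ G, cell g := by
    intro x hx
    set g : Pt m := fun k => ⌊(1 - t) * x k + t * p k + 1⌋ with hg
    have hxg : x ∈ cell g := by
      intro k _
      have h1 := Int.floor_le ((1 - t) * x k + t * p k + 1)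
      have h2 := Int.lt_floor_add_one ((1 - t) * x k + t * p k + 1)
      constructor
      · rw [div_le_iff₀ h1t]; simp only [hg]; nlinarith
      · rw [lt_div_iff₀ h1t]; simp only [hg]; nlinarith
    have hgG : g ∈ G := by
      rw [hG]
      have h3 := hcl g x hxg
      intro h0
      rw [h0] at h3
      have h4 : ENNReal.ofReal (τ ^ t) * U x = 0 := le_antisymm h3 bot_le
      rcases mul_eq_zero.1 h4 with h | h
      · rw [ENNReal.ofReal_eq_zero] at h
        have := Real.rpow_pos_of_pos hτ t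
        linarith
      · exact hx h
    exact Set.mem_biUnion hgG hxg
  have hle : ∫⁻ x, U x ≤ ∑ g ∈ G, ∫⁻ x in cell g, U x := by
    calc ∫⁻ x, U x = ∫⁻ x in Function.support U, U x := by
          exact (setLIntegral_eq_of_support_subset subset_rfl).symm
      _ ≤ ∫⁻ x in ⋃ g ∈ G, cell g, U x := lintegral_mono_set hcov
      _ ≤ ∑ g ∈ G, ∫⁻ x in cell g, U x := by
          exact lint_biUnion_le _ _ _
  have hcell' : ∀ g, ENNReal.ofReal (τ ^ t * (1 - t) ^ m) * ∫⁻ x in cell g, U x ≤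
      U (fun k => (g k : ℝ)) := by
    intro g
    have hτt : 0 < τ ^ t := Real.rpow_pos_of_pos hτ t
    rw [mul_comm (τ ^ t), ENNReal.ofReal_mul (by positivity), mul_assoc]
    have h1 : ENNReal.ofReal (τ ^ t) * ∫⁻ x in cell g, U x ≤
        ∫⁻ x in cell g, U (fun k => (g k : ℝ)) := by
      rw [← lintegral_const_mul' _ _ ENNReal.ofReal_ne_top]
      apply setLIntegral_mono_ae' (MeasurableSet.univ_pi fun k => measurableSet_Ico)
      exact Filter.Eventually.of_forall (fun x hx => hcl g x hx)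
    rw [setLIntegral_const, hvol] at h1
    refine le_trans (mul_le_mul_right h1 _) ?_
    have h2 : ENNReal.ofReal ((1 - t) ^ m) * ENNReal.ofReal (((1 - t) ^ m)⁻¹) = 1 := by
      rw [← ENNReal.ofReal_mul (by positivity), mul_inv_cancel₀ (by positivity)]
      simp
    calc ENNReal.ofReal ((1 - t) ^ m) * (U (fun k => (g k : ℝ)) *
          ENNReal.ofReal (((1 - t) ^ m)⁻¹))
        = (ENNReal.ofReal ((1 - t) ^ m) * ENNReal.ofReal (((1 - t) ^ m)⁻¹)) *
          U (fun k => (g k : ℝ)) := by ring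
      _ ≤ _ := by rw [h2, one_mul]
  calc ENNReal.ofReal (τ ^ t * (1 - t) ^ m) * ∫⁻ x, U x
      ≤ ENNReal.ofReal (τ ^ t * (1 - t) ^ m) * ∑ g ∈ G, ∫⁻ x in cell g, U x :=
        mul_le_mul_right hle _
    _ = ∑ g ∈ G, ENNReal.ofReal (τ ^ t * (1 - t) ^ m) * ∫⁻ x in cell g, U x := by
        rw [Finset.mul_sum]
    _ ≤ ∑ g ∈ G, U (fun k => (g k : ℝ)) := Finset.sum_le_sum fun g _ => hcell' g

/-- sum ≤ integral -/
theorem sum_le_int {m : ℕ} {U : (Fin m → ℝ) → ℝ≥0∞} (hU : LC U) {α τ : ℝ}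
    (hτ : 0 < τ) (hV : Vals α τ U) {p : Fin m → ℝ} {L t : ℝ} (ht0 : 0 < t)
    (ht1 : t < 1) (htL : 1 ≤ t * L)
    (hp : ∀ x : Fin m → ℝ, (∀ k, 0 ≤ x k - p k ∧ x k - p k ≤ L) → U x ≠ 0)
    (G : Finset (Pt m)) :
    ENNReal.ofReal (τ ^ t * (1 - t) ^ m) * ∑ g ∈ G, U (fun k => (g k : ℝ)) ≤ ∫⁻ x, U x := by
  have h1t : 0 < 1 - t := by linarith
  set cell : Pt m → Set (Fin m → ℝ) := fun g =>
    Set.pi Set.univ (fun k => Set.Ico ((1 - t) * (g k : ℝ) + t * p k)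
      ((1 - t) * (g k : ℝ) + t * p k + (1 - t))) with hcell
  have hvol : ∀ g, volume (cell g) = ENNReal.ofReal ((1 - t) ^ m) := by
    intro g
    rw [hcell]
    simp only [Real.volume_pi_Ico]
    have : ∀ k, ((1 - t) * (g k : ℝ) + t * p k + (1 - t)) - ((1 - t) * (g k : ℝ) + t * p k) =
        (1 - t) := by
      intro k; ring
    simp_rw [this]
    rw [Finset.prod_const, Finset.card_univ, Fintype.card_fin,
      ENNReal.ofReal_pow (by positivity)]
  have hcl : ∀ g x, x ∈ cell g → ENNReal.ofReal (τ ^ t) * U (fun k => (g k : ℝ)) ≤ U x := by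
    intro g x hx
    refine key hU hτ hV ht0 ht1 hp ?_
    intro k
    obtain ⟨h1, h2⟩ := hx k (Set.mem_univ _)
    constructor
    · linarith
    · have : x k - ((1 - t) * (g k : ℝ) + t * p k) ≤ 1 - t := by linarith
      linarith
  have hdisj : (G : Set (Pt m)).PairwiseDisjoint cell := by
    intro g _ g' _ hne
    rw [Function.onFun, Set.disjoint_left]
    intro x hx hx'
    apply hne
    funext k
    obtain ⟨h1, h2⟩ := hx k (Set.mem_univ _)
    obtain ⟨h3, h4⟩ := hx' k (Set.mem_univ _)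
    have a1 : (1 - t) * (g k : ℝ) < (1 - t) * ((g' k : ℝ) + 1) := by linarith
    have a2 : (1 - t) * (g' k : ℝ) < (1 - t) * ((g k : ℝ) + 1) := by linarith
    have b1 := lt_of_mul_lt_mul_left a1 h1t.le
    have b2 := lt_of_mul_lt_mul_left a2 h1t.le
    have c1 : g k < g' k + 1 := by exact_mod_cast b1
    have c2 : g' k < g k + 1 := by exact_mod_cast b2
    omega
  have hcell' : ∀ g, ENNReal.ofReal (τ ^ t * (1 - t) ^ m) * U (fun k => (g k : ℝ)) ≤
      ∫⁻ x in cell g, U x := by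
    intro g
    have hτt : 0 < τ ^ t := Real.rpow_pos_of_pos hτ t
    have h1 : ∫⁻ x in cell g, ENNReal.ofReal (τ ^ t) * U (fun k => (g k : ℝ)) ≤
        ∫⁻ x in cell g, U x := by
      apply setLIntegral_mono_ae' (MeasurableSet.univ_pi fun k => measurableSet_Ico)
      exact Filter.Eventually.of_forall (fun x hx => hcl g x hx)
    rw [setLIntegral_const, hvol] at h1
    refine le_trans (le_of_eq ?_) h1
    rw [ENNReal.ofReal_mul hτt.le]
    ring
  rw [Finset.mul_sum]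
  calc ∑ g ∈ G, ENNReal.ofReal (τ ^ t * (1 - t) ^ m) * U (fun k => (g k : ℝ))
      ≤ ∑ g ∈ G, ∫⁻ x in cell g, U x := Finset.sum_le_sum fun g _ => hcell' g
    _ = ∫⁻ x in ⋃ g ∈ G, cell g, U x := by
        rw [lintegral_biUnion_finset hdisj (fun g _ => MeasurableSet.univ_pi fun k =>
          measurableSet_Ico)]
    _ ≤ ∫⁻ x, U x := setLIntegral_le_lintegral _ _

end GridB

/-- GR. Riemann sums of a log-concave function whose support contains a cube of side `L`. -/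
theorem grid_riemann {m : ℕ} {f : (Fin m → ℝ) → ℝ≥0∞} {α τ L : ℝ} {p : Fin m → ℝ}
    {G : Finset (Pt m)} (hLC : LC f) (hf : Measurable f) (hα : 0 < α) (hτ : 0 < τ) (hτ1 : τ ≤ 1)
    (hL : 1 < L) (hval : Vals α τ f)
    (hp : ∀ x : Fin m → ℝ, (∀ k, 0 ≤ x k - p k ∧ x k - p k ≤ L) → f x ≠ 0)
    (hG : ∀ g, g ∈ G ↔ f (fun k => (g k : ℝ)) ≠ 0) :
    ENNReal.ofReal (τ ^ (1 / L) * (1 - 1 / L) ^ m) * ∫⁻ x, f x ≤ ∑ g ∈ G, f (fun k => (g k : ℝ)) ∧
    ENNReal.ofReal (τ ^ (1 / L) * (1 - 1 / L) ^ m) * ∑ g ∈ G, f (fun k => (g k : ℝ))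
      ≤ ∫⁻ x, f x := by
  have hL0 : 0 < L := by linarith
  have h0 : 0 < 1 / L := by positivity
  have h1 : 1 / L < 1 := by
    rw [div_lt_iff₀ hL0]; linarith
  have h2 : 1 ≤ 1 / L * L := by
    rw [one_div, inv_mul_cancel₀ hL0.ne']
  exact ⟨GridB.int_le_sum hLC hτ hval h0 h1 h2 hp G hG, GridB.sum_le_int hLC hτ hval h0 h1 h2 hp G⟩

/-- the form with absolute constants -/
theorem grid_riemann_two {n m : ℕ} {f : (Fin m → ℝ) → ℝ≥0∞} {α τ : ℝ} {p : Fin m → ℝ}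
    {G : Finset (Pt m)} (hn : 2 ≤ n) (hmn : m ≤ n) (hLC : LC f) (hτ : Real.exp (-(m : ℝ)) ≤ τ)
    (hval : Vals α τ f)
    (hp : ∀ x : Fin m → ℝ, (∀ k, 0 ≤ x k - p k ∧ x k - p k ≤ (n : ℝ) ^ 7) → f x ≠ 0)
    (hG : ∀ g, g ∈ G ↔ f (fun k => (g k : ℝ)) ≠ 0) :
    ∫⁻ x, f x ≤ 2 * ∑ g ∈ G, f (fun k => (g k : ℝ)) ∧
    ∑ g ∈ G, f (fun k => (g k : ℝ)) ≤ 2 * ∫⁻ x, f x := by
  have hτ0 : 0 < τ := lt_of_lt_of_le (Real.exp_pos _) hτ
  have hn' : (2 : ℝ) ≤ n := by exact_mod_cast hn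
  have hm' : (m : ℝ) ≤ n := by exact_mod_cast hmn
  have hn7 : (64 : ℝ) * n ≤ (n : ℝ) ^ 7 := by
    have : (2 : ℝ) ^ 6 ≤ (n : ℝ) ^ 6 := pow_le_pow_left₀ (by norm_num) hn' 6
    calc (64 : ℝ) * n = 2 ^ 6 * n := by norm_num
      _ ≤ (n : ℝ) ^ 6 * n := by nlinarith
      _ = (n : ℝ) ^ 7 := by ring
  set L : ℝ := (n : ℝ) ^ 7 with hLdef
  have hL1 : 1 < L := by linarith
  have hL0 : 0 < L := by linarith
  have hmL : (m : ℝ) / L ≤ 1 / 64 := by
    rw [div_le_iff₀ hL0]; linarith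
  have h0 : 0 < 1 / L := by positivity
  have h1 : 1 / L < 1 := by
    rw [div_lt_iff₀ hL0]; linarith
  have h2 : 1 ≤ 1 / L * L := by
    rw [one_div, inv_mul_cancel₀ hL0.ne']
  have hc : (1 / 2 : ℝ) ≤ τ ^ (1 / L) * (1 - 1 / L) ^ m := by
    have a1 : 1 - (m : ℝ) / L ≤ τ ^ (1 / L) := by
      have : Real.exp (-(m : ℝ)) ^ (1 / L) ≤ τ ^ (1 / L) :=
        Real.rpow_le_rpow (Real.exp_pos _).le hτ h0.le
      refine le_trans ?_ this
      rw [← Real.exp_mul]
      have := Real.add_one_le_exp (-(m : ℝ) * (1 / L))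
      refine le_trans (le_of_eq ?_) this
      ring
    have a2 : 1 - (m : ℝ) / L ≤ (1 - 1 / L) ^ m := by
      have := one_add_mul_le_pow (a := -(1 / L)) (by linarith) m
      refine le_trans (le_of_eq ?_) (le_trans this (le_of_eq ?_))
      · ring
      · ring
    have a3 : (63 / 64 : ℝ) ≤ 1 - (m : ℝ) / L := by linarith
    nlinarith
  have hc2 : (1 : ℝ≥0∞) ≤ 2 * ENNReal.ofReal (τ ^ (1 / L) * (1 - 1 / L) ^ m) := by
    have : ENNReal.ofReal (1 / 2) ≤ ENNReal.ofReal (τ ^ (1 / L) * (1 - 1 / L) ^ m) :=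
      ENNReal.ofReal_le_ofReal hc
    calc (1 : ℝ≥0∞) = 2 * ENNReal.ofReal (1 / 2) := by
          rw [show (2 : ℝ≥0∞) = ENNReal.ofReal 2 by simp, ← ENNReal.ofReal_mul (by norm_num)]
          norm_num
      _ ≤ _ := mul_le_mul_right this _
  constructor
  · calc ∫⁻ x, f x = 1 * ∫⁻ x, f x := by rw [one_mul]
      _ ≤ (2 * ENNReal.ofReal (τ ^ (1 / L) * (1 - 1 / L) ^ m)) * ∫⁻ x, f x :=
          mul_le_mul_left hc2 _
      _ = 2 * (ENNReal.ofReal (τ ^ (1 / L) * (1 - 1 / L) ^ m) * ∫⁻ x, f x) := by rw [mul_assoc]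
      _ ≤ _ := mul_le_mul_right (GridB.int_le_sum hLC hτ0 hval h0 h1 h2 hp G hG) _
  · calc ∑ g ∈ G, f (fun k => (g k : ℝ)) = 1 * ∑ g ∈ G, f (fun k => (g k : ℝ)) := by rw [one_mul]
      _ ≤ (2 * ENNReal.ofReal (τ ^ (1 / L) * (1 - 1 / L) ^ m)) *
            ∑ g ∈ G, f (fun k => (g k : ℝ)) := mul_le_mul_left hc2 _
      _ = 2 * (ENNReal.ofReal (τ ^ (1 / L) * (1 - 1 / L) ^ m) *
            ∑ g ∈ G, f (fun k => (g k : ℝ))) := by rw [mul_assoc]
      _ ≤ _ := mul_le_mul_right (GridB.sum_le_int hLC hτ0 hval h0 h1 h2 hp G) _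

end Crest.Agent.R225
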