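import Crest.Agent.R225.Iface
import Crest.Agent.R225.GridChange
import Crest.Agent.R225.GridRiemann

/-!
# Row 225 (S0347), node Grid: block matrices, marginals, slices, numerics
-/

set_option autoImplicit false

open Finset MeasureTheory
open scoped BigOperators ENNReal

namespace Crest.Agent.R225

namespace GridPf


variable {m r : ℕ}

/-- block diagonal matrix `diag(s, …, s, B)` -/
noncomputable def blk (m : ℕ) {r : ℕ} (s : ℝ) (B : Matrix (Fin r) (Fin r) ℝ) :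
    Matrix (Fin (m + r)) (Fin (m + r)) ℝ :=
  Matrix.reindex finSumFinEquiv finSumFinEquiv
    (Matrix.fromBlocks (s • (1 : Matrix (Fin m) (Fin m) ℝ)) 0 0 B)

theorem append_comp (u : Fin m → ℝ) (y : Fin r → ℝ) :
    Fin.append u y ∘ finSumFinEquiv = Sum.elim u y := by
  funext i
  rcases i with i | i <;> simp

theorem blk_mulVec (s : ℝ) (B : Matrix (Fin r) (Fin r) ℝ) (u : Fin m → ℝ) (y : Fin r → ℝ) :
    (blk m s B).mulVec (Fin.append u y) = Fin.append (s • u) (B.mulVec y) := by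
  have h1 : (blk m s B).mulVec (Fin.append u y) =
      ((Matrix.fromBlocks (s • (1 : Matrix (Fin m) (Fin m) ℝ)) 0 0 B).mulVec
        (Fin.append u y ∘ finSumFinEquiv)) ∘ finSumFinEquiv.symm := by
    rw [blk, Matrix.reindex_apply, Matrix.submatrix_mulVec_equiv]
    rfl
  rw [h1, append_comp, Matrix.fromBlocks_mulVec]
  funext i
  refine Fin.addCases (fun i => ?_) (fun i => ?_) i
  · simp [Matrix.smul_mulVec]
  · simp

theorem blk_det (s : ℝ) (B : Matrix (Fin r) (Fin r) ℝ) : (blk m s B).det = s ^ m * B.det := by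
  rw [blk, Matrix.det_reindex_self, Matrix.det_fromBlocks_zero₂₁, Matrix.det_smul,
    Matrix.det_one, Fintype.card_fin, mul_one]

theorem append_add (u u' : Fin m → ℝ) (y y' : Fin r → ℝ) :
    Fin.append u y + Fin.append u' y' = Fin.append (u + u') (y + y') := by
  funext i
  refine Fin.addCases (fun i => ?_) (fun i => ?_) i <;> simp

theorem append_sub (u u' : Fin m → ℝ) (y y' : Fin r → ℝ) :
    Fin.append u y - Fin.append u' y' = Fin.append (u - u') (y - y') := by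
  funext i
  refine Fin.addCases (fun i => ?_) (fun i => ?_) i <;> simp

theorem append_smul (c : ℝ) (u : Fin m → ℝ) (y : Fin r → ℝ) :
    c • Fin.append u y = Fin.append (c • u) (c • y) := by
  funext i
  refine Fin.addCases (fun i => ?_) (fun i => ?_) i <;> simp

theorem LC_affine {k l : ℕ} {f : (Fin k → ℝ) → ℝ≥0∞} (hf : LC f) (t : Fin k → ℝ)
    (A : Matrix (Fin k) (Fin l) ℝ) : LC (fun z : Fin l → ℝ => f (t + A.mulVec z)) := by
  intro x y c h0 h1
  have := hf (t + A.mulVec x) (t + A.mulVec y) c h0 h1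
  refine this.trans (le_of_eq ?_)
  congr 1
  rw [Matrix.mulVec_add, Matrix.mulVec_smul, Matrix.mulVec_smul]
  module

/-- the points where a LC function does not vanish form a convex set -/
theorem LC_convex {E : Type*} [AddCommGroup E] [Module ℝ E] {f : E → ℝ≥0∞} (hf : LC f)
    (hfin : ∀ x, f x ≠ ∞) : Convex ℝ {x | f x ≠ 0} := by
  intro x hx y hy a b ha hb hab
  rcases eq_or_lt_of_le ha with h | ha'
  · subst h
    have : b = 1 := by linarith
    subst this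
    simpa using hy
  rcases eq_or_lt_of_le hb with h | hb'
  · subst h
    have : a = 1 := by linarith
    subst this
    simpa using hx
  have h1 := hf x y b hb' (by linarith)
  have h2 : a = 1 - b := by linarith
  rw [h2]
  intro h3
  rw [h3, nonpos_iff_eq_zero] at h1
  have hx' : f x ≠ 0 := hx
  have hy' : f y ≠ 0 := hy
  rcases mul_eq_zero.1 h1 with h | h
  · rw [ENNReal.rpow_eq_zero_iff] at h
    rcases h with h | h
    · exact hx' h.1
    · exact hfin x h.1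
  · rw [ENNReal.rpow_eq_zero_iff] at h
    rcases h with h | h
    · exact hy' h.1
    · exact hfin y h.1




/-- the marginal -/
noncomputable def Fm (V : (Fin (m + r) → ℝ) → ℝ≥0∞) (w : Fin r → ℝ) : ℝ≥0∞ :=
  ∫⁻ u : Fin m → ℝ, V (Fin.append u w)

theorem Vals.ne_top {E : Type*} {α τ : ℝ} {f : E → ℝ≥0∞} (h : Vals α τ f) (x : E) : f x ≠ ∞ := by
  rcases h x with h1 | h1
  · rw [h1]; exact ENNReal.zero_ne_top
  · exact ne_top_of_le_ne_top ENNReal.ofReal_ne_top h1.2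

theorem Fm_le {V : (Fin (m + r) → ℝ) → ℝ≥0∞} {α τ : ℝ} (hα : 0 < α) (hval : Vals α τ V)
    (hbox : ∀ z, V z ≠ 0 → ∀ k, |z k| ≤ 2) (w : Fin r → ℝ) :
    Fm V w ≤ ENNReal.ofReal (α * 4 ^ m) := by
  have h1 : ∀ u : Fin m → ℝ, V (Fin.append u w) ≤
      (Set.Icc (fun _ : Fin m => (-2:ℝ)) (fun _ => 2)).indicator (fun _ => ENNReal.ofReal α) u := by
    intro u
    by_cases hu : V (Fin.append u w) = 0
    · rw [hu]; exact zero_le
    · have hb := hbox _ hu
      have hmem : u ∈ Set.Icc (fun _ : Fin m => (-2:ℝ)) (fun _ => 2) := by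
        constructor
        · intro k
          have := hb (Fin.castAdd r k)
          rw [Fin.append_left, abs_le] at this
          exact this.1
        · intro k
          have := hb (Fin.castAdd r k)
          rw [Fin.append_left, abs_le] at this
          exact this.2
      rw [Set.indicator_of_mem hmem]
      rcases hval (Fin.append u w) with h | h
      · exact absurd h hu
      · exact h.2
  calc Fm V w ≤ ∫⁻ u : Fin m → ℝ, (Set.Icc (fun _ : Fin m => (-2:ℝ)) (fun _ => 2)).indicator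
        (fun _ => ENNReal.ofReal α) u := lintegral_mono h1
    _ = ENNReal.ofReal α * volume (Set.Icc (fun _ : Fin m => (-2:ℝ)) (fun _ => 2)) := by
        rw [lintegral_indicator measurableSet_Icc, setLIntegral_const]
    _ = ENNReal.ofReal (α * 4 ^ m) := by
        rw [Real.volume_Icc_pi, ENNReal.ofReal_mul hα.le]
        congr 1
        simp only [Finset.prod_const, Finset.card_univ, Fintype.card_fin]
        rw [← ENNReal.ofReal_pow (by norm_num)]
        norm_num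

theorem Fm_ge {V : (Fin (m + r) → ℝ) → ℝ≥0∞} {α τ δ : ℝ} (hα : 0 < α) (hτ : 0 < τ)
    (hδ : 0 < δ) (hval : Vals α τ V)
    (hcube : ∀ z : Fin (m + r) → ℝ, (∀ k, 0 ≤ z k ∧ z k ≤ δ) → V z ≠ 0)
    {w : Fin r → ℝ} (hw : ∀ l, 0 ≤ w l ∧ w l ≤ δ) :
    ENNReal.ofReal (τ * α * δ ^ m) ≤ Fm V w := by
  have h1 : ∀ u : Fin m → ℝ,
      (Set.Icc (fun _ : Fin m => (0:ℝ)) (fun _ => δ)).indicator (fun _ => ENNReal.ofReal (τ * α)) u
      ≤ V (Fin.append u w) := by
    intro u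
    by_cases hmem : u ∈ Set.Icc (fun _ : Fin m => (0:ℝ)) (fun _ => δ)
    · rw [Set.indicator_of_mem hmem]
      have hne : V (Fin.append u w) ≠ 0 := by
        apply hcube
        intro k
        refine Fin.addCases (fun k => ?_) (fun k => ?_) k
        · rw [Fin.append_left]; exact ⟨hmem.1 k, hmem.2 k⟩
        · rw [Fin.append_right]; exact hw k
      rcases hval (Fin.append u w) with h | h
      · exact absurd h hne
      · exact h.1
    · rw [Set.indicator_of_notMem hmem]; exact zero_le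
  calc ENNReal.ofReal (τ * α * δ ^ m)
      = ENNReal.ofReal (τ * α) * volume (Set.Icc (fun _ : Fin m => (0:ℝ)) (fun _ => δ)) := by
        rw [Real.volume_Icc_pi, ENNReal.ofReal_mul (by positivity)]
        congr 1
        simp only [Finset.prod_const, Finset.card_univ, Fintype.card_fin, sub_zero]
        rw [← ENNReal.ofReal_pow hδ.le]
    _ = ∫⁻ u : Fin m → ℝ, (Set.Icc (fun _ : Fin m => (0:ℝ)) (fun _ => δ)).indicator
        (fun _ => ENNReal.ofReal (τ * α)) u := by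
        rw [lintegral_indicator measurableSet_Icc, setLIntegral_const]
    _ ≤ Fm V w := lintegral_mono h1

theorem Fm_bdd {V : (Fin (m + r) → ℝ) → ℝ≥0∞} (hbox : ∀ z, V z ≠ 0 → ∀ k, |z k| ≤ 2) :
    BddSupp (Fm V) := by
  refine ⟨2, fun w hw i => ?_⟩
  by_contra hcon
  apply hw
  unfold Fm
  rw [lintegral_eq_zero_of_ae_eq_zero]
  refine Filter.Eventually.of_forall fun u => ?_
  by_contra hne
  have := hbox _ hne (Fin.natAdd m i)
  rw [Fin.append_right] at this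
  exact hcon this

/-- if the marginal is nonzero then the slice is nonempty -/
theorem exists_of_Fm {V : (Fin (m + r) → ℝ) → ℝ≥0∞} {w : Fin r → ℝ} (h : Fm V w ≠ 0) :
    ∃ u : Fin m → ℝ, V (Fin.append u w) ≠ 0 := by
  by_contra hcon
  push Not at hcon
  apply h
  unfold Fm
  rw [lintegral_eq_zero_of_ae_eq_zero]
  exact Filter.Eventually.of_forall fun u => hcon u

theorem slice_cube {V : (Fin (m + r) → ℝ) → ℝ≥0∞} {α τ δ lm : ℝ} (hval : Vals α τ V)
    (hLC : LC V) (hcube : ∀ z : Fin (m + r) → ℝ, (∀ k, 0 ≤ z k ∧ z k ≤ δ) → V z ≠ 0)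
    (h0 : 0 < lm) (h1 : lm < 1)
    {w w0 : Fin r → ℝ} (hw0 : ∀ l, 0 ≤ w0 l ∧ w0 l ≤ δ) {u : Fin m → ℝ}
    (hu : V (Fin.append u w) ≠ 0) {u2 : Fin m → ℝ} (hu2 : ∀ k, 0 ≤ u2 k ∧ u2 k ≤ δ) :
    V (Fin.append ((1 - lm) • u + lm • u2) ((1 - lm) • w + lm • w0)) ≠ 0 := by
  have hne : V (Fin.append u2 w0) ≠ 0 := by
    apply hcube
    intro k
    refine Fin.addCases (fun k => ?_) (fun k => ?_) k
    · rw [Fin.append_left]; exact hu2 k
    · rw [Fin.append_right]; exact hw0 k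
  have hconv := LC_convex hLC (Vals.ne_top hval)
  have := hconv (show Fin.append u w ∈ {x | V x ≠ 0} from hu)
    (show Fin.append u2 w0 ∈ {x | V x ≠ 0} from hne) (show 0 ≤ 1 - lm by linarith) h0.le
    (by ring)
  have h3 : V ((1 - lm) • Fin.append u w + lm • Fin.append u2 w0) ≠ 0 := this
  rwa [append_smul, append_smul, append_add] at h3

theorem Fm_shrunk {V : (Fin (m + r) → ℝ) → ℝ≥0∞} {α τ δ lm M : ℝ} (hα : 0 < α) (hτ : 0 < τ)
    (hδ : 0 < δ) (hval : Vals α τ V) (hV : Measurable V) (hLC : LC V)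
    (hcube : ∀ z : Fin (m + r) → ℝ, (∀ k, 0 ≤ z k ∧ z k ≤ δ) → V z ≠ 0)
    (hbox : ∀ z, V z ≠ 0 → ∀ k, |z k| ≤ 2)
    (h0 : 0 < lm) (h1 : lm < 1) (hM : 0 < M) (h2 : (4 ^ m / (τ * δ ^ m)) ^ lm ≤ 2)
    {w w0 : Fin r → ℝ} (hw0 : ∀ l, 0 ≤ w0 l ∧ w0 l ≤ δ)
    (hw : ENNReal.ofReal (M / 2) ≤ Fm V w) :
    ENNReal.ofReal (M / 4) ≤ Fm V ((1 - lm) • w + lm • w0) := by
  have hF := (grid_marginal hV hLC).2 w w0 lm h0 h1
  have hM2 : M / 2 ≤ α * 4 ^ m := by
    have := hw.trans (Fm_le hα hval hbox w)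
    exact (ENNReal.ofReal_le_ofReal_iff (by positivity)).1 this
  have hb := Fm_ge hα hτ hδ hval hcube hw0
  have hτδ : 0 < τ * δ ^ m := by positivity
  have hreal : M / 4 ≤ (M / 2) ^ (1 - lm) * (τ * α * δ ^ m) ^ lm := by
    have e1 : (M / 2) ^ (1 - lm) = (M / 2) / (M / 2) ^ lm := by
      rw [Real.rpow_sub (by positivity), Real.rpow_one]
    have e2 : (M / 2) ^ lm ≤ 2 * (τ * α * δ ^ m) ^ lm := by
      calc (M / 2) ^ lm ≤ (α * 4 ^ m) ^ lm := by
            apply Real.rpow_le_rpow (by positivity) hM2 h0.le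
        _ = ((4 ^ m / (τ * δ ^ m)) * (τ * α * δ ^ m)) ^ lm := by
            congr 1
            field_simp
        _ = (4 ^ m / (τ * δ ^ m)) ^ lm * (τ * α * δ ^ m) ^ lm := by
            rw [Real.mul_rpow (by positivity) (by positivity)]
        _ ≤ 2 * (τ * α * δ ^ m) ^ lm := by
            apply mul_le_mul_of_nonneg_right h2 (by positivity)
    rw [e1, div_mul_eq_mul_div, le_div_iff₀ (by positivity)]
    calc M / 4 * (M / 2) ^ lm ≤ M / 4 * (2 * (τ * α * δ ^ m) ^ lm) :=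
          mul_le_mul_of_nonneg_left e2 (by positivity)
      _ = M / 2 * (τ * α * δ ^ m) ^ lm := by ring
  calc ENNReal.ofReal (M / 4)
      ≤ ENNReal.ofReal ((M / 2) ^ (1 - lm) * (τ * α * δ ^ m) ^ lm) :=
        ENNReal.ofReal_le_ofReal hreal
    _ = ENNReal.ofReal (M / 2) ^ (1 - lm) * ENNReal.ofReal (τ * α * δ ^ m) ^ lm := by
        rw [ENNReal.ofReal_mul (by positivity), ENNReal.ofReal_rpow_of_pos (by positivity),
          ENNReal.ofReal_rpow_of_pos (by positivity)]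
    _ ≤ Fm V w ^ (1 - lm) * Fm V w0 ^ lm := by
        gcongr
    _ ≤ Fm V ((1 - lm) • w + lm • w0) := hF



/-- numerical facts used in the grid node -/
theorem numerics (r : ℕ) : ∃ n2 : ℕ, ∀ n ≥ n2, ∀ m : ℕ, n ≤ 2 * m → m ≤ n →
    ∃ lm : ℝ, 0 < lm ∧ lm < 1 ∧
      (∀ τ : ℝ, Real.exp (-(m : ℝ)) ≤ τ → (4 ^ m / (τ * (1 / ((m : ℝ) + r + 1)) ^ m)) ^ lm ≤ 2) ∧
      1 / 2 ≤ (1 - lm) ^ r ∧
      4 ≤ lm * (1 / ((m : ℝ) + r + 1)) * (n : ℝ) ^ 3 ∧
      48 * ((m : ℝ) + r + 1) ≤ (n : ℝ) ^ 3 := by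
  have hlim : ∀ᶠ n : ℕ in Filter.atTop, Real.log (24 * n) / Real.sqrt n ≤ Real.log 2 := by
    have h1 : ∀ᶠ n : ℕ in Filter.atTop, (10 : ℝ) ^ 8 ≤ n := by
      have := tendsto_natCast_atTop_atTop (R := ℝ)
      exact this.eventually_ge_atTop _
    filter_upwards [h1] with n hn
    have hn0 : (0:ℝ) < n := by linarith [show (0:ℝ) < 10 ^ 8 by norm_num]
    have hlog2 : (0.69 : ℝ) ≤ Real.log 2 := by linarith [Real.log_two_gt_d9]
    have h3 : Real.log (24 * n) ≤ (24 * n : ℝ) ^ (1 / 4 : ℝ) / (1 / 4) :=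
      Real.log_le_rpow_div (by positivity) (by norm_num)
    have h4 : (24 * n : ℝ) ^ (1 / 4 : ℝ) ≤ 3 * (n : ℝ) ^ (1 / 4 : ℝ) := by
      rw [Real.mul_rpow (by norm_num) hn0.le]
      apply mul_le_mul_of_nonneg_right _ (by positivity)
      have : (24 : ℝ) ^ (1 / 4 : ℝ) ≤ (81 : ℝ) ^ (1 / 4 : ℝ) :=
        Real.rpow_le_rpow (by norm_num) (by norm_num) (by norm_num)
      refine this.trans (le_of_eq ?_)
      rw [show (81 : ℝ) = 3 ^ (4 : ℕ) by norm_num, ← Real.rpow_natCast, ← Real.rpow_mul (by norm_num)]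
      norm_num
    have h5 : Real.sqrt n = (n : ℝ) ^ (1 / 4 : ℝ) * (n : ℝ) ^ (1 / 4 : ℝ) := by
      rw [Real.sqrt_eq_rpow, ← Real.rpow_add hn0]; norm_num
    have h6 : (100 : ℝ) ≤ (n : ℝ) ^ (1 / 4 : ℝ) := by
      have : ((10 : ℝ) ^ 8) ^ (1 / 4 : ℝ) ≤ (n : ℝ) ^ (1 / 4 : ℝ) :=
        Real.rpow_le_rpow (by norm_num) hn (by norm_num)
      refine le_trans (le_of_eq ?_) this
      rw [show (10 : ℝ) ^ 8 = 100 ^ (4 : ℕ) by norm_num, ← Real.rpow_natCast,
        ← Real.rpow_mul (by norm_num)]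
      norm_num
    rw [div_le_iff₀ (Real.sqrt_pos.2 hn0), h5]
    set x := (n : ℝ) ^ (1 / 4 : ℝ)
    have : Real.log (24 * n) ≤ 12 * x := by
      calc _ ≤ _ := h3
        _ ≤ (3 * x) / (1 / 4) := by gcongr
        _ = 12 * x := by ring
    nlinarith
  obtain ⟨N, hN⟩ := Filter.eventually_atTop.1 hlim
  refine ⟨max N (max 100 (2 * r + 1)), fun n hn m hnm hmn => ?_⟩
  have hnN : N ≤ n := (le_max_left _ _).trans hn
  have hn100 : 100 ≤ n := (le_max_left _ _).trans ((le_max_right _ _).trans hn)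
  have hnr : 2 * r + 1 ≤ n := (le_max_right _ _).trans ((le_max_right _ _).trans hn)
  have hN' := hN n hnN
  have hn' : (100 : ℝ) ≤ n := by exact_mod_cast hn100
  have hn0 : (0 : ℝ) < n := by linarith
  have hr' : 2 * (r : ℝ) + 1 ≤ n := by exact_mod_cast hnr
  have hm' : (m : ℝ) ≤ n := by exact_mod_cast hmn
  have hmr : (m : ℝ) + r + 1 ≤ 2 * n := by linarith [(Nat.cast_nonneg r : (0:ℝ) ≤ r)]
  have hmr0 : (0 : ℝ) < (m : ℝ) + r + 1 := by positivity
  have hlm1 : (n : ℝ) ^ (-(3 / 2) : ℝ) ≤ 1 / n := by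
    rw [one_div, ← Real.rpow_neg_one]
    exact Real.rpow_le_rpow_of_exponent_le (by linarith) (by norm_num)
  have hsq : (n : ℝ) ^ (-(3 / 2) : ℝ) * n = 1 / Real.sqrt n := by
    rw [Real.sqrt_eq_rpow, one_div, ← Real.rpow_neg hn0.le]
    nth_rewrite 2 [← Real.rpow_one (n : ℝ)]
    rw [← Real.rpow_add hn0]
    norm_num
  have hsq2 : (n : ℝ) ^ (-(3 / 2) : ℝ) * (n : ℝ) ^ 2 = Real.sqrt n := by
    rw [Real.sqrt_eq_rpow, ← Real.rpow_natCast (n : ℝ) 2, ← Real.rpow_add hn0]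
    norm_num
  have hsqrt : 10 ≤ Real.sqrt n := by
    rw [show (10 : ℝ) = Real.sqrt (10 ^ 2) by rw [Real.sqrt_sq (by norm_num)]]
    exact Real.sqrt_le_sqrt (by linarith)
  refine ⟨(n : ℝ) ^ (-(3 / 2) : ℝ), by positivity, ?_, ?_, ?_, ?_, ?_⟩
  · refine lt_of_le_of_lt hlm1 ?_
    rw [div_lt_one hn0]; linarith
  · intro τ hτ
    have hτ0 : 0 < τ := lt_of_lt_of_le (Real.exp_pos _) hτ
    have h1 : 4 ^ m / (τ * (1 / ((m : ℝ) + r + 1)) ^ m) ≤ (24 * (n : ℝ)) ^ m := by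
      rw [div_le_iff₀ (by positivity)]
      have e1 : (Real.exp 1)⁻¹ ^ m ≤ τ := by
        refine le_trans (le_of_eq ?_) hτ
        rw [← Real.exp_neg, ← Real.exp_nat_mul]
        congr 1; ring
      have e2 : (4 : ℝ) ≤ 24 * n * ((Real.exp 1)⁻¹ * (1 / ((m : ℝ) + r + 1))) := by
        have hexp : Real.exp 1 ≤ 3 := by linarith [Real.exp_one_lt_d9]
        rw [← one_div, ← mul_assoc, mul_one_div, mul_one_div, div_div, le_div_iff₀ (by positivity)]
        nlinarith [Real.exp_pos 1]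
      calc (4 : ℝ) ^ m ≤ (24 * n * ((Real.exp 1)⁻¹ * (1 / ((m : ℝ) + r + 1)))) ^ m :=
            pow_le_pow_left₀ (by norm_num) e2 m
        _ = (24 * n) ^ m * ((Real.exp 1)⁻¹ ^ m * (1 / ((m : ℝ) + r + 1)) ^ m) := by
            rw [mul_pow (24 * (n : ℝ)), mul_pow (Real.exp 1)⁻¹]
        _ ≤ (24 * n) ^ m * (τ * (1 / ((m : ℝ) + r + 1)) ^ m) := by gcongr
    have h24 : (1 : ℝ) ≤ 24 * n := by linarith
    calc (4 ^ m / (τ * (1 / ((m : ℝ) + r + 1)) ^ m)) ^ ((n : ℝ) ^ (-(3 / 2) : ℝ))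
        ≤ ((24 * (n : ℝ)) ^ m) ^ ((n : ℝ) ^ (-(3 / 2) : ℝ)) := by
          apply Real.rpow_le_rpow (by positivity) h1 (by positivity)
      _ = (24 * (n : ℝ)) ^ ((m : ℝ) * (n : ℝ) ^ (-(3 / 2) : ℝ)) := by
          rw [← Real.rpow_natCast, ← Real.rpow_mul (by positivity)]
      _ ≤ (24 * (n : ℝ)) ^ (1 / Real.sqrt n) := by
          apply Real.rpow_le_rpow_of_exponent_le h24
          rw [← hsq, mul_comm]
          gcongr
      _ = Real.exp (Real.log (24 * n) / Real.sqrt n) := by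
          rw [Real.rpow_def_of_pos (by positivity)]
          congr 1; ring
      _ ≤ 2 := by
          calc _ ≤ Real.exp (Real.log 2) := Real.exp_le_exp.2 hN'
            _ = 2 := Real.exp_log (by norm_num)
  · have hb := one_add_mul_le_pow (R := ℝ) (a := -((n : ℝ) ^ (-(3 / 2) : ℝ))) (by
      have : (1 : ℝ) / n ≤ 1 := by rw [div_le_one hn0]; linarith
      linarith) r
    have : (r : ℝ) * (n : ℝ) ^ (-(3 / 2) : ℝ) ≤ 1 / 2 := by
      calc (r : ℝ) * (n : ℝ) ^ (-(3 / 2) : ℝ) ≤ r * (1 / n) := by gcongr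
        _ ≤ 1 / 2 := by
          rw [mul_one_div, div_le_iff₀ hn0]; linarith
    calc (1 / 2 : ℝ) ≤ 1 + r * -((n : ℝ) ^ (-(3 / 2) : ℝ)) := by linarith
      _ ≤ (1 + -((n : ℝ) ^ (-(3 / 2) : ℝ))) ^ r := hb
      _ = (1 - (n : ℝ) ^ (-(3 / 2) : ℝ)) ^ r := by ring
  · have : (n : ℝ) ^ (-(3 / 2) : ℝ) * (1 / ((m : ℝ) + r + 1)) * (n : ℝ) ^ 3
        = Real.sqrt n * (n / ((m : ℝ) + r + 1)) := by
      rw [← hsq2]; ring
    rw [this]
    have h2 : (1 / 2 : ℝ) ≤ n / ((m : ℝ) + r + 1) := by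
      rw [le_div_iff₀ hmr0]; linarith
    nlinarith
  · nlinarith [sq_nonneg ((n : ℝ) - 100), mul_pos hn0 hn0]


end GridPf

end Crest.Agent.R225
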