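import Crest.Agent.R225.GridA

/-!
# Row 225 (S0347), node Grid: assembly, assuming the r-dimensional region lemma `S_GridRegion`
-/

set_option autoImplicit false

open Finset MeasureTheory
open scoped BigOperators ENNReal

namespace Crest.Agent.R225

namespace GridPf

variable {m r : ℕ}

theorem lint_smul {g : (Fin m → ℝ) → ℝ≥0∞} (hg : Measurable g) {s : ℝ} (hs : 0 < s) :
    ∫⁻ u, g (s • u) = ENNReal.ofReal ((s ^ m)⁻¹) * ∫⁻ u, g u := by
  rw [← lintegral_map hg (measurable_const_smul s), Measure.map_addHaar_smul volume hs.ne',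
    lintegral_smul_measure, Module.finrank_fin_fun, abs_of_pos (by positivity)]
  rfl

theorem LC_slice {V : (Fin (m + r) → ℝ) → ℝ≥0∞} (hV : LC V) (y : Fin r → ℝ) :
    LC (fun u : Fin m → ℝ => V (Fin.append u y)) := by
  intro u u' c h0 h1
  have := hV (Fin.append u y) (Fin.append u' y) c h0 h1
  refine this.trans (le_of_eq ?_)
  congr 1
  rw [append_smul, append_smul, append_add]
  congr 1
  module

theorem interior_nonempty_of {k : ℕ} {f : (Fin k → ℝ) → ℝ≥0∞} (hconv : Convex ℝ {x | f x ≠ 0})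
    (hint : ∫⁻ x, f x ≠ 0) : (interior {x | f x ≠ 0}).Nonempty := by
  by_contra hcon
  rw [Set.not_nonempty_iff_eq_empty] at hcon
  apply hint
  have h1 : volume {x | f x ≠ 0} = 0 := by
    refine measure_mono_null ?_ (hconv.addHaar_frontier volume)
    intro x hx
    rw [frontier, Set.mem_sdiff, hcon]
    exact ⟨subset_closure hx, fun h => h⟩
  rw [lintegral_eq_zero_of_ae_eq_zero]
  exact h1

theorem bounded_of {k : ℕ} {f : (Fin k → ℝ) → ℝ≥0∞} (hb : BddSupp f) :
    Bornology.IsBounded {x | f x ≠ 0} := by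
  obtain ⟨B, hB⟩ := hb
  refine (isCompact_Icc (a := fun _ : Fin k => -B) (b := fun _ => B)).isBounded.subset ?_
  intro x hx
  have := hB x hx
  exact ⟨fun i => (abs_le.1 (this i)).1, fun i => (abs_le.1 (this i)).2⟩

end GridPf

/-- the r-dimensional region lemma (GM), proved in `GridRegion.lean` from `S_D1` -/
def S_GridRegion : Prop := ∀ r : ℕ, ∃ C : ℝ, 1 ≤ C ∧ ∀ F : (Fin r → ℝ) → ℝ≥0∞,
    LC F → Measurable F → BddSupp F → (∃ A : ℝ≥0∞, A ≠ ∞ ∧ ∀ x, F x ≤ A) → ∫⁻ x, F x ≠ 0 →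
    ∃ (M : ℝ) (B : Matrix (Fin r) (Fin r) ℝ) (t : Fin r → ℝ), 0 < M ∧ B.det ≠ 0 ∧
      (∀ x, F x ≤ ENNReal.ofReal M) ∧
      (∀ y : Fin r → ℝ, (∀ l, 0 ≤ y l ∧ y l ≤ 2) → ENNReal.ofReal (M / 2) ≤ F (t + B.mulVec y)) ∧
      ∫⁻ x, F x ≤ ENNReal.ofReal (C * M * |B.det|)

open GridPf in
open scoped Classical in
theorem prf_Grid_of (hGC : S_GridConvex) (hD1 : S_D1) (hGR : S_GridRegion) : S_Grid := by
  obtain ⟨c1, hc1, hc1', n1, hGC⟩ := hGC
  refine ⟨c1, hc1, hc1', fun r => ?_⟩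
  obtain ⟨C, hC, hreg⟩ := hGR r
  obtain ⟨n2, hnum⟩ := GridPf.numerics r
  refine ⟨16, 16 * C, by norm_num, by linarith, max (max n1 n2) 2, ?_⟩
  intro n hn m hnm hmn U0 τ0 α0 D hLC hmeas hbdd hτ hτ1 hτm hα hval hint hD hDlo hDhi
  have hnn1 : n1 ≤ n := (le_max_left _ _).trans ((le_max_left _ _).trans hn)
  have hnn2 : n2 ≤ n := (le_max_right _ _).trans ((le_max_left _ _).trans hn)
  have hn2 : 2 ≤ n := (le_max_right _ _).trans hn
  have hnR : (2 : ℝ) ≤ n := by exact_mod_cast hn2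
  have hn0 : (0 : ℝ) < n := by linarith
  have hm1 : 1 ≤ m := by omega
  obtain ⟨lm, hlm0, hlm1, hlmτ, hlmr, hlm3, hn3⟩ := hnum n hnn2 m hnm hmn
  have hlm2 := hlmτ τ0 hτm
  -- the position
  have hfin : ∀ x, U0 x ≠ ∞ := Vals.ne_top hval
  have hSconv := LC_convex hLC hfin
  obtain ⟨A0, p0, hdet0, hcube0, hbox0⟩ := hD1 (m + r) {x | U0 x ≠ 0} hSconv (bounded_of hbdd)
    (interior_nonempty_of hSconv hint)
  set δ : ℝ := 1 / ((m : ℝ) + r + 1) with hδdef
  have hmr0 : (0 : ℝ) < (m : ℝ) + r + 1 := by positivity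
  have hδ : 0 < δ := by positivity
  set V : (Fin (m + r) → ℝ) → ℝ≥0∞ := fun z => U0 (p0 + A0.mulVec z) with hVdef
  have hVLC : LC V := LC_affine hLC p0 A0
  have hVm : Measurable V := by
    refine hmeas.comp (Continuous.measurable ?_)
    exact continuous_const.add (continuous_const.matrix_mulVec continuous_id)
  have hVval : Vals α0 τ0 V := fun z => hval _
  have hVcube : ∀ z : Fin (m + r) → ℝ, (∀ k, 0 ≤ z k ∧ z k ≤ δ) → V z ≠ 0 := by
    intro z hz
    refine hcube0 z fun k => ⟨(hz k).1, (hz k).2.trans (le_of_eq ?_)⟩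
    rw [hδdef]; push_cast; ring
  have hVbox : ∀ z, V z ≠ 0 → ∀ k, |z k| ≤ 2 := by
    intro z hz
    obtain ⟨z', hz', he⟩ := hbox0 (p0 + A0.mulVec z) hz
    have : z = z' := Matrix.mulVec_injective_of_det_ne_zero hdet0 (add_left_cancel he)
    rw [this]; exact hz'
  have hchange := grid_change U0 hmeas p0 A0 hdet0
  have hchange' : ∫⁻ x, U0 x = ENNReal.ofReal |A0.det| * ∫⁻ y, Fm V y := hchange
  have hFint : ∫⁻ y, Fm V y ≠ 0 := by
    intro h
    rw [h, mul_zero] at hchange'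
    exact hint hchange'
  obtain ⟨hFm, hFLC⟩ := grid_marginal hVm hVLC
  obtain ⟨M, B, t, hM, hdetB, hFM, hFlow, hFmass⟩ := hreg (Fm V) hFLC hFm (Fm_bdd hVbox)
    ⟨ENNReal.ofReal (α0 * 4 ^ m), ENNReal.ofReal_ne_top, Fm_le hα hVval hVbox⟩ hFint
  -- bounds for M
  have hMhi : M / 2 ≤ α0 * 4 ^ m := by
    have h1 := (hFlow 0 (fun l => by simp)).trans (Fm_le hα hVval hVbox _)
    exact (ENNReal.ofReal_le_ofReal_iff (by positivity)).1 h1
  have hMlo : τ0 * α0 * δ ^ m ≤ M := by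
    have h1 := (Fm_ge hα hτ hδ hVval hVcube (w := 0) (fun l => ⟨le_rfl, hδ.le⟩)).trans (hFM 0)
    exact (ENNReal.ofReal_le_ofReal_iff hM.le).1 h1
  -- the scale
  obtain ⟨s, hs0, hsm⟩ : ∃ s : ℝ, 0 < s ∧ s ^ m = M / (8 * D) := by
    refine ⟨(M / (8 * D)) ^ ((m : ℝ)⁻¹), by positivity, ?_⟩
    exact Real.rpow_inv_natCast_pow (by positivity) (by omega)
  have hs1 : s * (n : ℝ) ^ 10 ≤ 4 := by
    have h1 : (s * (n : ℝ) ^ 10) ^ m ≤ 4 ^ m := by
      rw [mul_pow, hsm, ← pow_mul, div_mul_eq_mul_div, div_le_iff₀ (by positivity)]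
      calc M * (n : ℝ) ^ (10 * m) ≤ (2 * (α0 * 4 ^ m)) * (n : ℝ) ^ (10 * m) := by
            gcongr; linarith
        _ = 2 * 4 ^ m * ((n : ℝ) ^ (10 * m) * α0) := by ring
        _ ≤ 2 * 4 ^ m * D := by gcongr
        _ ≤ 4 ^ m * (8 * D) := by nlinarith [mul_pos (show (0:ℝ) < 4 ^ m by positivity) hD]
    exact (pow_le_pow_iff_left₀ (by positivity) (by norm_num) (by omega)).1 h1
  have hs2 : 1 ≤ s * (24 * ((m : ℝ) + r + 1) * (n : ℝ) ^ 12) := by
    have h1 : (1 : ℝ) ^ m ≤ (s * (24 * ((m : ℝ) + r + 1) * (n : ℝ) ^ 12)) ^ m := by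
      have e1 : (1 / 3 : ℝ) ^ m ≤ τ0 := by
        refine le_trans ?_ hτm
        have : (1 / 3 : ℝ) ≤ (Real.exp 1)⁻¹ := by
          rw [one_div]
          exact inv_anti₀ (Real.exp_pos 1) (by linarith [Real.exp_one_lt_d9])
        calc (1 / 3 : ℝ) ^ m ≤ ((Real.exp 1)⁻¹) ^ m := pow_le_pow_left₀ (by norm_num) this m
          _ = Real.exp (-(m : ℝ)) := by
              rw [← Real.exp_neg, ← Real.exp_nat_mul]; congr 1; ring
      have e2 : (8 : ℝ) ≤ 8 ^ m := by
        calc (8 : ℝ) = 8 ^ 1 := by norm_num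
          _ ≤ 8 ^ m := pow_le_pow_right₀ (by norm_num) hm1
      rw [one_pow, mul_pow, hsm, div_mul_eq_mul_div, le_div_iff₀ (by positivity), one_mul]
      calc 8 * D ≤ 8 ^ m * ((n : ℝ) ^ (12 * m) * α0) := by gcongr
        _ = α0 * (1 / 3) ^ m * δ ^ m * (24 * ((m : ℝ) + r + 1) * (n : ℝ) ^ 12) ^ m := by
            rw [pow_mul, hδdef]
            have : (24 * ((m : ℝ) + r + 1) * (n : ℝ) ^ 12) ^ m
                = 8 ^ m * 3 ^ m * ((m : ℝ) + r + 1) ^ m * ((n : ℝ) ^ 12) ^ m := by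
              rw [← mul_pow, ← mul_pow, ← mul_pow]; norm_num
            rw [this, one_div_pow, one_div_pow]
            field_simp
        _ ≤ α0 * τ0 * δ ^ m * (24 * ((m : ℝ) + r + 1) * (n : ℝ) ^ 12) ^ m := by gcongr
        _ ≤ M * (24 * ((m : ℝ) + r + 1) * (n : ℝ) ^ 12) ^ m := by
            gcongr; linarith
    rw [one_pow] at h1
    by_contra hcon
    push Not at hcon
    have := pow_lt_one₀ (by positivity) hcon (show m ≠ 0 by omega)
    linarith
  have hs3 : s * (n : ℝ) ^ 7 ≤ lm * δ := by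
    have h1 : 4 * (s * (n : ℝ) ^ 7) ≤ 4 * (lm * δ) := by
      calc 4 * (s * (n : ℝ) ^ 7) ≤ (lm * δ * (n : ℝ) ^ 3) * (s * (n : ℝ) ^ 7) := by
            gcongr
        _ = lm * δ * (s * (n : ℝ) ^ 10) := by ring
        _ ≤ lm * δ * 4 := by gcongr
        _ = 4 * (lm * δ) := by ring
    linarith
  have hs4 : 2 ≤ s * (n : ℝ) ^ 15 := by
    calc (2 : ℝ) ≤ 2 * (s * (24 * ((m : ℝ) + r + 1) * (n : ℝ) ^ 12)) := by linarith
      _ = s * (48 * ((m : ℝ) + r + 1) * (n : ℝ) ^ 12) := by ring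
      _ ≤ s * ((n : ℝ) ^ 3 * (n : ℝ) ^ 12) := by gcongr
      _ = s * (n : ℝ) ^ 15 := by ring
  -- the frame
  set A : Matrix (Fin (m + r)) (Fin (m + r)) ℝ := A0 * blk m s ((1 - lm) • B) with hAdef
  set tt : Fin (m + r) → ℝ := p0 + A0.mulVec (Fin.append 0 ((1 - lm) • t)) with httdef
  have hframe : ∀ (u : Fin m → ℝ) (y : Fin r → ℝ), U0 (tt + A.mulVec (Fin.append u y)) =
      V (Fin.append (s • u) ((1 - lm) • (t + B.mulVec y) + lm • (0 : Fin r → ℝ))) := by
    intro u y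
    rw [hVdef]
    simp only
    congr 1
    rw [httdef, hAdef, ← Matrix.mulVec_mulVec, blk_mulVec, add_assoc, ← Matrix.mulVec_add,
      append_add]
    congr 2
    congr 1
    · simp
    · rw [Matrix.smul_mulVec, smul_zero, add_zero, smul_add]
  have hdetA : A.det = A0.det * (s ^ m * ((1 - lm) ^ r * B.det)) := by
    rw [hAdef, Matrix.det_mul, blk_det, Matrix.det_smul, Fintype.card_fin]
  -- slices
  have hslice : ∀ y : Fin r → ℝ, (∀ l, 0 ≤ y l ∧ y l ≤ 2) → ∃ p : Fin m → ℝ,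
      ∀ x : Fin m → ℝ, (∀ k, 0 ≤ x k - p k ∧ x k - p k ≤ (n : ℝ) ^ 7) →
        U0 (tt + A.mulVec (Fin.append x y)) ≠ 0 := by
    intro y hy
    have h1 : Fm V (t + B.mulVec y) ≠ 0 := by
      intro h0
      have := hFlow y hy
      rw [h0, nonpos_iff_eq_zero, ENNReal.ofReal_eq_zero] at this
      linarith
    obtain ⟨u1, hu1⟩ := exists_of_Fm h1
    refine ⟨s⁻¹ • ((1 - lm) • u1), fun x hx => ?_⟩
    rw [hframe]
    have hx2 : s • x = (1 - lm) • u1 + lm • (fun k => s * (x k - s⁻¹ * ((1 - lm) * u1 k)) / lm) := by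
      funext k
      simp only [Pi.add_apply, Pi.smul_apply, smul_eq_mul]
      field_simp
      ring
    rw [hx2]
    refine slice_cube hVval hVLC hVcube hlm0 hlm1 (fun l => ⟨le_rfl, hδ.le⟩) hu1 ?_
    intro k
    have hk := hx k
    simp only [Pi.smul_apply, smul_eq_mul] at hk
    constructor
    · exact div_nonneg (mul_nonneg hs0.le hk.1) hlm0.le
    · rw [div_le_iff₀ hlm0]
      calc s * (x k - s⁻¹ * ((1 - lm) * u1 k)) ≤ s * (n : ℝ) ^ 7 := by
            gcongr; exact hk.2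
        _ ≤ lm * δ := hs3
        _ = δ * lm := by ring
  have hsbox : ∀ y : Fin r → ℝ, ∀ x : Fin m → ℝ, U0 (tt + A.mulVec (Fin.append x y)) ≠ 0 →
      ∀ k, |x k| ≤ (n : ℝ) ^ 15 := by
    intro y x hx k
    rw [hframe] at hx
    have h1 := hVbox _ hx (Fin.castAdd r k)
    rw [Fin.append_left, Pi.smul_apply, smul_eq_mul, abs_mul, abs_of_pos hs0] at h1
    have h2 : s * |x k| ≤ s * (n : ℝ) ^ 15 := h1.trans hs4
    exact le_of_mul_le_mul_left h2 hs0
  have hfinite : ∀ y : Fin r → ℝ, {g : Pt m | U0 (bp tt A g y) ≠ 0}.Finite := by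
    intro y
    refine (Set.finite_Icc (fun _ : Fin m => -((n ^ 15 : ℕ) : ℤ))
      (fun _ : Fin m => ((n ^ 15 : ℕ) : ℤ))).subset ?_
    intro g hg
    have h1 := hsbox y (fun k => (g k : ℝ)) hg
    have h2 : ∀ k, |g k| ≤ ((n ^ 15 : ℕ) : ℤ) := by
      intro k
      have := h1 k
      have h3 : ((|g k| : ℤ) : ℝ) ≤ (((n ^ 15 : ℕ) : ℤ) : ℝ) := by push_cast; exact this
      exact_mod_cast h3
    exact ⟨fun k => (abs_le.1 (h2 k)).1, fun k => (abs_le.1 (h2 k)).2⟩
  set G : (Fin r → ℝ) → Finset (Pt m) := fun y => (hfinite y).toFinset with hGdef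
  have hGmem : ∀ y g, g ∈ G y ↔ U0 (bp tt A g y) ≠ 0 := by
    intro y g
    rw [hGdef]
    simp
  have hsl : ∀ y : Fin r → ℝ, LC (fun u : Fin m → ℝ => U0 (tt + A.mulVec (Fin.append u y))) :=
    fun y => LC_slice (LC_affine hLC tt A) y
  -- integrals of slices
  have hslint : ∀ y : Fin r → ℝ, ∫⁻ u : Fin m → ℝ, U0 (tt + A.mulVec (Fin.append u y)) =
      ENNReal.ofReal (8 * D / M) * Fm V ((1 - lm) • (t + B.mulVec y) + lm • (0 : Fin r → ℝ)) := by
    intro y
    have h0 : Measurable (fun v : Fin m → ℝ =>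
        V (Fin.append v ((1 - lm) • (t + B.mulVec y) + lm • (0 : Fin r → ℝ)))) :=
      hVm.comp ((GridChange.measurable_append m r).comp (measurable_id.prodMk measurable_const))
    have h1 := lint_smul h0 hs0
    rw [hsm, inv_div] at h1
    rw [← show _ = ENNReal.ofReal (8 * D / M) *
      Fm V ((1 - lm) • (t + B.mulVec y) + lm • (0 : Fin r → ℝ)) from h1]
    exact lintegral_congr fun u => hframe u y
  have hsum : ∀ y : Fin r → ℝ, (∀ l, 0 ≤ y l ∧ y l ≤ 2) →
      ENNReal.ofReal D ≤ ∑ g ∈ G y, U0 (bp tt A g y) ∧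
      ∑ g ∈ G y, U0 (bp tt A g y) ≤ ENNReal.ofReal (16 * D) := by
    intro y hy
    obtain ⟨p, hp⟩ := hslice y hy
    obtain ⟨h1, h2⟩ := grid_riemann_two (f := fun u : Fin m → ℝ =>
      U0 (tt + A.mulVec (Fin.append u y))) hn2 hmn (hsl y) hτm (fun x => hval _) hp (hGmem y)
    rw [hslint] at h1 h2
    have hlow := Fm_shrunk hα hτ hδ hVval hVm hVLC hVcube hVbox hlm0 hlm1 hM hlm2
      (w0 := 0) (fun l => ⟨le_rfl, hδ.le⟩) (hFlow y hy)
    constructor
    · have h3 : ENNReal.ofReal (2 * D) ≤ 2 * ∑ g ∈ G y, U0 (bp tt A g y) := by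
        calc ENNReal.ofReal (2 * D) = ENNReal.ofReal (8 * D / M) * ENNReal.ofReal (M / 4) := by
              rw [← ENNReal.ofReal_mul (by positivity)]
              congr 1
              field_simp
              ring
          _ ≤ ENNReal.ofReal (8 * D / M) *
              Fm V ((1 - lm) • (t + B.mulVec y) + lm • (0 : Fin r → ℝ)) := by gcongr
          _ ≤ _ := h1
      rw [ENNReal.ofReal_mul (by norm_num), ENNReal.ofReal_ofNat] at h3
      exact (ENNReal.mul_le_mul_iff_right (by norm_num) (by norm_num)).1 h3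
    · calc ∑ g ∈ G y, U0 (bp tt A g y) ≤ 2 * (ENNReal.ofReal (8 * D / M) *
            Fm V ((1 - lm) • (t + B.mulVec y) + lm • (0 : Fin r → ℝ))) := h2
        _ ≤ 2 * (ENNReal.ofReal (8 * D / M) * ENNReal.ofReal M) := by
            gcongr; exact hFM _
        _ = ENNReal.ofReal (16 * D) := by
            rw [← ENNReal.ofReal_mul (by positivity), ← ENNReal.ofReal_ofNat 2,
              ← ENNReal.ofReal_mul (by norm_num)]
            congr 1
            field_simp
            ring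
  have hsumR : ∀ y : Fin r → ℝ, ∑ g ∈ G y, (U0 (bp tt A g y)).toReal =
      (∑ g ∈ G y, U0 (bp tt A g y)).toReal := fun y =>
    (ENNReal.toReal_sum fun g _ => hfin _).symm
  refine ⟨tt, A, G, ?_⟩
  refine ⟨?_, fun y _ g => hGmem y g, ?_, ?_, ?_, ?_, ?_, ?_⟩
  · rw [hdetA]
    have : (1 - lm) ≠ 0 := by linarith
    exact mul_ne_zero hdet0 (mul_ne_zero (pow_ne_zero _ hs0.ne')
      (mul_ne_zero (pow_ne_zero _ this) hdetB))
  · intro y hy
    refine hGC n hnn1 m hnm hmn {u | U0 (tt + A.mulVec (Fin.append u y)) ≠ 0} (G y)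
      (LC_convex (hsl y) fun x => hfin _) (hslice y hy) ⟨0, fun x hx k => ?_⟩ (hGmem y)
    simpa using hsbox y x hx k
  · intro y hy
    rw [hsumR, ← ENNReal.ofReal_le_iff_le_toReal]
    · exact (hsum y hy).1
    · exact ne_top_of_le_ne_top ENNReal.ofReal_ne_top (hsum y hy).2
  · intro y hy
    rw [hsumR]
    exact ENNReal.toReal_le_of_le_ofReal (by positivity) (hsum y hy).2
  · -- mass
    rw [hchange', hdetA]
    calc ENNReal.ofReal |A0.det| * ∫⁻ y, Fm V y
        ≤ ENNReal.ofReal |A0.det| * ENNReal.ofReal (C * M * |B.det|) := by gcongr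
      _ = ENNReal.ofReal (|A0.det| * (C * M * |B.det|)) := by
          rw [ENNReal.ofReal_mul (abs_nonneg _)]
      _ ≤ _ := by
          apply ENNReal.ofReal_le_ofReal
          have hlm' : (0 : ℝ) < 1 - lm := by linarith
          rw [abs_mul, abs_mul, abs_mul, abs_of_pos (pow_pos hs0 m), abs_of_pos (pow_pos hlm' r),
            hsm]
          have e1 : 16 * C * D * (|A0.det| * (M / (8 * D) * ((1 - lm) ^ r * |B.det|))) =
              |A0.det| * (C * M * |B.det|) * (2 * (1 - lm) ^ r) := by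
            field_simp
            ring
          rw [e1]
          have h3 : 0 ≤ |A0.det| * (C * M * |B.det|) := by positivity
          nlinarith
  · -- segx
    intro l
    obtain ⟨p, hp⟩ := hslice 0 (fun l => by simp)
    refine ⟨tt + A.mulVec (Fin.append p 0),
      tt + A.mulVec (Fin.append (p + Pi.single l ((n : ℝ) ^ 4)) 0), ?_, ?_, ?_⟩
    · exact hp p fun k => by simp
    · apply hp
      intro k
      simp only [Pi.add_apply, add_sub_cancel_left]
      by_cases hk : k = l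
      · subst hk
        rw [Pi.single_eq_same]
        exact ⟨by positivity, pow_le_pow_right₀ (by linarith) (by norm_num)⟩
      · rw [Pi.single_eq_of_ne hk]
        exact ⟨le_rfl, by positivity⟩
    · rw [add_sub_add_left_eq_sub, ← Matrix.mulVec_sub, append_sub]
      congr 2
      · simp
      · simp
  · -- segy
    intro l
    obtain ⟨p, hp⟩ := hslice 0 (fun l => by simp)
    obtain ⟨q, hq⟩ := hslice (Pi.single l 1) (fun k => by
      by_cases hk : k = l
      · subst hk; rw [Pi.single_eq_same]; norm_num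
      · rw [Pi.single_eq_of_ne hk]; norm_num)
    refine ⟨tt + A.mulVec (Fin.append p 0), tt + A.mulVec (Fin.append q (Pi.single l 1)), q - p,
      ?_, ?_, ?_⟩
    · exact hp p fun k => by simp
    · exact hq q fun k => by simp
    · rw [add_sub_add_left_eq_sub, ← Matrix.mulVec_sub, append_sub, sub_zero]

end Crest.Agent.R225
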