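import Crest.Agent.R225.A234

/-!
# Row 225 (S0347): integer points of convex sets, `rel3` and `relL` of `GridHyp`
-/

set_option autoImplicit false

open MeasureTheory Set
open scoped ENNReal

namespace Crest.Agent.R225

namespace GCA

variable {m : ℕ}

/-- the real vector of an integer point -/
def rl (g : Pt m) : Fin m → ℝ := fun k => (g k : ℝ)

/-- unit cell of an integer point -/
def cell (g : Pt m) : Set (Fin m → ℝ) := Set.pi univ fun k => Ico (g k : ℝ) (g k + 1)

theorem measurableSet_cell (g : Pt m) : MeasurableSet (cell g) :=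
  MeasurableSet.univ_pi fun _ => measurableSet_Ico

theorem volume_cell (g : Pt m) : volume (cell g) = 1 := by
  unfold cell
  rw [volume_pi_pi]
  simp

theorem mem_cell_iff {g : Pt m} {w : Fin m → ℝ} : w ∈ cell g ↔ (fun k => ⌊w k⌋) = g := by
  simp only [cell, mem_pi, mem_univ, true_implies, mem_Ico, funext_iff, Int.floor_eq_iff]

theorem dist_cell {g : Pt m} {w : Fin m → ℝ} (h : w ∈ cell g) : dist w (rl g) ≤ 1 := by
  rw [dist_pi_le_iff zero_le_one]
  intro k
  have := h k (mem_univ k)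
  rw [Real.dist_eq, abs_le, rl]
  constructor <;> linarith [this.1, this.2]

theorem pairwise_disjoint_cell : Pairwise (Function.onFun Disjoint (cell (m := m))) := by
  intro g g' hgg
  rw [Function.onFun, Set.disjoint_left]
  intro w hw hw'
  rw [mem_cell_iff] at hw hw'
  exact hgg (hw.symm.trans hw')

theorem tsum_le_lintegral (a : Pt m → ℝ≥0∞) (f : (Fin m → ℝ) → ℝ≥0∞)
    (h : ∀ u, ∀ w ∈ cell u, a u ≤ f w) : ∑' u, a u ≤ ∫⁻ w, f w := by
  calc ∑' u, a u ≤ ∑' u, ∫⁻ w in cell u, f w := by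
        refine ENNReal.tsum_le_tsum fun u => ?_
        calc a u = ∫⁻ w in cell u, a u := by simp [volume_cell]
          _ ≤ ∫⁻ w in cell u, f w := setLIntegral_mono' (measurableSet_cell u) (h u)
    _ = ∫⁻ w in ⋃ u, cell u, f w :=
        (lintegral_iUnion measurableSet_cell pairwise_disjoint_cell f).symm
    _ ≤ ∫⁻ w, f w := setLIntegral_le_lintegral _ _

/-- number of `z ∈ G^ι` with sum `y` -/
noncomputable def cnt (ι : Type) [Fintype ι] [DecidableEq ι] (G : Finset (Pt m)) (y : Pt m) : ℝ≥0∞ :=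
  ∑ z ∈ Fintype.piFinset (fun _ : ι => G), if ∑ i, z i = y then 1 else 0

theorem cnt_congr {ι κ : Type} [Fintype ι] [Fintype κ] [DecidableEq ι] [DecidableEq κ] (e : ι ≃ κ) (G : Finset (Pt m))
    (y : Pt m) : cnt ι G y = cnt κ G y := by
  unfold cnt
  refine Finset.sum_equiv (Equiv.arrowCongr e (Equiv.refl _)) ?_ ?_
  · intro z
    simp only [Fintype.mem_piFinset, Equiv.arrowCongr_apply, Equiv.coe_refl, Function.comp]
    constructor
    · intro h a; exact h _
    · intro h a; simpa using h (e a)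
  · intro z _
    have : ∑ i, (Equiv.arrowCongr e (Equiv.refl (Pt m))) z i = ∑ i, z i := by
      simp only [Equiv.arrowCongr_apply, Equiv.coe_refl, Function.comp]
      exact Equiv.sum_comp e.symm z
    rw [this]

theorem cnt_sum {ι κ : Type} [Fintype ι] [Fintype κ] [DecidableEq ι] [DecidableEq κ] (G : Finset (Pt m)) (y : Pt m) :
    cnt (ι ⊕ κ) G y = ∑' x, cnt ι G x * cnt κ G (y - x) := by
  have h1 : cnt (ι ⊕ κ) G y = ∑ z ∈ (Fintype.piFinset (fun _ : ι => G)) ×ˢ
      (Fintype.piFinset (fun _ : κ => G)), if ∑ i, z.1 i + ∑ i, z.2 i = y then 1 else 0 := by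
    unfold cnt
    refine Finset.sum_equiv (Equiv.sumArrowEquivProdArrow ι κ (Pt m)) ?_ ?_
    · intro z
      simp [Fintype.mem_piFinset]
    · intro z _
      rw [Fintype.sum_sum_type]
      rfl
  have h2 : ∀ x, cnt ι G x * cnt κ G (y - x) =
      ∑ z ∈ Fintype.piFinset (fun _ : ι => G), if ∑ i, z i = x then cnt κ G (y - x) else 0 := by
    intro x
    unfold cnt
    rw [Finset.sum_mul]
    refine Finset.sum_congr rfl fun z _ => ?_
    split_ifs <;> simp
  simp_rw [h2]
  rw [h1, Summable.tsum_finsetSum (fun _ _ => ENNReal.summable), Finset.sum_product]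
  refine Finset.sum_congr rfl fun z _ => ?_
  rw [tsum_ite_eq' (∑ i, z i) (fun x => cnt κ G (y - x))]
  unfold cnt
  refine Finset.sum_congr rfl fun z' _ => ?_
  have : (∑ i, z i + ∑ i, z' i = y) ↔ (∑ i, z' i = y - ∑ i, z i) := by
    rw [eq_sub_iff_add_eq, add_comm]
  simp only [this]

theorem FF_mono {S T : Set (Fin m → ℝ)} (h : S ⊆ T) (j : ℕ) (x : Fin m → ℝ) :
    FF S j x ≤ FF T j x := by
  induction j generalizing x with
  | zero => exact indicator_le_indicator_of_subset h (fun _ => zero_le) x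
  | succ j ih => exact lintegral_mono fun w => mul_le_mul' (ih w) (ih (x - w))

/-- comparison of discrete and continuous convolution powers -/
theorem cnt_le {S : Set (Fin m → ℝ)} {G : Finset (Pt m)} (hG : ∀ g ∈ G, rl g ∈ S) (j : ℕ) :
    ∀ (ρ : ℝ) (y : Pt m) (x : Fin m → ℝ), dist x (rl y) ≤ ρ →
      cnt (Fin (2 ^ j)) G y ≤ FF (Metric.cthickening (ρ + j) S) j x := by
  induction j with
  | zero =>
    intro ρ y x hx
    have h1 : cnt (Fin (2 ^ 0)) G y = if y ∈ G then 1 else 0 := by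
      have e : Fin (2 ^ 0) ≃ Unit := (finCongr (pow_zero 2)).trans finOneEquiv
      rw [cnt_congr e]
      unfold cnt
      by_cases hy : y ∈ G
      · rw [if_pos hy, Finset.sum_eq_single (fun _ => y)]
        · simp
        · intro z hz hzy
          have : ¬ ∑ i, z i = y := by
            intro h
            apply hzy
            funext i
            simpa using h
          rw [if_neg this]
        · intro h
          exact absurd (by simpa [Fintype.mem_piFinset] using hy) h
      · rw [if_neg hy]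
        refine Finset.sum_eq_zero fun z hz => ?_
        have : ¬ ∑ i, z i = y := by
          intro h
          apply hy
          rw [Fintype.mem_piFinset] at hz
          rw [← h]
          simpa using hz ()
        rw [if_neg this]
    rw [h1]
    split_ifs with hy
    · have : x ∈ Metric.cthickening (ρ + (0 : ℕ)) S := by
        refine Metric.mem_cthickening_of_dist_le x (rl y) _ S (hG y hy) ?_
        simpa using hx
      simp only [FF]
      rw [indicator_of_mem this]
      exact le_rfl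
    · exact zero_le
  | succ j ih =>
    intro ρ y x hx
    have e : Fin (2 ^ (j + 1)) ≃ Fin (2 ^ j) ⊕ Fin (2 ^ j) :=
      (finCongr (by rw [pow_succ]; ring)).trans finSumFinEquiv.symm
    rw [cnt_congr e, cnt_sum]
    refine tsum_le_lintegral _ _ fun u w hw => ?_
    have hρ : 0 ≤ ρ := dist_nonneg.trans hx
    refine mul_le_mul' ?_ ?_
    · refine (ih 1 u w (dist_cell hw)).trans (FF_mono (Metric.cthickening_mono ?_ S) j w)
      push_cast; linarith
    · have h1 : dist (x - w) (rl (y - u)) ≤ ρ + 1 := by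
        have h2 : rl (y - u) = rl y - rl u := by
          funext k; simp [rl]
        rw [h2]
        calc dist (x - w) (rl y - rl u) ≤ dist x (rl y) + dist w (rl u) := dist_sub_sub_le _ _ _ _
          _ ≤ ρ + 1 := add_le_add hx (dist_cell hw)
      refine (ih (ρ + 1) (y - u) (x - w) h1).trans (FF_mono (Metric.cthickening_mono ?_ S) j _)
      push_cast; linarith

theorem En_eq (G : Finset (Pt m)) (k : ℕ) : (En k G : ℝ≥0∞) = ∑' y, cnt (Fin k) G y ^ 2 := by
  have h1 : (En k G : ℝ≥0∞) = ∑ z ∈ (Fintype.piFinset (fun _ : Fin k => G)) ×ˢ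
      (Fintype.piFinset (fun _ : Fin k => G)), if ∑ i, z.1 i = ∑ i, z.2 i then 1 else 0 := by
    unfold En
    rw [Finset.card_filter, Nat.cast_sum]
    refine Finset.sum_congr rfl fun z _ => ?_
    split_ifs <;> simp
  have h2 : ∀ x, cnt (Fin k) G x ^ 2 =
      ∑ z ∈ Fintype.piFinset (fun _ : Fin k => G), if ∑ i, z i = x then cnt (Fin k) G x else 0 := by
    intro x
    rw [sq]
    conv_lhs => enter [1]; unfold cnt
    rw [Finset.sum_mul]
    refine Finset.sum_congr rfl fun z _ => ?_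
    split_ifs <;> simp
  simp_rw [h2]
  rw [h1, Summable.tsum_finsetSum (fun _ _ => ENNReal.summable), Finset.sum_product]
  refine Finset.sum_congr rfl fun z _ => ?_
  rw [tsum_ite_eq' (∑ i, z i) (fun x => cnt (Fin k) G x)]
  unfold cnt
  refine Finset.sum_congr rfl fun z' _ => ?_
  simp only [eq_comm]

theorem En_le_lintegral {S : Set (Fin m → ℝ)} {G : Finset (Pt m)} (hG : ∀ g ∈ G, rl g ∈ S)
    (j : ℕ) : (En (2 ^ j) G : ℝ≥0∞) ≤
      ∫⁻ w, FF (Metric.cthickening (1 + j) S) j w ^ 2 := by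
  rw [En_eq]
  refine tsum_le_lintegral _ _ fun u w hw => ?_
  gcongr
  exact cnt_le hG j 1 u w (dist_cell hw)

theorem volume_cthickening_le_closure {S : Set (Fin m → ℝ)} (hS : Convex ℝ S)
    {c : Fin m → ℝ} {r : ℝ} (hr : 0 < r)
    (hc : Metric.closedBall c r ⊆ S) {t : ℝ} (ht : 0 ≤ t) :
    volume (Metric.cthickening t S) ≤ ENNReal.ofReal ((1 + t / r) ^ m) * volume S := by
  have h0 : volume (closure S) = volume S :=
    measure_closure_of_null_frontier (hS.addHaar_frontier volume)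
  have hsub : Metric.cthickening t S ⊆ AffineMap.homothety c (1 + t / r) '' closure S := by
    rw [Metric.cthickening_eq_biUnion_closedBall S ht]
    intro x hx
    simp only [mem_iUnion] at hx
    obtain ⟨s, hs, hxs⟩ := hx
    obtain ⟨u, rfl⟩ : ∃ u, x = s + u := ⟨x - s, by abel⟩
    have hu : ‖u‖ ≤ t := by
      rw [Metric.mem_closedBall, dist_eq_norm, add_sub_cancel_left] at hxs
      exact hxs
    rcases ht.eq_or_lt with rfl | ht'
    · have hu0 : u = 0 := by simpa using hu
      refine ⟨s, hs, ?_⟩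
      simp [hu0]
    have hpos : 0 < 1 + t / r := by positivity
    set v : Fin m → ℝ := c + (r / t) • u with hv
    have hvS : v ∈ closure S := by
      apply subset_closure
      apply hc
      rw [Metric.mem_closedBall, hv, dist_eq_norm, add_sub_cancel_left, norm_smul,
        Real.norm_of_nonneg (by positivity)]
      calc r / t * ‖u‖ ≤ r / t * t := by gcongr
        _ = r := by field_simp
    refine ⟨(1 / (1 + t / r)) • s + ((t / r) / (1 + t / r)) • v, ?_, ?_⟩
    · refine hS.closure hs hvS (by positivity) (by positivity) ?_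
      field_simp
    · rw [AffineMap.homothety_apply]
      funext k
      simp only [hv, vsub_eq_sub, vadd_eq_add, Pi.add_apply, Pi.smul_apply, Pi.sub_apply,
        smul_eq_mul]
      field_simp
      ring
  calc volume (Metric.cthickening t S)
      ≤ volume (AffineMap.homothety c (1 + t / r) '' closure S) := measure_mono hsub
    _ = ENNReal.ofReal ((1 + t / r) ^ m) * volume S := by
        rw [Measure.addHaar_image_homothety, h0]
        simp only [Module.finrank_fin_fun]
        rw [abs_of_nonneg (by positivity)]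

theorem volume_le_card {S : Set (Fin m → ℝ)} (hS : Convex ℝ S) {c : Fin m → ℝ} {r : ℝ}
    (hr : 1 < r) (hc : Metric.closedBall c r ⊆ S) {G : Finset (Pt m)}
    (hG : ∀ g, rl g ∈ S → g ∈ G) :
    ENNReal.ofReal ((1 - 1 / r) ^ m) * volume S ≤ G.card := by
  have hr0 : 0 < r := by linarith
  have hpos : 0 < 1 - 1 / r := by
    rw [sub_pos, div_lt_one hr0]; exact hr
  have hsub : AffineMap.homothety c (1 - 1 / r) '' S ⊆ ⋃ g ∈ G, cell g := by
    rintro _ ⟨s, hs, rfl⟩
    set x := AffineMap.homothety c (1 - 1 / r) s with hx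
    set g : Pt m := fun k => ⌊x k⌋ with hg
    have hxg : x ∈ cell g := mem_cell_iff.mpr rfl
    simp only [mem_iUnion]
    refine ⟨g, hG g ?_, hxg⟩
    have hu : ‖x - rl g‖ ≤ 1 := by
      rw [← dist_eq_norm]; exact dist_cell hxg
    have hv : c - r • (x - rl g) ∈ S := by
      apply hc
      rw [Metric.mem_closedBall, dist_eq_norm, sub_sub_cancel_left, norm_neg, norm_smul,
        Real.norm_of_nonneg hr0.le]
      calc r * ‖x - rl g‖ ≤ r * 1 := by gcongr
        _ = r := mul_one r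
    have h1 : rl g = (1 - 1 / r) • s + (1 / r) • (c - r • (x - rl g)) := by
      rw [hx, AffineMap.homothety_apply]
      funext k
      simp only [vsub_eq_sub, vadd_eq_add, Pi.add_apply, Pi.smul_apply, Pi.sub_apply,
        smul_eq_mul]
      field_simp
      ring
    rw [h1]
    exact hS hs hv hpos.le (by positivity) (by ring)
  calc ENNReal.ofReal ((1 - 1 / r) ^ m) * volume S
      = volume (AffineMap.homothety c (1 - 1 / r) '' S) := by
        rw [Measure.addHaar_image_homothety]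
        simp only [Module.finrank_fin_fun]
        rw [abs_of_nonneg (by positivity)]
    _ ≤ volume (⋃ g ∈ G, cell g) := measure_mono hsub
    _ ≤ ∑ g ∈ G, volume (cell g) := measure_biUnion_finset_le _ _
    _ = G.card := by simp [volume_cell]

theorem volume_cthickening_le {S : Set (Fin m → ℝ)} (hS : Convex ℝ S) {c : Fin m → ℝ} {r : ℝ} (hr : 2 ≤ r)
    (hc : Metric.closedBall c r ⊆ S) {t : ℝ} (ht : 0 ≤ t) {G : Finset (Pt m)}
    (hG : ∀ g, rl g ∈ S → g ∈ G) :
    volume (Metric.cthickening t S) ≤ ENNReal.ofReal (Real.exp ((t + 2) * m / r)) * G.card := by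
  have hr0 : 0 < r := by linarith
  have h1 := volume_cthickening_le_closure hS hr0 hc ht
  have h2 := volume_le_card hS (by linarith) hc hG
  have hpos : 0 < 1 - 1 / r := by
    rw [sub_pos, div_lt_one hr0]; linarith
  have h3 : volume S ≤ ENNReal.ofReal (((1 - 1 / r) ^ m)⁻¹) * G.card := by
    rw [ENNReal.ofReal_inv_of_pos (by positivity)]
    rw [← ENNReal.div_eq_inv_mul]
    rw [ENNReal.le_div_iff_mul_le]
    · rw [mul_comm]; exact h2
    · left; rw [Ne, ENNReal.ofReal_eq_zero, not_le]; positivity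
    · left; exact ENNReal.ofReal_ne_top
  refine h1.trans ?_
  calc ENNReal.ofReal ((1 + t / r) ^ m) * volume S
      ≤ ENNReal.ofReal ((1 + t / r) ^ m) * (ENNReal.ofReal (((1 - 1 / r) ^ m)⁻¹) * G.card) := by
        gcongr
    _ = ENNReal.ofReal ((1 + t / r) ^ m * ((1 - 1 / r) ^ m)⁻¹) * G.card := by
        rw [← mul_assoc, ENNReal.ofReal_mul (by positivity)]
    _ ≤ _ := by
        gcongr
        have e1 : (1 + t / r) ^ m ≤ Real.exp (t / r) ^ m := by
          gcongr
          linarith [Real.add_one_le_exp (t / r)]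
        have e2 : (1 - 1 / r)⁻¹ ≤ Real.exp (2 / r) := by
          have e3 : 1 / r ≤ 1 / 2 := by
            rw [div_le_div_iff₀ hr0 (by norm_num)]; linarith
          have e4 : (1 - 1 / r)⁻¹ ≤ 1 + 2 / r := by
            rw [inv_le_iff_one_le_mul₀ hpos]
            have : (1 + 2 / r) * (1 - 1 / r) = 1 + (1 / r) * (1 - 2 * (1 / r)) := by ring
            rw [this]
            have : 0 ≤ (1 / r) * (1 - 2 * (1 / r)) := mul_nonneg (by positivity) (by linarith)
            linarith
          linarith [Real.add_one_le_exp (2 / r)]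
        have e5 : ((1 - 1 / r) ^ m)⁻¹ ≤ Real.exp (2 / r) ^ m := by
          rw [← inv_pow]
          exact pow_le_pow_left₀ (by positivity) e2 m
        calc (1 + t / r) ^ m * ((1 - 1 / r) ^ m)⁻¹ ≤ Real.exp (t / r) ^ m * Real.exp (2 / r) ^ m := by
              gcongr
          _ = Real.exp ((t + 2) * m / r) := by
              rw [← mul_pow, ← Real.exp_add, ← Real.exp_nat_mul]
              congr 1
              ring

/-- the cube hypothesis of `S_GridConvex` gives a ball of radius `n^7/2` -/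
theorem ball_of_cube {S : Set (Fin m → ℝ)} {L : ℝ} {p : Fin m → ℝ}
    (hp : ∀ x : Fin m → ℝ, (∀ k, 0 ≤ x k - p k ∧ x k - p k ≤ L) → x ∈ S) (hL : 0 ≤ L) :
    Metric.closedBall (fun k => p k + L / 2) (L / 2) ⊆ S := by
  intro x hx
  rw [Metric.mem_closedBall, dist_pi_le_iff (by positivity)] at hx
  refine hp x fun k => ?_
  have := hx k
  rw [Real.dist_eq, abs_le] at this
  constructor <;> linarith [this.1, this.2]

theorem En_real {κ : ℝ} (hκ : 0 < κ) (hA : ∀ (m j : ℕ) (S : Set (Fin m → ℝ)), Convex ℝ S →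
      MeasurableSet S → volume S ≠ ∞ →
      ∫⁻ y, (FF S j y) ^ 2 ≤
        ENNReal.ofReal κ ^ (m * ((j + 1) / 2)) * volume S ^ (2 ^ (j + 1) - 1))
    {S : Set (Fin m → ℝ)} (hS : Convex ℝ S) {c : Fin m → ℝ} {r : ℝ} (hr : 2 ≤ r)
    (hc : Metric.closedBall c r ⊆ S) {G : Finset (Pt m)} (hG : ∀ g, g ∈ G ↔ rl g ∈ S)
    (j : ℕ) (hj : ((j + 3 : ℕ) : ℝ) * m * 2 ^ (j + 1) ≤ r) :
    (En (2 ^ j) G : ℝ) ≤ 3 * κ ^ (m * ((j + 1) / 2)) * (G.card : ℝ) ^ (2 ^ (j + 1) - 1) := by
  have hr0 : 0 < r := by linarith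
  set T := Metric.cthickening (1 + (j : ℝ)) S with hT
  have hTv : volume T ≤ ENNReal.ofReal (Real.exp ((1 + j + 2) * m / r)) * G.card :=
    volume_cthickening_le hS hr hc (by positivity) (fun g => (hG g).mpr)
  have hTf : volume T ≠ ∞ := ne_top_of_le_ne_top
    (ENNReal.mul_ne_top ENNReal.ofReal_ne_top (ENNReal.natCast_ne_top _)) hTv
  have h1 := En_le_lintegral (fun g hg => (hG g).mp hg) (S := S) j
  have h2 := hA m j T (hS.cthickening _) Metric.isClosed_cthickening.measurableSet hTf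
  have h3 : (En (2 ^ j) G : ℝ≥0∞) ≤ ENNReal.ofReal (3 * κ ^ (m * ((j + 1) / 2)) *
      (G.card : ℝ) ^ (2 ^ (j + 1) - 1)) := by
    refine h1.trans (h2.trans ?_)
    calc ENNReal.ofReal κ ^ (m * ((j + 1) / 2)) * volume T ^ (2 ^ (j + 1) - 1)
        ≤ ENNReal.ofReal κ ^ (m * ((j + 1) / 2)) *
          (ENNReal.ofReal (Real.exp ((1 + j + 2) * m / r)) * G.card) ^ (2 ^ (j + 1) - 1) := by
          gcongr
      _ = ENNReal.ofReal (κ ^ (m * ((j + 1) / 2)) *
          (Real.exp ((1 + j + 2) * m / r) * G.card) ^ (2 ^ (j + 1) - 1)) := by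
          rw [ENNReal.ofReal_mul (by positivity), ENNReal.ofReal_pow hκ.le,
            ENNReal.ofReal_pow (by positivity), ENNReal.ofReal_mul (by positivity),
            ENNReal.ofReal_natCast]
      _ ≤ _ := by
          refine ENNReal.ofReal_le_ofReal ?_
          rw [mul_pow, ← mul_assoc, mul_comm (3 : ℝ), mul_assoc, mul_assoc]
          refine mul_le_mul_of_nonneg_left ?_ (by positivity)
          refine mul_le_mul_of_nonneg_right ?_ (by positivity)
          rw [← Real.exp_nat_mul]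
          have e1 : ((2 ^ (j + 1) - 1 : ℕ) : ℝ) * ((1 + j + 2) * m / r) ≤ 1 := by
            have e2 : ((2 ^ (j + 1) - 1 : ℕ) : ℝ) ≤ 2 ^ (j + 1) := by
              have : (2 ^ (j + 1) - 1 : ℕ) ≤ 2 ^ (j + 1) := Nat.sub_le _ _
              exact_mod_cast this
            calc ((2 ^ (j + 1) - 1 : ℕ) : ℝ) * ((1 + j + 2) * m / r)
                ≤ 2 ^ (j + 1) * ((1 + j + 2) * m / r) := by gcongr
              _ = (((j + 3 : ℕ) : ℝ) * m * 2 ^ (j + 1)) / r := by push_cast; ring
              _ ≤ 1 := by rw [div_le_one hr0]; exact hj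
          calc Real.exp (((2 ^ (j + 1) - 1 : ℕ) : ℝ) * ((1 + j + 2) * m / r))
              ≤ Real.exp 1 := Real.exp_le_exp.mpr e1
            _ ≤ 3 := by
                have := Real.exp_one_lt_d9
                linarith
  have h4 := ENNReal.toReal_mono ENNReal.ofReal_ne_top h3
  rw [ENNReal.toReal_natCast, ENNReal.toReal_ofReal (by positivity)] at h4
  exact h4

end GCA

set_option maxHeartbeats 2000000 in
open GCA in
/-- `rel3` and `relL` of `GridHyp` for the integer points of a convex set. -/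
theorem gc_rel (hE1 : S_E1) (hE2 : S_E2) : ∃ c1 : ℝ, 0 < c1 ∧ c1 ≤ 1 ∧ ∃ n0 : ℕ, ∀ n ≥ n0,
    ∀ m : ℕ, n ≤ 2 * m → m ≤ n → ∀ (S : Set (Fin m → ℝ)) (G : Finset (Pt m)), Convex ℝ S →
    (∃ p : Fin m → ℝ, ∀ x : Fin m → ℝ,
      (∀ k, 0 ≤ x k - p k ∧ x k - p k ≤ (n : ℝ) ^ 7) → x ∈ S) →
    (∀ g, g ∈ G ↔ (fun k => (g k : ℝ)) ∈ S) →
    (∀ (s : ℕ) (h : Fin s → ℤ) (y : Pt m), 3 ≤ s → (∀ i, h i ≠ 0) →
      (relCount G h y : ℝ) ≤ (G.card : ℝ) ^ (s - 1) * Real.exp (-(c1 * n))) ∧
    (∀ (s : ℕ) (h : Fin s → ℤ) (y : Pt m), (n : ℝ) ^ (2 / 100 : ℝ) ≤ s → (∀ i, h i ≠ 0) →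
      (relCount G h y : ℝ) ≤ (G.card : ℝ) ^ (s - 1) * Real.exp (-(c1 * NN n))) := by
  obtain ⟨κ, hκ0, hκ1, hA⟩ := prf_A3
  set lk := -Real.log κ with hlk
  have hlk0 : 0 < lk := by
    have := Real.log_neg hκ0 hκ1
    linarith
  have hκe : κ = Real.exp (-lk) := by rw [hlk, neg_neg, Real.exp_log hκ0]
  refine ⟨min 1 (lk / 1000), lt_min one_pos (by positivity), min_le_left _ _,
    max 2 (max ⌈10 / lk⌉₊ ⌈Real.exp 100⌉₊), ?_⟩
  intro n hn m hm1 hm2 S G hS hcube hG
  obtain ⟨p, hp⟩ := hcube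
  have hn2 : 2 ≤ n := le_trans (le_max_left _ _) hn
  have hn2r : (2 : ℝ) ≤ n := by exact_mod_cast hn2
  have hnpos : (0 : ℝ) < n := by linarith
  have hlkn : 10 ≤ lk * n := by
    have h1 : ⌈10 / lk⌉₊ ≤ n := le_trans (le_trans (le_max_left _ _) (le_max_right _ _)) hn
    have h2 : 10 / lk ≤ n := Nat.ceil_le.mp h1
    rw [div_le_iff₀ hlk0] at h2
    linarith
  have hlog : 100 ≤ Real.log n := by
    have h1 : ⌈Real.exp 100⌉₊ ≤ n := le_trans (le_trans (le_max_right _ _) (le_max_right _ _)) hn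
    have h2 : Real.exp 100 ≤ n := Nat.ceil_le.mp h1
    rwa [Real.le_log_iff_exp_le hnpos]
  have hmr : (n : ℝ) / 2 ≤ m := by
    have : (n : ℝ) ≤ 2 * m := by exact_mod_cast hm1
    linarith
  have hmr2 : (m : ℝ) ≤ n := by exact_mod_cast hm2
  set r := (n : ℝ) ^ 7 / 2 with hr
  have hr2 : 2 ≤ r := by
    have : (2 : ℝ) ^ 7 ≤ (n : ℝ) ^ 7 := by gcongr
    rw [hr]; linarith
  have hball := ball_of_cube hp (by positivity)
  have hEn : ∀ j : ℕ, ((2 ^ (j + 1) : ℕ) : ℝ) ≤ n →
      (En (2 ^ j) G : ℝ) ≤ 3 * κ ^ (m * ((j + 1) / 2)) * (G.card : ℝ) ^ (2 ^ (j + 1) - 1) := by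
    intro j hj
    refine En_real hκ0 hA hS hr2 hball hG j ?_
    have h1 : ((j + 3 : ℕ) : ℝ) ≤ 2 * n := by
      have h2 : j + 1 < 2 ^ (j + 1) := Nat.lt_two_pow_self
      have h3 : ((j + 1 : ℕ) : ℝ) ≤ n := le_trans (by exact_mod_cast h2.le) hj
      push_cast at h3 ⊢
      linarith
    have h4 : (2 : ℝ) ^ (j + 1) ≤ n := by exact_mod_cast hj
    calc ((j + 3 : ℕ) : ℝ) * m * 2 ^ (j + 1) ≤ 2 * n * n * n := by gcongr
      _ = 2 * n ^ 3 := by ring
      _ ≤ r := by
          rw [hr]
          have : (n : ℝ) ^ 7 = n ^ 3 * n ^ 4 := by ring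
          rw [this]
          have h5 : (2 : ℝ) ^ 4 ≤ (n : ℝ) ^ 4 := by gcongr
          have h6 : (0 : ℝ) < (n : ℝ) ^ 3 := by positivity
          nlinarith
  have hc1 : min 1 (lk / 1000) ≤ lk / 1000 := min_le_right _ _
  set c1 := min 1 (lk / 1000) with hc1def
  have hlog3 : Real.log 3 ≤ 11 / 10 := by
    rw [Real.log_le_iff_le_exp (by norm_num)]
    have h1 : (3 : ℝ) ≤ 2.7182818283 * 1.1051 := by norm_num
    have h2 : (1.1051 : ℝ) ≤ Real.exp (1 / 10) := by
      have := Real.quadratic_le_exp_of_nonneg (x := 1 / 10) (by norm_num)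
      have h4 := Real.sum_le_exp_of_nonneg (x := 1 / 10) (by norm_num) 4
      simp only [Finset.sum_range_succ, Finset.sum_range_zero] at h4
      norm_num [Nat.factorial] at h4
      linarith
    have h3 := Real.exp_one_gt_d9
    have h5 : Real.exp (11 / 10) = Real.exp 1 * Real.exp (1 / 10) := by
      rw [← Real.exp_add]; norm_num
    rw [h5]
    calc (3 : ℝ) ≤ 2.7182818283 * 1.1051 := h1
      _ ≤ Real.exp 1 * Real.exp (1 / 10) := by gcongr
  have h3κ : ∀ e : ℕ, 3 * κ ^ e = Real.exp (Real.log 3 - lk * e) := by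
    intro e
    rw [Real.exp_sub, Real.exp_log (by norm_num), hκe, ← Real.exp_nat_mul, div_eq_mul_inv,
      ← Real.exp_neg]
    congr 2
    ring
  have hκm : 3 * κ ^ m ≤ Real.exp (-(c1 * n)) ^ 2 := by
    rw [h3κ, ← Real.exp_nat_mul]
    refine Real.exp_le_exp.mpr ?_
    have h1 : lk * (n / 2) ≤ lk * m := by gcongr
    have h2 : c1 * n ≤ lk / 1000 * n := by gcongr
    push_cast
    nlinarith
  have hexp1 : Real.exp (-(c1 * n)) ≤ 1 := by
    refine Real.exp_le_one_iff.mpr ?_
    have : 0 ≤ c1 * n := by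
      have : 0 ≤ c1 := le_min zero_le_one (by positivity)
      positivity
    linarith
  have hE2' : (En 2 G : ℝ) ≤ 3 * κ ^ m * (G.card : ℝ) ^ 3 := by
    have := hEn 1 (by
      have : ((2 ^ (1 + 1) : ℕ) : ℝ) = 4 := by norm_num
      rw [this]
      by_contra h
      rw [not_le] at h
      have h1 : Real.log n < Real.log 4 := Real.log_lt_log hnpos h
      have h2 : Real.log 4 ≤ 4 := (Real.log_le_sub_one_of_pos (by norm_num)).trans (by norm_num)
      linarith)
    simpa using this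
  obtain ⟨N, hN⟩ : ∃ N : ℝ, (G.card : ℝ) = N := ⟨_, rfl⟩
  have hN0 : 0 ≤ N := by rw [← hN]; exact Nat.cast_nonneg _
  simp only [hN] at hEn hE2' ⊢
  refine ⟨?_, ?_⟩
  · intro s h y hs hh
    rcases hs.eq_or_lt with h3 | h4
    · subst h3
      have h1 := hE2 m 3 2 G h y hh (by norm_num) (by norm_num) le_rfl
      rw [hN] at h1
      norm_num at h1
      calc (relCount G h y : ℝ) ≤ N ^ (1 / 2 : ℝ) * (En 2 G : ℝ) ^ (1 / 2 : ℝ) := h1
        _ ≤ N ^ (1 / 2 : ℝ) *
            (Real.exp (-(c1 * n)) ^ 2 * N ^ 3) ^ (1 / 2 : ℝ) := by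
            gcongr
            exact hE2'.trans (by gcongr)
        _ = (N ^ 2 * Real.exp (-(c1 * n))) := by
            rw [← Real.mul_rpow hN0 (by positivity)]
            have : N * (Real.exp (-(c1 * n)) ^ 2 * N ^ 3) =
              (N ^ 2 * Real.exp (-(c1 * n))) ^ 2 := by ring
            rw [this, ← Real.sqrt_eq_rpow, Real.sqrt_sq (by positivity)]
    · have h1 := hE1 m s 2 G h y hh (by omega)
      have h2 : (relCount G h y : ℝ) ≤ N ^ (s - 2 * 2) * En 2 G := by
        rw [← hN]; exact_mod_cast h1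
      calc (relCount G h y : ℝ) ≤ N ^ (s - 2 * 2) * En 2 G := h2
        _ ≤ N ^ (s - 2 * 2) * (Real.exp (-(c1 * n)) ^ 2 * N ^ 3) := by
            gcongr
            exact hE2'.trans (by gcongr)
        _ = N ^ (s - 1) * Real.exp (-(c1 * n)) ^ 2 := by
            have : s - 1 = (s - 2 * 2) + 3 := by omega
            rw [this, pow_add]; ring
        _ ≤ N ^ (s - 1) * Real.exp (-(c1 * n)) := by
            gcongr
            rw [sq]
            exact mul_le_of_le_one_left (Real.exp_pos _).le hexp1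
  · intro s h y hs hh
    set l := ⌊(n : ℝ) ^ (2 / 100 : ℝ)⌋₊ with hl
    have hl2 : 2 ≤ l := by
      rw [hl]
      refine Nat.le_floor ?_
      push_cast
      have : (2 : ℝ) ≤ Real.exp (Real.log n * (2 / 100)) := by
        have h1 := Real.add_one_le_exp (Real.log n * (2 / 100))
        linarith
      rwa [← Real.rpow_def_of_pos hnpos] at this
    set j := Nat.log 2 l - 1 with hj
    have hlog1 : 1 ≤ Nat.log 2 l := Nat.le_log_of_pow_le (by norm_num) (by simpa using hl2)
    have hj1 : j + 1 = Nat.log 2 l := by omega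
    have hpow1 : 2 ^ (j + 1) ≤ l := by rw [hj1]; exact Nat.pow_log_le_self 2 (by omega)
    have hpow2 : l < 2 ^ (j + 2) := by
      have := Nat.lt_pow_succ_log_self (b := 2) (by norm_num) l
      rwa [← hj1] at this
    have hlr : (l : ℝ) ≤ (n : ℝ) ^ (2 / 100 : ℝ) := Nat.floor_le (by positivity)
    have hln : (n : ℝ) ^ (2 / 100 : ℝ) ≤ n := by
      calc (n : ℝ) ^ (2 / 100 : ℝ) ≤ (n : ℝ) ^ (1 : ℝ) :=
            Real.rpow_le_rpow_of_exponent_le (by linarith) (by norm_num)
        _ = n := Real.rpow_one _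
    have hjr : ((2 ^ (j + 1) : ℕ) : ℝ) ≤ l := by exact_mod_cast hpow1
    have h1 := hEn j (hjr.trans (hlr.trans hln))
    have hjs : 2 * 2 ^ j ≤ s := by
      have h2 : ((2 ^ (j + 1) : ℕ) : ℝ) ≤ s := hjr.trans (hlr.trans hs)
      have h3 : 2 ^ (j + 1) ≤ s := by exact_mod_cast h2
      rw [pow_succ] at h3; linarith
    have h2 := hE1 m s (2 ^ j) G h y hh hjs
    have h3 : (relCount G h y : ℝ) ≤ N ^ (s - 2 * 2 ^ j) * En (2 ^ j) G := by
      rw [← hN]; exact_mod_cast h2
    -- lower bound for the exponent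
    have hj2 : (2 / 100 : ℝ) * Real.log n ≤ (j + 2) * (7 / 10) := by
      have e1 : (n : ℝ) ^ (2 / 100 : ℝ) ≤ (2 : ℝ) ^ (j + 2) := by
        have e2 : (n : ℝ) ^ (2 / 100 : ℝ) < l + 1 := Nat.lt_floor_add_one _
        have e3 : ((l + 1 : ℕ) : ℝ) ≤ ((2 ^ (j + 2) : ℕ) : ℝ) := by exact_mod_cast hpow2
        push_cast at e3
        linarith
      have e4 := Real.log_le_log (by positivity) e1
      rw [Real.log_rpow hnpos, Real.log_pow] at e4
      push_cast at e4
      have e5 := Real.log_two_lt_d9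
      have e6 : ((j : ℝ) + 2) * Real.log 2 ≤ (j + 2) * (7 / 10) := by
        gcongr
        linarith
      linarith
    have hj3 : ((j : ℝ)) / 2 ≤ (((j + 1) / 2 : ℕ) : ℝ) := by
      have : j ≤ 2 * ((j + 1) / 2) := by omega
      have : (j : ℝ) ≤ 2 * (((j + 1) / 2 : ℕ) : ℝ) := by exact_mod_cast this
      linarith
    have hfin : 3 * κ ^ (m * ((j + 1) / 2)) ≤ Real.exp (-(c1 * NN n)) := by
      rw [h3κ]
      refine Real.exp_le_exp.mpr ?_
      have e1 : (14 / 1000 : ℝ) * Real.log n - 1 ≤ (((j + 1) / 2 : ℕ) : ℝ) := by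
        linarith
      have e0 : (0 : ℝ) ≤ (14 / 1000 : ℝ) * Real.log n - 1 := by linarith
      have e2 : (n : ℝ) / 2 * ((14 / 1000 : ℝ) * Real.log n - 1) ≤
          (m : ℝ) * (((j + 1) / 2 : ℕ) : ℝ) := by gcongr
      have e3 : c1 * NN n ≤ lk / 1000 * (n * Real.log n) := by
        unfold NN
        gcongr
      have e4 : lk * ((n : ℝ) / 2 * ((14 / 1000 : ℝ) * Real.log n - 1)) ≤
          lk * ((m : ℝ) * (((j + 1) / 2 : ℕ) : ℝ)) := by gcongr
      have e5 : 0 ≤ (lk * n) * (Real.log n - 100) := mul_nonneg (by positivity) (by linarith)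
      push_cast at e4 ⊢
      nlinarith
    calc (relCount G h y : ℝ) ≤ N ^ (s - 2 * 2 ^ j) * En (2 ^ j) G := h3
      _ ≤ N ^ (s - 2 * 2 ^ j) *
          (Real.exp (-(c1 * NN n)) * N ^ (2 ^ (j + 1) - 1)) := by
          gcongr
          exact h1.trans (by gcongr)
      _ = N ^ (s - 1) * Real.exp (-(c1 * NN n)) := by
          have e1 : 2 ^ (j + 1) = 2 * 2 ^ j := by rw [pow_succ]; ring
          have e2 : 1 ≤ 2 ^ j := Nat.one_le_two_pow
          have : s - 1 = (s - 2 * 2 ^ j) + (2 ^ (j + 1) - 1) := by omega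
          rw [this, pow_add]; ring

end Crest.Agent.R225
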