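import Crest.Agent.R225.Iface

/-!
# Row 225, node GridConvex, part B: the `pair` clause of `GridHyp`
-/

set_option autoImplicit false

open Finset MeasureTheory
open scoped BigOperators ENNReal

namespace Crest.Agent.R225

namespace GridB

variable {m : ℕ}

/-- half-open cube of side `L` at the lattice point `z` -/
def cube (z : Pt m) (L : ℝ) : Set (Fin m → ℝ) :=
  Set.pi Set.univ (fun k => Set.Ico (z k : ℝ) (z k + L))

lemma mem_cube {z : Pt m} {L : ℝ} {x : Fin m → ℝ} :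
    x ∈ cube z L ↔ ∀ k, (z k : ℝ) ≤ x k ∧ x k < z k + L := by
  simp [cube]

lemma measurable_cube (z : Pt m) (L : ℝ) : MeasurableSet (cube z L) :=
  MeasurableSet.univ_pi fun _ => measurableSet_Ico

lemma vol_cube (z : Pt m) (L : ℝ) : volume (cube z L) = ENNReal.ofReal L ^ m := by
  rw [cube, Real.volume_pi_Ico]
  simp

lemma card_mul_le {s : Finset (Pt m)} {L : ℝ} {A : Set (Fin m → ℝ)}
    (hd : (s : Set (Pt m)).PairwiseDisjoint (fun z => cube z L))
    (hA : ∀ z ∈ s, cube z L ⊆ A) : (s.card : ℝ≥0∞) * ENNReal.ofReal L ^ m ≤ volume A := by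
  calc (s.card : ℝ≥0∞) * ENNReal.ofReal L ^ m = ∑ z ∈ s, volume (cube z L) := by
        simp [vol_cube]
    _ = volume (⋃ z ∈ s, cube z L) :=
        (measure_biUnion_finset hd fun z _ => measurable_cube z L).symm
    _ ≤ volume A := measure_mono (Set.iUnion₂_subset hA)

lemma disj_one (s : Set (Pt m)) : s.PairwiseDisjoint (fun z => cube z 1) := by
  intro z _ z' _ hne
  rw [Function.onFun, Set.disjoint_left]
  intro x hx hx'
  apply hne
  funext k
  have h1 := mem_cube.mp hx k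
  have h2 := mem_cube.mp hx' k
  have a1 : (z k : ℝ) < z' k + 1 := by linarith [h1.1, h2.2]
  have a2 : (z' k : ℝ) < z k + 1 := by linarith [h2.1, h1.2]
  have b1 : z k < z' k + 1 := by exact_mod_cast a1
  have b2 : z' k < z k + 1 := by exact_mod_cast a2
  omega

lemma disj_two (s : Set (Pt m)) (z0 : Pt m) (d : ℤ) (hd : 2 ≤ |d|)
    (hs : ∀ z ∈ s, ∀ k, d ∣ z k - z0 k) : s.PairwiseDisjoint (fun z => cube z 2) := by
  intro z hz z' hz' hne
  rw [Function.onFun, Set.disjoint_left]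
  intro x hx hx'
  apply hne
  funext k
  have h1 := mem_cube.mp hx k
  have h2 := mem_cube.mp hx' k
  have a1 : (z k : ℝ) < z' k + 2 := by linarith [h1.1, h2.2]
  have a2 : (z' k : ℝ) < z k + 2 := by linarith [h2.1, h1.2]
  have b1 : z k < z' k + 2 := by exact_mod_cast a1
  have b2 : z' k < z k + 2 := by exact_mod_cast a2
  have hdiv : d ∣ z k - z' k := by
    have := dvd_sub (hs z hz k) (hs z' hz' k)
    simpa using this
  by_contra hkk
  have hne' : z k - z' k ≠ 0 := sub_ne_zero.mpr hkk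
  have := Int.le_of_dvd (abs_pos.mpr hne') ((abs_dvd_abs d (z k - z' k)).mpr hdiv)
  have h3 : |z k - z' k| < 2 := by
    rw [abs_lt]; constructor <;> omega
  omega

/-- number of solutions of `c z₁ + c' z₂ = y` -/
def NP (G : Finset (Pt m)) (c c' : ℤ) (y : Pt m) : ℕ :=
  ((G ×ˢ G).filter fun z => c • z.1 + c' • z.2 = y).card

lemma relCount_two (G : Finset (Pt m)) (c c' : ℤ) (y : Pt m) :
    relCount G ![c, c'] y ≤ NP G c c' y := by
  classical
  unfold relCount NP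
  refine Finset.card_le_card_of_injOn (fun z => (z 0, z 1)) ?_ ?_
  · intro z hz
    simp only [Finset.coe_filter, Set.mem_ofPred_eq, Fintype.mem_piFinset, Fin.sum_univ_two,
      Matrix.cons_val_zero, Matrix.cons_val_one, Finset.mem_product] at hz ⊢
    exact ⟨⟨hz.1 0, hz.1 1⟩, hz.2⟩
  · intro z _ z' _ h
    simp only [Prod.mk.injEq] at h
    funext i
    fin_cases i
    · exact h.1
    · exact h.2

/-- counting along one coordinate -/
lemma NP_le_left (G : Finset (Pt m)) (c c' : ℤ) (hc' : c' ≠ 0) (y : Pt m) (s : Finset (Pt m))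
    (hs : ∀ z1 ∈ G, ∀ z2 ∈ G, c • z1 + c' • z2 = y → z1 ∈ s) : NP G c c' y ≤ s.card := by
  unfold NP
  refine Finset.card_le_card_of_injOn Prod.fst ?_ ?_
  · intro z hz
    simp only [Finset.coe_filter, Set.mem_ofPred_eq, Finset.mem_product] at hz
    exact hs _ hz.1.1 _ hz.1.2 hz.2
  · intro z hz z' hz' h
    simp only [Finset.coe_filter, Set.mem_ofPred_eq, Finset.mem_product] at hz hz'
    have h1 : c • z.1 + c' • z.2 = c • z'.1 + c' • z'.2 := hz.2.trans hz'.2.symm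
    rw [h] at h1
    have h2 : c' • z.2 = c' • z'.2 := add_left_cancel h1
    have h3 : z.2 = z'.2 := by
      funext k
      have := congrFun h2 k
      simp only [Pi.smul_apply, smul_eq_mul] at this
      exact mul_left_cancel₀ hc' this
    exact Prod.ext h h3

lemma NP_le_right (G : Finset (Pt m)) (c c' : ℤ) (hc : c ≠ 0) (y : Pt m) (s : Finset (Pt m))
    (hs : ∀ z1 ∈ G, ∀ z2 ∈ G, c • z1 + c' • z2 = y → z2 ∈ s) : NP G c c' y ≤ s.card := by
  unfold NP
  refine Finset.card_le_card_of_injOn Prod.snd ?_ ?_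
  · intro z hz
    simp only [Finset.coe_filter, Set.mem_ofPred_eq, Finset.mem_product] at hz
    exact hs _ hz.1.1 _ hz.1.2 hz.2
  · intro z hz z' hz' h
    simp only [Finset.coe_filter, Set.mem_ofPred_eq, Finset.mem_product] at hz hz'
    have h1 : c • z.1 + c' • z.2 = c • z'.1 + c' • z'.2 := hz.2.trans hz'.2.symm
    rw [h] at h1
    have h2 : c • z.1 = c • z'.1 := add_right_cancel h1
    have h3 : z.1 = z'.1 := by
      funext k
      have := congrFun h2 k
      simp only [Pi.smul_apply, smul_eq_mul] at this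
      exact mul_left_cancel₀ hc this
    exact Prod.ext h3 h

/-- a coset of `dℤ^m`, `|d| ≥ 2`, contains few points of `G` -/
lemma coset_card (G : Finset (Pt m)) (Sp : Set (Fin m → ℝ))
    (hcube : ∀ g ∈ G, cube g 2 ⊆ Sp) (hvol : volume Sp ≤ 2 * (G.card : ℝ≥0∞))
    (z0 : Pt m) (d : ℤ) (hd : 2 ≤ |d|) :
    ((G.filter fun z => ∀ k, d ∣ z k - z0 k).card : ℝ) * 2 ^ m ≤ 2 * G.card := by
  have h := card_mul_le (s := G.filter fun z => ∀ k, d ∣ z k - z0 k) (L := 2) (A := Sp)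
    (disj_two _ z0 d hd (by intro z hz; simpa using (Finset.mem_filter.mp hz).2))
    (fun z hz => hcube z (Finset.mem_filter.mp hz).1)
  have h2 := h.trans hvol
  have e1 : ((G.filter fun z => ∀ k, d ∣ z k - z0 k).card : ℝ≥0∞) * ENNReal.ofReal 2 ^ m
      = ENNReal.ofReal (((G.filter fun z => ∀ k, d ∣ z k - z0 k).card : ℝ) * 2 ^ m) := by
    rw [ENNReal.ofReal_mul (by positivity), ENNReal.ofReal_natCast,
      ENNReal.ofReal_pow (by norm_num)]
  have e2 : 2 * (G.card : ℝ≥0∞) = ENNReal.ofReal (2 * G.card) := by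
    rw [ENNReal.ofReal_mul (by norm_num), ENNReal.ofReal_natCast]
    norm_num
  rw [e1, e2] at h2
  exact (ENNReal.ofReal_le_ofReal_iff (by positivity)).mp h2

/-- the non-proportional case -/
lemma NP_small (G : Finset (Pt m)) (Sp : Set (Fin m → ℝ))
    (hcube : ∀ g ∈ G, cube g 2 ⊆ Sp) (hvol : volume Sp ≤ 2 * (G.card : ℝ≥0∞))
    (c c' : ℤ) (hc : c ≠ 0) (hc' : c' ≠ 0) (h1 : c ≠ c') (h2 : c ≠ -c') (y : Pt m) :
    (NP G c c' y : ℝ) * 2 ^ m ≤ 2 * G.card := by
  classical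
  by_cases hex : ∃ z ∈ G ×ˢ G, c • z.1 + c' • z.2 = y
  swap
  · have : NP G c c' y = 0 := by
      unfold NP
      rw [Finset.card_eq_zero, Finset.filter_eq_empty_iff]
      intro z hz hzy
      exact hex ⟨z, hz, hzy⟩
    rw [this]; simp
  obtain ⟨z0, _, hz0⟩ := hex
  -- write c = g a, c' = g b
  set g : ℤ := ((Int.gcd c c' : ℕ) : ℤ) with hg
  have hgpos : 0 < g := by
    have : 0 < Int.gcd c c' := Int.gcd_pos_of_ne_zero_left _ hc
    rw [hg]
    exact_mod_cast this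
  obtain ⟨a, ha⟩ : g ∣ c := by rw [hg]; exact Int.gcd_dvd_left ..
  obtain ⟨b, hb⟩ : g ∣ c' := by rw [hg]; exact Int.gcd_dvd_right ..
  have hcop : IsCoprime a b := by
    rw [Int.isCoprime_iff_gcd_eq_one]
    have : Int.gcd (g * a) (g * b) = g.natAbs * Int.gcd a b := Int.gcd_mul_left ..
    rw [← ha, ← hb] at this
    have hgn : g.natAbs = Int.gcd c c' := by simp [hg]
    rw [hgn] at this
    have hpos : 0 < Int.gcd c c' := Int.gcd_pos_of_ne_zero_left _ hc
    nlinarith [this, Nat.eq_of_mul_eq_mul_left hpos (by rw [mul_one]; exact this.symm :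
      Int.gcd c c' * Int.gcd a b = Int.gcd c c' * 1)]
  have key : ∀ z1 z2 : Pt m, c • z1 + c' • z2 = y → ∀ k,
      a * (z1 k - z0.1 k) = -(b * (z2 k - z0.2 k)) := by
    intro z1 z2 hz k
    have e1 := congrFun hz k
    have e2 := congrFun hz0 k
    simp only [Pi.add_apply, Pi.smul_apply, smul_eq_mul] at e1 e2
    have e3 : g * (a * (z1 k - z0.1 k) + b * (z2 k - z0.2 k)) = 0 := by
      have : c * z1 k + c' * z2 k = c * z0.1 k + c' * z0.2 k := e1.trans e2.symm
      rw [ha, hb] at this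
      linarith
    have e4 := (mul_eq_zero.mp e3).resolve_left hgpos.ne'
    linarith
  by_cases hb2 : 2 ≤ |b|
  · have hle : NP G c c' y ≤ (G.filter fun z => ∀ k, b ∣ z k - z0.1 k).card := by
      refine NP_le_left G c c' hc' y _ ?_
      intro z1 hz1 z2 _ hz
      rw [Finset.mem_filter]
      refine ⟨hz1, fun k => ?_⟩
      have := key z1 z2 hz k
      have hdv : b ∣ a * (z1 k - z0.1 k) := by
        rw [this]; exact (dvd_mul_right b _).neg_right
      exact hcop.symm.dvd_of_dvd_mul_left hdv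
    calc (NP G c c' y : ℝ) * 2 ^ m
        ≤ ((G.filter fun z => ∀ k, b ∣ z k - z0.1 k).card : ℝ) * 2 ^ m := by gcongr
      _ ≤ 2 * G.card := coset_card G Sp hcube hvol z0.1 b hb2
  · by_cases ha2 : 2 ≤ |a|
    · have hle : NP G c c' y ≤ (G.filter fun z => ∀ k, a ∣ z k - z0.2 k).card := by
        refine NP_le_right G c c' hc y _ ?_
        intro z1 _ z2 hz2 hz
        rw [Finset.mem_filter]
        refine ⟨hz2, fun k => ?_⟩
        have := key z1 z2 hz k
        have hdv : a ∣ b * (z2 k - z0.2 k) := by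
          have h5 : b * (z2 k - z0.2 k) = -(a * (z1 k - z0.1 k)) := by linarith
          rw [h5]; exact (dvd_mul_right a _).neg_right
        exact hcop.dvd_of_dvd_mul_left hdv
      calc (NP G c c' y : ℝ) * 2 ^ m
          ≤ ((G.filter fun z => ∀ k, a ∣ z k - z0.2 k).card : ℝ) * 2 ^ m := by gcongr
        _ ≤ 2 * G.card := coset_card G Sp hcube hvol z0.2 a ha2
    · exfalso
      have hane : a ≠ 0 := by rintro rfl; simp at ha; exact hc ha
      have hbne : b ≠ 0 := by rintro rfl; simp at hb; exact hc' hb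
      have ha1 : |a| = 1 := by
        have := abs_pos.mpr hane; omega
      have hb1 : |b| = 1 := by
        have := abs_pos.mpr hbne; omega
      rcases (abs_eq (by norm_num : (0:ℤ) ≤ 1)).mp ha1 with h | h <;>
      rcases (abs_eq (by norm_num : (0:ℤ) ≤ 1)).mp hb1 with h' | h'
      · exact h1 (by rw [ha, hb, h, h'])
      · exact h2 (by rw [ha, hb, h, h']; ring)
      · exact h2 (by rw [ha, hb, h, h']; ring)
      · exact h1 (by rw [ha, hb, h, h'])

/-- lower bound for the overlap, sums -/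
lemma lower_sum (G : Finset (Pt m)) (Sp : Set (Fin m → ℝ)) (hcube : ∀ g ∈ G, cube g 2 ⊆ Sp)
    (u : Pt m) (x : Fin m → ℝ) (hx : x ∈ cube (u + 1) 1) :
    (NP G 1 1 u : ℝ≥0∞) ≤ volume (Sp ∩ {t | x - t ∈ Sp}) := by
  classical
  have h1 : NP G 1 1 u ≤ (G.filter fun z => u - z ∈ G).card := by
    refine NP_le_left G 1 1 one_ne_zero u _ ?_
    intro z1 hz1 z2 hz2 hz
    rw [Finset.mem_filter]
    refine ⟨hz1, ?_⟩
    have : u - z1 = z2 := by rw [← hz]; simp
    rwa [this]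
  have h2 := card_mul_le (s := G.filter fun z => u - z ∈ G) (L := 1)
    (A := Sp ∩ {t | x - t ∈ Sp}) (disj_one _) (by
      intro z hz t ht
      rw [Finset.mem_filter] at hz
      have ht' := mem_cube.mp ht
      have hx' := mem_cube.mp hx
      refine ⟨hcube z hz.1 (mem_cube.mpr fun k => ⟨(ht' k).1, by linarith [(ht' k).2]⟩), ?_⟩
      show x - t ∈ Sp
      refine hcube _ hz.2 (mem_cube.mpr fun k => ?_)
      have a1 := ht' k
      have a2 := hx' k
      simp only [Pi.add_apply, Pi.one_apply, Int.cast_add, Int.cast_one, Pi.sub_apply,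
        Int.cast_sub] at a1 a2 ⊢
      constructor <;> linarith [a1.1, a1.2, a2.1, a2.2])
  simp only [ENNReal.ofReal_one, one_pow, mul_one] at h2
  exact le_trans (by exact_mod_cast h1) h2

/-- lower bound for the overlap, differences -/
lemma lower_diff (G : Finset (Pt m)) (Sp : Set (Fin m → ℝ)) (hcube : ∀ g ∈ G, cube g 2 ⊆ Sp)
    (u : Pt m) (x : Fin m → ℝ) (hx : x ∈ cube (u - 1) 1) :
    (NP G 1 (-1) u : ℝ≥0∞) ≤ volume (Sp ∩ {t | t - x ∈ Sp}) := by
  classical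
  have h1 : NP G 1 (-1) u ≤ (G.filter fun z => z - u ∈ G).card := by
    refine NP_le_left G 1 (-1) (by norm_num) u _ ?_
    intro z1 hz1 z2 hz2 hz
    rw [Finset.mem_filter]
    refine ⟨hz1, ?_⟩
    have : z1 - u = z2 := by rw [← hz]; simp
    rwa [this]
  have h2 := card_mul_le (s := G.filter fun z => z - u ∈ G) (L := 1)
    (A := Sp ∩ {t | t - x ∈ Sp}) (disj_one _) (by
      intro z hz t ht
      rw [Finset.mem_filter] at hz
      have ht' := mem_cube.mp ht
      have hx' := mem_cube.mp hx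
      refine ⟨hcube z hz.1 (mem_cube.mpr fun k => ⟨(ht' k).1, by linarith [(ht' k).2]⟩), ?_⟩
      show t - x ∈ Sp
      refine hcube _ hz.2 (mem_cube.mpr fun k => ?_)
      have a1 := ht' k
      have a2 := hx' k
      simp only [Pi.one_apply, Int.cast_one, Pi.sub_apply, Int.cast_sub] at a1 a2 ⊢
      constructor <;> linarith [a1.1, a1.2, a2.1, a2.2])
  simp only [ENNReal.ofReal_one, one_pow, mul_one] at h2
  exact le_trans (by exact_mod_cast h1) h2

/-- Markov inequality over unit cubes -/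
lemma markov {Y : Finset (Pt m)} (sh : Pt m → Pt m) (hinj : Function.Injective sh)
    (f : (Fin m → ℝ) → ℝ≥0∞) (θ : ℝ≥0∞) (h : ∀ u ∈ Y, ∀ x ∈ cube (sh u) 1, θ ≤ f x) :
    (Y.card : ℝ≥0∞) * θ ≤ ∫⁻ x, f x := by
  classical
  set s : Finset (Pt m) := Y.image sh with hs
  have hcard : s.card = Y.card := Finset.card_image_of_injective _ hinj
  have hvol : volume (⋃ z ∈ s, cube z 1) = (Y.card : ℝ≥0∞) := by
    rw [measure_biUnion_finset (disj_one _) fun z _ => measurable_cube z 1]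
    simp [vol_cube, hcard]
  have hmeas : MeasurableSet (⋃ z ∈ s, cube z 1) :=
    Finset.measurableSet_biUnion _ fun z _ => measurable_cube z 1
  calc (Y.card : ℝ≥0∞) * θ = ∫⁻ x, (⋃ z ∈ s, cube z 1).indicator (fun _ => θ) x := by
        rw [lintegral_indicator_const hmeas, hvol, mul_comm]
    _ ≤ ∫⁻ x, f x := by
        refine lintegral_mono fun x => ?_
        by_cases hx : x ∈ ⋃ z ∈ s, cube z 1
        · rw [Set.indicator_of_mem hx]
          simp only [Set.mem_iUnion] at hx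
          obtain ⟨z, hz, hxz⟩ := hx
          obtain ⟨u, hu, rfl⟩ := Finset.mem_image.mp hz
          exact h u hu x hxz
        · rw [Set.indicator_of_notMem hx]
          exact bot_le

/-- the exceptional set for `c = ±c'` -/
lemma exc_card (G : Finset (Pt m)) (g : ℕ) (C θ : ℝ) (hC : 0 ≤ C) (hθ : 0 ≤ θ)
    (ε : ℤ) (V : (Fin m → ℝ) → ℝ≥0∞) (sh : Pt m → Pt m) (hinj : Function.Injective sh)
    (hlow : ∀ u, ∀ x ∈ cube (sh u) 1, (NP G 1 ε u : ℝ≥0∞) ≤ V x)
    (hint : ∫⁻ x, V x ^ g ≤ ENNReal.ofReal (C / Real.sqrt g) ^ m *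
      (2 * (G.card : ℝ≥0∞)) ^ (g + 1)) :
    ∃ Y : Finset (Pt m), (Y.card : ℝ) * θ ^ g ≤ (C / Real.sqrt g) ^ m * (2 * G.card) ^ (g + 1) ∧
      ∀ u, u ∉ Y → (NP G 1 ε u : ℝ) ≤ θ := by
  classical
  refine ⟨((G ×ˢ G).image fun z => z.1 + ε • z.2).filter fun u => θ < (NP G 1 ε u : ℝ), ?_, ?_⟩
  · set Y := ((G ×ˢ G).image fun z => z.1 + ε • z.2).filter fun u => θ < (NP G 1 ε u : ℝ)
    have h1 : (Y.card : ℝ≥0∞) * ENNReal.ofReal (θ ^ g) ≤ ∫⁻ x, V x ^ g := by
      refine markov sh hinj _ _ ?_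
      intro u hu x hx
      have h2 := (Finset.mem_filter.mp hu).2
      have h3 : ENNReal.ofReal θ ≤ (NP G 1 ε u : ℝ≥0∞) := by
        rw [← ENNReal.ofReal_natCast]
        exact ENNReal.ofReal_le_ofReal h2.le
      rw [ENNReal.ofReal_pow hθ]
      gcongr
      exact h3.trans (hlow u x hx)
    have h4 := h1.trans hint
    have e1 : (Y.card : ℝ≥0∞) * ENNReal.ofReal (θ ^ g)
        = ENNReal.ofReal ((Y.card : ℝ) * θ ^ g) := by
      rw [ENNReal.ofReal_mul (by positivity), ENNReal.ofReal_natCast]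
    have hCs : 0 ≤ C / Real.sqrt g := by positivity
    have e2 : ENNReal.ofReal (C / Real.sqrt g) ^ m * (2 * (G.card : ℝ≥0∞)) ^ (g + 1)
        = ENNReal.ofReal ((C / Real.sqrt g) ^ m * (2 * G.card) ^ (g + 1)) := by
      rw [ENNReal.ofReal_mul (by positivity), ENNReal.ofReal_pow hCs,
        ENNReal.ofReal_pow (by positivity), ENNReal.ofReal_mul (by norm_num),
        ENNReal.ofReal_natCast]
      norm_num
    rw [e1, e2] at h4
    exact (ENNReal.ofReal_le_ofReal_iff (by positivity)).mp h4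
  · intro u hu
    by_contra hcon
    push Not at hcon
    apply hu
    rw [Finset.mem_filter]
    refine ⟨?_, hcon⟩
    have hne : NP G 1 ε u ≠ 0 := by
      intro h0
      rw [h0] at hcon
      simp at hcon
      linarith
    unfold NP at hne
    rw [Finset.card_ne_zero] at hne
    obtain ⟨z, hz⟩ := hne
    rw [Finset.mem_filter] at hz
    rw [Finset.mem_image]
    exact ⟨z, hz.1, by simpa using hz.2⟩

/-- reduction of `c' = ε c` to `c = 1` -/
lemma NP_prop (G : Finset (Pt m)) (c ε : ℤ) (hc : c ≠ 0) (y u : Pt m) (hy : y = c • u) :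
    NP G c (ε * c) y ≤ NP G 1 ε u := by
  unfold NP
  refine Finset.card_le_card ?_
  intro z hz
  rw [Finset.mem_filter] at hz ⊢
  refine ⟨hz.1, ?_⟩
  have h1 := hz.2
  rw [hy] at h1
  funext k
  have := congrFun h1 k
  simp only [Pi.add_apply, Pi.smul_apply, smul_eq_mul] at this ⊢
  have h2 : c * (1 * z.1 k + ε * z.2 k) = c * u k := by linarith
  exact mul_left_cancel₀ hc h2

lemma exc_prop (G : Finset (Pt m)) (c ε : ℤ) (hc : c ≠ 0) (θ B : ℝ) (hθ : 0 ≤ θ)
    (h : ∃ Y : Finset (Pt m), (Y.card : ℝ) ≤ B ∧ ∀ u, u ∉ Y → (NP G 1 ε u : ℝ) ≤ θ) :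
    ∃ Y : Finset (Pt m), (Y.card : ℝ) ≤ B ∧ ∀ y, y ∉ Y → (NP G c (ε * c) y : ℝ) ≤ θ := by
  classical
  obtain ⟨Y, hY, hN⟩ := h
  refine ⟨Y.image fun u => c • u, ?_, ?_⟩
  · refine le_trans ?_ hY
    exact_mod_cast Finset.card_image_le
  · intro y hy
    by_cases hex : ∃ z ∈ G ×ˢ G, c • z.1 + (ε * c) • z.2 = y
    · obtain ⟨z, _, hz⟩ := hex
      have hyu : y = c • (z.1 + ε • z.2) := by
        rw [← hz, smul_add, smul_smul, mul_comm c ε]
      have h1 := NP_prop G c ε hc y _ hyu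
      have h2 : z.1 + ε • z.2 ∉ Y := by
        intro hmem
        exact hy (Finset.mem_image.mpr ⟨_, hmem, hyu.symm⟩)
      exact le_trans (by exact_mod_cast h1) (hN _ h2)
    · have : NP G c (ε * c) y = 0 := by
        unfold NP
        rw [Finset.card_eq_zero, Finset.filter_eq_empty_iff]
        intro z hz hzy
        exact hex ⟨z, hz, hzy⟩
      rw [this]
      simpa using hθ

/-! ### numerics -/

lemma num_two : ∃ n0 : ℕ, ∀ n ≥ n0, ∀ m : ℕ, n ≤ 2 * m →
    2 / 2 ^ m ≤ Real.exp (-(n : ℝ) ^ (6 / 10 : ℝ)) := by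
  refine ⟨1024, fun n hn m hm => ?_⟩
  have hn' : (1024 : ℝ) ≤ n := by exact_mod_cast hn
  have hnpos : (0 : ℝ) < n := by linarith
  have hm' : (n : ℝ) / 2 ≤ m := by
    have : (n : ℝ) ≤ 2 * m := by exact_mod_cast hm
    linarith
  have h1 : (n : ℝ) ^ (6 / 10 : ℝ) ≤ n / 4 := by
    have e : (n : ℝ) = (n : ℝ) ^ (6 / 10 : ℝ) * (n : ℝ) ^ (4 / 10 : ℝ) := by
      rw [← Real.rpow_add hnpos]; norm_num
    have h4 : (4 : ℝ) ≤ (n : ℝ) ^ (4 / 10 : ℝ) := by
      calc (4 : ℝ) ≤ (1024 : ℝ) ^ (4 / 10 : ℝ) := by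
            have : (1024 : ℝ) = 2 ^ (10 : ℝ) := by norm_num
            rw [this, ← Real.rpow_mul (by norm_num)]
            norm_num
        _ ≤ (n : ℝ) ^ (4 / 10 : ℝ) := Real.rpow_le_rpow (by norm_num) hn' (by norm_num)
    have hp : 0 ≤ (n : ℝ) ^ (6 / 10 : ℝ) := by positivity
    nlinarith
  have hl2 : 0.69 < Real.log 2 := by linarith [Real.log_two_gt_d9]
  have e2 : (2 : ℝ) / 2 ^ m = Real.exp (Real.log 2 - m * Real.log 2) := by
    rw [Real.exp_sub, Real.exp_log (by norm_num), ← Real.log_pow, Real.exp_log (by positivity)]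
  rw [e2]
  apply Real.exp_le_exp.mpr
  have hl3 : Real.log 2 ≤ 0.7 := by linarith [Real.log_two_lt_d9]
  nlinarith [mul_le_mul hm' hl2.le (by norm_num) (by positivity : (0:ℝ) ≤ (m:ℝ))]

/-- the main numerical inequality -/
lemma num_exc (C : ℝ) (hC : 1 ≤ C) : ∃ n0 : ℕ, ∀ n ≥ n0, ∀ m g : ℕ, n ≤ 2 * m →
    g = ⌈(n : ℝ) ^ (3 / 10 : ℝ)⌉₊ →
    2 ≤ g ∧ 2 ^ (g + 1) * (C / Real.sqrt g) ^ m * Real.exp (g * (n : ℝ) ^ (6 / 10 : ℝ))
      ≤ Real.exp (-(1 / 20 * NN n)) := by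
  obtain ⟨n0, hn0⟩ := exists_nat_gt (Real.exp (240 + 20 * Real.log C))
  refine ⟨max n0 1024, fun n hn m g hm hg => ?_⟩
  have hn1 : (n0 : ℝ) ≤ n := by exact_mod_cast (le_max_left _ _).trans hn
  have hn2 : (1024 : ℝ) ≤ n := by exact_mod_cast (le_max_right _ _).trans hn
  have hnpos : (0 : ℝ) < n := by linarith
  have hone : (1 : ℝ) ≤ n := by linarith
  have hlogC : 0 ≤ Real.log C := Real.log_nonneg hC
  have hlog : 240 + 20 * Real.log C ≤ Real.log n := by
    rw [Real.le_log_iff_exp_le hnpos]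
    linarith
  have hm' : (n : ℝ) / 2 ≤ m := by
    have : (n : ℝ) ≤ 2 * m := by exact_mod_cast hm
    linarith
  have hx3 : (2 : ℝ) ≤ (n : ℝ) ^ (3 / 10 : ℝ) := by
    calc (2 : ℝ) ≤ (1024 : ℝ) ^ (3 / 10 : ℝ) := by
          have : (1024 : ℝ) = 2 ^ (10 : ℝ) := by norm_num
          rw [this, ← Real.rpow_mul (by norm_num)]
          norm_num
      _ ≤ (n : ℝ) ^ (3 / 10 : ℝ) := Real.rpow_le_rpow (by norm_num) hn2 (by norm_num)
  have hgl : (n : ℝ) ^ (3 / 10 : ℝ) ≤ g := by rw [hg]; exact Nat.le_ceil _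
  have hgu : (g : ℝ) ≤ (n : ℝ) ^ (3 / 10 : ℝ) + 1 := by
    rw [hg]; exact (Nat.ceil_lt_add_one (by positivity)).le
  have hg2 : 2 ≤ g := by
    have : (2 : ℝ) ≤ g := by linarith
    exact_mod_cast this
  refine ⟨hg2, ?_⟩
  have hgpos : (0 : ℝ) < g := by linarith
  have hlogg : 3 / 10 * Real.log n ≤ Real.log g := by
    rw [← Real.log_rpow hnpos]
    exact Real.log_le_log (by positivity) hgl
  have hgn : (g : ℝ) * (n : ℝ) ^ (6 / 10 : ℝ) ≤ 2 * n := by
    have e9 : (n : ℝ) ^ (3 / 10 : ℝ) * (n : ℝ) ^ (6 / 10 : ℝ) = (n : ℝ) ^ (9 / 10 : ℝ) := by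
      rw [← Real.rpow_add hnpos]; norm_num
    have h9 : (n : ℝ) ^ (9 / 10 : ℝ) ≤ n := by
      calc (n : ℝ) ^ (9 / 10 : ℝ) ≤ (n : ℝ) ^ (1 : ℝ) :=
            Real.rpow_le_rpow_of_exponent_le hone (by norm_num)
        _ = n := Real.rpow_one _
    have h6 : 0 ≤ (n : ℝ) ^ (6 / 10 : ℝ) := by positivity
    calc (g : ℝ) * (n : ℝ) ^ (6 / 10 : ℝ)
        ≤ (2 * (n : ℝ) ^ (3 / 10 : ℝ)) * (n : ℝ) ^ (6 / 10 : ℝ) := by
          apply mul_le_mul_of_nonneg_right _ h6
          linarith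
      _ = 2 * (n : ℝ) ^ (9 / 10 : ℝ) := by rw [mul_assoc, e9]
      _ ≤ 2 * n := by linarith
  have hg1 : ((g : ℝ) + 1) * Real.log 2 ≤ 2 * n := by
    have h3 : (n : ℝ) ^ (3 / 10 : ℝ) ≤ n := by
      calc (n : ℝ) ^ (3 / 10 : ℝ) ≤ (n : ℝ) ^ (1 : ℝ) :=
            Real.rpow_le_rpow_of_exponent_le hone (by norm_num)
        _ = n := Real.rpow_one _
    have hl3 : Real.log 2 ≤ 0.7 := by linarith [Real.log_two_lt_d9]
    have hl0 : 0 ≤ Real.log 2 := Real.log_nonneg (by norm_num)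
    nlinarith
  have e1 : (2 : ℝ) ^ (g + 1) = Real.exp (((g : ℝ) + 1) * Real.log 2) := by
    rw [← Real.rpow_natCast, Real.rpow_def_of_pos (by norm_num)]
    push_cast
    ring_nf
  have e2 : (C / Real.sqrt g) ^ m = Real.exp (m * (Real.log C - 1 / 2 * Real.log g)) := by
    have hs : 0 < Real.sqrt g := Real.sqrt_pos.mpr hgpos
    rw [← Real.exp_log (show (0:ℝ) < C / Real.sqrt g by positivity), ← Real.exp_nat_mul,
      Real.log_div (by positivity) hs.ne', Real.log_sqrt hgpos.le]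
    ring_nf
  rw [e1, e2, ← Real.exp_add, ← Real.exp_add]
  apply Real.exp_le_exp.mpr
  have hneg : Real.log C - 1 / 2 * Real.log g ≤ Real.log C - 3 / 20 * Real.log n := by linarith
  have hneg2 : Real.log C - 3 / 20 * Real.log n ≤ 0 := by nlinarith
  have hmm : (m : ℝ) * (Real.log C - 1 / 2 * Real.log g)
      ≤ (n : ℝ) / 2 * (Real.log C - 3 / 20 * Real.log n) := by
    calc (m : ℝ) * (Real.log C - 1 / 2 * Real.log g)
        ≤ m * (Real.log C - 3 / 20 * Real.log n) := by gcongr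
      _ ≤ (n : ℝ) / 2 * (Real.log C - 3 / 20 * Real.log n) := by
          exact mul_le_mul_of_nonpos_right hm' hneg2
  unfold NN
  have hfin : (n : ℝ) * (240 + 20 * Real.log C) ≤ n * Real.log n := by gcongr
  nlinarith

end GridB

/-- the `pair` clause of `GridHyp` -/
theorem grid_pair (hA4 : S_A4) : ∃ n0 : ℕ, ∀ n ≥ n0, ∀ m : ℕ, n ≤ 2 * m → m ≤ n →
    ∀ (G : Finset (Pt m)) (Sp : Set (Fin m → ℝ)), Convex ℝ Sp → MeasurableSet Sp →
    (∀ g ∈ G, ∀ x : Fin m → ℝ, (∀ k, (g k : ℝ) ≤ x k ∧ x k < g k + 2) → x ∈ Sp) →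
    volume Sp ≤ 2 * (G.card : ℝ≥0∞) → ∀ c1 : ℝ, c1 ≤ 1 / 20 →
    ∀ c c' : ℤ, c ≠ 0 → c' ≠ 0 → ∃ Y : Finset (Pt m),
      (Y.card : ℝ) ≤ G.card * Real.exp (-(c1 * NN n)) ∧
      ∀ y, y ∉ Y → (relCount G ![c, c'] y : ℝ) ≤ G.card * Real.exp (-(n : ℝ) ^ (6 / 10 : ℝ)) := by
  classical
  obtain ⟨C0, hC0, hA⟩ := hA4
  set C : ℝ := max C0 1 with hCdef
  have hC1 : 1 ≤ C := le_max_right _ _
  obtain ⟨n1, hn1⟩ := GridB.num_two
  obtain ⟨n2, hn2⟩ := GridB.num_exc C hC1
  refine ⟨max (max n1 n2) 1, fun n hn m hm hmn G Sp hconv hmeas hc2 hvol c1 hc1 c c' hc hc' => ?_⟩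
  have hn1' := hn1 n (((le_max_left _ _).trans (le_max_left _ _)).trans hn) m hm
  have hone : (1 : ℝ) ≤ n := by exact_mod_cast (le_max_right _ _).trans hn
  obtain ⟨hg2, hnum⟩ := hn2 n (((le_max_right _ _).trans (le_max_left _ _)).trans hn) m
    ⌈(n : ℝ) ^ (3 / 10 : ℝ)⌉₊ hm rfl
  set g : ℕ := ⌈(n : ℝ) ^ (3 / 10 : ℝ)⌉₊ with hgdef
  set E : ℝ := Real.exp (-(n : ℝ) ^ (6 / 10 : ℝ)) with hE
  have hEpos : 0 < E := Real.exp_pos _
  have hNN : 0 ≤ NN n := by
    unfold NN; exact mul_nonneg (by positivity) (Real.log_nonneg hone)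
  have hcube : ∀ z ∈ G, GridB.cube z 2 ⊆ Sp := fun z hz x hx => hc2 z hz x (GridB.mem_cube.mp hx)
  have hvolfin : volume Sp ≠ ∞ := by
    refine ne_top_of_le_ne_top ?_ hvol
    exact ENNReal.mul_ne_top (by norm_num) (ENNReal.natCast_ne_top _)
  -- reduction to NP
  suffices h : ∃ Y : Finset (Pt m), (Y.card : ℝ) ≤ G.card * Real.exp (-(c1 * NN n)) ∧
      ∀ y, y ∉ Y → (GridB.NP G c c' y : ℝ) ≤ G.card * E by
    obtain ⟨Y, h1, h2⟩ := h
    refine ⟨Y, h1, fun y hy => ?_⟩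
    refine le_trans ?_ (h2 y hy)
    exact_mod_cast GridB.relCount_two G c c' y
  by_cases hG : G.card = 0
  · refine ⟨∅, by simp [hG], fun y _ => ?_⟩
    have hG' : G = ∅ := Finset.card_eq_zero.mp hG
    have : GridB.NP G c c' y = 0 := by simp [GridB.NP, hG']
    rw [this, hG]; simp
  have hGpos : (0 : ℝ) < G.card := by exact_mod_cast Nat.pos_of_ne_zero hG
  -- exceptional sets
  have main : ∀ (ε : ℤ) (V : (Fin m → ℝ) → ℝ≥0∞) (sh : Pt m → Pt m), Function.Injective sh →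
      (∀ u, ∀ x ∈ GridB.cube (sh u) 1, (GridB.NP G 1 ε u : ℝ≥0∞) ≤ V x) →
      (∫⁻ x, V x ^ g ≤ ENNReal.ofReal (C0 / Real.sqrt g) ^ m * volume Sp ^ (g + 1)) →
      ∃ Y : Finset (Pt m), (Y.card : ℝ) ≤ G.card * Real.exp (-(c1 * NN n)) ∧
        ∀ u, u ∉ Y → (GridB.NP G 1 ε u : ℝ) ≤ G.card * E := by
    intro ε V sh hinj hlow hint
    obtain ⟨Y, hY1, hY2⟩ := GridB.exc_card G g C (G.card * E) (by linarith) (by positivity) ε V sh
      hinj hlow (by
        refine hint.trans ?_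
        have : C0 / Real.sqrt g ≤ C / Real.sqrt g := by
          gcongr
          exact le_max_left _ _
        gcongr)
    refine ⟨Y, ?_, hY2⟩
    have hEg : E ^ g * Real.exp (g * (n : ℝ) ^ (6 / 10 : ℝ)) = 1 := by
      rw [hE, ← Real.exp_nat_mul, ← Real.exp_add]
      simp
    have hexp0 : 0 < Real.exp (g * (n : ℝ) ^ (6 / 10 : ℝ)) := Real.exp_pos _
    have h3 : (Y.card : ℝ) * (G.card : ℝ) ^ g ≤
        (G.card : ℝ) ^ (g + 1) * (2 ^ (g + 1) * (C / Real.sqrt g) ^ m *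
          Real.exp (g * (n : ℝ) ^ (6 / 10 : ℝ))) := by
      have h5 := mul_le_mul_of_nonneg_right hY1 hexp0.le
      calc (Y.card : ℝ) * (G.card : ℝ) ^ g
          = (Y.card : ℝ) * (G.card : ℝ) ^ g *
            (E ^ g * Real.exp (g * (n : ℝ) ^ (6 / 10 : ℝ))) := by rw [hEg, mul_one]
        _ = (Y.card : ℝ) * (G.card * E) ^ g * Real.exp (g * (n : ℝ) ^ (6 / 10 : ℝ)) := by
            rw [mul_pow]; ring
        _ ≤ (C / Real.sqrt g) ^ m * (2 * G.card) ^ (g + 1) *
            Real.exp (g * (n : ℝ) ^ (6 / 10 : ℝ)) := h5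
        _ = _ := by rw [mul_pow]; ring
    have h4 : (Y.card : ℝ) * (G.card : ℝ) ^ g ≤
        (G.card * Real.exp (-(c1 * NN n))) * (G.card : ℝ) ^ g := by
      refine h3.trans ?_
      calc (G.card : ℝ) ^ (g + 1) * (2 ^ (g + 1) * (C / Real.sqrt g) ^ m *
            Real.exp (g * (n : ℝ) ^ (6 / 10 : ℝ)))
          ≤ (G.card : ℝ) ^ (g + 1) * Real.exp (-(1 / 20 * NN n)) := by gcongr
        _ ≤ (G.card : ℝ) ^ (g + 1) * Real.exp (-(c1 * NN n)) := by
            gcongr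
        _ = (G.card * Real.exp (-(c1 * NN n))) * (G.card : ℝ) ^ g := by ring
    exact le_of_mul_le_mul_right h4 (by positivity)
  obtain ⟨hA1, hA2⟩ := hA g m Sp hg2 hconv hmeas hvolfin
  by_cases h1 : c = c'
  · have hres := GridB.exc_prop G c 1 hc (G.card * E) (G.card * Real.exp (-(c1 * NN n)))
      (by positivity) (main 1 (fun x => volume (Sp ∩ {t | x - t ∈ Sp})) (fun u => u + 1)
        (add_left_injective 1) (GridB.lower_sum G Sp hcube) hA1)
    rw [one_mul] at hres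
    rwa [← h1]
  · by_cases h2 : c = -c'
    · have hres := GridB.exc_prop G c (-1) hc (G.card * E) (G.card * Real.exp (-(c1 * NN n)))
        (by positivity) (main (-1) (fun x => volume (Sp ∩ {t | t - x ∈ Sp})) (fun u => u - 1)
          (sub_left_injective) (GridB.lower_diff G Sp hcube) hA2)
      have e : -1 * c = c' := by rw [h2]; ring
      rwa [e] at hres
    · refine ⟨∅, by simp only [Finset.card_empty, Nat.cast_zero]; positivity, fun y _ => ?_⟩
      have hs := GridB.NP_small G Sp hcube hvol c c' hc hc' h1 h2 y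
      have h2m : (0 : ℝ) < 2 ^ m := by positivity
      calc (GridB.NP G c c' y : ℝ) ≤ 2 * G.card / 2 ^ m := by rwa [le_div_iff₀ h2m]
        _ = G.card * (2 / 2 ^ m) := by ring
        _ ≤ G.card * E := by gcongr

end Crest.Agent.R225
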