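import Crest.Agent.R225.GridConvexB

/-!
# Row 225, node GridConvex, part C: lattice energies versus continuous energies
-/

set_option autoImplicit false

open Finset MeasureTheory
open scoped BigOperators ENNReal

namespace Crest.Agent.R225

namespace GridC

open GridB

variable {m : ℕ}

open scoped Classical in
/-- number of `z ∈ G^k` with sum `y`, in `[0,∞]` -/
noncomputable def NS (G : Finset (Pt m)) (k : ℕ) (y : Pt m) : ℝ≥0∞ :=
  ∑ z ∈ Fintype.piFinset (fun _ : Fin k => G), if ∑ i, z i = y then 1 else 0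

lemma tsum_ite_mul (a b : Pt m) :
    ∑' w : Pt m, ((if a = w then (1 : ℝ≥0∞) else 0) * (if b = w then 1 else 0)) =
      if a = b then 1 else 0 := by
  classical
  rw [tsum_eq_single a]
  · by_cases h : a = b
    · subst h; simp
    · simp [h, Ne.symm h]
  · intro w hw
    simp [Ne.symm hw]

open scoped Classical in
/-- the energy as an `ℓ²` norm -/
lemma En_eq (G : Finset (Pt m)) (k : ℕ) :
    ∑' y : Pt m, NS G k y ^ 2 = (En k G : ℝ≥0∞) := by
  set A := Fintype.piFinset (fun _ : Fin k => G) with hA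
  have h1 : ∀ y : Pt m, NS G k y ^ 2 = ∑ z ∈ A, ∑ z' ∈ A,
      ((if ∑ i, z i = y then (1 : ℝ≥0∞) else 0) * (if ∑ i, z' i = y then 1 else 0)) := by
    intro y
    rw [sq, NS, Finset.sum_mul_sum]
  simp_rw [h1]
  rw [Summable.tsum_finsetSum (fun _ _ => ENNReal.summable)]
  have h2 : ∀ z ∈ A, ∑' y : Pt m, ∑ z' ∈ A,
      ((if ∑ i, z i = y then (1 : ℝ≥0∞) else 0) * (if ∑ i, z' i = y then 1 else 0))
      = ∑ z' ∈ A, if ∑ i, z i = ∑ i, z' i then (1 : ℝ≥0∞) else 0 := by
    intro z _
    rw [Summable.tsum_finsetSum (fun _ _ => ENNReal.summable)]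
    refine Finset.sum_congr rfl fun z' _ => ?_
    exact tsum_ite_mul _ _
  rw [Finset.sum_congr rfl h2]
  unfold En
  rw [Finset.card_filter, Finset.sum_product]
  push_cast
  rfl

/-- splitting a configuration of length `a + b` -/
lemma NS_add (G : Finset (Pt m)) (a b : ℕ) (y : Pt m) :
    NS G (a + b) y = ∑' w : Pt m, NS G a w * NS G b (y - w) := by
  classical
  have h1 : ∀ w : Pt m, NS G a w * NS G b (y - w) =
      ∑ z ∈ Fintype.piFinset (fun _ : Fin a => G), ∑ z' ∈ Fintype.piFinset (fun _ : Fin b => G),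
      ((if ∑ i, z i = w then (1 : ℝ≥0∞) else 0) * (if ∑ i, z' i = y - w then 1 else 0)) := by
    intro w
    rw [NS, NS, Finset.sum_mul_sum]
  simp_rw [h1]
  rw [Summable.tsum_finsetSum (fun _ _ => ENNReal.summable)]
  have h2 : ∀ z ∈ Fintype.piFinset (fun _ : Fin a => G), ∑' w : Pt m,
      ∑ z' ∈ Fintype.piFinset (fun _ : Fin b => G),
      ((if ∑ i, z i = w then (1 : ℝ≥0∞) else 0) * (if ∑ i, z' i = y - w then 1 else 0))
      = ∑ z' ∈ Fintype.piFinset (fun _ : Fin b => G),
        if ∑ i, z i + ∑ i, z' i = y then (1 : ℝ≥0∞) else 0 := by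
    intro z _
    rw [Summable.tsum_finsetSum (fun _ _ => ENNReal.summable)]
    refine Finset.sum_congr rfl fun z' _ => ?_
    rw [tsum_eq_single (∑ i, z i)]
    · have : (∑ i, z' i = y - ∑ i, z i) ↔ (∑ i, z i + ∑ i, z' i = y) := by
        constructor
        · intro h; rw [h]; abel
        · intro h; rw [← h]; abel
      simp [this]
    · intro w hw
      simp [Ne.symm hw]
  rw [Finset.sum_congr rfl h2, NS, ← Finset.sum_product'
    (f := fun (z : Fin a → Pt m) (z' : Fin b → Pt m) =>
      if ∑ i, z i + ∑ i, z' i = y then (1 : ℝ≥0∞) else 0)]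
  symm
  refine Finset.sum_bij' (fun p _ => Fin.append p.1 p.2)
    (fun z _ => (fun i => z (Fin.castAdd b i), fun i => z (Fin.natAdd a i))) ?_ ?_ ?_ ?_ ?_
  · intro p hp
    rw [Finset.mem_product, Fintype.mem_piFinset, Fintype.mem_piFinset] at hp
    rw [Fintype.mem_piFinset]
    intro i
    refine Fin.addCases (fun i => ?_) (fun i => ?_) i
    · rw [Fin.append_left]; exact hp.1 i
    · rw [Fin.append_right]; exact hp.2 i
  · intro z hz
    rw [Fintype.mem_piFinset] at hz
    rw [Finset.mem_product, Fintype.mem_piFinset, Fintype.mem_piFinset]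
    exact ⟨fun i => hz _, fun i => hz _⟩
  · intro p _
    ext i
    · simp
    · simp
  · intro z _
    funext i
    refine Fin.addCases (fun i => ?_) (fun i => ?_) i
    · rw [Fin.append_left]
    · rw [Fin.append_right]
  · intro p _
    rw [Fin.sum_univ_add]
    simp

/-- lattice sums versus integrals -/
lemma tsum_le_lintegral (c : Pt m → ℝ≥0∞) (f : (Fin m → ℝ) → ℝ≥0∞)
    (h : ∀ k, ∀ t ∈ cube k 1, c k ≤ f t) : ∑' k, c k ≤ ∫⁻ t, f t := by
  have hd : Pairwise (Function.onFun Disjoint fun k : Pt m => cube k 1) := by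
    intro z z' hne
    exact disj_one Set.univ (Set.mem_univ z) (Set.mem_univ z') hne
  calc ∑' k, c k = ∑' k, ∫⁻ _ in cube k 1, c k := by
        refine tsum_congr fun k => ?_
        rw [setLIntegral_const, vol_cube]
        simp
    _ ≤ ∑' k, ∫⁻ t in cube k 1, f t := by
        refine ENNReal.tsum_le_tsum fun k => ?_
        exact setLIntegral_mono' (measurable_cube k 1) (fun t ht => h k t ht)
    _ = ∫⁻ t in ⋃ k, cube k 1, f t :=
        (lintegral_iUnion (fun k => measurable_cube k 1) hd f).symm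
    _ ≤ ∫⁻ t, f t := setLIntegral_le_lintegral _ _

/-- integer part -/
noncomputable def flo (x : Fin m → ℝ) : Pt m := fun k => ⌊x k⌋

lemma flo_of_mem {z : Pt m} {x : Fin m → ℝ} (hx : x ∈ cube z 1) : flo x = z := by
  funext k
  have := mem_cube.mp hx k
  exact Int.floor_eq_iff.mpr this

lemma step_le (G : Finset (Pt m)) (Sp : Set (Fin m → ℝ)) (hcube : ∀ g ∈ G, cube g 2 ⊆ Sp) :
    ∀ (j : ℕ) (x : Fin m → ℝ) (v : Pt m), (∀ k, v k = 2 ^ j ∨ v k = 2 ^ j - 1) →
      NS G (2 ^ j) (flo x - v) ≤ FF Sp j x := by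
  classical
  intro j
  induction j with
  | zero =>
    intro x v hv
    have hNS : NS G (2 ^ 0) (flo x - v) = if flo x - v ∈ G then 1 else 0 := by
      unfold NS
      rw [show (2 : ℕ) ^ 0 = 1 from rfl]
      rw [Finset.sum_ite, Finset.sum_const_zero, add_zero, Finset.sum_const, nsmul_one]
      by_cases hmem : flo x - v ∈ G
      · rw [if_pos hmem]
        have : (Fintype.piFinset (fun _ : Fin 1 => G)).filter
            (fun z => ∑ i, z i = flo x - v) = {fun _ => flo x - v} := by
          ext z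
          simp only [Finset.mem_filter, Fintype.mem_piFinset, Finset.mem_singleton,
            Fin.sum_univ_one]
          constructor
          · rintro ⟨_, h⟩
            funext i
            rw [Fin.fin_one_eq_zero i, h]
          · rintro rfl
            exact ⟨fun _ => hmem, rfl⟩
        rw [this]; simp
      · rw [if_neg hmem]
        have : (Fintype.piFinset (fun _ : Fin 1 => G)).filter
            (fun z => ∑ i, z i = flo x - v) = ∅ := by
          rw [Finset.filter_eq_empty_iff]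
          intro z hz h
          rw [Fin.sum_univ_one] at h
          rw [Fintype.mem_piFinset] at hz
          exact hmem (h ▸ hz 0)
        rw [this]; simp
    rw [hNS]
    by_cases hmem : flo x - v ∈ G
    · rw [if_pos hmem]
      have hx : x ∈ Sp := by
        refine hcube _ hmem (mem_cube.mpr fun k => ?_)
        have h1 := Int.floor_le (x k)
        have h2 := Int.lt_floor_add_one (x k)
        have hk := hv k
        simp only [Pi.sub_apply, flo, Int.cast_sub]
        rcases hk with hk | hk <;> rw [hk] <;> push_cast <;> constructor <;> norm_num <;> linarith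
      simp [FF, Set.indicator_of_mem hx]
    · rw [if_neg hmem]
      exact bot_le
  | succ j ih =>
    intro x v hv
    have hpow : (2 : ℕ) ^ (j + 1) = 2 ^ j + 2 ^ j := by ring
    rw [hpow, NS_add]
    -- shift of the summation variable
    set v1 : Pt m := fun k => v k - 2 ^ j with hv1
    have hv1' : ∀ k, v1 k = 2 ^ j ∨ v1 k = 2 ^ j - 1 := by
      intro k
      have h := hv k
      simp only [hv1]
      rw [pow_succ] at h
      rcases h with h | h
      · left; rw [h]; ring
      · right; rw [h]; ring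
    rw [← (Equiv.subRight v1).tsum_eq (fun w => NS G (2 ^ j) w * NS G (2 ^ j) (flo x - v - w))]
    show _ ≤ conv (FF Sp j) (FF Sp j) x
    unfold conv
    refine tsum_le_lintegral _ _ ?_
    intro k t ht
    have hft : flo t = k := flo_of_mem ht
    have e1 : NS G (2 ^ j) ((Equiv.subRight v1) k) ≤ FF Sp j t := by
      have := ih t v1 hv1'
      rw [hft] at this
      simpa using this
    have e2 : NS G (2 ^ j) (flo x - v - (Equiv.subRight v1) k) ≤ FF Sp j (x - t) := by
      set v2 : Pt m := fun i => ⌊x i - t i⌋ + k i + 2 ^ j - ⌊x i⌋ with hv2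
      have hv2' : ∀ i, v2 i = 2 ^ j ∨ v2 i = 2 ^ j - 1 := by
        intro i
        have hk : k i = ⌊t i⌋ := by rw [← hft]; rfl
        have a1 := Int.floor_le (x i)
        have a2 := Int.lt_floor_add_one (x i)
        have b1 := Int.floor_le (t i)
        have b2 := Int.lt_floor_add_one (t i)
        have c1 := Int.floor_le (x i - t i)
        have c2 := Int.lt_floor_add_one (x i - t i)
        have d1 : (⌊x i⌋ : ℝ) - ⌊t i⌋ - 1 < ⌊x i - t i⌋ + 1 := by linarith
        have d2 : (⌊x i - t i⌋ : ℝ) < ⌊x i⌋ - ⌊t i⌋ + 1 := by linarith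
        have f1 : ⌊x i⌋ - ⌊t i⌋ - 1 < ⌊x i - t i⌋ + 1 := by exact_mod_cast d1
        have f2 : ⌊x i - t i⌋ < ⌊x i⌋ - ⌊t i⌋ + 1 := by exact_mod_cast d2
        simp only [hv2, hk]
        omega
      have := ih (x - t) v2 hv2'
      have e3 : flo (x - t) - v2 = flo x - v - (Equiv.subRight v1) k := by
        funext i
        simp only [Pi.sub_apply, flo, hv2, Equiv.subRight_apply, hv1]
        ring
      rw [e3] at this
      exact this
    exact mul_le_mul' e1 e2

end GridC

open GridB GridC in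
/-- the discrete energy is bounded by the continuous energy -/
theorem grid_energy {m : ℕ} (G : Finset (Pt m)) (Sp : Set (Fin m → ℝ))
    (hc2 : ∀ g ∈ G, ∀ x : Fin m → ℝ, (∀ k, (g k : ℝ) ≤ x k ∧ x k < g k + 2) → x ∈ Sp) (j : ℕ) :
    (En (2 ^ j) G : ℝ≥0∞) ≤ ∫⁻ y, (FF Sp j y) ^ 2 := by
  have hcube : ∀ z ∈ G, cube z 2 ⊆ Sp := fun z hz x hx => hc2 z hz x (mem_cube.mp hx)
  rw [← En_eq]
  set v : Pt m := fun _ => 2 ^ j with hv
  rw [← (Equiv.subRight v).tsum_eq (fun y => NS G (2 ^ j) y ^ 2)]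
  refine tsum_le_lintegral _ _ ?_
  intro k t ht
  have h := step_le G Sp hcube j t v (fun _ => Or.inl rfl)
  rw [flo_of_mem ht] at h
  have : (Equiv.subRight v) k = k - v := rfl
  rw [this]
  gcongr

/-- with A3 -/
theorem grid_energy_le (hA3 : S_A3) : ∃ κ : ℝ, 0 < κ ∧ κ < 1 ∧
    ∀ (m j : ℕ) (G : Finset (Pt m)) (Sp : Set (Fin m → ℝ)), Convex ℝ Sp → MeasurableSet Sp →
    (∀ g ∈ G, ∀ x : Fin m → ℝ, (∀ k, (g k : ℝ) ≤ x k ∧ x k < g k + 2) → x ∈ Sp) →
    volume Sp ≤ 2 * (G.card : ℝ≥0∞) →
    (En (2 ^ j) G : ℝ) ≤ κ ^ (m * ((j + 1) / 2)) * (2 * G.card) ^ (2 ^ (j + 1) - 1) := by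
  obtain ⟨κ, h0, h1, hA⟩ := hA3
  refine ⟨κ, h0, h1, fun m j G Sp hconv hmeas hc2 hvol => ?_⟩
  have hfin : volume Sp ≠ ∞ := by
    refine ne_top_of_le_ne_top ?_ hvol
    exact ENNReal.mul_ne_top (by norm_num) (ENNReal.natCast_ne_top _)
  have h2 := (grid_energy G Sp hc2 j).trans (hA m j Sp hconv hmeas hfin)
  have h3 : (En (2 ^ j) G : ℝ≥0∞) ≤ ENNReal.ofReal κ ^ (m * ((j + 1) / 2)) *
      (2 * (G.card : ℝ≥0∞)) ^ (2 ^ (j + 1) - 1) := by
    refine h2.trans ?_
    gcongr
  have e2 : ENNReal.ofReal κ ^ (m * ((j + 1) / 2)) * (2 * (G.card : ℝ≥0∞)) ^ (2 ^ (j + 1) - 1)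
      = ENNReal.ofReal (κ ^ (m * ((j + 1) / 2)) * (2 * G.card) ^ (2 ^ (j + 1) - 1)) := by
    rw [ENNReal.ofReal_mul (by positivity), ENNReal.ofReal_pow h0.le,
      ENNReal.ofReal_pow (by positivity), ENNReal.ofReal_mul (by norm_num),
      ENNReal.ofReal_natCast]
    norm_num
  rw [e2, ← ENNReal.ofReal_natCast] at h3
  exact (ENNReal.ofReal_le_ofReal_iff (by positivity)).mp h3

end Crest.Agent.R225
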