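import Crest.Agent.R225.GridConvexC

/-!
# Row 225, node GridConvex, part D: the clauses `rel3`, `relL` of `GridHyp`
-/

set_option autoImplicit false

open Finset MeasureTheory
open scoped BigOperators ENNReal

namespace Crest.Agent.R225

namespace GridD

/-- choice of the energy level -/
lemma exists_j : ∃ n0 : ℕ, ∀ n ≥ n0, ∃ j : ℕ, ((2 : ℝ) ^ (j + 1) ≤ (n : ℝ) ^ (2 / 100 : ℝ)) ∧
    1 / 400 * Real.log n ≤ (((j + 1) / 2 : ℕ) : ℝ) := by
  obtain ⟨n0, hn0⟩ := exists_nat_gt (Real.exp 1000)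
  refine ⟨n0, fun n hn => ?_⟩
  have hn1 : (n0 : ℝ) ≤ n := by exact_mod_cast hn
  have hnpos : (0 : ℝ) < n := by
    have := Real.exp_pos 1000
    linarith
  have hlog : 1000 ≤ Real.log n := by
    rw [Real.le_log_iff_exp_le hnpos]
    linarith
  have hl2 : 0.69 < Real.log 2 := by linarith [Real.log_two_gt_d9]
  have hl3 : Real.log 2 < 0.7 := by linarith [Real.log_two_lt_d9]
  set t : ℝ := 2 / 100 * Real.log n / Real.log 2 with ht
  have htpos : 20 ≤ t := by
    rw [ht, le_div_iff₀ (by linarith)]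
    nlinarith
  set J : ℕ := ⌊t⌋₊ with hJ
  have hJle : (J : ℝ) ≤ t := Nat.floor_le (by linarith)
  have hJlt : t < J + 1 := Nat.lt_floor_add_one t
  have hJ1 : 1 ≤ J := by
    have : (1 : ℝ) ≤ t := by linarith
    exact Nat.le_floor (by exact_mod_cast this)
  obtain ⟨j, hj⟩ : ∃ j, J = j + 1 := ⟨J - 1, by omega⟩
  rw [hj] at hJle hJlt
  refine ⟨j, ?_, ?_⟩
  · have e1 : (2 : ℝ) ^ (j + 1) = Real.exp (((j + 1 : ℕ) : ℝ) * Real.log 2) := by
      rw [← Real.rpow_natCast, Real.rpow_def_of_pos (by norm_num), mul_comm]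
    have e2 : (n : ℝ) ^ (2 / 100 : ℝ) = Real.exp (2 / 100 * Real.log n) := by
      rw [Real.rpow_def_of_pos hnpos, mul_comm]
    rw [e1, e2]
    apply Real.exp_le_exp.mpr
    have := mul_le_mul_of_nonneg_right hJle (by linarith : (0:ℝ) ≤ Real.log 2)
    calc ((j + 1 : ℕ) : ℝ) * Real.log 2 ≤ t * Real.log 2 := by
          convert this using 2
      _ = 2 / 100 * Real.log n := by
          rw [ht]; field_simp
  · have h1 : ((j + 1 : ℕ) : ℝ) ≤ 2 * (((j + 1) / 2 : ℕ) : ℝ) + 1 := by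
      have : j + 1 ≤ 2 * ((j + 1) / 2) + 1 := by omega
      exact_mod_cast this
    have h2 : 2 / 70 * Real.log n ≤ t := by
      rw [ht, le_div_iff₀ (by linarith)]
      nlinarith
    have h3 : t < ((j + 1 : ℕ) : ℝ) + 1 := hJlt
    linarith

end GridD

set_option maxHeartbeats 2000000 in
/-- the clauses `rel3` and `relL` of `GridHyp` -/
theorem grid_rel (hA3 : S_A3) (hE1 : S_E1) (hE2 : S_E2) :
    ∃ c1 : ℝ, 0 < c1 ∧ c1 ≤ 1 / 20 ∧ ∃ n0 : ℕ, ∀ n ≥ n0, ∀ m : ℕ, n ≤ 2 * m → m ≤ n →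
    ∀ (G : Finset (Pt m)) (Sp : Set (Fin m → ℝ)), Convex ℝ Sp → MeasurableSet Sp →
    (∀ g ∈ G, ∀ x : Fin m → ℝ, (∀ k, (g k : ℝ) ≤ x k ∧ x k < g k + 2) → x ∈ Sp) →
    volume Sp ≤ 2 * (G.card : ℝ≥0∞) →
    (∀ (s : ℕ) (h : Fin s → ℤ) (y : Pt m), 3 ≤ s → (∀ i, h i ≠ 0) →
      (relCount G h y : ℝ) ≤ (G.card : ℝ) ^ (s - 1) * Real.exp (-(c1 * n))) ∧
    (∀ (s : ℕ) (h : Fin s → ℤ) (y : Pt m), (n : ℝ) ^ (2 / 100 : ℝ) ≤ s → (∀ i, h i ≠ 0) →
      (relCount G h y : ℝ) ≤ (G.card : ℝ) ^ (s - 1) * Real.exp (-(c1 * NN n))) := by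
  obtain ⟨κ, hκ0, hκ1, hEn⟩ := grid_energy_le hA3
  set L : ℝ := -Real.log κ with hL
  have hLpos : 0 < L := by
    have := Real.log_neg hκ0 hκ1
    rw [hL]; linarith
  have hκpow : ∀ k : ℕ, κ ^ k = Real.exp (-(k * L)) := by
    intro k
    rw [hL, ← Real.rpow_natCast, Real.rpow_def_of_pos hκ0]
    ring_nf
  obtain ⟨nj, hnj⟩ := GridD.exists_j
  obtain ⟨nl, hnl⟩ := exists_nat_gt (Real.exp (1600 / L))
  obtain ⟨nk, hnk⟩ := exists_nat_gt (100 / L)
  refine ⟨min (1 / 20) (L / 1600), by positivity, min_le_left _ _,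
    max (max nj nl) (max nk 1), fun n hn m hm hmn G Sp hconv hmeas hc2 hvol => ?_⟩
  set c1 : ℝ := min (1 / 20) (L / 1600) with hc1
  have hc1L : c1 ≤ L / 1600 := min_le_right _ _
  have hc1pos : 0 < c1 := by rw [hc1]; positivity
  have hn1 : nj ≤ n := ((le_max_left _ _).trans (le_max_left _ _)).trans hn
  have hn2 : (nl : ℝ) ≤ n := by
    exact_mod_cast ((le_max_right _ _).trans (le_max_left _ _)).trans hn
  have hn3 : (nk : ℝ) ≤ n := by
    exact_mod_cast ((le_max_left _ _).trans (le_max_right _ _)).trans hn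
  have hn4 : 1 ≤ n := ((le_max_right _ _).trans (le_max_right _ _)).trans hn
  have hn4' : (1 : ℝ) ≤ n := by exact_mod_cast hn4
  have hnpos : (0 : ℝ) < n := by linarith
  have hlog : 1600 / L ≤ Real.log n := by
    rw [Real.le_log_iff_exp_le hnpos]; linarith
  have hlin : 100 ≤ L * n := by
    have : 100 / L ≤ n := by linarith
    rw [div_le_iff₀ hLpos] at this
    linarith
  have hm' : (n : ℝ) / 2 ≤ m := by
    have : (n : ℝ) ≤ 2 * m := by exact_mod_cast hm
    linarith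
  have hGnn : (0 : ℝ) ≤ G.card := by positivity
  -- fourth-moment energy
  have hE2' : (En 2 G : ℝ) ≤ κ ^ m * (2 * G.card) ^ 3 := by
    have := hEn m 1 G Sp hconv hmeas hc2 hvol
    norm_num at this
    exact this
  have h8 : 8 * κ ^ m ≤ Real.exp (-(2 * (c1 * n))) := by
    rw [hκpow]
    have e8 : (8 : ℝ) = Real.exp (3 * Real.log 2) := by
      rw [show (3 : ℝ) * Real.log 2 = Real.log (2 ^ (3 : ℕ)) by rw [Real.log_pow]; norm_num,
        Real.exp_log (by norm_num)]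
      norm_num
    rw [e8, ← Real.exp_add]
    apply Real.exp_le_exp.mpr
    have hl3 : Real.log 2 ≤ 0.7 := by linarith [Real.log_two_lt_d9]
    have a1 : (n : ℝ) / 2 * L ≤ m * L := by gcongr
    have a2 : 2 * (c1 * n) ≤ 2 * (L / 1600 * n) := by gcongr
    nlinarith
  constructor
  · intro s h y hs hh
    rcases Nat.lt_or_ge s 4 with hs4 | hs4
    · -- s = 3
      obtain rfl : s = 3 := by omega
      have h1 := hE2 m 3 2 G h y hh (by norm_num) (by norm_num) (by norm_num)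
      norm_num at h1
      have hEnn : (0 : ℝ) ≤ En 2 G := by positivity
      have h2 : (En 2 G : ℝ) ≤ (Real.exp (-(c1 * n))) ^ 2 * (G.card : ℝ) ^ 3 := by
        calc (En 2 G : ℝ) ≤ κ ^ m * (2 * G.card) ^ 3 := hE2'
          _ = (8 * κ ^ m) * (G.card : ℝ) ^ 3 := by ring
          _ ≤ Real.exp (-(2 * (c1 * n))) * (G.card : ℝ) ^ 3 := by gcongr
          _ = (Real.exp (-(c1 * n))) ^ 2 * (G.card : ℝ) ^ 3 := by
              rw [← Real.exp_nat_mul]; congr 2; push_cast; ring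
      calc (relCount G h y : ℝ) ≤ (G.card : ℝ) ^ (1 / 2 : ℝ) * (En 2 G : ℝ) ^ (1 / 2 : ℝ) := h1
        _ = Real.sqrt (G.card * En 2 G) := by
            rw [← Real.mul_rpow hGnn hEnn, Real.sqrt_eq_rpow]
        _ ≤ Real.sqrt (((G.card : ℝ) ^ 2 * Real.exp (-(c1 * n))) ^ 2) := by
            apply Real.sqrt_le_sqrt
            calc (G.card : ℝ) * En 2 G
                ≤ G.card * ((Real.exp (-(c1 * n))) ^ 2 * (G.card : ℝ) ^ 3) := by gcongr
              _ = ((G.card : ℝ) ^ 2 * Real.exp (-(c1 * n))) ^ 2 := by ring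
        _ = (G.card : ℝ) ^ 2 * Real.exp (-(c1 * n)) := Real.sqrt_sq (by positivity)
        _ = (G.card : ℝ) ^ (3 - 1) * Real.exp (-(c1 * n)) := by norm_num
    · have h1 := hE1 m s 2 G h y hh (by omega)
      have h1' : (relCount G h y : ℝ) ≤ (G.card : ℝ) ^ (s - 2 * 2) * En 2 G := by
        exact_mod_cast h1
      have hle : Real.exp (-(2 * (c1 * n))) ≤ Real.exp (-(c1 * n)) := by
        apply Real.exp_le_exp.mpr
        have : 0 ≤ c1 * n := by positivity
        linarith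
      calc (relCount G h y : ℝ) ≤ (G.card : ℝ) ^ (s - 2 * 2) * En 2 G := h1'
        _ ≤ (G.card : ℝ) ^ (s - 2 * 2) * (κ ^ m * (2 * G.card) ^ 3) := by gcongr
        _ = ((G.card : ℝ) ^ (s - 2 * 2) * (G.card : ℝ) ^ 3) * (8 * κ ^ m) := by ring
        _ = (G.card : ℝ) ^ (s - 1) * (8 * κ ^ m) := by
            rw [← pow_add]
            congr 2
            omega
        _ ≤ (G.card : ℝ) ^ (s - 1) * Real.exp (-(c1 * n)) := by
            have := h8.trans hle
            gcongr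
  · intro s h y hs hh
    obtain ⟨j, hj1, hj2⟩ := hnj n hn1
    have hjs : 2 ^ (j + 1) ≤ s := by
      have : (2 : ℝ) ^ (j + 1) ≤ s := hj1.trans hs
      exact_mod_cast this
    have hj' : 2 * 2 ^ j ≤ s := by rw [pow_succ] at hjs; omega
    have h1 := hE1 m s (2 ^ j) G h y hh hj'
    have h1' : (relCount G h y : ℝ) ≤ (G.card : ℝ) ^ (s - 2 * 2 ^ j) * En (2 ^ j) G := by
      exact_mod_cast h1
    have h2 := hEn m j G Sp hconv hmeas hc2 hvol
    have hpos : 1 ≤ 2 ^ (j + 1) := Nat.one_le_two_pow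
    have hbig : (2 : ℝ) ^ (2 ^ (j + 1) - 1) * κ ^ (m * ((j + 1) / 2))
        ≤ Real.exp (-(c1 * NN n)) := by
      rw [hκpow]
      have e1 : (2 : ℝ) ^ (2 ^ (j + 1) - 1) ≤ Real.exp n := by
        have a1 : (2 : ℝ) ^ (2 ^ (j + 1) - 1) ≤ (2 : ℝ) ^ (2 ^ (j + 1)) :=
          pow_le_pow_right₀ (by norm_num) (Nat.sub_le _ _)
        have a2 : (2 : ℝ) ^ (2 ^ (j + 1)) = Real.exp (((2 ^ (j + 1) : ℕ) : ℝ) * Real.log 2) := by
          rw [← Real.rpow_natCast, Real.rpow_def_of_pos (by norm_num), mul_comm]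
        rw [a2] at a1
        refine a1.trans (Real.exp_le_exp.mpr ?_)
        have a3 : ((2 ^ (j + 1) : ℕ) : ℝ) ≤ n := by
          push_cast
          refine hj1.trans ?_
          calc (n : ℝ) ^ (2 / 100 : ℝ) ≤ (n : ℝ) ^ (1 : ℝ) :=
                Real.rpow_le_rpow_of_exponent_le hn4' (by norm_num)
            _ = n := Real.rpow_one _
        have hl3 : Real.log 2 ≤ 0.7 := by linarith [Real.log_two_lt_d9]
        have hl0 : 0 ≤ Real.log 2 := Real.log_nonneg (by norm_num)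
        nlinarith
      have e2 : Real.exp (-(((m * ((j + 1) / 2) : ℕ) : ℝ) * L))
          ≤ Real.exp (-(L / 800 * (n * Real.log n))) := by
        apply Real.exp_le_exp.mpr
        have hlogn : 0 ≤ Real.log n := Real.log_nonneg hn4'
        have a1 : (n : ℝ) / 2 * (1 / 400 * Real.log n) ≤ m * (((j + 1) / 2 : ℕ) : ℝ) := by
          gcongr
        have a2 := mul_le_mul_of_nonneg_right a1 hLpos.le
        push_cast at a2 ⊢
        nlinarith
      calc (2 : ℝ) ^ (2 ^ (j + 1) - 1) * Real.exp (-(((m * ((j + 1) / 2) : ℕ) : ℝ) * L))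
          ≤ Real.exp n * Real.exp (-(L / 800 * (n * Real.log n))) := by gcongr
        _ = Real.exp (n - L / 800 * (n * Real.log n)) := by
            rw [← Real.exp_add]; ring_nf
        _ ≤ Real.exp (-(c1 * NN n)) := by
            apply Real.exp_le_exp.mpr
            unfold NN
            have hlogn : 0 ≤ Real.log n := Real.log_nonneg hn4'
            have hb : 1600 ≤ L * Real.log n := by
              rw [div_le_iff₀ hLpos] at hlog; linarith
            have hb2 : 1600 * (n : ℝ) ≤ L * Real.log n * n := by gcongr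
            have hc : c1 * (n * Real.log n) ≤ L / 1600 * (n * Real.log n) := by gcongr
            nlinarith
    calc (relCount G h y : ℝ) ≤ (G.card : ℝ) ^ (s - 2 * 2 ^ j) * En (2 ^ j) G := h1'
      _ ≤ (G.card : ℝ) ^ (s - 2 * 2 ^ j) *
          (κ ^ (m * ((j + 1) / 2)) * (2 * G.card) ^ (2 ^ (j + 1) - 1)) := by gcongr
      _ = ((G.card : ℝ) ^ (s - 2 * 2 ^ j) * (G.card : ℝ) ^ (2 ^ (j + 1) - 1)) *
          ((2 : ℝ) ^ (2 ^ (j + 1) - 1) * κ ^ (m * ((j + 1) / 2))) := by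
          rw [mul_pow]; ring
      _ = (G.card : ℝ) ^ (s - 1) *
          ((2 : ℝ) ^ (2 ^ (j + 1) - 1) * κ ^ (m * ((j + 1) / 2))) := by
          rw [← pow_add]
          congr 2
          have : 2 * 2 ^ j = 2 ^ (j + 1) := by ring
          omega
      _ ≤ (G.card : ℝ) ^ (s - 1) * Real.exp (-(c1 * NN n)) := by gcongr

end Crest.Agent.R225
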