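import Crest.Agent.R225.Iface

/-!
# Row 225 (S0347): interface of the final assembly (split of `S_Large`)
-/

set_option autoImplicit false

open Finset MeasureTheory
open scoped BigOperators ENNReal

namespace Crest.Agent.R225

/-- Pos. a point `p ∈ K` with `p + (K - K)/(8(n+1)) ⊆ K` (from D1: centre of the inscribed cube). -/
def S_Pos : Prop := ∀ (n : ℕ) (K : Set (Fin n → ℝ)), Convex ℝ K → Bornology.IsBounded K →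
  (interior K).Nonempty → ∃ p ∈ K, ∀ x ∈ K, ∀ y ∈ K,
    p + (1 / (8 * ((n : ℝ) + 1))) • (y - x) ∈ K

/-- Shr. For `K⁻ = (1-1/n) K + p/n` with `p` from `S_Pos`: moving a point of `K⁻` along `n`
differences of points of `K⁻` with coefficients `≤ 1/(8n²(n+1))` stays in `K`; and volume. -/
def S_Shr : Prop := ∀ (n : ℕ) (K : Set (Fin n → ℝ)), 2 ≤ n → IsCompact K → Convex ℝ K →
  (interior K).Nonempty → ∃ Km : Set (Fin n → ℝ), IsCompact Km ∧ Convex ℝ Km ∧ volume Km ≠ 0 ∧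
    volume K ≤ 4 * volume Km ∧
    ∀ x ∈ Km, ∀ p q : Fin n → Fin n → ℝ, (∀ i, p i ∈ Km) → (∀ i, q i ∈ Km) →
      ∀ ε : Fin n → ℝ, (∀ i, |ε i| ≤ 1 / (8 * (n : ℝ) ^ 2 * ((n : ℝ) + 1))) →
      x + ∑ i, ε i • (q i - p i) ∈ K

/-- class `c` is hit in the slice `y` : some point of the coset lies in `K`
(`(k_j) ≡ c_j + ⟨ψ_j, g⟩ mod P`, point `(t + A(g,y), a_j k_j / P)`). -/
def Hit {m r b P : ℕ} (t : Fin (m + r) → ℝ) (A : Matrix (Fin (m + r)) (Fin (m + r)) ℝ)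
    (a : Fin b → ℝ) (K : Set (Fin (m + r + b) → ℝ)) (ψ : Fin b → Fin m → ZMod P)
    (y : Fin r → ℝ) (c : Fin b → ZMod P) : Prop :=
  ∃ (g : Pt m) (k : Fin b → ℤ), (∀ j, (k j : ZMod P) = c j + ∑ i, ψ j i * (g i : ZMod P)) ∧
    Fin.append (bp t A g y) (fun j => a j * k j / P) ∈ K

/-- Fix. one `ψ` which is good for a finite family of slices -/
def S_Fix : Prop := ∀ (m b P : ℕ) [NeZero P] (ι : Type) [Fintype ι]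
  (F : ι → List (Row P m) → ℝ) (u : ℝ), (∀ y l, 0 ≤ F y l) → (∀ y, Ex b (F y) [] ≤ u) →
  ∃ ψ : Fin b → Fin m → ZMod P, ∀ y,
    ∑ c : Fin b → ZMod P, F y (List.ofFn fun j => ((c j, ψ j) : Row P m)).reverse
      ≤ Fintype.card ι * u * (P : ℝ) ^ b

open scoped Classical in
/-- Cover. PMain + Disc + Fix: finitely many good slices. -/
def S_Cover : Prop := ∀ c1 Crat : ℝ, 0 < c1 → c1 ≤ 1 → 1 ≤ Crat → ∃ X0 : ℝ, ∀ X ≥ X0,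
  ∃ n0 : ℕ, ∀ n ≥ n0, ∀ (m r I : ℕ), (n : ℝ) ^ (9 / 10 : ℝ) ≤ xl X I →
  xl X I ≤ 2 * (n : ℝ) ^ (9 / 10 : ℝ) → n ≤ 2 * m → m ≤ n →
  ∀ (α0 Cr : ℝ) (Km : Set (Fin ((m + r) + (I + 1)) → ℝ)) (a : ℕ → ℝ)
    (U : ∀ j : ℕ, (Fin ((m + r) + j) → ℝ) → ℝ≥0∞) (t : Fin (m + r) → ℝ)
    (A : Matrix (Fin (m + r)) (Fin (m + r)) ℝ) (G : (Fin r → ℝ) → Finset (Pt m)),
  0 < α0 → Chain X (m + r) I α0 Km a U →
  SliceData n m r c1 (Real.exp X * NN n) Crat Cr (U 0) t A G →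
  ∀ Y : Finset (Fin r → ℝ), (∀ y ∈ Y, ∀ l, 0 ≤ y l ∧ y l ≤ 2) →
  ∃ P0 : ℕ, ∀ P ≥ P0, ∀ [Fact P.Prime], ∃ ψ : Fin (I + 1) → Fin m → ZMod P, ∀ y ∈ Y,
    (((univ : Finset (Fin (I + 1) → ZMod P)).filter fun c =>
      ¬ Hit t A (fun j : Fin (I + 1) => a j) Km ψ y c).card : ℝ)
      ≤ Y.card * Real.exp (-(c1 / 200000 * NN n)) * (P : ℝ) ^ (I + 1)

/-- Dirs. the direction system: from `Chain.seg`, `SliceData.segx`, `SliceData.segy`; every point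
with `U j ≠ 0` extends to a point of `Km` (by `Chain.win`, `Chain.top`). -/
def S_Dirs : Prop := ∀ (X : ℝ) (n m r I : ℕ) (α0 c1 D Crat Cr : ℝ)
  (Km : Set (Fin ((m + r) + (I + 1)) → ℝ)) (a : ℕ → ℝ)
  (U : ∀ j : ℕ, (Fin ((m + r) + j) → ℝ) → ℝ≥0∞) (t : Fin (m + r) → ℝ)
  (A : Matrix (Fin (m + r)) (Fin (m + r)) ℝ) (G : (Fin r → ℝ) → Finset (Pt m)),
  0 < α0 → 1 ≤ Qf X α0 I 0 → 0 ≤ X → Chain X (m + r) I α0 Km a U →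
  SliceData n m r c1 D Crat Cr (U 0) t A G →
  (∀ l : Fin m, ∃ p ∈ Km, ∃ q ∈ Km, ∃ s : Fin (I + 1) → ℝ,
    q - p = Fin.append (A.mulVec (Fin.append (Pi.single l ((n : ℝ) ^ 4)) 0)) s) ∧
  (∀ l : Fin r, ∃ p ∈ Km, ∃ q ∈ Km, ∃ (u : Fin m → ℝ) (s : Fin (I + 1) → ℝ),
    q - p = Fin.append (A.mulVec (Fin.append u (Pi.single l 1))) s) ∧
  (∀ j : Fin (I + 1), ∃ p ∈ Km, ∃ q ∈ Km, ∃ s : Fin (I + 1) → ℝ,
    q - p = Fin.append 0 s ∧ (∀ i < j, s i = 0) ∧ a j * (1 / (2 * Qf X α0 I j)) ≤ s j)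

open scoped Classical in
/-- End. deterministic lattice bookkeeping and rounding. Lattice: `(A e_l, a_j ψ_{jl}/P)`,
`(A e_{m+l}, -a_j v_{lj}/P)`, `(0, a_j e_j)`. If `x` is not covered by `K + Λ` then
`x + ∑ ε_i d_i` is not covered by `Km + Λ` for all `|ε_i| ≤ δ`; round the `y`-coordinates to
`(1/M)ℤ` (`y`-directions), the grid coordinates to `ℤ` (`x`-directions), and the row coordinates,
in the order `j = 0, 1, …`, to integers in all possible ways: at least `∏ δ ρ_j P` classes. -/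
def S_End : Prop := ∀ (m r b P M : ℕ) [Fact P.Prime] (t : Fin (m + r) → ℝ)
  (A : Matrix (Fin (m + r)) (Fin (m + r)) ℝ) (a ρ : Fin b → ℝ) (δ L : ℝ)
  (K Km : Set (Fin (m + r + b) → ℝ)) (ψ : Fin b → Fin m → ZMod P) (v : Fin r → Fin b → ZMod P),
  A.det ≠ 0 → (∀ j, 0 < a j) → (∀ j, 0 < ρ j ∧ ρ j ≤ 1) → 0 < δ → δ ≤ 1 / 4 → 1 ≤ M * δ →
  1 ≤ δ * L → (∀ j, 1 ≤ δ * ρ j * P) →
  (∀ x ∈ Km, ∀ p q : Fin (m + r + b) → Fin (m + r + b) → ℝ, (∀ i, p i ∈ Km) → (∀ i, q i ∈ Km) →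
    ∀ ε : Fin (m + r + b) → ℝ, (∀ i, |ε i| ≤ δ) → x + ∑ i, ε i • (q i - p i) ∈ K) →
  (∀ l : Fin m, ∃ p ∈ Km, ∃ q ∈ Km, ∃ s : Fin b → ℝ,
    q - p = Fin.append (A.mulVec (Fin.append (Pi.single l L) 0)) s) →
  (∀ l : Fin r, ∃ p ∈ Km, ∃ q ∈ Km, ∃ (u : Fin m → ℝ) (s : Fin b → ℝ),
    q - p = Fin.append (A.mulVec (Fin.append u (Pi.single l 1))) s) →
  (∀ j : Fin b, ∃ p ∈ Km, ∃ q ∈ Km, ∃ s : Fin b → ℝ,
    q - p = Fin.append 0 s ∧ (∀ i < j, s i = 0) ∧ a j * ρ j ≤ s j) →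
  (∀ y : Fin r → Fin M, (((univ : Finset (Fin b → ZMod P)).filter fun c =>
      ∀ J : Finset (Fin r), ¬ Hit t A a Km ψ
        (fun l => ((y l : ℕ) : ℝ) / M + if l ∈ J then 1 else 0) (c - ∑ i ∈ J, v i)).card : ℝ)
      < ∏ j, (δ * ρ j * P)) →
  ∃ g : Matrix (Fin (m + r + b)) (Fin (m + r + b)) ℝ,
    |g.det| = |A.det| * ∏ j, a j ∧ Covers g K

/-- NumL. numerical facts for the assembly. -/
def S_NumL : Prop := ∀ (X c : ℝ) (r : ℕ), 1 ≤ X → 0 < c → ∃ n0 : ℕ, ∀ n ≥ n0,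
  ∃ I : ℕ, (n : ℝ) ^ (9 / 10 : ℝ) ≤ xl X I ∧ xl X I ≤ 2 * (n : ℝ) ^ (9 / 10 : ℝ) ∧
  ∃ m : ℕ, n = (m + r) + (I + 1) ∧ n ≤ 2 * m ∧ m ≤ n ∧ Real.exp (-(m : ℝ)) ≤ tauf X I 0 ∧
  ∃ α0 : ℝ, 0 < α0 ∧ α0 * Real.exp (theta * xl X I) ≤ al X I ∧ 1 ≤ Qf X α0 I 0 ∧
    (n : ℝ) ^ (10 * m) * α0 ≤ Real.exp X * NN n ∧
    Real.exp X * NN n ≤ (n : ℝ) ^ (12 * m) * α0 ∧
    Real.exp (-(12 * NN n)) ≤ ∏ j : Fin (I + 1), (1 / (8 * (n : ℝ) ^ 2 * ((n : ℝ) + 1)) *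
      (1 / (2 * Qf X α0 I j))) ∧
    ((2 : ℝ) ^ (2 * r + 1) * (16 * (n : ℝ) ^ 3) ^ (2 * r) + 1) * 
      Real.exp (-(c * NN n)) ≤ Real.exp (-(c / 2 * NN n))

end Crest.Agent.R225
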