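import Crest.Agent.R225.LargeIface

/-!
# Row 225 (S0347): sub-nodes L1, L2, L6 of `S_Large` (helper227)
-/

set_option autoImplicit false

open Finset MeasureTheory
open scoped BigOperators ENNReal

namespace Crest.Agent.R225

namespace L126

theorem Ex_eq_expect {P m : ℕ} [NeZero P] (b : ℕ) (F : List (Row P m) → ℝ) :
    ∀ rows : List (Row P m),
      Ex b F rows = 𝔼 ρ : Fin b → Row P m, F ((List.ofFn ρ).reverse ++ rows) := by
  induction b with
  | zero =>
    intro rows
    show F rows = _
    rw [Fintype.expect_eq_sum_div_card]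
    simp
  | succ b ih =>
    intro rows
    show (𝔼 r : Row P m, Ex b F (r :: rows)) = _
    simp_rw [ih]
    rw [← Finset.expect_product' (univ : Finset (Row P m)) (univ : Finset (Fin b → Row P m))
      (fun r ρ => F ((List.ofFn ρ).reverse ++ (r :: rows))), Finset.univ_product_univ]
    refine Fintype.expect_equiv (Fin.consEquiv (fun _ => Row P m)) _ _ ?_
    rintro ⟨r, ρ⟩
    simp [Fin.consEquiv, List.ofFn_succ]

end L126

theorem prf_L1 : S_L1 := by
  intro P m b _ F
  rw [L126.Ex_eq_expect]
  simp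

theorem prf_L2 : S_L2 := by
  classical
  intro P m b _ ι _ q Bad hB
  have h1 : ∀ y, 𝔼 ψ : Fin b → Fin m → ZMod P, 𝔼 c : Fin b → ZMod P,
      (if Bad y ψ c then (1 : ℝ) else 0) ≤ q := by
    intro y
    refine le_trans (le_of_eq ?_) (hB y)
    rw [← Finset.expect_product' (univ : Finset (Fin b → Fin m → ZMod P))
      (univ : Finset (Fin b → ZMod P)) (fun ψ c => (if Bad y ψ c then (1 : ℝ) else 0)),
      Finset.univ_product_univ]
    refine Fintype.expect_equiv ((Equiv.prodComm _ _).trans
      (Equiv.arrowProdEquivProdArrow (Fin b) (fun _ => ZMod P)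
        (fun _ => Fin m → ZMod P)).symm) _ _ ?_
    rintro ⟨ψ, c⟩
    simp only [Equiv.trans_apply, Equiv.prodComm_apply, Prod.swap_prod_mk]
    congr!
  have h2 : 𝔼 ψ : Fin b → Fin m → ZMod P, ∑ y, 𝔼 c : Fin b → ZMod P,
      (if Bad y ψ c then (1 : ℝ) else 0) ≤ Fintype.card ι * q := by
    rw [Finset.expect_sum_comm]
    refine le_trans (Finset.sum_le_sum fun y _ => h1 y) ?_
    simp
  obtain ⟨ψ, _, hψ⟩ := Finset.exists_le_of_expect_le (s := univ) (Finset.univ_nonempty) h2
  refine ⟨ψ, fun y => ?_⟩
  have h3 : 𝔼 c : Fin b → ZMod P, (if Bad y ψ c then (1 : ℝ) else 0) ≤ Fintype.card ι * q := by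
    refine le_trans ?_ hψ
    exact Finset.single_le_sum (f := fun y => 𝔼 c : Fin b → ZMod P,
      (if Bad y ψ c then (1 : ℝ) else 0))
      (fun y _ => Finset.expect_nonneg fun c _ => by split_ifs <;> norm_num) (Finset.mem_univ y)
  rw [Fintype.expect_eq_sum_div_card] at h3
  have hP : (0 : ℝ) < P := by exact_mod_cast Nat.pos_of_ne_zero (NeZero.ne P)
  have hc : (Fintype.card (Fin b → ZMod P) : ℝ) = (P : ℝ) ^ b := by
    rw [Fintype.card_fun, ZMod.card, Fintype.card_fin]; push_cast; rfl
  rw [hc, div_le_iff₀ (by positivity)] at h3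
  refine le_trans (le_of_eq ?_) h3
  rw [Finset.card_filter]
  push_cast
  rfl

theorem prf_L6 : S_L6 := by
  intro X d I α0 K a U hC
  have key : ∀ t j : ℕ, j + t = I + 1 → ∀ (hj : j ≤ I + 1) (x : Fin (d + j) → ℝ), U j x ≠ 0 →
    ∃ k ∈ K, ∀ i : Fin (d + j), k (Fin.castLE (by omega) i) = x i := by
    intro t
    induction t with
    | zero =>
      intro j hjt hj x hx
      have hj' : j = I + 1 := by omega
      subst hj'
      rw [hC.top] at hx
      have hxK : x ∈ K := by
        by_contra hne
        exact hx (by simp [hne])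
      exact ⟨x, hxK, fun i => by congr⟩
    | succ t ih =>
      intro j hjt hj x hx
      obtain ⟨c, c', _, _, hw⟩ := hC.win j (by omega) x hx
      have hint : ∫⁻ s in Set.Ico c c', U (j + 1) (Fin.snoc x s) ≠ 0 := by
        intro h0
        apply hx
        rw [hw, h0, mul_zero]
      have hex : ∃ s, U (j + 1) (Fin.snoc x s) ≠ 0 := by
        by_contra hne
        push Not at hne
        apply hint
        simp [hne]
      obtain ⟨s, hs⟩ := hex
      obtain ⟨k, hkK, hk⟩ := ih (j + 1) (by omega) (by omega) _ hs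
      refine ⟨k, hkK, fun i => ?_⟩
      have := hk (Fin.castSucc i)
      rw [Fin.snoc_castSucc (α := fun _ => ℝ)] at this
      rw [← this]
      congr 1
  intro j hj x hx
  exact key (I + 1 - j) j (by omega) hj x hx

end Crest.Agent.R225
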