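import Crest.Agent.R225.LargeIface
import Crest.Agent.R225.Num

/-!
# Row 225 (S0347): node L3 (numerics of the final assembly)
-/

set_option autoImplicit false

open Finset MeasureTheory Filter
open scoped BigOperators ENNReal

namespace Crest.Agent.R225

open NumL

namespace L3

lemma ev_log (A B : ℝ) : ∀ᶠ x : ℝ in atTop, A + B * Real.log x ≤ x := by
  have h1 := (Real.isLittleO_log_id_atTop.const_mul_left B).def (c := 1 / 2) (by norm_num)
  filter_upwards [h1, eventually_ge_atTop (2 * |A|), eventually_ge_atTop 0] with x hx hA h0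
  simp only [id, Real.norm_eq_abs, abs_of_nonneg h0] at hx
  have := le_abs_self (B * Real.log x)
  have := le_abs_self A
  linarith

lemma ev_log2 (C : ℝ) : ∀ᶠ x : ℝ in atTop, C * Real.log x ^ 2 ≤ x := by
  have h1 := ((Real.isLittleO_pow_log_id_atTop (n := 2)).const_mul_left C).def (c := 1)
    (by norm_num)
  filter_upwards [h1, eventually_ge_atTop 0] with x hx h0
  simp only [id, Real.norm_eq_abs, abs_of_nonneg h0] at hx
  have := le_abs_self (C * Real.log x ^ 2)
  linarith

lemma ev_rpow (C a : ℝ) (ha : a < 1) : ∀ᶠ x : ℝ in atTop, C * x ^ a ≤ x := by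
  have h1 := (tendsto_rpow_atTop (y := 1 - a) (by linarith)).eventually_ge_atTop C
  filter_upwards [h1, eventually_gt_atTop 0] with x hx h0
  calc C * x ^ a ≤ x ^ (1 - a) * x ^ a :=
        mul_le_mul_of_nonneg_right hx (Real.rpow_nonneg h0.le _)
    _ = x := by rw [← Real.rpow_add h0]; simp

lemma one_le_mul' {a b : ℝ} (ha : 1 ≤ a) (hb : 1 ≤ b) : 1 ≤ a * b := by nlinarith

lemma xl_mono {X : ℝ} (hX : 0 ≤ X) {i j : ℕ} (h : i ≤ j) : xl X i ≤ xl X j := by
  unfold xl
  exact mul_le_mul_of_nonneg_left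
    (pow_le_pow_right₀ (by have := theta_pos; linarith) h) hX

/-- the geometric sum of the levels -/
lemma sum_xl (X : ℝ) (i : ℕ) : ∑ j ∈ range i, theta * xl X j = xl X i - X := by
  induction i with
  | zero => simp [xl]
  | succ i ih => rw [sum_range_succ, ih, xl_succ]; ring

/-- product of the thinning factors -/
lemma prod_Qf (X α0 : ℝ) (I : ℕ) :
    ∏ j ∈ range (I + 1), Qf X α0 I j =
      1 / α0 * Real.exp (∑ j ∈ range (I + 1), Real.sqrt (xl X j)) := by
  have h1 : ∏ j ∈ range (I + 1), Qf X α0 I j =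
      (∏ j ∈ range I, (lam X j * Real.exp (theta * xl X j))) * (al X I * lam X I / α0) := by
    rw [prod_range_succ']
    congr 1
    rw [← prod_range_reflect]
    refine prod_congr rfl fun j hj => ?_
    have hj' := mem_range.1 hj
    unfold Qf
    rw [if_neg (by omega)]
    have : I - (I - 1 - j + 1) = j := by omega
    rw [this]
  rw [h1, prod_mul_distrib, ← Real.exp_sum, sum_xl]
  unfold lam al
  rw [← Real.exp_sum, sum_range_succ, Real.exp_add]
  have : Real.exp (xl X I - X) * Real.exp (-(xl X I - X)) = 1 := by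
    rw [← Real.exp_add]; simp
  rw [show Real.exp (∑ i ∈ range I, Real.sqrt (xl X i)) * Real.exp (xl X I - X) *
      (Real.exp (-(xl X I - X)) * Real.exp (Real.sqrt (xl X I)) / α0) =
      (Real.exp (xl X I - X) * Real.exp (-(xl X I - X))) *
      (1 / α0 * (Real.exp (∑ i ∈ range I, Real.sqrt (xl X i)) * Real.exp (Real.sqrt (xl X I))))
      by ring, this, one_mul]

lemma const_bound {c1 : ℝ} (hc1 : 0 < c1) {r n : ℕ} (hr : 10 ^ 8 / c1 ≤ (2 : ℝ) ^ r)
    (hr1 : 1 ≤ r) (hn : 8 ≤ n) (hn2 : 2400000 * (r : ℝ) ≤ c1 * n) :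
    (((2 ^ r * (2 * n ^ 2) ^ r + 1 : ℕ) : ℝ) *
        (((4 * n ^ 2 + 1) ^ r : ℕ) * Real.exp (-(c1 / 200000 * NN n)))) ^ (2 ^ r)
      ≤ Real.exp (-(250 * NN n)) := by
  have hn0 : 0 < n := by omega
  have hcube : 8 * n ^ 2 ≤ n ^ 3 := by
    rw [pow_succ n 2, mul_comm]; exact Nat.mul_le_mul_left _ hn
  have h1 : 2 ^ r * (2 * n ^ 2) ^ r + 1 ≤ (n ^ 3) ^ r := by
    have e1 : 2 ^ r * (2 * n ^ 2) ^ r = (4 * n ^ 2) ^ r := by
      rw [← mul_pow]; congr 1; ring
    have e2 : 1 ≤ (4 * n ^ 2) ^ r := Nat.one_le_pow _ _ (by positivity)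
    have e3 : 2 * (4 * n ^ 2) ^ r ≤ (8 * n ^ 2) ^ r := by
      have : (8 * n ^ 2) ^ r = 2 ^ r * (4 * n ^ 2) ^ r := by
        rw [← mul_pow]; congr 1; ring
      rw [this]
      refine Nat.mul_le_mul_right _ ?_
      calc 2 = 2 ^ 1 := rfl
        _ ≤ 2 ^ r := Nat.pow_le_pow_right (by norm_num) hr1
    calc 2 ^ r * (2 * n ^ 2) ^ r + 1 ≤ 2 * (4 * n ^ 2) ^ r := by rw [e1]; omega
      _ ≤ (8 * n ^ 2) ^ r := e3
      _ ≤ (n ^ 3) ^ r := Nat.pow_le_pow_left hcube r
  have h2 : (4 * n ^ 2 + 1) ^ r ≤ (n ^ 3) ^ r := by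
    refine Nat.pow_le_pow_left (le_trans ?_ hcube) r
    have : 1 ≤ n ^ 2 := Nat.one_le_pow _ _ hn0
    omega
  have hnR : (0 : ℝ) < n := by exact_mod_cast hn0
  have hlog : 0 ≤ Real.log n := Real.log_nonneg (by exact_mod_cast (by omega : 1 ≤ n))
  have h3 : ((n : ℝ) ^ 3) ^ r = Real.exp (3 * r * Real.log n) := by
    rw [← pow_mul, ← Real.exp_log (pow_pos hnR (3 * r)), Real.log_pow]
    push_cast; ring_nf
  have h4 : ((2 ^ r * (2 * n ^ 2) ^ r + 1 : ℕ) : ℝ) *
        (((4 * n ^ 2 + 1) ^ r : ℕ) * Real.exp (-(c1 / 200000 * NN n)))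
      ≤ Real.exp (-(c1 / 400000 * NN n)) := by
    have h1' : ((2 ^ r * (2 * n ^ 2) ^ r + 1 : ℕ) : ℝ) ≤ Real.exp (3 * r * Real.log n) := by
      rw [← h3]; exact_mod_cast h1
    have h2' : (((4 * n ^ 2 + 1) ^ r : ℕ) : ℝ) ≤ Real.exp (3 * r * Real.log n) := by
      rw [← h3]; exact_mod_cast h2
    calc _ ≤ Real.exp (3 * r * Real.log n) * (Real.exp (3 * r * Real.log n) *
          Real.exp (-(c1 / 200000 * NN n))) := by
          gcongr
      _ = Real.exp (6 * r * Real.log n - c1 / 200000 * NN n) := by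
          rw [← Real.exp_add, ← Real.exp_add]; congr 1; ring
      _ ≤ Real.exp (-(c1 / 400000 * NN n)) := by
          apply Real.exp_le_exp.2
          unfold NN
          nlinarith
  calc _ ≤ (Real.exp (-(c1 / 400000 * NN n))) ^ (2 ^ r) := by
        gcongr
    _ = Real.exp (-((2 : ℝ) ^ r * (c1 / 400000) * NN n)) := by
        rw [← Real.exp_nat_mul]; push_cast; congr 1; ring
    _ ≤ Real.exp (-(250 * NN n)) := by
        apply Real.exp_le_exp.2
        rw [neg_le_neg_iff]
        have hNN : 0 ≤ NN n := by unfold NN; positivity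
        refine mul_le_mul_of_nonneg_right ?_ hNN
        rw [div_le_iff₀ hc1] at hr
        linarith

/-- choice of the residue windows -/
lemma exists_rho (I : ℕ) (c : ℕ → ℝ) (hc : ∀ j, 1 ≤ c j) :
    ∃ P0 : ℕ, 1 ≤ P0 ∧ ∀ P ≥ P0, ∃ ρ : Fin (I + 1) → ℕ, (∀ j, ρ j ≤ P) ∧
      (∀ j : Fin (I + 1), c j * ρ j ≤ P) ∧
      (P : ℝ) ^ (I + 1) ≤ (∏ j ∈ range (I + 1), (2 * c j)) * ∏ j, (ρ j : ℝ) := by
  refine ⟨⌈∑ j ∈ range (I + 1), c j⌉₊ + 1, by omega, fun P hP => ?_⟩
  have hcP : ∀ j : Fin (I + 1), c j ≤ P := by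
    intro j
    have h1 : c j ≤ ∑ j ∈ range (I + 1), c j :=
      single_le_sum (f := fun j => c j) (fun i _ => by have := hc i; linarith)
        (mem_range.2 j.2)
    have h2 := Nat.le_ceil (∑ j ∈ range (I + 1), c j)
    have h3 : ((⌈∑ j ∈ range (I + 1), c j⌉₊ + 1 : ℕ) : ℝ) ≤ P := by exact_mod_cast hP
    push_cast at h3
    linarith
  refine ⟨fun j => ⌊(P : ℝ) / c j⌋₊, fun j => ?_, fun j => ?_, ?_⟩
  · have : (⌊(P : ℝ) / c j⌋₊ : ℝ) ≤ P := by
      refine (Nat.floor_le (by have := hc j; positivity)).trans ?_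
      exact div_le_self (by positivity) (hc j)
    exact_mod_cast this
  · have h0 : 0 < c j := by have := hc j; linarith
    have := Nat.floor_le (a := (P : ℝ) / c j) (by positivity)
    calc c j * (⌊(P : ℝ) / c j⌋₊ : ℝ) ≤ c j * (P / c j) :=
          mul_le_mul_of_nonneg_left this h0.le
      _ = P := by field_simp
  · rw [prod_range (fun j => 2 * c j), ← prod_mul_distrib]
    calc (P : ℝ) ^ (I + 1) = ∏ j : Fin (I + 1), (P : ℝ) := by simp
      _ ≤ _ := by
        refine prod_le_prod (fun _ _ => by positivity) fun j _ => ?_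
        have h0 : 0 < c j := by have := hc j; linarith
        have h1 : (1 : ℝ) ≤ P / c j := by rw [le_div_iff₀ h0]; linarith [hcP j]
        have h2 := Nat.lt_floor_add_one ((P : ℝ) / c j)
        have h3 : (1 : ℝ) ≤ (⌊(P : ℝ) / c j⌋₊ : ℝ) := by
          exact_mod_cast (Nat.one_le_floor_iff _).2 h1
        have h4 : (P : ℝ) / c j ≤ 2 * (⌊(P : ℝ) / c j⌋₊ : ℝ) := by linarith
        rw [div_le_iff₀ h0] at h4
        linarith

end L3

set_option maxHeartbeats 1600000 in
open L3 NumL in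
theorem prf_L3 : S_L3 := by
  intro c1 hc1 hc1'
  obtain ⟨r, hr⟩ := pow_unbounded_of_one_lt (10 ^ 8 / c1) (by norm_num : (1 : ℝ) < 2)
  have hr1 : 1 ≤ r := by
    rcases Nat.eq_zero_or_pos r with h | h
    · subst h
      rw [pow_zero, div_lt_one hc1] at hr
      linarith
    · exact h
  refine ⟨r, 4, by norm_num, fun X hX => ?_⟩
  have hX0 : (0 : ℝ) < X := by linarith
  set l := Real.log (1 + theta) with hl
  have hl0 : 0 < l := log_one_theta_pos
  have hth := theta_pos
  have hev : ∀ᶠ x : ℝ in atTop,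
      X < x ^ (9 / 10 : ℝ) ∧ (2 * ((r : ℝ) + 3)) + (2 / l) * Real.log x ≤ x ∧
      (5 * (2 + 1 / l)) * Real.log x ^ 2 ≤ x ∧ 6000000 * x ^ (9 / 20 : ℝ) ≤ x ∧
      4 * x ^ (9 / 10 : ℝ) ≤ x ∧ 8 ≤ x ∧ 2400000 * (r : ℝ) / c1 ≤ x := by
    filter_upwards [(tendsto_rpow_atTop (y := (9 / 10 : ℝ)) (by norm_num)).eventually_gt_atTop X,
      ev_log _ _, ev_log2 _, ev_rpow 6000000 (9 / 20) (by norm_num),
      ev_rpow 4 (9 / 10) (by norm_num),
      eventually_ge_atTop 8, eventually_ge_atTop (2400000 * (r : ℝ) / c1)] with x h1 h2 h3 h4 h5 h6 h7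
    exact ⟨h1, h2, h3, h4, h5, h6, h7⟩
  obtain ⟨n0, hn0⟩ := eventually_atTop.1 (tendsto_natCast_atTop_atTop.eventually hev)
  refine ⟨n0, fun n hn => ?_⟩
  obtain ⟨H1, H2, H3, H4, H5, H6, H7⟩ := hn0 n hn
  have hn8 : 8 ≤ n := by exact_mod_cast H6
  have hnR : (0 : ℝ) < n := by linarith
  have hn1 : (1 : ℝ) ≤ n := by linarith
  have hlog1 : 1 ≤ Real.log n := by
    rw [Real.le_log_iff_exp_le hnR]
    have := Real.exp_one_lt_d9
    linarith
  have H7' : 2400000 * (r : ℝ) ≤ c1 * n := by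
    rw [div_le_iff₀ hc1] at H7; linarith
  have hNN : 1 ≤ NN n := one_le_mul' hn1 hlog1
  have hnNN : (n : ℝ) ≤ NN n := le_mul_of_one_le_right hnR.le hlog1
  have hru : 0 ≤ (n : ℝ) ^ (9 / 10 : ℝ) := by positivity
  -- choice of `I`
  have hex : ∃ I, (n : ℝ) ^ (9 / 10 : ℝ) ≤ xl X I := by
    have : Tendsto (fun I : ℕ => xl X I) atTop atTop := by
      unfold xl
      exact (tendsto_pow_atTop_atTop_of_one_lt (by linarith)).const_mul_atTop hX0
    exact (this.eventually_ge_atTop _).exists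
  classical
  obtain ⟨I, hI, hImin⟩ : ∃ I, (n : ℝ) ^ (9 / 10 : ℝ) ≤ xl X I ∧
      ∀ i < I, xl X i < (n : ℝ) ^ (9 / 10 : ℝ) :=
    ⟨Nat.find hex, Nat.find_spec hex, fun i hi => not_le.1 (Nat.find_min hex hi)⟩
  have hIpos : 0 < I := by
    rcases Nat.eq_zero_or_pos I with h | h
    · subst h; rw [xl_zero] at hI; linarith
    · exact h
  obtain ⟨I', rfl⟩ : ∃ I', I = I' + 1 := ⟨I - 1, by omega⟩
  have hI'lt := hImin I' (by omega)
  have hthv : theta ≤ 1 := by unfold theta; norm_num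
  have hI2 : xl X (I' + 1) ≤ 2 * (n : ℝ) ^ (9 / 10 : ℝ) := by
    rw [xl_succ, mul_comm (2 : ℝ)]
    exact mul_le_mul hI'lt.le (by linarith) (by linarith) hru
  have hIlog : ((I' + 1 : ℕ) : ℝ) ≤ 1 + Real.log n / l := by
    have h1 : (1 + theta) ^ I' ≤ (n : ℝ) ^ (9 / 10 : ℝ) := by
      have h2 : X * (1 + theta) ^ I' < (n : ℝ) ^ (9 / 10 : ℝ) := hI'lt
      have h3 : 0 < (1 + theta) ^ I' := by positivity
      exact le_trans (le_mul_of_one_le_left h3.le (by linarith)) h2.le
    have h2 : (I' : ℝ) * l ≤ 9 / 10 * Real.log n := by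
      have := Real.log_le_log (by positivity) h1
      rw [Real.log_pow, Real.log_rpow hnR] at this
      exact this
    have h3 : (I' : ℝ) ≤ Real.log n / l := by
      rw [le_div_iff₀ hl0]; linarith
    push_cast; linarith
  -- square roots
  have hsq : Real.sqrt (xl X (I' + 1 + 1)) ≤ 2 * (n : ℝ) ^ (9 / 20 : ℝ) := by
    apply Real.sqrt_le_iff.2 ⟨by positivity, ?_⟩
    have h1 : (2 * (n : ℝ) ^ (9 / 20 : ℝ)) ^ 2 = 4 * (n : ℝ) ^ (9 / 10 : ℝ) := by
      rw [mul_pow, ← Real.rpow_natCast ((n : ℝ) ^ (9 / 20 : ℝ)) 2, ← Real.rpow_mul hnR.le]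
      norm_num
    rw [h1, xl_succ, show 4 * (n : ℝ) ^ (9 / 10 : ℝ) = 2 * (n : ℝ) ^ (9 / 10 : ℝ) * 2 by ring]
    exact mul_le_mul hI2 (by linarith) (by linarith) (by linarith)
  have hS : ∑ j ∈ range (I' + 1 + 1), Real.sqrt (xl X j) ≤ n := by
    have := sum_sqrt (X := X) (I' + 1 + 1)
    linarith
  -- `m`
  have hm0 : 2 * (r + (I' + 1) + 1) ≤ n := by
    have h1 : 2 * ((r : ℝ) + ((I' + 1 : ℕ) : ℝ) + 1) ≤ n := by
      have h2 : (2 / l) * Real.log n = 2 * (Real.log n / l) := by ring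
      linarith
    exact_mod_cast h1
  refine ⟨I' + 1, n - (r + (I' + 1) + 1), by omega, by omega, by omega, hI, hI2, by linarith,
    ?_⟩
  set m := n - (r + (I' + 1) + 1) with hm
  have hm2 : n ≤ 2 * m := by omega
  have hm2R : (n : ℝ) ≤ 2 * m := by exact_mod_cast hm2
  have hmn : m ≤ n := by omega
  have hmnR : (m : ℝ) ≤ n := by exact_mod_cast hmn
  have hDn : 1 ≤ Dn X n := by
    exact one_le_mul' (Real.one_le_exp hX0.le) hNN
  have hDn0 : 0 < Dn X n := by linarith
  have hpow : 0 < (n : ℝ) ^ (11 * m) := by positivity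
  have ha0 : 0 < a0 X n m := by unfold a0; positivity
  have hpe : (n : ℝ) ^ (11 * m) = Real.exp (11 * m * Real.log n) := by
    rw [← Real.exp_log hpow, Real.log_pow]; push_cast; ring_nf
  have ha1 : a0 X n m * Real.exp (theta * xl X (I' + 1)) ≤ al X (I' + 1) := by
    unfold a0 Dn al
    rw [div_mul_eq_mul_div, div_le_iff₀ hpow, hpe, ← Real.exp_add]
    have h1 : NN n ≤ Real.exp (2 * Real.log n) := by
      have : Real.exp (2 * Real.log n) = n * n := by
        rw [two_mul, Real.exp_add, Real.exp_log hnR]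
      rw [this]
      unfold NN
      have := Real.log_le_self hnR.le
      exact mul_le_mul_of_nonneg_left this hnR.le
    calc Real.exp X * NN n * Real.exp (theta * xl X (I' + 1))
        ≤ Real.exp X * Real.exp (2 * Real.log n) * Real.exp (theta * xl X (I' + 1)) := by
          gcongr
      _ = Real.exp (X + 2 * Real.log n + theta * xl X (I' + 1)) := by
          rw [← Real.exp_add, ← Real.exp_add]
      _ ≤ _ := by
          apply Real.exp_le_exp.2
          have h2 : theta * xl X (I' + 1) ≤ 1 / 2 * xl X (I' + 1) :=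
            mul_le_mul_of_nonneg_right (by unfold theta; norm_num) (xl_pos hX0 _).le
          have h3 : (m : ℝ) * 1 ≤ m * Real.log n :=
            mul_le_mul_of_nonneg_left hlog1 (by positivity)
          have h4 : (4 : ℝ) * Real.log n ≤ m * Real.log n :=
            mul_le_mul_of_nonneg_right (by linarith) (by linarith)
          linarith
  have htau0 := tau_pos X (I' + 1 + 1)
  have htl := log_tau_le hX (I' + 1 + 1)
  rw [one_div, Real.log_inv] at htl
  refine ⟨ha0, ha1, htau0, ?_, ?_, ?_, ?_, ?_⟩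
  · unfold tau
    refine prod_le_one (fun j _ => by have := lam_pos X j; positivity) fun j _ => ?_
    have h1 : 1 ≤ lam X j := Real.one_le_exp (Real.sqrt_nonneg _)
    rw [div_le_one (by positivity)]
    exact one_le_mul' (by norm_num) (one_le_pow₀ h1)
  · rw [← Real.le_log_iff_exp_le htau0]
    linarith
  · unfold a0
    rw [mul_div_assoc', div_le_iff₀ hpow, mul_comm]
    refine mul_le_mul_of_nonneg_left ?_ hDn0.le
    exact pow_le_pow_right₀ hn1 (by omega)
  · unfold a0
    rw [mul_div_assoc', le_div_iff₀ hpow, mul_comm]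
    refine mul_le_mul_of_nonneg_right ?_ hDn0.le
    exact pow_le_pow_right₀ hn1 (by omega)
  · -- the windows
    have hQ1 : ∀ j, 1 ≤ Qf X (a0 X n m) (I' + 1) j := by
      intro j
      unfold Qf
      split_ifs with hj
      · rw [le_div_iff₀ ha0, one_mul]
        have h1 : 1 ≤ lam X (I' + 1) := Real.one_le_exp (Real.sqrt_nonneg _)
        have h2 : 1 ≤ Real.exp (theta * xl X (I' + 1)) :=
          Real.one_le_exp (mul_nonneg hth.le (xl_pos hX0 _).le)
        have h3 : 0 < al X (I' + 1) := Real.exp_pos _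
        have h4 : a0 X n m ≤ al X (I' + 1) :=
          le_trans (le_mul_of_one_le_right ha0.le h2) ha1
        exact le_trans h4 (le_mul_of_one_le_right h3.le h1)
      · have h1 : 1 ≤ lam X (I' + 1 - j) := Real.one_le_exp (Real.sqrt_nonneg _)
        have h2 : 1 ≤ Real.exp (theta * xl X (I' + 1 - j)) :=
          Real.one_le_exp (mul_nonneg hth.le (xl_pos hX0 _).le)
        exact one_le_mul' h1 h2
    obtain ⟨P0, hP1, hP0⟩ := exists_rho (I' + 1)
      (fun j => 8 * (n : ℝ) ^ 2 * Qf X (a0 X n m) (I' + 1) j) (fun j =>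
        one_le_mul' (one_le_mul' (by norm_num) (one_le_pow₀ hn1)) (hQ1 j))
    refine ⟨P0, fun P hP => ?_⟩
    obtain ⟨ρ, h1, h2, h3⟩ := hP0 P hP
    refine ⟨ρ, h1, h2, ?_⟩
    have hPpos : (0 : ℝ) < P := by
      have : 0 < P := by omega
      exact_mod_cast this
    have hcb := const_bound hc1 hr.le hr1 hn8 H7'
    have hprod : ∏ j ∈ range (I' + 1 + 1), (2 * (8 * (n : ℝ) ^ 2 * Qf X (a0 X n m) (I' + 1) j))
        ≤ Real.exp (13 * NN n) := by
      have e1 : ∏ j ∈ range (I' + 1 + 1), (2 * (8 * (n : ℝ) ^ 2 * Qf X (a0 X n m) (I' + 1) j))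
          = (16 * (n : ℝ) ^ 2) ^ (I' + 1 + 1) *
            (1 / a0 X n m * Real.exp (∑ j ∈ range (I' + 1 + 1), Real.sqrt (xl X j))) := by
        rw [← prod_Qf, ← card_range (I' + 1 + 1), ← prod_const, card_range, ← prod_mul_distrib]
        exact prod_congr rfl fun j _ => by ring
      have e2 : (16 * (n : ℝ) ^ 2) ^ (I' + 1 + 1) ≤ Real.exp (NN n) := by
        rw [← Real.log_le_iff_le_exp (by positivity), Real.log_pow]
        have f1 : Real.log (16 * (n : ℝ) ^ 2) ≤ 5 * Real.log n := by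
          rw [Real.log_mul (by norm_num) (by positivity), Real.log_pow]
          have : Real.log 16 ≤ 3 := by
            rw [Real.log_le_iff_le_exp (by norm_num)]
            have h := Real.exp_one_gt_d9
            have : Real.exp 3 = Real.exp 1 ^ 3 := by rw [← Real.exp_nat_mul]; norm_num
            rw [this]
            have h9 : (2.7 : ℝ) ≤ Real.exp 1 := by linarith
            calc (16 : ℝ) ≤ 2.7 ^ 3 := by norm_num
              _ ≤ Real.exp 1 ^ 3 := by gcongr
          push_cast; linarith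
        have f2 : ((I' + 1 + 1 : ℕ) : ℝ) ≤ (2 + 1 / l) * Real.log n := by
          push_cast at hIlog ⊢
          have : (2 + 1 / l) * Real.log n = 2 * Real.log n + Real.log n / l := by ring
          linarith
        calc ((I' + 1 + 1 : ℕ) : ℝ) * Real.log (16 * (n : ℝ) ^ 2)
            ≤ ((2 + 1 / l) * Real.log n) * (5 * Real.log n) := by
              refine mul_le_mul f2 f1 (Real.log_nonneg (one_le_mul' (by norm_num) (one_le_pow₀ hn1))) ?_
              positivity
          _ = 5 * (2 + 1 / l) * Real.log n ^ 2 := by ring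
          _ ≤ n := H3
          _ ≤ NN n := hnNN
      have e3 : 1 / a0 X n m ≤ Real.exp (11 * NN n) := by
        unfold a0
        rw [one_div_div, hpe]
        calc Real.exp (11 * m * Real.log n) / Dn X n ≤ Real.exp (11 * m * Real.log n) :=
              div_le_self (Real.exp_pos _).le hDn
          _ ≤ Real.exp (11 * NN n) := by
              apply Real.exp_le_exp.2
              unfold NN
              have : (m : ℝ) * Real.log n ≤ n * Real.log n :=
                mul_le_mul_of_nonneg_right hmnR (by linarith)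
              linarith
      have e4 : Real.exp (∑ j ∈ range (I' + 1 + 1), Real.sqrt (xl X j)) ≤ Real.exp (NN n) := by
        apply Real.exp_le_exp.2
        exact hS.trans hnNN
      rw [e1]
      calc _ ≤ Real.exp (NN n) * (Real.exp (11 * NN n) * Real.exp (NN n)) := by
            gcongr
        _ = Real.exp (13 * NN n) := by
            rw [← Real.exp_add, ← Real.exp_add]; congr 1; ring
    have hρ0 : 0 ≤ ∏ j, (ρ j : ℝ) := prod_nonneg fun _ _ => by positivity
    have hρpos : 0 < ∏ j, (ρ j : ℝ) := by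
      rcases hρ0.lt_or_eq with h | h
      · exact h
      · rw [← h, mul_zero] at h3
        have : 0 < (P : ℝ) ^ (I' + 1 + 1) := by positivity
        linarith
    calc _ ≤ Real.exp (-(250 * NN n)) * (P : ℝ) ^ (I' + 1 + 1) :=
          mul_le_mul_of_nonneg_right hcb (by positivity)
      _ ≤ Real.exp (-(250 * NN n)) * (Real.exp (13 * NN n) * ∏ j, (ρ j : ℝ)) := by
          refine mul_le_mul_of_nonneg_left (h3.trans ?_) (Real.exp_pos _).le
          exact mul_le_mul_of_nonneg_right hprod hρ0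
      _ = Real.exp (-(237 * NN n)) * ∏ j, (ρ j : ℝ) := by
          rw [← mul_assoc, ← Real.exp_add]; congr 2; ring
      _ < 1 * ∏ j, (ρ j : ℝ) := by
          refine mul_lt_mul_of_pos_right ?_ hρpos
          rw [Real.exp_lt_one_iff]
          linarith
      _ = _ := one_mul _

end Crest.Agent.R225
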