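import Crest.Agent.R225.LargeIface2

/-!
# Row 225 (S0347), node L4a: the lattice matrix
-/

set_option autoImplicit false

open Finset
open scoped BigOperators

namespace Crest.Agent.R225

namespace L4a

/-- the lattice matrix: base block `A`, rows `a_j Ψ_{ji}/P`, diagonal `a_j` -/
noncomputable def latM {d k : ℕ} (A : Matrix (Fin d) (Fin d) ℝ) (a : Fin k → ℝ) (P : ℕ)
    (Ψ : Fin k → Fin d → ℤ) : Matrix (Fin (d + k)) (Fin (d + k)) ℝ :=
  Matrix.reindex finSumFinEquiv finSumFinEquiv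
    (Matrix.fromBlocks A 0 (Matrix.of fun (j : Fin k) (i : Fin d) => a j * (Ψ j i : ℝ) / (P : ℝ))
      (Matrix.diagonal a))

theorem latM_det {d k : ℕ} (A : Matrix (Fin d) (Fin d) ℝ) (a : Fin k → ℝ) (P : ℕ)
    (Ψ : Fin k → Fin d → ℤ) : (latM A a P Ψ).det = A.det * ∏ j, a j := by
  rw [latM, Matrix.det_reindex_self, Matrix.det_fromBlocks_zero₁₂, Matrix.det_diagonal]

theorem latM_mulVec {d k : ℕ} (A : Matrix (Fin d) (Fin d) ℝ) (a : Fin k → ℝ) (P : ℕ)
    (Ψ : Fin k → Fin d → ℤ) (z : Fin d → ℝ) (κ : Fin k → ℝ) :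
    (latM A a P Ψ).mulVec (Fin.append z κ) =
      Fin.append (A.mulVec z) (fun j => a j * (∑ i, (Ψ j i : ℝ) * z i) / P + a j * κ j) := by
  funext l
  refine Fin.addCases (fun i => ?_) (fun j => ?_) l
  · simp only [Matrix.mulVec, dotProduct, Fin.sum_univ_add, Fin.append_left, Fin.append_right]
    have h1 : ∀ x : Fin d, latM A a P Ψ (Fin.castAdd k i) (Fin.castAdd k x) = A i x := by
      intro x; simp [latM]
    have h2 : ∀ x : Fin k, latM A a P Ψ (Fin.castAdd k i) (Fin.natAdd d x) = 0 := by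
      intro x; simp [latM]
    simp [h1, h2]
  · simp only [Matrix.mulVec, dotProduct, Fin.sum_univ_add, Fin.append_left, Fin.append_right]
    have h1 : ∀ x : Fin d, latM A a P Ψ (Fin.natAdd d j) (Fin.castAdd k x)
        = a j * (Ψ j x : ℝ) / (P : ℝ) := by
      intro x; simp [latM]
    have h2 : ∀ x : Fin k, latM A a P Ψ (Fin.natAdd d j) (Fin.natAdd d x)
        = if j = x then a j else 0 := by
      intro x; simp [latM, Matrix.diagonal_apply]
    simp only [h1, h2]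
    rw [Finset.mul_sum, Finset.sum_div]
    simp only [ite_mul, zero_mul, Finset.sum_ite_eq, Finset.mem_univ, if_true]
    congr 1
    exact Finset.sum_congr rfl (fun x _ => by ring)

end L4a

open L4a in
theorem prf_L4a : S_L4a := by
  intro m r b P _ a A ψ v
  -- integer lifts of the residues
  let Ψ : Fin b → Fin (m + r) → ℤ := fun j =>
    Fin.append (fun i : Fin m => ((ψ j i).val : ℤ)) (fun l : Fin r => ((v l j).val : ℤ))
  refine ⟨latM A (fun j => a j) P Ψ, latM_det _ _ _ _, fun g0 w κ hκ => ?_⟩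
  have hP0 : (P : ℝ) ≠ 0 := Nat.cast_ne_zero.2 (NeZero.ne P)
  have hdvd : ∀ j, ((P : ℕ) : ℤ) ∣ κ j - (∑ i, ((ψ j i).val : ℤ) * g0 i +
      ∑ l, ((v l j).val : ℤ) * w l) := by
    intro j
    rw [← ZMod.intCast_zmod_eq_zero_iff_dvd]
    push_cast
    rw [hκ j]
    simp
  choose q hq using hdvd
  refine ⟨Fin.append (Fin.append g0 w) q, ?_⟩
  have hcast : (fun i => ((Fin.append (Fin.append g0 w) q i : ℤ) : ℝ)) =
      Fin.append (Fin.append (fun k => (g0 k : ℝ)) (fun l => (w l : ℝ)))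
        (fun j => (q j : ℝ)) := by
    funext l
    refine Fin.addCases (fun i => ?_) (fun j => ?_) l
    · refine Fin.addCases (fun i => ?_) (fun j => ?_) i <;> simp
    · simp
  rw [hcast, latM_mulVec]
  congr 1
  funext j
  have hsum : ∑ i, (Ψ j i : ℝ) * (Fin.append (fun k => (g0 k : ℝ)) (fun l => (w l : ℝ)) i : ℝ) =
      ∑ i, ((ψ j i).val : ℝ) * (g0 i : ℝ) + ∑ l, ((v l j).val : ℝ) * (w l : ℝ) := by
    rw [Fin.sum_univ_add]
    simp only [Ψ, Fin.append_left, Fin.append_right, Int.cast_natCast]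
  rw [hsum]
  have h1 : ((κ j : ℤ) : ℝ) - (∑ i, ((ψ j i).val : ℝ) * (g0 i : ℝ) +
      ∑ l, ((v l j).val : ℝ) * (w l : ℝ)) = P * q j := by
    exact_mod_cast congrArg (Int.cast : ℤ → ℝ) (hq j)
  have h2 : (κ j : ℝ) = ∑ i, ((ψ j i).val : ℝ) * (g0 i : ℝ) +
      ∑ l, ((v l j).val : ℝ) * (w l : ℝ) + P * q j := by linarith
  rw [h2]
  field_simp

end Crest.Agent.R225
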