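import Crest.Agent.R225.LargeIface2
import Crest.Agent.R225.EndA

/-!
# Row 225 (S0347): node `L4b` (rounding with a triangular direction system)
-/

set_option autoImplicit false

open Finset MeasureTheory
open scoped BigOperators ENNReal

namespace Crest.Agent.R225

namespace L4bN

lemma append_split {m r : ℕ} (z : Fin (m + r) → ℝ) :
    z = Fin.append (fun k : Fin m => z (Fin.castAdd r k)) (fun l : Fin r => z (Fin.natAdd m l)) := by
  funext i
  refine Fin.addCases (fun k => ?_) (fun l => ?_) i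
  · rw [Fin.append_left]
  · rw [Fin.append_right]

end L4bN

open L4bN in
theorem prf_L4b : S_L4b := by
  intro n m r b P _ a t A ρ D hn hA ha hρ hD x
  have hn' : (2 : ℝ) ≤ n := by exact_mod_cast hn
  have hM : (0 : ℝ) < 2 * (n : ℝ) ^ 2 := by positivity
  have hMn : 0 < 2 * n ^ 2 := by positivity
  choose vv hvv using hD.gy
  set z : Fin (m + r) → ℝ := A⁻¹.mulVec (fun i => x (Fin.castAdd b i) - t i) with hz
  have hAz : A.mulVec z = fun i => x (Fin.castAdd b i) - t i := by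
    rw [hz, Matrix.mulVec_mulVec, Matrix.mul_nonsing_inv _ (Ne.isUnit hA), Matrix.one_mulVec]
  -- slice coordinates
  set q : Fin r → ℤ := fun l => ⌊2 * (n : ℝ) ^ 2 * z (Fin.natAdd m l)⌋ with hq
  set w0 : Fin r → ℤ := fun l => q l / ((2 * n ^ 2 : ℕ) : ℤ) with hw0
  have hMz : (0 : ℤ) < ((2 * n ^ 2 : ℕ) : ℤ) := by exact_mod_cast hMn
  have hmod0 : ∀ l, 0 ≤ q l % ((2 * n ^ 2 : ℕ) : ℤ) := fun l => Int.emod_nonneg _ hMz.ne'
  have hmod1 : ∀ l, q l % ((2 * n ^ 2 : ℕ) : ℤ) < ((2 * n ^ 2 : ℕ) : ℤ) := fun l =>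
    Int.emod_lt_of_pos _ hMz
  set τ : Fin r → Fin (2 * n ^ 2) := fun l => ⟨(q l % ((2 * n ^ 2 : ℕ) : ℤ)).toNat, by
    have h0 := hmod0 l
    have h1 := hmod1 l
    omega⟩ with hτ
  have hτc : ∀ l, (((τ l : ℕ) : ℝ)) = ((q l % ((2 * n ^ 2 : ℕ) : ℤ) : ℤ) : ℝ) := by
    intro l
    have h0 := hmod0 l
    have : (((τ l : ℕ) : ℤ)) = q l % ((2 * n ^ 2 : ℕ) : ℤ) := by
      simp only [hτ]
      exact Int.toNat_of_nonneg h0
    rw [← this]
    push_cast
    rfl
  have hqe : ∀ l, (q l : ℝ) = 2 * (n : ℝ) ^ 2 * (w0 l : ℝ) + ((τ l : ℕ) : ℝ) := by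
    intro l
    have h := Int.mul_ediv_add_emod (q l) ((2 * n ^ 2 : ℕ) : ℤ)
    rw [hτc]
    have h2 : ((((2 * n ^ 2 : ℕ) : ℤ) * (q l / ((2 * n ^ 2 : ℕ) : ℤ)) +
      q l % ((2 * n ^ 2 : ℕ) : ℤ) : ℤ) : ℝ) = (q l : ℝ) := by rw [h]
    rw [← h2]
    simp only [hw0]
    push_cast
    ring
  set sy : Fin r → ℝ := fun l => z (Fin.natAdd m l) - (q l : ℝ) / (2 * (n : ℝ) ^ 2) with hsy
  have hsy0 : ∀ l, 0 ≤ sy l := by
    intro l
    simp only [hsy, sub_nonneg]
    rw [div_le_iff₀ hM]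
    have := Int.floor_le (2 * (n : ℝ) ^ 2 * z (Fin.natAdd m l))
    simp only [hq]
    linarith
  have hsy1 : ∀ l, sy l ≤ 1 / (2 * (n : ℝ) ^ 2) := by
    intro l
    simp only [hsy]
    have := Int.lt_floor_add_one (2 * (n : ℝ) ^ 2 * z (Fin.natAdd m l))
    rw [sub_le_iff_le_add, ← add_div, le_div_iff₀ hM]
    simp only [hq]
    linarith
  have hzy : ∀ l, z (Fin.natAdd m l) - sy l = (w0 l : ℝ) + ((τ l : ℕ) : ℝ) / (2 * (n : ℝ) ^ 2) := by
    intro l
    simp only [hsy]
    rw [hqe]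
    field_simp
    ring
  -- grid coordinates
  set zg : Fin m → ℝ := fun k => z (Fin.castAdd r k) - ∑ l, sy l * vv l k with hzg
  set g0 : Pt m := fun k => ⌊zg k⌋ with hg0
  set sx : Fin m → ℝ := fun k => (zg k - (g0 k : ℝ)) / (n : ℝ) ^ 4 with hsx
  have hn4 : (0 : ℝ) < (n : ℝ) ^ 4 := by positivity
  have hsx0 : ∀ k, 0 ≤ sx k := fun k => div_nonneg (by
    have := Int.floor_le (zg k); simp only [hg0]; linarith) hn4.le
  have hsx1 : ∀ k, sx k ≤ 1 / (2 * (n : ℝ) ^ 2) := by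
    intro k
    simp only [hsx]
    rw [div_le_div_iff₀ hn4 hM]
    have h1 := Int.lt_floor_add_one (zg k)
    have h2 : zg k - (g0 k : ℝ) ≤ 1 := by simp only [hg0]; linarith
    have h4 : (4 : ℝ) ≤ (n : ℝ) ^ 2 := by nlinarith
    have h3 : 2 * (n : ℝ) ^ 2 ≤ (n : ℝ) ^ 4 := by
      have : (n : ℝ) ^ 4 = (n : ℝ) ^ 2 * (n : ℝ) ^ 2 := by ring
      rw [this]
      nlinarith
    nlinarith
  -- fibres
  obtain ⟨T, hTc, hT⟩ := tri_classes P (1 / (2 * (n : ℝ) ^ 2)) b (fun j => a j)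
    (fun j i => D (Sum.inr (Sum.inr j)) (Fin.natAdd (m + r) i)) ρ (fun j => ha j)
    (fun j i hij => (hD.gf j).2.1 i hij) (fun j => (hD.gf j).2.2.1) hρ
    (fun j => (hD.gf j).2.2.2)
    (fun i => x (Fin.natAdd (m + r) i) - ∑ k, sx k * D (Sum.inl k) (Fin.natAdd (m + r) i) -
      ∑ l, sy l * D (Sum.inr (Sum.inl l)) (Fin.natAdd (m + r) i))
  refine ⟨τ, w0, g0, T, hTc, fun c hc => ?_⟩
  obtain ⟨κ, hκ, sf, hsf, he⟩ := hT c hc
  refine ⟨κ, hκ, Sum.elim sx (Sum.elim sy sf), ?_, ?_⟩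
  · rintro (k | l | j)
    · simp only [Sum.elim_inl]
      rw [abs_of_nonneg (hsx0 k)]
      exact hsx1 k
    · simp only [Sum.elim_inr, Sum.elim_inl]
      rw [abs_of_nonneg (hsy0 l)]
      exact hsy1 l
    · simp only [Sum.elim_inr]
      rw [abs_of_nonneg (hsf j).1]
      exact (hsf j).2
  · funext i
    rw [Fintype.sum_sum_type, Fintype.sum_sum_type]
    simp only [Pi.sub_apply, Pi.add_apply, Finset.sum_apply, Pi.smul_apply, smul_eq_mul,
      Sum.elim_inl, Sum.elim_inr]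
    refine Fin.addCases (fun i => ?_) (fun i => ?_) i
    · rw [Fin.append_left]
      simp only [hD.gx, hvv, (hD.gf _).1, mul_zero, Finset.sum_const_zero, add_zero]
      have hbp : bp t A g0 (fun l => (w0 l : ℝ) + ((τ l : ℕ) : ℝ) / (2 * (n : ℝ) ^ 2)) i =
          t i + A.mulVec (Fin.append (fun k => (g0 k : ℝ))
            (fun l => (w0 l : ℝ) + ((τ l : ℕ) : ℝ) / (2 * (n : ℝ) ^ 2))) i := by
        simp [bp]
      rw [hbp]
      have hdec : Fin.append (fun k => (g0 k : ℝ))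
            (fun l => (w0 l : ℝ) + ((τ l : ℕ) : ℝ) / (2 * (n : ℝ) ^ 2)) =
          z - ∑ k, sx k • (Fin.append (Pi.single k ((n : ℝ) ^ 4)) 0 : Fin (m + r) → ℝ) -
            ∑ l, sy l • (Fin.append (vv l) (Pi.single l 1) : Fin (m + r) → ℝ) := by
        funext i
        simp only [Pi.sub_apply, Finset.sum_apply, Pi.smul_apply, smul_eq_mul]
        refine Fin.addCases (fun k => ?_) (fun l => ?_) i
        · simp only [Fin.append_left]
          rw [Finset.sum_eq_single k]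
          · rw [Pi.single_eq_same]
            simp only [hsx]
            rw [div_mul_cancel₀ _ hn4.ne']
            simp only [hzg]
            ring
          · intro k' _ hk'
            rw [Pi.single_eq_of_ne (Ne.symm hk')]
            simp
          · intro h; exact absurd (Finset.mem_univ _) h
        · simp only [Fin.append_right]
          rw [← hzy]
          rw [Finset.sum_eq_zero (fun k _ => by simp)]
          rw [Finset.sum_eq_single l]
          · rw [Pi.single_eq_same]; ring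
          · intro k' _ hk'
            rw [Pi.single_eq_of_ne (Ne.symm hk')]
            simp
          · intro h; exact absurd (Finset.mem_univ _) h
      rw [hdec, Matrix.mulVec_sub, Matrix.mulVec_sub, hAz, Matrix.mulVec_sum, Matrix.mulVec_sum]
      simp only [Matrix.mulVec_smul, Pi.sub_apply, Finset.sum_apply, Pi.smul_apply, smul_eq_mul]
      ring
    · rw [Fin.append_right]
      have := he i
      rw [← this]
      ring

end Crest.Agent.R225
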