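import Crest.Agent.R225.LargeIface2

/-! Row 225: node L4c (covering step), from L4a and L4b. -/

set_option autoImplicit false

open Finset MeasureTheory
open scoped BigOperators ENNReal

namespace Crest.Agent.R225

theorem append_sub_append {p q : ℕ} (u u' : Fin p → ℝ) (v v' : Fin q → ℝ) :
    Fin.append u v - Fin.append u' v' = Fin.append (u - u') (v - v') := by
  ext i
  refine Fin.addCases (fun i => ?_) (fun i => ?_) i <;> simp

theorem prf_L4c (h4a : S_L4a) (h4b : S_L4b) : S_L4c := by
  classical
  intro n m r b P _ a t A ρ D K ψ v hn hA ha hρ hD hbad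
  obtain ⟨g, hdet, hg⟩ := h4a m r b P a A ψ (fun l j => -v l j)
  refine ⟨g, hdet, fun x => ?_⟩
  by_contra hcon
  push Not at hcon
  obtain ⟨τ, w0, g0, T, hT, hTc⟩ := h4b n m r b P a t A ρ D hn hA ha hρ hD x
  -- the translation of classes
  set φ : (Fin b → ZMod P) → (Fin b → ZMod P) := fun c j =>
    c j - ∑ i, ψ j i * ((g0 i : ℤ) : ZMod P) + ∑ l, v l j * ((w0 l : ℤ) : ZMod P) with hφ
  have hinj : Function.Injective φ := by
    intro c c' h
    ext j
    have := congrFun h j
    simp only [hφ] at this
    linear_combination this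
  have hsub : T.image φ ⊆ (univ : Finset (Fin b → ZMod P)).filter fun c =>
      ∀ J : Finset (Fin r), ¬ HitR P a t A K ψ
        (fun l => ((τ l : ℕ) : ℝ) / (2 * (n : ℝ) ^ 2) + if l ∈ J then 1 else 0)
        (c - ∑ i ∈ J, v i) := by
    intro c' hc'
    obtain ⟨c, hc, rfl⟩ := mem_image.1 hc'
    rw [mem_filter]
    refine ⟨mem_univ _, fun J hhit => ?_⟩
    obtain ⟨κ, hκ, s, hs, hx⟩ := hTc c hc
    obtain ⟨g', k, hk, hkK⟩ := hhit
    obtain ⟨z, hz⟩ := hg (fun i => g0 i - g' i) (fun l => w0 l - if l ∈ J then 1 else 0)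
      (fun j => κ j - k j) (by
        intro j
        push_cast
        rw [hκ j, hk j]
        simp only [hφ, Pi.sub_apply, Finset.sum_apply, mul_sub, Finset.sum_sub_distrib, neg_mul,
          Finset.sum_neg_distrib]
        have h1 : ∑ l, v l j * (if l ∈ J then (1 : ZMod P) else 0) = ∑ i ∈ J, v i j := by
          simp only [mul_ite, mul_one, mul_zero]
          rw [← Finset.sum_filter]
          congr 1
          ext l; simp
        have h2 : ∀ l, (((if l ∈ J then (1:ℤ) else 0 : ℤ)) : ZMod P) =
            (if l ∈ J then (1 : ZMod P) else 0) := by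
          intro l; split_ifs <;> simp
        simp only [h1]
        ring)
    refine hcon z _ hkK s hs ?_
    have h3 : x = Fin.append (bp t A g0 (fun l => (w0 l : ℝ) + ((τ l : ℕ) : ℝ) / (2 * (n : ℝ) ^ 2)))
            (fun j : Fin b => a j * κ j / P) + ∑ i, s i • D i := by
      rw [← hx]; abel
    rw [hz, h3, add_sub_right_comm, append_sub_append]
    congr 1
    congr 1
    · simp only [bp]
      rw [add_sub_assoc, ← Matrix.mulVec_sub, append_sub_append]
      congr 3
      · ext i; simp
      · ext l
        simp only [Pi.sub_apply]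
        push_cast
        ring
    · ext j
      simp only [Pi.sub_apply]
      push_cast
      ring
  have h5 := card_le_card hsub
  rw [card_image_of_injective _ hinj] at h5
  exact absurd ((hT.trans h5).trans_lt (hbad τ)) (lt_irrefl _)

end Crest.Agent.R225
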