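import Crest.Agent.R225.LargeIface

/-!
# Row 225 (S0347): node `L7` (one slice: Disc + PMain + Chain + SliceData)
-/

set_option autoImplicit false

open Finset MeasureTheory
open scoped BigOperators ENNReal

namespace Crest.Agent.R225

open scoped Classical in
theorem prf_L7 (hL1 : S_L1) : S_L7 := by
  intro hDisc hP c1 Crat hc1 hc1' hCrat
  obtain ⟨X0, hX0⟩ := hP c1 Crat hc1 hc1' hCrat
  refine ⟨X0, fun X hX => ?_⟩
  obtain ⟨n0, hn0⟩ := hX0 X hX
  refine ⟨n0, fun n hn m r I h1 h2 h3 h4 α0 Cr K a U t A G hα0 hch hs y hy => ?_⟩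
  obtain ⟨P0, hP0⟩ := hn0 n hn m I h1 h2 h3 h4 (G y)
  refine ⟨P0, fun P hPP hPr => ?_⟩
  have hne : NeZero P := ⟨hPr.out.ne_zero⟩
  choose w hw0 hwdead hwrng hwmart hwtv hwend using
    fun g : Pt m => hDisc X (m + r) I α0 K a U hα0 hch P (bp t A g y)
  have hfin : ∀ x, U 0 x ≠ ∞ := by
    intro x
    rcases hch.rng 0 (by omega) x with h | ⟨_, h⟩
    · rw [h]; exact ENNReal.zero_ne_top
    · exact ne_top_of_le_ne_top ENNReal.ofReal_ne_top h
  have hB : BaseCtx P n m I X c1 Crat α0 (G y) w := by
    refine ⟨hs.grid y hy, hα0, ⟨?_, ?_, ?_, ?_⟩, ?_, ?_, ?_⟩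
    · intro g l ξ h
      exact hwdead g l ξ h
    · intro g l hl
      exact hwrng g l hl
    · intro g l hl
      exact hwmart g l hl
    · intro g l hl
      exact hwtv g l hl
    · intro g hg
      rw [hw0]
      exact ENNReal.toReal_pos ((hs.mem y hy g).1 hg) (hfin _)
    · have := hs.lower y hy
      simp only [hw0]
      exact this
    · have := hs.upper y hy
      simp only [hw0]
      rw [mul_assoc]
      exact this
  have hmain := hP0 P hPP α0 w hB
  rw [hL1] at hmain
  refine le_trans ?_ hmain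
  refine Finset.expect_le_expect fun ρ _ => ?_
  by_cases hemp : alive w (G y) (List.ofFn ρ).reverse = ∅
  · rw [if_pos hemp]
    split_ifs <;> norm_num
  · rw [if_neg hemp]
    obtain ⟨g, hg⟩ := Finset.nonempty_iff_ne_empty.2 hemp
    have hg' : 0 < wt w (List.ofFn ρ).reverse g := (Finset.mem_filter.1 hg).2
    have hlen : (hist (List.ofFn ρ).reverse g).length = I + 1 := by
      simp [hist]
    obtain ⟨k, hk, hkK⟩ := hwend g (hist (List.ofFn ρ).reverse g) hlen hg'.ne'
    have hhit : HitR P a t A K (fun j => (ρ j).2) y (fun j => (ρ j).1) := by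
      refine ⟨g, k, ?_, hkK⟩
      have e1 : (hist (List.ofFn ρ).reverse g).reverse = List.ofFn (fun j => res (ρ j) g) := by
        unfold hist
        rw [List.map_reverse, List.reverse_reverse, List.map_ofFn]
        rfl
      rw [e1] at hk
      have hk' := List.ofFn_injective hk
      intro j
      have := congrFun hk' j
      simp only [res] at this
      exact this.symm
    rw [if_neg (not_not.2 hhit)]

end Crest.Agent.R225
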