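import Crest.Agent.R225.LargeX

/-! Row 225: node Large. -/

set_option autoImplicit false

open Finset MeasureTheory
open scoped BigOperators ENNReal

namespace Crest.Agent.R225

/-- from covering by `K + E` to covering by `K`. -/
theorem covers_of_expand {N n : ℕ} (hNn : N = n) (hn : 1 ≤ n) {K : Set (Fin N → ℝ)}
    (hK : Convex ℝ K)
    {ι : Type*} [Fintype ι] (u v : ι → Fin N → ℝ) (hu : ∀ i, u i ∈ K) (hv : ∀ i, v i ∈ K)
    (hcard : Fintype.card ι = n) (g : Matrix (Fin N) (Fin N) ℝ)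
    (hg : ∀ x : Fin N → ℝ, ∃ z : Fin N → ℤ, ∃ k ∈ K, ∃ s : ι → ℝ,
      (∀ i, |s i| ≤ 1 / (2 * (n : ℝ) ^ 2)) ∧
        x - g.mulVec (fun i => (z i : ℝ)) = k + ∑ i, s i • (v i - u i)) :
    ∃ g' : Matrix (Fin N) (Fin N) ℝ, g'.det = (1 + 1 / (n:ℝ))⁻¹ ^ n * g.det ∧ Covers g' K := by
  have hn' : (1:ℝ) ≤ n := by exact_mod_cast hn
  have hn0 : (0:ℝ) < n := by linarith
  have hc : (0:ℝ) < 1 + 1 / n := by positivity
  refine ⟨(1 + 1 / (n:ℝ))⁻¹ • g, by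
    rw [Matrix.det_smul, Fintype.card_fin]
    exact congrArg (fun k => (1 + 1 / (n:ℝ))⁻¹ ^ k * g.det) hNn, fun x => ?_⟩
  set p : Fin N → ℝ := (1 / (2 * (n:ℝ))) • ∑ i, (v i + u i) with hp
  obtain ⟨z, k, hk, s, hs, hx⟩ := hg ((1 + 1 / (n:ℝ)) • x - (1 / (n:ℝ)) • p)
  obtain ⟨k', hk', hkk⟩ := expand_mem hK v u hv hu (n:ℝ) hn' (by exact_mod_cast hcard) s hs k hk
  refine ⟨z, ?_⟩
  rw [hkk] at hx
  have h1 : x - ((1 + 1 / (n:ℝ))⁻¹ • g).mulVec (fun i => (z i : ℝ)) = k' := by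
    have h2 : (1 + 1 / (n:ℝ)) • x - g.mulVec (fun i => (z i : ℝ)) = (1 + 1 / (n:ℝ)) • k' := by
      have h3 : (1 + 1 / (n:ℝ)) • x - g.mulVec (fun i => (z i : ℝ)) =
          ((1 + 1 / (n:ℝ)) • x - (1 / (n:ℝ)) • p - g.mulVec (fun i => (z i : ℝ))) +
            (1 / (n:ℝ)) • p := by abel
      rw [h3, hx]; abel
    have h4 : (1 + 1 / (n:ℝ))⁻¹ • ((1 + 1 / (n:ℝ)) • x - g.mulVec (fun i => (z i : ℝ))) = k' := by
      rw [h2, smul_smul, inv_mul_cancel₀ hc.ne', one_smul]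
    rw [smul_sub, smul_smul, inv_mul_cancel₀ hc.ne', one_smul] at h4
    rw [Matrix.smul_mulVec]
    exact h4
  rw [h1]; exact hk'

open scoped Classical in
theorem large_core (hAmp : S_Amp) (hL2 : S_L2) (hL4c : S_L4c) (hL6 : S_L6)
    {c1 X Crat Cr : ℝ} (hCr : 1 ≤ Cr) {n m r I : ℕ} (hmn : (m + r) + (I + 1) = n) (hn2 : 2 ≤ n)
    (hG : ∀ (U0 : (Fin (m + r) → ℝ) → ℝ≥0∞) (τ0 α0 D : ℝ), LC U0 → Measurable U0 → BddSupp U0 →
      0 < τ0 → τ0 ≤ 1 → Real.exp (-(m : ℝ)) ≤ τ0 → 0 < α0 → Vals α0 τ0 U0 → ∫⁻ x, U0 x ≠ 0 →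
      0 < D → (n : ℝ) ^ (10 * m) * α0 ≤ D → D ≤ (n : ℝ) ^ (12 * m) * α0 →
      ∃ (t : Fin (m + r) → ℝ) (A : Matrix (Fin (m + r)) (Fin (m + r)) ℝ)
        (G : (Fin r → ℝ) → Finset (Pt m)), SliceData n m r c1 D Crat Cr U0 t A G)
    (hGeom : ∀ (d I : ℕ) (α0 : ℝ) (K : Set (Fin (d + (I + 1)) → ℝ)),
      0 < α0 → α0 * Real.exp (theta * xl X I) ≤ al X I → IsCompact K → Convex ℝ K →
      volume K ≠ 0 → ∃ a U, Chain X d I α0 K a U)
    (h7 : ∀ (α0 Cr : ℝ) (K : Set (Fin ((m + r) + (I + 1)) → ℝ)) (a : ℕ → ℝ)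
      (U : ∀ j : ℕ, (Fin ((m + r) + j) → ℝ) → ℝ≥0∞)
      (t : Fin (m + r) → ℝ) (A : Matrix (Fin (m + r)) (Fin (m + r)) ℝ)
      (G : (Fin r → ℝ) → Finset (Pt m)), 0 < α0 → Chain X (m + r) I α0 K a U →
      SliceData n m r c1 (Dn X n) Crat Cr (U 0) t A G →
      ∀ y : Fin r → ℝ, (∀ l, 0 ≤ y l ∧ y l ≤ 2) → ∃ P0 : ℕ, ∀ P ≥ P0, ∀ [Fact P.Prime],
        𝔼 ρ : Fin (I + 1) → Row P m,
          (if ¬ HitR P a t A K (fun j => (ρ j).2) y (fun j => (ρ j).1) then (1 : ℝ) else 0)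
          ≤ Real.exp (-(c1 / 200000 * NN n)))
    (hNN : 0 < NN n) (ha0 : 0 < a0 X n m)
    (ha0' : a0 X n m * Real.exp (theta * xl X I) ≤ al X I)
    (htau0 : 0 < tau X (I + 1)) (htau1 : tau X (I + 1) ≤ 1)
    (htau2 : Real.exp (-(m : ℝ)) ≤ tau X (I + 1))
    (hD1 : (n : ℝ) ^ (10 * m) * a0 X n m ≤ Dn X n) (hD2 : Dn X n ≤ (n : ℝ) ^ (12 * m) * a0 X n m)
    (P3 : ℕ) (hP3 : ∀ P ≥ P3, ∃ ρ : Fin (I + 1) → ℕ, (∀ j, ρ j ≤ P) ∧
      (∀ j : Fin (I + 1), 8 * (n : ℝ) ^ 2 * Qf X (a0 X n m) I j * ρ j ≤ P) ∧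
      (((2 ^ r * (2 * n ^ 2) ^ r + 1 : ℕ) : ℝ) *
        (((4 * n ^ 2 + 1) ^ r : ℕ) * Real.exp (-(c1 / 200000 * NN n)))) ^ (2 ^ r) *
          (P : ℝ) ^ (I + 1) < ∏ j, (ρ j : ℝ))
    (K : Set (Fin ((m + r) + (I + 1)) → ℝ)) (hK : IsCompact K) (hc : Convex ℝ K)
    (hi : (interior K).Nonempty) :
    ∃ g : Matrix (Fin ((m + r) + (I + 1))) (Fin ((m + r) + (I + 1))) ℝ, g.det ≠ 0 ∧ Covers g K ∧
      (volume K).toReal / |g.det| ≤ Real.exp 1 * (2 * (Cr * Real.exp X)) * NN n := by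
  classical
  have hKvol : volume K ≠ 0 := by
    have h1 : 0 < volume (interior K) := isOpen_interior.measure_pos volume hi
    exact (h1.trans_le (measure_mono interior_subset)).ne'
  obtain ⟨a, U, hch⟩ := hGeom (m + r) I (a0 X n m) K ha0 ha0' hK hc hKvol
  have half0 : alf X (a0 X n m) I 0 = a0 X n m := if_pos rfl
  have htauf0 : tauf X I 0 = tau X (I + 1) := by simp [tauf]
  have hU0int : ∫⁻ x, U 0 x ≠ 0 := by
    intro h0
    have := hch.mass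
    rw [h0, mul_zero] at this
    exact hKvol (le_antisymm this bot_le)
  have hDpos : 0 < Dn X n := mul_pos (Real.exp_pos _) hNN
  obtain ⟨t, A, G, hS⟩ := hG (U 0) (tauf X I 0) (a0 X n m) (Dn X n)
    (hch.lc 0 (by omega)) (hch.meas 0 (by omega)) (hch.bdd 0 (by omega))
    (by rw [htauf0]; exact htau0) (by rw [htauf0]; exact htau1) (by rw [htauf0]; exact htau2)
    ha0 (by have := hch.rng 0 (by omega); rwa [half0] at this) hU0int hDpos hD1 hD2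
  -- the primes
  have hP7 : ∀ k : Fin r → Fin (4 * n ^ 2 + 1), ∃ P0 : ℕ, ∀ P ≥ P0, ∀ [Fact P.Prime],
      𝔼 ρ : Fin (I + 1) → Row P m,
        (if ¬ HitR P a t A K (fun j => (ρ j).2) (fun l => ((k l : ℕ) : ℝ) / (2 * (n : ℝ) ^ 2))
          (fun j => (ρ j).1) then (1 : ℝ) else 0)
        ≤ Real.exp (-(c1 / 200000 * NN n)) := by
    intro k
    obtain ⟨P0, hP0⟩ := h7 (a0 X n m) Cr K a U t A G ha0 hch hS
      (fun l => ((k l : ℕ) : ℝ) / (2 * (n : ℝ) ^ 2)) (fun l => ⟨by positivity, by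
        have hn0 : (0:ℝ) < n := by positivity
        rw [div_le_iff₀ (by positivity)]
        have h1 : (k l : ℕ) ≤ 4 * n ^ 2 := Nat.lt_succ_iff.1 (k l).2
        have h2 : ((k l : ℕ) : ℝ) ≤ 4 * (n:ℝ) ^ 2 := by exact_mod_cast h1
        linarith⟩)
    refine ⟨P0, fun P hP hpr => ?_⟩
    convert hP0 P hP
  choose P7 hP7 using hP7
  obtain ⟨P, hPge, hPprime⟩ := Nat.exists_infinite_primes (max P3 (∑ k, P7 k))
  have : Fact P.Prime := ⟨hPprime⟩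
  have : NeZero P := ⟨hPprime.ne_zero⟩
  obtain ⟨ρ, hρP, hρ, hlast⟩ := hP3 P ((le_max_left _ _).trans hPge)
  have hn0 : 0 < n := by omega
  obtain ⟨u, v, hu, hv, hDirs⟩ := dirs_of_chain hL6 ha0 hn0 hch hS P ρ hρ
  obtain ⟨ψ, vv, hbad⟩ := exists_shifts hAmp hL2 (a := a) (t := t) (A := A) (K := K) (b := I + 1)
    (n := n) (P := P) (m := m) (r := r)
    (Real.exp (-(c1 / 200000 * NN n))) (Real.exp_pos _).le hn0
    (fun k => by
      have h1 : P7 k ≤ P := (Finset.single_le_sum (f := P7) (fun _ _ => Nat.zero_le _)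
        (mem_univ k)).trans ((le_max_right _ _).trans hPge)
      convert hP7 k P h1) (∏ j, (ρ j : ℝ)) hlast
  obtain ⟨g, hdet, hg⟩ := hL4c n m r (I + 1) P a t A ρ (fun i => v i - u i) K ψ vv hn2 hS.det
    hch.pos hρP hDirs (fun τ => by
      have h1 := hbad τ
      rw [← Nat.cast_prod] at h1
      have h2 := Nat.cast_lt.1 h1
      convert h2)
  obtain ⟨g', hdet', hcov⟩ := covers_of_expand hmn (by omega) hc u v hu hv
    (by simp; omega) g hg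
  have hApos : 0 < |A.det| := abs_pos.2 hS.det
  have haprod : 0 < ∏ j : Fin (I + 1), a j := Finset.prod_pos fun j _ => hch.pos j
  have hnr : (0:ℝ) < n := by exact_mod_cast hn0
  have hcpos : (0:ℝ) < (1 + 1 / (n:ℝ))⁻¹ ^ n := by positivity
  have hgdet : |g'.det| = (1 + 1 / (n:ℝ))⁻¹ ^ n * (|A.det| * ∏ j : Fin (I + 1), a j) := by
    rw [hdet', hdet, abs_mul, abs_mul, abs_of_pos hcpos, abs_of_pos haprod]
  have hg'pos : 0 < |g'.det| := by rw [hgdet]; positivity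
  refine ⟨g', abs_pos.1 hg'pos, hcov, ?_⟩
  -- density
  have hvol : (volume K).toReal ≤ 2 * (∏ j : Fin (I + 1), a j) * (Cr * Dn X n * |A.det|) := by
    refine ENNReal.toReal_le_of_le_ofReal (by positivity) ?_
    have h1 : ∏ j ∈ range (I + 1), a j = ∏ j : Fin (I + 1), a j := Finset.prod_range _
    calc volume K ≤ 2 * ENNReal.ofReal (∏ j ∈ range (I + 1), a j) * ∫⁻ x, U 0 x := hch.mass
      _ ≤ 2 * ENNReal.ofReal (∏ j ∈ range (I + 1), a j) *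
          ENNReal.ofReal (Cr * Dn X n * |A.det|) := by gcongr; exact hS.mass
      _ = _ := by
          rw [h1, ENNReal.ofReal_mul (by positivity : (0:ℝ) ≤ 2 * ∏ j : Fin (I + 1), a j),
            ENNReal.ofReal_mul (by norm_num : (0:ℝ) ≤ 2)]
          congr 2
          norm_num
  have hexp : (1 + 1 / (n:ℝ)) ^ n ≤ Real.exp 1 := by
    have h1 : 1 + 1 / (n:ℝ) ≤ Real.exp (1 / n) := by
      have := Real.add_one_le_exp (1 / (n:ℝ)); linarith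
    calc (1 + 1 / (n:ℝ)) ^ n ≤ Real.exp (1 / n) ^ n := pow_le_pow_left₀ (by positivity) h1 n
      _ = Real.exp 1 := by
          rw [← Real.exp_nat_mul]; congr 1; field_simp
  rw [div_le_iff₀ hg'pos, hgdet]
  have h5 : Real.exp 1 * (2 * (Cr * Real.exp X)) * NN n *
      ((1 + 1 / (n:ℝ))⁻¹ ^ n * (|A.det| * ∏ j : Fin (I + 1), a j)) =
      (Real.exp 1 * (1 + 1 / (n:ℝ))⁻¹ ^ n) *
        (2 * (∏ j : Fin (I + 1), a j) * (Cr * Dn X n * |A.det|)) := by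
    simp only [Dn]; ring
  rw [h5]
  have h6 : 1 ≤ Real.exp 1 * (1 + 1 / (n:ℝ))⁻¹ ^ n := by
    rw [inv_pow, ← div_eq_mul_inv, one_le_div (by positivity)]
    exact hexp
  refine hvol.trans ?_
  have h7 : 0 ≤ 2 * (∏ j : Fin (I + 1), a j) * (Cr * Dn X n * |A.det|) := by positivity
  nlinarith

theorem prf_Large (hGeom : S_Geom) (hDisc : S_Disc) (hGrid : S_Grid) (hPMain : S_PMain)
    (hAmp : S_Amp) (hL2 : S_L2) (hL3 : S_L3) (hL4c : S_L4c) (hL6 : S_L6) (hL7 : S_L7) :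
    S_Large := by
  obtain ⟨c1, hc1, hc1', hGr⟩ := hGrid
  obtain ⟨r, X0, hX0, hL3⟩ := hL3 c1 hc1 hc1'
  obtain ⟨Crat, Cr, hCrat, hCr, nG, hG⟩ := hGr r
  obtain ⟨XG, hGeom⟩ := hGeom
  obtain ⟨X7, h7⟩ := hL7 hDisc hPMain c1 Crat hc1 hc1' hCrat
  obtain ⟨X, hXX0, hXXG, hXX7⟩ : ∃ X : ℝ, X0 ≤ X ∧ XG ≤ X ∧ X7 ≤ X :=
    ⟨max X0 (max XG X7), le_max_left _ _, (le_max_left _ _).trans (le_max_right _ _),
      (le_max_right _ _).trans (le_max_right _ _)⟩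
  obtain ⟨n3, h3⟩ := hL3 X hXX0
  obtain ⟨n7, h7⟩ := h7 X hXX7
  refine ⟨Real.exp 1 * (2 * (Cr * Real.exp X)), max n3 (max n7 (max nG 2)),
    fun n hn K hK hc hi => ?_⟩
  have hn3 : n3 ≤ n := (le_max_left _ _).trans hn
  have hn7 : n7 ≤ n := ((le_max_left _ _).trans (le_max_right _ _)).trans hn
  have hnG : nG ≤ n :=
    ((le_max_left _ _).trans ((le_max_right _ _).trans (le_max_right _ _))).trans hn
  have hn2 : 2 ≤ n :=
    ((le_max_right _ _).trans ((le_max_right _ _).trans (le_max_right _ _))).trans hn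
  obtain ⟨I, m, hmn, hnm, hmn', hx1, hx2, hNN, ha0, ha0', htau0, htau1, htau2, hD1, hD2, P3, hP3⟩ :=
    h3 n hn3
  subst hmn
  exact large_core hAmp hL2 hL4c hL6 hCr rfl hn2 (fun U0 τ0 α0 D => hG _ hnG m hnm hmn' U0 τ0 α0 D)
    (fun d I α0 K => hGeom X hXXG d I α0 K)
    (fun α0 Cr K a U t A G => h7 _ hn7 m r I hx1 hx2 hnm hmn' α0 Cr K a U t A G)
    hNN ha0 ha0' htau0 htau1 htau2 hD1 hD2 P3 hP3 K hK hc hi

end Crest.Agent.R225
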