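import Crest.Agent.R225.Iface

/-!
# Row 225, Large, part A: the lattice matrix and the covering of the points of the net
-/

set_option autoImplicit false

open Finset
open scoped BigOperators

namespace Crest.Agent.R225

namespace Large

/-- the lattice matrix: base block `A`, rows `a_j Ψ_{ji}/P`, diagonal `a_j` -/
noncomputable def latM {d k : ℕ} (A : Matrix (Fin d) (Fin d) ℝ) (a : Fin k → ℝ) (P : ℕ)
    (Ψ : Fin k → Fin d → ℤ) : Matrix (Fin (d + k)) (Fin (d + k)) ℝ :=
  Matrix.reindex finSumFinEquiv finSumFinEquiv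
    (Matrix.fromBlocks A 0 (Matrix.of fun (j : Fin k) (i : Fin d) => a j * (Ψ j i : ℝ) / (P : ℝ))
      (Matrix.diagonal a))

theorem latM_det {d k : ℕ} (A : Matrix (Fin d) (Fin d) ℝ) (a : Fin k → ℝ) (P : ℕ)
    (Ψ : Fin k → Fin d → ℤ) : (latM A a P Ψ).det = A.det * ∏ j, a j := by
  rw [latM, Matrix.det_reindex_self, Matrix.det_fromBlocks_zero₁₂, Matrix.det_diagonal]

theorem latM_mulVec {d k : ℕ} (A : Matrix (Fin d) (Fin d) ℝ) (a : Fin k → ℝ) (P : ℕ)
    (Ψ : Fin k → Fin d → ℤ) (z : Fin d → ℝ) (κ : Fin k → ℝ) :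
    (latM A a P Ψ).mulVec (Fin.append z κ) =
      Fin.append (A.mulVec z) (fun j => a j * (∑ i, (Ψ j i : ℝ) * z i) / P + a j * κ j) := by
  funext l
  refine Fin.addCases (fun i => ?_) (fun j => ?_) l
  · simp only [Matrix.mulVec, dotProduct, Fin.sum_univ_add, Fin.append_left, Fin.append_right]
    have h1 : ∀ x : Fin d, latM A a P Ψ (Fin.castAdd k i) (Fin.castAdd k x) = A i x := by
      intro x; simp [latM]
    have h2 : ∀ x : Fin k, latM A a P Ψ (Fin.castAdd k i) (Fin.natAdd d x) = 0 := by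
      intro x; simp [latM]
    simp [h1, h2]
  · simp only [Matrix.mulVec, dotProduct, Fin.sum_univ_add, Fin.append_left, Fin.append_right]
    have h1 : ∀ x : Fin d, latM A a P Ψ (Fin.natAdd d j) (Fin.castAdd k x)
        = a j * (Ψ j x : ℝ) / (P : ℝ) := by
      intro x; simp [latM]
    have h2 : ∀ x : Fin k, latM A a P Ψ (Fin.natAdd d j) (Fin.natAdd d x)
        = if j = x then a j else 0 := by
      intro x; simp [latM, Matrix.diagonal_apply]
    simp only [h1, h2]
    rw [Finset.mul_sum, Finset.sum_div]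
    simp only [ite_mul, zero_mul, Finset.sum_ite_eq, Finset.mem_univ, if_true]
    congr 1
    exact Finset.sum_congr rfl (fun x _ => by ring)

/-- covering of a point of the net: `y` slice, `J` the shift, `g` the grid point -/
theorem cover_point {m r k : ℕ} (t : Fin (m + r) → ℝ) (A : Matrix (Fin (m + r)) (Fin (m + r)) ℝ) (a : Fin k → ℝ)
    (P : ℕ) [NeZero P] (Ψ : Fin k → Fin (m + r) → ℤ) (K : Set (Fin (m + r + k) → ℝ))
    (y : Fin r → ℝ) (J : Finset (Fin r)) (g : Pt m) (c κ : Fin k → ℤ)
    (hmod : ∀ j, (κ j : ZMod P) = (c j : ZMod P)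
      + ∑ i : Fin m, (Ψ j (Fin.castAdd r i) : ZMod P) * (g i : ZMod P)
      + ∑ i ∈ J, (Ψ j (Fin.natAdd m i) : ZMod P))
    (hK : Fin.append (bp t A g (fun l => y l + if l ∈ J then 1 else 0))
      (fun j => a j * κ j / P) ∈ K) :
    ∃ z : Fin (m + r + k) → ℤ,
      Fin.append (bp t A 0 y) (fun j => a j * c j / P) - (latM A a P Ψ).mulVec (fun i => (z i : ℝ))
        ∈ K := by
  classical
  have hP0 : (P : ℝ) ≠ 0 := Nat.cast_ne_zero.2 (NeZero.ne P)
  -- the integer coordinates in the base directions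
  set zb : Fin (m + r) → ℤ := Fin.append (fun i => - g i) (fun i => if i ∈ J then -1 else 0)
    with hzb
  have hdvd : ∀ j, ((P : ℕ) : ℤ) ∣ c j - ∑ i, Ψ j i * zb i - κ j := by
    intro j
    rw [← ZMod.intCast_zmod_eq_zero_iff_dvd]
    have h0 := hmod j
    push_cast
    rw [h0, Fin.sum_univ_add]
    have e1 : ∀ i : Fin m, zb (Fin.castAdd r i) = - g i := fun i => by
      rw [hzb]; exact Fin.append_left _ _ i
    have e2 : ∀ i : Fin r, zb (Fin.natAdd m i) = if i ∈ J then -1 else 0 := fun i => by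
      rw [hzb]; exact Fin.append_right _ _ i
    simp only [e1, e2]
    have e3 : (∑ x : Fin r, (Ψ j (Fin.natAdd m x) : ZMod P) * ((if x ∈ J then (-1 : ℤ) else 0 : ℤ)
        : ZMod P)) = - ∑ i ∈ J, (Ψ j (Fin.natAdd m i) : ZMod P) := by
      rw [← Finset.sum_neg_distrib, ← Finset.sum_filter_add_sum_filter_not univ (· ∈ J)]
      have : (univ : Finset (Fin r)).filter (· ∈ J) = J := by ext x; simp
      rw [this]
      have h2 : ∑ x ∈ univ.filter (fun x => ¬ x ∈ J), (Ψ j (Fin.natAdd m x) : ZMod P) *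
          ((if x ∈ J then (-1 : ℤ) else 0 : ℤ) : ZMod P) = 0 := by
        refine Finset.sum_eq_zero (fun x hx => ?_)
        rw [if_neg (Finset.mem_filter.1 hx).2]; simp
      rw [h2, add_zero]
      refine Finset.sum_congr rfl (fun x hx => ?_)
      rw [if_pos hx]; push_cast; ring
    rw [e3]
    have e4 : (∑ x : Fin m, (Ψ j (Fin.castAdd r x) : ZMod P) * ((- g x : ℤ) : ZMod P))
        = - ∑ x : Fin m, (Ψ j (Fin.castAdd r x) : ZMod P) * (g x : ZMod P) := by
      rw [← Finset.sum_neg_distrib]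
      exact Finset.sum_congr rfl (fun x _ => by push_cast; ring)
    rw [e4]
    ring
  choose q hq using hdvd
  refine ⟨Fin.append zb q, ?_⟩
  have hcast : (fun i => ((Fin.append zb q i : ℤ) : ℝ)) =
      Fin.append (fun i => (zb i : ℝ)) (fun j => (q j : ℝ)) := by
    funext l
    refine Fin.addCases (fun i => ?_) (fun j => ?_) l <;> simp
  rw [hcast, latM_mulVec]
  have hfin : Fin.append (bp t A 0 y) (fun j => a j * (c j : ℝ) / P) -
      Fin.append (A.mulVec fun i => (zb i : ℝ))
        (fun j => a j * (∑ i, (Ψ j i : ℝ) * (zb i : ℝ)) / P + a j * (q j : ℝ)) =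
      Fin.append (bp t A g (fun l => y l + if l ∈ J then 1 else 0))
        (fun j => a j * κ j / P) := by
    funext l
    refine Fin.addCases (fun i => ?_) (fun j => ?_) l
    · simp only [Pi.sub_apply, Fin.append_left]
      have : bp t A g (fun l => y l + if l ∈ J then 1 else 0) =
          bp t A 0 y - A.mulVec (fun i => (zb i : ℝ)) := by
        rw [bp, bp, add_sub_assoc, ← Matrix.mulVec_sub]
        congr 2
        funext l
        refine Fin.addCases (fun i => ?_) (fun j => ?_) l
        · simp [hzb]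
        · simp only [Pi.sub_apply, Fin.append_right, hzb]
          split_ifs <;> simp
      rw [this, Pi.sub_apply]
    · simp only [Pi.sub_apply, Fin.append_right]
      have h1 := hq j
      have h2 : (c j : ℝ) - ∑ i, (Ψ j i : ℝ) * (zb i : ℝ) - κ j = P * q j := by
        exact_mod_cast congrArg (Int.cast : ℤ → ℝ) h1
      have h3 : (κ j : ℝ) = c j - ∑ i, (Ψ j i : ℝ) * (zb i : ℝ) - P * q j := by linarith
      rw [h3]
      field_simp
      ring
  rw [hfin]
  exact hK

end Large

end Crest.Agent.R225
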