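import Crest.Agent.R225.Geo4
import Crest.Agent.R225.Iface

/-!
Row 225 (S0347): node `Row`, one step of the row recursion.
-/

set_option autoImplicit false
set_option linter.unusedSectionVars false

namespace Crest.Agent.R225.GS

open MeasureTheory Set Filter Crest.Agent.Lib.PrekopaLeindler
open scoped ENNReal Pointwise Topology

variable {E : Type*} [AddCommGroup E] [Module ℝ E] [MeasurableSpace E] {u : E × ℝ → ℝ} {lo hi : ℝ}
  {μ : Measure E} [SFinite μ]

theorem gg_zero_of_notMem (h : Adm u lo hi) {K : Set E} (hK : ∀ p, 0 < u p → p.1 ∈ K) {x : E}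
    (hx : x ∉ K) : gg u x = 0 := by
  unfold gg
  have : ∀ s, u (x, s) = 0 := fun s => by
    by_contra hne
    exact hx (hK (x, s) (lt_of_le_of_ne (h.nonneg _) (Ne.symm hne)))
  simp [this]

theorem SS_le_gg (a : ℝ) (x : E) : SS u a x ≤ gg u x :=
  iSup_le fun _ => setLIntegral_le_lintegral _ _

theorem gg_le (h : Adm u lo hi) {R : ℝ} (hR : ∀ p, 0 < u p → |p.2| ≤ R) (x : E) :
    gg u x ≤ ENNReal.ofReal hi * ENNReal.ofReal (2 * |R|) := by
  unfold gg
  calc ∫⁻ s, ENNReal.ofReal (u (x, s)) ≤
      ∫⁻ s, (Icc (-|R|) |R|).indicator (fun _ => ENNReal.ofReal hi) s := by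
        refine lintegral_mono fun s => ?_
        by_cases hs : s ∈ Icc (-|R|) |R|
        · rw [indicator_of_mem hs]
          exact ENNReal.ofReal_le_ofReal (h.le _)
        · rw [indicator_of_notMem hs]
          have : u (x, s) ≤ 0 := by
            by_contra hpos
            exact hs (abs_le.1 ((hR (x, s) (not_le.1 hpos)).trans (le_abs_self R)))
          rw [ENNReal.ofReal_of_nonpos this]
    _ = _ := by
        rw [lintegral_indicator measurableSet_Icc, setLIntegral_const, Real.volume_Icc]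
        congr 2
        ring

theorem bb_le (h : Adm u lo hi) (hhi : 0 ≤ hi) (x : E) : bb u x ≤ ENNReal.ofReal hi := by
  rw [← exp_le_int hi hhi]
  refine lintegral_mono fun t => ?_
  dsimp only
  gcongr
  by_cases ht : 0 < wid u (x, t)
  · rw [if_pos ht, if_pos]
    by_contra hgt
    have he : lev u (x, t) = ∅ := by
      ext s
      constructor
      · intro hs
        exact absurd (le_trans hs (h.le _)) hgt
      · intro hs; exact absurd hs (notMem_empty _)
    have : wid u (x, t) = 0 := by rw [wid, he]; simp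
    linarith
  · rw [if_neg ht]; exact bot_le

theorem bb_zero_of_notMem {K : Set E} (hK : ∀ p, 0 < u p → p.1 ∈ K) {x : E}
    (hx : x ∉ K) : bb u x = 0 := by
  unfold bb
  have : ∀ t, ¬ 0 < wid u (x, t) := fun t ht => by
    have he : lev u (x, t) = ∅ := by
      ext s
      constructor
      · intro hs
        exact absurd (hK (x, s) ((Real.exp_pos _).trans_le hs)) hx
      · intro hs; exact absurd hs (notMem_empty _)
    have : wid u (x, t) = 0 := by rw [wid, he]; simp
    linarith
  simp [this]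

/-- pointwise estimate of the loss -/
theorem gg_le_vv (h : Adm u lo hi) (hhi : 0 < hi) {lm Q L : ℝ} (hlm : 0 < lm) (hQ : 0 < Q)
    (hL : 0 < L) (x : E) :
    gg u x ≤ ENNReal.ofReal (Q * L) * vv u (Q * L) (hi * lm / Q) x +
      ENNReal.ofReal (2 / (Q * L) + 1 / (4 * (lm * L))) * ww u x := by
  have ha : 0 < Q * L := by positivity
  rw [ENNReal.ofReal_add (by positivity) (by positivity), add_mul]
  unfold vv
  rcases le_total (ENNReal.ofReal (hi * lm / Q)) (ENNReal.ofReal (1 / (Q * L)) * SS u (Q * L) x)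
    with h1 | h1
  · rw [min_eq_left h1, ← ENNReal.ofReal_mul ha.le]
    have e : Q * L * (hi * lm / Q) = lm * L * hi := by field_simp
    rw [e]
    refine (cap_loss h x (lm * L) (by positivity) hhi.le).trans ?_
    gcongr
    exact le_add_self
  · rw [min_eq_right h1, ← mul_assoc, ← ENNReal.ofReal_mul ha.le]
    have e : Q * L * (1 / (Q * L)) = 1 := by field_simp
    rw [e, ENNReal.ofReal_one, one_mul]
    refine (window_loss h x (Q * L) ha).trans ?_
    gcongr
    exact le_self_add

theorem vv_le_nx (a lo' hi' : ℝ) (x : E) :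
    vv u a hi' x ≤ nx u a lo' hi' x + {x | gg u x ≠ 0}.indicator (fun _ => ENNReal.ofReal lo') x := by
  by_cases h1 : ENNReal.ofReal lo' ≤ vv u a hi' x
  · refine le_trans (le_of_eq ?_) le_self_add
    unfold nx
    rw [if_pos h1]
  · by_cases h2 : gg u x = 0
    · have : vv u a hi' x = 0 := by
        unfold vv
        have h3 : SS u a x = 0 := le_antisymm ((SS_le_gg a x).trans h2.le) bot_le
        rw [h3, mul_zero]; exact min_eq_right bot_le
      rw [this]; exact bot_le
    · rw [indicator_of_mem (show x ∈ {x | gg u x ≠ 0} from h2)]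
      exact (not_le.1 h1).le.trans le_add_self

/-- **one step**, mass inequality and a long segment -/
theorem mass_step (hE : PL E μ) (h : Adm u lo hi) (hlo : 0 < lo) (hhi : 0 < hi) {K : Set E}
    (hK : ∀ p, 0 < u p → p.1 ∈ K) (hKm : MeasurableSet K) (hKf : μ K ≠ ∞)
    (hI0 : ∫⁻ x, gg u x ∂μ ≠ 0) {lm Q : ℝ} (hlm : 1 ≤ lm) (hQ : lm ^ 2 ≤ Q) :
    ∃ L : ℝ, 0 < L ∧
      ENNReal.ofReal (1 - 100 / lm) * ∫⁻ x, gg u x ∂μ ≤
        ENNReal.ofReal (Q * L) * ∫⁻ x, nx u (Q * L) (lo / (2 * lm * Q)) (hi * lm / Q) x ∂μ ∧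
      ∃ (x : E) (s₁ s₂ : ℝ), 0 < u (x, s₁) ∧ 0 < u (x, s₂) ∧ L / 2 ≤ s₂ - s₁ := by
  have hlm0 : 0 < lm := by linarith
  have hQ0 : 0 < Q := lt_of_lt_of_le (by positivity) hQ
  set I : ℝ≥0∞ := ∫⁻ x, gg u x ∂μ with hIdef
  set B : ℝ≥0∞ := ∫⁻ x, bb u x ∂μ with hBdef
  set WW : ℝ≥0∞ := ∫⁻ x, ww u x ∂μ with hWdef
  obtain ⟨R, hR⟩ := h.bdd
  -- finiteness
  have hIf : I ≠ ∞ := by
    have h1 : I ≤ ∫⁻ x, K.indicator (fun _ => ENNReal.ofReal hi * ENNReal.ofReal (2 * |R|)) x ∂μ := by
      refine lintegral_mono fun x => ?_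
      by_cases hx : x ∈ K
      · rw [indicator_of_mem hx]; exact gg_le h hR x
      · rw [indicator_of_notMem hx, gg_zero_of_notMem h hK hx]
    rw [lintegral_indicator hKm, setLIntegral_const] at h1
    exact ne_top_of_le_ne_top (ENNReal.mul_ne_top (ENNReal.mul_ne_top ENNReal.ofReal_ne_top
      ENNReal.ofReal_ne_top) hKf) h1
  have hBf : B ≠ ∞ := by
    have h1 : B ≤ ∫⁻ x, K.indicator (fun _ => ENNReal.ofReal hi) x ∂μ := by
      refine lintegral_mono fun x => ?_
      by_cases hx : x ∈ K
      · rw [indicator_of_mem hx]; exact bb_le h hhi.le x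
      · rw [indicator_of_notMem hx, bb_zero_of_notMem hK hx]
    rw [lintegral_indicator hKm, setLIntegral_const] at h1
    exact ne_top_of_le_ne_top (ENNReal.mul_ne_top ENNReal.ofReal_ne_top hKf) h1
  have hBnu : B = nuE μ {p | 0 < wid u p} := int_bb h
  have hInu : I = ∫⁻ p, ENNReal.ofReal (wid u p) ∂(nuE μ) := int_gg h
  have hWnu : WW = ∫⁻ p, ENNReal.ofReal (wid u p ^ 2) ∂(nuE μ) := int_ww h
  have hB0 : B ≠ 0 := by
    intro hB0
    apply hI0
    rw [hBnu] at hB0
    have hmW : Measurable fun p => ENNReal.ofReal (wid u p) :=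
      ENNReal.measurable_ofReal.comp (wid_measurable h)
    rw [hInu, lintegral_eq_zero_iff hmW]
    have : ∀ᵐ p ∂(nuE μ), ¬ 0 < wid u p := by
      rw [ae_iff]; simpa using hB0
    filter_upwards [this] with p hp
    simp only [Pi.zero_apply, ENNReal.ofReal_eq_zero]
    exact not_lt.1 hp
  have hch : B * WW ≤ 2 * I ^ 2 := by
    rw [hBnu, hInu, hWnu]; exact chord hE h
  have hWf : WW ≠ ∞ := by
    intro hW
    rw [hW, ENNReal.mul_top hB0] at hch
    exact (ENNReal.mul_ne_top ENNReal.ofNat_ne_top (ENNReal.pow_ne_top hIf)) (top_le_iff.1 hch)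
  -- real versions
  set iR := I.toReal with hiR
  set bR := B.toReal with hbR
  set wR := WW.toReal with hwR
  have hi0 : 0 < iR := ENNReal.toReal_pos hI0 hIf
  have hb0 : 0 < bR := ENNReal.toReal_pos hB0 hBf
  have hw0 : 0 ≤ wR := ENNReal.toReal_nonneg
  have eI : I = ENNReal.ofReal iR := (ENNReal.ofReal_toReal hIf).symm
  have eB : B = ENNReal.ofReal bR := (ENNReal.ofReal_toReal hBf).symm
  have eW : WW = ENNReal.ofReal wR := (ENNReal.ofReal_toReal hWf).symm
  have hchR : bR * wR ≤ 2 * iR ^ 2 := by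
    have h1 := ENNReal.toReal_mono (ENNReal.mul_ne_top ENNReal.ofNat_ne_top
      (ENNReal.pow_ne_top hIf)) hch
    simpa [ENNReal.toReal_mul, ENNReal.toReal_pow] using h1
  set L : ℝ := iR / bR with hLdef
  have hL : 0 < L := div_pos hi0 hb0
  have ha : 0 < Q * L := by positivity
  have hLb : L * bR = iR := by rw [hLdef]; field_simp
  refine ⟨L, hL, ?_, ?_⟩
  · -- mass
    set N : ℝ≥0∞ := ∫⁻ x, nx u (Q * L) (lo / (2 * lm * Q)) (hi * lm / Q) x ∂μ with hN
    set lo' : ℝ := lo / (2 * lm * Q) with hlo'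
    set hi' : ℝ := hi * lm / Q with hhi'
    have hlo'0 : 0 < lo' := by positivity
    have hmg : MeasurableSet {x | gg u x ≠ 0} := (gg_measurable h) (measurableSet_singleton 0).compl
    have h1 : I ≤ ENNReal.ofReal (Q * L) * (∫⁻ x, vv u (Q * L) hi' x ∂μ) +
        ENNReal.ofReal (2 / (Q * L) + 1 / (4 * (lm * L))) * WW := by
      have hmw : Measurable (ww u : E → ℝ≥0∞) := by
        unfold ww
        apply Measurable.lintegral_prod_right'
          (f := fun p : E × ℝ => ENNReal.ofReal (Real.exp (-p.2)) * ENNReal.ofReal (wid u p ^ 2))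
        exact (ENNReal.measurable_ofReal.comp (Real.measurable_exp.comp measurable_snd.neg)).mul
          (ENNReal.measurable_ofReal.comp ((wid_measurable h).pow_const 2))
      calc I ≤ ∫⁻ x, (ENNReal.ofReal (Q * L) * vv u (Q * L) hi' x +
            ENNReal.ofReal (2 / (Q * L) + 1 / (4 * (lm * L))) * ww u x) ∂μ :=
            lintegral_mono fun x => gg_le_vv h hhi hlm0 hQ0 hL x
        _ = _ := by
            rw [lintegral_add_right _ (hmw.const_mul _), lintegral_const_mul _ hmw,
              lintegral_const_mul _ (vv_measurable h ha.le)]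
    have h2 : ∫⁻ x, vv u (Q * L) hi' x ∂μ ≤ N + ENNReal.ofReal lo' * μ {x | gg u x ≠ 0} := by
      calc ∫⁻ x, vv u (Q * L) hi' x ∂μ ≤ ∫⁻ x, (nx u (Q * L) lo' hi' x +
            {x | gg u x ≠ 0}.indicator (fun _ => ENNReal.ofReal lo') x) ∂μ :=
            lintegral_mono fun x => vv_le_nx _ _ _ _
        _ = _ := by
            rw [lintegral_add_right _ (measurable_const.indicator hmg), lintegral_indicator hmg,
              setLIntegral_const]
    have h3 : ENNReal.ofReal lo * μ {x | gg u x ≠ 0} ≤ B := by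
      calc ENNReal.ofReal lo * μ {x | gg u x ≠ 0} =
            ∫⁻ x, {x | gg u x ≠ 0}.indicator (fun _ => ENNReal.ofReal lo) x ∂μ := by
            rw [lintegral_indicator hmg, setLIntegral_const]
        _ ≤ B := by
            refine lintegral_mono fun x => ?_
            by_cases hx : gg u x ≠ 0
            · rw [indicator_of_mem (show x ∈ {x | gg u x ≠ 0} from hx)]
              exact lo_le_bb h hlo.le x hx
            · rw [indicator_of_notMem (show x ∉ {x | gg u x ≠ 0} from hx)]; exact bot_le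
    have h4 : ENNReal.ofReal lo' * μ {x | gg u x ≠ 0} ≤ ENNReal.ofReal (1 / (2 * lm * Q)) * B := by
      have e : ENNReal.ofReal lo' = ENNReal.ofReal (1 / (2 * lm * Q)) * ENNReal.ofReal lo := by
        rw [← ENNReal.ofReal_mul (by positivity)]
        congr 1
        rw [hlo']; field_simp
      rw [e, mul_assoc]
      exact mul_le_mul_right h3 _
    have h5 : I ≤ ENNReal.ofReal (Q * L) * N + ENNReal.ofReal (5 / lm * iR) := by
      calc I ≤ ENNReal.ofReal (Q * L) * (N + ENNReal.ofReal (1 / (2 * lm * Q)) * B) +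
            ENNReal.ofReal (2 / (Q * L) + 1 / (4 * (lm * L))) * WW := by
            refine h1.trans ?_
            gcongr
            exact h2.trans (add_le_add_right h4 _)
        _ = ENNReal.ofReal (Q * L) * N + (ENNReal.ofReal (Q * L) * (ENNReal.ofReal (1 / (2 * lm * Q)) *
              B) + ENNReal.ofReal (2 / (Q * L) + 1 / (4 * (lm * L))) * WW) := by ring
        _ ≤ _ := by
            gcongr
            rw [eB, eW, ← ENNReal.ofReal_mul (by positivity), ← ENNReal.ofReal_mul (by positivity),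
              ← ENNReal.ofReal_mul (by positivity), ← ENNReal.ofReal_add (by positivity)
              (by positivity)]
            apply ENNReal.ofReal_le_ofReal
            have e1 : Q * L * (1 / (2 * lm * Q) * bR) = 1 / (2 * lm) * iR := by
              rw [← hLb]; field_simp
            have hwb : wR ≤ 2 * iR * L := by
              have : wR ≤ 2 * iR ^ 2 / bR := by rw [le_div_iff₀ hb0]; linarith
              refine this.trans (le_of_eq ?_)
              rw [hLdef]; field_simp
            have e2 : (2 / (Q * L) + 1 / (4 * (lm * L))) * wR ≤ (4 / Q + 1 / (2 * lm)) * iR := by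
              calc (2 / (Q * L) + 1 / (4 * (lm * L))) * wR ≤
                    (2 / (Q * L) + 1 / (4 * (lm * L))) * (2 * iR * L) := by gcongr
                _ = _ := by field_simp; ring
            have e3 : 4 / Q ≤ 4 / lm := by
              apply div_le_div_of_nonneg_left (by norm_num) hlm0
              nlinarith
            rw [e1]
            have e4 : 1 / (2 * lm) * iR + (4 / Q + 1 / (2 * lm)) * iR ≤ 5 / lm * iR := by
              have e5 : 1 / (2 * lm) + (4 / Q + 1 / (2 * lm)) ≤ 5 / lm := by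
                have e6 : 1 / (2 * lm) + (4 / lm + 1 / (2 * lm)) = 5 / lm := by field_simp; ring
                linarith
              calc _ = (1 / (2 * lm) + (4 / Q + 1 / (2 * lm))) * iR := by ring
                _ ≤ _ := by gcongr
            linarith
    -- conclusion
    by_cases hl : 100 ≤ lm
    · have h6 : 0 ≤ 1 - 5 / lm := by
        rw [sub_nonneg, div_le_one hlm0]; linarith
      have h7 : ENNReal.ofReal ((1 - 5 / lm) * iR) + ENNReal.ofReal (5 / lm * iR) ≤
          ENNReal.ofReal (Q * L) * N + ENNReal.ofReal (5 / lm * iR) := by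
        rw [← ENNReal.ofReal_add (by positivity) (by positivity)]
        have e : (1 - 5 / lm) * iR + 5 / lm * iR = iR := by ring
        rw [e, ← eI]; exact h5
      have h8 := (ENNReal.add_le_add_iff_right ENNReal.ofReal_ne_top).1 h7
      refine le_trans ?_ h8
      rw [eI, ← ENNReal.ofReal_mul' hi0.le]
      apply ENNReal.ofReal_le_ofReal
      gcongr
      norm_num
    · have : ENNReal.ofReal (1 - 100 / lm) = 0 := by
        apply ENNReal.ofReal_of_nonpos
        rw [sub_nonpos, le_div_iff₀ hlm0]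
        linarith [not_le.1 hl]
      rw [this, zero_mul]; exact bot_le
  · -- long segment
    by_contra hcon
    push Not at hcon
    have hwid : ∀ p : E × ℝ, wid u p ≤ L / 2 := by
      intro p
      have h1 : volume (lev u p) ≤ ENNReal.ofReal (L / 2) := by
        refine (Real.volume_le_diam _).trans (Metric.ediam_le fun s hs r hr => ?_)
        rw [edist_dist, Real.dist_eq]
        apply ENNReal.ofReal_le_ofReal
        rw [abs_le]
        have hs' := (Real.exp_pos (-p.2)).trans_le hs
        have hr' := (Real.exp_pos (-p.2)).trans_le hr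
        constructor
        · linarith [hcon p.1 s r hs' hr']
        · linarith [hcon p.1 r s hr' hs']
      rw [← ofReal_wid h] at h1
      exact (ENNReal.ofReal_le_ofReal_iff (by positivity)).1 h1
    have hms : MeasurableSet {p : E × ℝ | 0 < wid u p} :=
      measurableSet_lt measurable_const (wid_measurable h)
    have h2 : I ≤ ENNReal.ofReal (L / 2) * B := by
      rw [hInu, hBnu, ← setLIntegral_const, ← lintegral_indicator hms]
      refine lintegral_mono fun p => ?_
      by_cases hp : 0 < wid u p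
      · rw [indicator_of_mem (show p ∈ {p | 0 < wid u p} from hp)]
        exact ENNReal.ofReal_le_ofReal (hwid p)
      · rw [indicator_of_notMem (show p ∉ {p | 0 < wid u p} from hp)]
        rw [ENNReal.ofReal_of_nonpos (not_lt.1 hp)]
    rw [eI, eB, ← ENNReal.ofReal_mul (by positivity)] at h2
    have h3 := (ENNReal.ofReal_le_ofReal_iff (by positivity)).1 h2
    have : L / 2 * bR = iR / 2 := by rw [← hLb]; ring
    rw [this] at h3
    linarith

end Crest.Agent.R225.GS

namespace Crest.Agent.R225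

open MeasureTheory Set Filter Crest.Agent.Lib.PrekopaLeindler
open scoped ENNReal

/-- transfer to `Fin k → ℝ` and `ℝ` -/
noncomputable def GS.uf {k : ℕ} (f : (Fin (k + 1) → ℝ) → ℝ≥0∞) (p : (Fin k → ℝ) × ℝ) : ℝ :=
  (f (Fin.snoc p.1 p.2)).toReal

theorem GS.snoc_measurable {k : ℕ} :
    Measurable fun p : (Fin k → ℝ) × ℝ => (Fin.snoc p.1 p.2 : Fin (k + 1) → ℝ) := by
  rw [measurable_pi_iff]
  intro i
  refine Fin.lastCases ?_ (fun j => ?_) i
  · simp only [Fin.snoc_last]; exact measurable_snd
  · simp only [Fin.snoc_castSucc]; exact (measurable_pi_apply j).comp measurable_fst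

theorem GS.snoc_comb {k : ℕ} (a b : ℝ) (x y : Fin k → ℝ) (s r : ℝ) :
    (Fin.snoc (a • x + b • y) (a • s + b • r) : Fin (k + 1) → ℝ) =
      a • (Fin.snoc x s : Fin (k + 1) → ℝ) + b • (Fin.snoc y r : Fin (k + 1) → ℝ) := by
  ext i
  refine Fin.lastCases ?_ (fun j => ?_) i
  · simp
  · simp

theorem GS.lintegral_snoc {k : ℕ} {f : (Fin (k + 1) → ℝ) → ℝ≥0∞} (hf : Measurable f) :
    ∫⁻ x, f x = ∫⁻ x : Fin k → ℝ, ∫⁻ s : ℝ, f (Fin.snoc x s) := by
  have h := (volume_preserving_piFinSuccAbove (fun _ : Fin (k + 1) => ℝ) (Fin.last k)).symm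
  have h1 := h.lintegral_comp hf
  rw [← h1]
  have h2 : ∀ p : ℝ × (Fin k → ℝ),
      f ((MeasurableEquiv.piFinSuccAbove (fun _ : Fin (k + 1) => ℝ) (Fin.last k)).symm p) =
        f (Fin.snoc p.2 p.1) := by
    intro p
    congr 1
    ext i
    refine Fin.lastCases ?_ (fun j => ?_) i
    · simp [MeasurableEquiv.piFinSuccAbove]
    · simp [MeasurableEquiv.piFinSuccAbove]
  simp_rw [h2]
  have hm : Measurable fun p : ℝ × (Fin k → ℝ) => f (Fin.snoc p.2 p.1) :=
    hf.comp (GS.snoc_measurable.comp measurable_swap)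
  have hv : (volume : Measure (ℝ × (Fin k → ℝ))) = (volume : Measure ℝ).prod volume := rfl
  rw [hv, lintegral_prod_symm _ hm.aemeasurable]

theorem prf_Row : S_Row := by
  refine ⟨1, le_rfl, ?_⟩
  intro k α τ lm Q f hα hτ hτ1 hlm hQ hlc hfm hbd hV hI
  have hlm0 : 0 < lm := by linarith
  have hQ0 : 0 < Q := lt_of_lt_of_le (by positivity) hQ
  have hfin : ∀ x, f x ≠ ∞ := by
    intro x
    rcases hV x with h | h
    · rw [h]; exact ENNReal.zero_ne_top
    · exact ne_top_of_le_ne_top ENNReal.ofReal_ne_top h.2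
  have hof : ∀ (x : Fin k → ℝ) (s : ℝ), ENNReal.ofReal (GS.uf f (x, s)) = f (Fin.snoc x s) :=
    fun x s => ENNReal.ofReal_toReal (hfin _)
  have hpos : ∀ p : (Fin k → ℝ) × ℝ, 0 < GS.uf f p ↔ f (Fin.snoc p.1 p.2) ≠ 0 := by
    intro p
    unfold GS.uf
    rw [ENNReal.toReal_pos_iff]
    constructor
    · rintro ⟨h1, -⟩; exact h1.ne'
    · intro h1; exact ⟨pos_iff_ne_zero.2 h1, lt_top_iff_ne_top.2 (hfin _)⟩
  obtain ⟨R, hR⟩ := hbd
  have hadm : GS.Adm (GS.uf f) (τ * α) α := by
    refine ⟨(hfm.comp GS.snoc_measurable).ennreal_toReal, fun p => ENNReal.toReal_nonneg, ?_, ?_, ?_,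
      ⟨R, ?_⟩⟩
    · intro p
      rcases hV (Fin.snoc p.1 p.2) with h | h
      · unfold GS.uf; rw [h]; simpa using hα.le
      · have := ENNReal.toReal_mono ENNReal.ofReal_ne_top h.2
        rwa [ENNReal.toReal_ofReal hα.le] at this
    · intro p hp
      rcases hV (Fin.snoc p.1 p.2) with h | h
      · exact absurd h ((hpos p).1 hp)
      · have := ENNReal.toReal_mono (hfin _) h.1
        rwa [ENNReal.toReal_ofReal (by positivity)] at this
    · intro t ht0 ht1 p q hp hq
      have h1 := hlc (Fin.snoc p.1 p.2) (Fin.snoc q.1 q.2) t ht0 ht1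
      have h2 := ENNReal.toReal_mono (hfin _) h1
      rw [ENNReal.toReal_mul, ← ENNReal.toReal_rpow, ← ENNReal.toReal_rpow, ← GS.snoc_comb] at h2
      exact h2
    · intro p hp
      have := hR _ ((hpos p).1 hp) (Fin.last k)
      simpa using this
  set K : Set (Fin k → ℝ) := Set.pi univ fun _ => Icc (-R) R with hKdef
  have hK : ∀ p : (Fin k → ℝ) × ℝ, 0 < GS.uf f p → p.1 ∈ K := by
    intro p hp i _
    have := hR _ ((hpos p).1 hp) i.castSucc
    simp only [Fin.snoc_castSucc] at this
    exact abs_le.1 this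
  have hKm : MeasurableSet K := MeasurableSet.univ_pi fun _ => measurableSet_Icc
  have hKf : volume K ≠ ∞ := (isCompact_univ_pi fun _ => isCompact_Icc).measure_lt_top.ne
  have hgg : ∀ x : Fin k → ℝ, GS.gg (GS.uf f) x = ∫⁻ s, f (Fin.snoc x s) := by
    intro x
    unfold GS.gg
    exact lintegral_congr fun s => hof x s
  have hIeq : ∫⁻ x, f x = ∫⁻ x : Fin k → ℝ, GS.gg (GS.uf f) x := by
    rw [GS.lintegral_snoc hfm]
    exact lintegral_congr fun x => (hgg x).symm
  have hI0 : ∫⁻ x : Fin k → ℝ, GS.gg (GS.uf f) x ≠ 0 := by rw [← hIeq]; exact hI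
  obtain ⟨L, hL, hmass, x, s₁, s₂, h1, h2, h3⟩ := GS.mass_step (PL_pi k) hadm (by positivity) hα hK
    hKm hKf hI0 hlm hQ
  have ha : 0 < Q * L := by positivity
  have hhi' : 0 ≤ α * lm / Q := by positivity
  refine ⟨Q * L, GS.nx (GS.uf f) (Q * L) (τ * α / (2 * lm * Q)) (α * lm / Q), ha,
    GS.nx_lc hadm ha.le, GS.nx_measurable hadm ha.le, ⟨R, ?_⟩, ?_, ?_, ?_, x, s₁, s₂, (hpos _).1 h1,
    (hpos _).1 h2, ?_⟩
  · intro x hx i
    obtain ⟨c, c', -, -, hval⟩ := GS.nx_window hadm ha hhi' x hx
    have hne : ¬ ∀ s, f (Fin.snoc x s) = 0 := by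
      intro hall
      apply hx
      rw [hval]
      have : ∀ s, ENNReal.ofReal (GS.uf f (x, s)) = 0 := fun s => by rw [hof]; exact hall s
      simp [this]
    push Not at hne
    obtain ⟨s, hs⟩ := hne
    have := hR _ hs i.castSucc
    simpa using this
  · intro x
    by_cases hx : ENNReal.ofReal (τ * α / (2 * lm * Q)) ≤ GS.vv (GS.uf f) (Q * L) (α * lm / Q) x
    · right
      have e : τ / (2 * lm ^ 2) * (α * lm / Q) = τ * α / (2 * lm * Q) := by
        field_simp
      rw [e]
      unfold GS.nx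
      rw [if_pos hx]
      exact ⟨hx, min_le_left _ _⟩
    · left
      unfold GS.nx
      rw [if_neg hx]
  · intro x hx
    obtain ⟨c, c', h1, h2, hval⟩ := GS.nx_window hadm ha hhi' x hx
    refine ⟨c, c', h1, h2, ?_⟩
    rw [hval]
    congr 1
    exact lintegral_congr fun s => hof x s
  · rw [hIeq]; exact hmass
  · nlinarith

end Crest.Agent.R225
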