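import Crest.Agent.R225.Large
import Crest.Agent.R225.L3
import Crest.Agent.R225.L4a
import Crest.Agent.R225.L4b
import Crest.Agent.R225.L4c
import Crest.Agent.R225.L7
import Crest.Agent.R225.L126
import Crest.Agent.R225.Amp
import Crest.Agent.R225.D1
import Crest.Agent.R225.Disc
import Crest.Agent.R225.Geom
import Crest.Agent.R225.Row
import Crest.Agent.R225.Num
import Crest.Agent.R225.Final

/-! Row 225: S0347 from Grid and PMain only. -/

set_option autoImplicit false

open MeasureTheory

namespace Crest.Agent.R225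

theorem prf_Large_of (hGrid : S_Grid) (hPMain : S_PMain) : S_Large :=
  prf_Large (prf_Geom prf_Num prf_Row) prf_Disc hGrid hPMain prf_Amp prf_L2 prf_L3
    (prf_L4c prf_L4a prf_L4b) prf_L6 (prf_L7 prf_L1)

theorem main_of (hGrid : S_Grid) (hPMain : S_PMain) :
    ∃ C : ℝ, ∀ (n : ℕ), 2 ≤ n → ∀ (K : Set (Fin n → ℝ)),
      IsCompact K → Convex ℝ K → (interior K).Nonempty →
        ∃ g : Matrix (Fin n) (Fin n) ℝ, g.det ≠ 0 ∧
          (∀ x : Fin n → ℝ, ∃ z : Fin n → ℤ, x - g.mulVec (fun i => (z i : ℝ)) ∈ K) ∧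
          (volume K).toReal / |g.det| ≤ C * n * Real.log n :=
  final_result (prf_Large_of hGrid hPMain) prf_Small

end Crest.Agent.R225
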