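import Crest.Agent.R225.Iface

/-!
# Row 225 (S0347): sub-nodes of `S_Large` (helper418)

Plan of `S_Large`: `c1` from Grid, `r` from L3, `Crat, Cr` from Grid, then `X`, then `n`.
`K ⊂ ℝ^{(m+r)+(I+1)}`; Geom gives the chain, Grid the slices, L7 the average bound for each slice
`y`, L2 one `ψ` good for all `y` in the net `{0,1/R,…,2}^r`, `R = 2n²`, Amp the shifts `v`,
L4 the covering by `(1+1/n)K - p`, L3 all numbers.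
Same rules as `Iface.lean`: a node owner proves `theorem prf_Lx : S_Lx`.
-/

set_option autoImplicit false

open Finset MeasureTheory
open scoped BigOperators ENNReal

namespace Crest.Agent.R225

/-- L1. the iterated expectation is the uniform average over all tuples of rows -/
def S_L1 : Prop := ∀ (P m b : ℕ) [NeZero P] (F : List (Row P m) → ℝ),
  Ex b F [] = 𝔼 ρ : Fin b → Row P m, F (List.ofFn ρ).reverse

open scoped Classical in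
/-- L2. one `ψ` which is good for all slices (pigeonhole). -/
def S_L2 : Prop := ∀ (P m b : ℕ) [NeZero P] (ι : Type) [Fintype ι] (q : ℝ)
  (Bad : ι → (Fin b → Fin m → ZMod P) → (Fin b → ZMod P) → Prop),
  (∀ y, 𝔼 ρ : Fin b → Row P m,
    (if Bad y (fun j => (ρ j).2) (fun j => (ρ j).1) then (1 : ℝ) else 0) ≤ q) →
  ∃ ψ : Fin b → Fin m → ZMod P, ∀ y,
    (((univ : Finset (Fin b → ZMod P)).filter (fun c => Bad y ψ c)).card : ℝ)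
      ≤ Fintype.card ι * q * (P : ℝ) ^ b

/-- the density parameter `D = e^X N*` -/
noncomputable def Dn (X : ℝ) (n : ℕ) : ℝ := Real.exp X * NN n

/-- `α₀ = D / n^{11m}` -/
noncomputable def a0 (X : ℝ) (n m : ℕ) : ℝ := Dn X n / (n : ℝ) ^ (11 * m)

/-- L3. numerics and choice of `r, I, m`. (`S_Num` may be used as a hypothesis.)
`(I+1) log(16 n²) + log(al_I lam_I/α₀) + ∑ (√x_i + θ x_i) ≤ 13 N*` and
`2^r (c1/200000 N* - O_r(log n)) > 14 N*` for `2^r ≥ 10^8/c1`. -/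
def S_L3 : Prop := ∀ c1 : ℝ, 0 < c1 → c1 ≤ 1 → ∃ r : ℕ, ∃ X0 : ℝ, 1 ≤ X0 ∧ ∀ X ≥ X0,
  ∃ n0 : ℕ, ∀ n ≥ n0, ∃ I m : ℕ, (m + r) + (I + 1) = n ∧ n ≤ 2 * m ∧ m ≤ n ∧
    (n : ℝ) ^ (9 / 10 : ℝ) ≤ xl X I ∧ xl X I ≤ 2 * (n : ℝ) ^ (9 / 10 : ℝ) ∧
    0 < NN n ∧ 0 < a0 X n m ∧ a0 X n m * Real.exp (theta * xl X I) ≤ al X I ∧
    0 < tau X (I + 1) ∧ tau X (I + 1) ≤ 1 ∧ Real.exp (-(m : ℝ)) ≤ tau X (I + 1) ∧
    (n : ℝ) ^ (10 * m) * a0 X n m ≤ Dn X n ∧ Dn X n ≤ (n : ℝ) ^ (12 * m) * a0 X n m ∧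
    ∃ P0 : ℕ, ∀ P ≥ P0, ∃ ρ : Fin (I + 1) → ℕ, (∀ j, ρ j ≤ P) ∧
      (∀ j : Fin (I + 1), 8 * (n : ℝ) ^ 2 * Qf X (a0 X n m) I j * ρ j ≤ P) ∧
      (((2 ^ r * (2 * n ^ 2) ^ r + 1 : ℕ) : ℝ) *
        (((4 * n ^ 2 + 1) ^ r : ℕ) * Real.exp (-(c1 / 200000 * NN n)))) ^ (2 ^ r) *
          (P : ℝ) ^ (I + 1) < ∏ j, (ρ j : ℝ)

/-- the class `c` is covered in the slice `y` -/
def HitR {m r b : ℕ} (P : ℕ) (a : ℕ → ℝ) (t : Fin (m + r) → ℝ)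
    (A : Matrix (Fin (m + r)) (Fin (m + r)) ℝ) (K : Set (Fin ((m + r) + b) → ℝ)) (ψ : Fin b → Fin m → ZMod P) (y : Fin r → ℝ)
    (c : Fin b → ZMod P) : Prop :=
  ∃ (g : Pt m) (k : Fin b → ℤ),
    (∀ j, ((k j : ℤ) : ZMod P) = c j + ∑ i, ψ j i * ((g i : ℤ) : ZMod P)) ∧
      Fin.append (bp t A g y) (fun j : Fin b => a j * k j / P) ∈ K

/-- L6. a point where `U_j ≠ 0` lifts to a point of `K` -/
def S_L6 : Prop := ∀ (X : ℝ) (d I : ℕ) (α0 : ℝ) (K : Set (Fin (d + (I + 1)) → ℝ)) (a : ℕ → ℝ)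
  (U : ∀ j : ℕ, (Fin (d + j) → ℝ) → ℝ≥0∞), Chain X d I α0 K a U →
  ∀ (j : ℕ) (hj : j ≤ I + 1) (x : Fin (d + j) → ℝ), U j x ≠ 0 →
    ∃ k ∈ K, ∀ i : Fin (d + j), k (Fin.castLE (by omega) i) = x i

open scoped Classical in
/-- L7. the average bound for one slice, from Disc, PMain and L1. -/
def S_L7 : Prop := S_Disc → S_PMain → ∀ c1 Crat : ℝ, 0 < c1 → c1 ≤ 1 → 1 ≤ Crat → ∃ X0 : ℝ,
  ∀ X ≥ X0, ∃ n0 : ℕ, ∀ n ≥ n0, ∀ m r I : ℕ, (n : ℝ) ^ (9 / 10 : ℝ) ≤ xl X I →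
  xl X I ≤ 2 * (n : ℝ) ^ (9 / 10 : ℝ) → n ≤ 2 * m → m ≤ n →
  ∀ (α0 Cr : ℝ) (K : Set (Fin ((m + r) + (I + 1)) → ℝ)) (a : ℕ → ℝ)
    (U : ∀ j : ℕ, (Fin ((m + r) + j) → ℝ) → ℝ≥0∞)
    (t : Fin (m + r) → ℝ) (A : Matrix (Fin (m + r)) (Fin (m + r)) ℝ)
    (G : (Fin r → ℝ) → Finset (Pt m)), 0 < α0 → Chain X (m + r) I α0 K a U →
    SliceData n m r c1 (Dn X n) Crat Cr (U 0) t A G →
    ∀ y : Fin r → ℝ, (∀ l, 0 ≤ y l ∧ y l ≤ 2) → ∃ P0 : ℕ, ∀ P ≥ P0, ∀ [Fact P.Prime],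
      𝔼 ρ : Fin (I + 1) → Row P m,
        (if ¬ HitR P a t A K (fun j => (ρ j).2) y (fun j => (ρ j).1) then (1 : ℝ) else 0)
        ≤ Real.exp (-(c1 / 200000 * NN n))

end Crest.Agent.R225
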