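import Crest.Agent.R225.LargeIface

/-!
# Row 225 (S0347): sub-nodes L4a, L4b, L4c of `S_Large` (helper418)
-/

set_option autoImplicit false

open Finset MeasureTheory
open scoped BigOperators ENNReal

namespace Crest.Agent.R225

/-- L4a. the lattice: block triangular matrix (base block `A`, rows `a_j·(residue)/P`). It contains
every vector `(A(g₀,w), a κ/P)` with `κ ≡ ψ(g₀) + v(w)`. -/
def S_L4a : Prop := ∀ (m r b P : ℕ) [NeZero P] (a : ℕ → ℝ)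
  (A : Matrix (Fin (m + r)) (Fin (m + r)) ℝ) (ψ : Fin b → Fin m → ZMod P)
  (v : Fin r → Fin b → ZMod P),
  ∃ g : Matrix (Fin ((m + r) + b)) (Fin ((m + r) + b)) ℝ,
    g.det = A.det * ∏ j : Fin b, a j ∧
    ∀ (g0 : Pt m) (w : Fin r → ℤ) (κ : Fin b → ℤ),
      (∀ j, ((κ j : ℤ) : ZMod P) = ∑ i, ψ j i * ((g0 i : ℤ) : ZMod P) +
        ∑ l, v l j * ((w l : ℤ) : ZMod P)) →
      ∃ z : Fin ((m + r) + b) → ℤ, g.mulVec (fun i => (z i : ℝ)) =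
        Fin.append (A.mulVec (Fin.append (fun k => (g0 k : ℝ)) (fun l => (w l : ℝ))))
          (fun j : Fin b => a j * κ j / P)

/-- a system of directions `D = v - u` (differences of points of `K`), indexed by
`Fin m ⊕ Fin r ⊕ Fin b`, triangular with respect to grid / slice / fibre coordinates. -/
structure Dirs (n m r b P : ℕ) (a : ℕ → ℝ) (A : Matrix (Fin (m + r)) (Fin (m + r)) ℝ)
    (ρ : Fin b → ℕ) (D : Fin m ⊕ Fin r ⊕ Fin b → Fin ((m + r) + b) → ℝ) : Prop where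
  gx : ∀ l : Fin m, ∀ i : Fin (m + r), D (Sum.inl l) (Fin.castAdd b i) =
    A.mulVec (Fin.append (Pi.single l ((n : ℝ) ^ 4)) 0) i
  gy : ∀ l : Fin r, ∃ vv : Fin m → ℝ, ∀ i : Fin (m + r),
    D (Sum.inr (Sum.inl l)) (Fin.castAdd b i) =
      A.mulVec (Fin.append vv (Pi.single l 1)) i
  gf : ∀ j : Fin b, (∀ i : Fin (m + r), D (Sum.inr (Sum.inr j)) (Fin.castAdd b i) = 0) ∧
    (∀ i : Fin b, i < j → D (Sum.inr (Sum.inr j)) (Fin.natAdd (m + r) i) = 0) ∧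
    0 < D (Sum.inr (Sum.inr j)) (Fin.natAdd (m + r) j) ∧
    a j * ρ j ≤ P * (D (Sum.inr (Sum.inr j)) (Fin.natAdd (m + r) j) * (1 / (2 * (n : ℝ) ^ 2)))

/-- L4b. rounding: slice coordinates down to the net of mesh `1/(2n²)` (directions `gy`), grid
coordinates to integers (`gx`), then the fibres triangularly (`tri_classes` of `EndA.lean`). -/
def S_L4b : Prop := ∀ (n m r b P : ℕ) [NeZero P] (a : ℕ → ℝ) (t : Fin (m + r) → ℝ)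
  (A : Matrix (Fin (m + r)) (Fin (m + r)) ℝ) (ρ : Fin b → ℕ)
  (D : Fin m ⊕ Fin r ⊕ Fin b → Fin ((m + r) + b) → ℝ), 2 ≤ n → A.det ≠ 0 → (∀ j, 0 < a j) →
  (∀ j, ρ j ≤ P) → Dirs n m r b P a A ρ D → ∀ x : Fin ((m + r) + b) → ℝ,
  ∃ (τ : Fin r → Fin (2 * n ^ 2)) (w0 : Fin r → ℤ) (g0 : Pt m) (T : Finset (Fin b → ZMod P)),
    ∏ j, ρ j ≤ T.card ∧ ∀ c ∈ T, ∃ κ : Fin b → ℤ, (∀ j, ((κ j : ℤ) : ZMod P) = c j) ∧
      ∃ s : Fin m ⊕ Fin r ⊕ Fin b → ℝ, (∀ i, |s i| ≤ 1 / (2 * (n : ℝ) ^ 2)) ∧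
        x - ∑ i, s i • D i =
          Fin.append (bp t A g0 (fun l => (w0 l : ℝ) + ((τ l : ℕ) : ℝ) / (2 * (n : ℝ) ^ 2)))
            (fun j : Fin b => a j * κ j / P)

open scoped Classical in
/-- L4c. covering by the expanded body `K + {∑ s_i D_i}`. `N = 2n²`-net, shifts `v`. -/
def S_L4c : Prop := ∀ (n m r b P : ℕ) [NeZero P] (a : ℕ → ℝ) (t : Fin (m + r) → ℝ)
  (A : Matrix (Fin (m + r)) (Fin (m + r)) ℝ) (ρ : Fin b → ℕ)
  (D : Fin m ⊕ Fin r ⊕ Fin b → Fin ((m + r) + b) → ℝ) (K : Set (Fin ((m + r) + b) → ℝ))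
  (ψ : Fin b → Fin m → ZMod P) (v : Fin r → Fin b → ZMod P), 2 ≤ n → A.det ≠ 0 →
  (∀ j, 0 < a j) → (∀ j, ρ j ≤ P) → Dirs n m r b P a A ρ D →
  (∀ τ : Fin r → Fin (2 * n ^ 2), ((univ : Finset (Fin b → ZMod P)).filter fun c =>
    ∀ J : Finset (Fin r), ¬ HitR P a t A K ψ
      (fun l => ((τ l : ℕ) : ℝ) / (2 * (n : ℝ) ^ 2) + if l ∈ J then 1 else 0)
      (c - ∑ i ∈ J, v i)).card < ∏ j, ρ j) →
  ∃ g : Matrix (Fin ((m + r) + b)) (Fin ((m + r) + b)) ℝ, g.det = A.det * ∏ j : Fin b, a j ∧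
    ∀ x : Fin ((m + r) + b) → ℝ, ∃ z : Fin ((m + r) + b) → ℤ, ∃ k ∈ K,
      ∃ s : Fin m ⊕ Fin r ⊕ Fin b → ℝ, (∀ i, |s i| ≤ 1 / (2 * (n : ℝ) ^ 2)) ∧
        x - g.mulVec (fun i => (z i : ℝ)) = k + ∑ i, s i • D i

end Crest.Agent.R225
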