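import Crest.Agent.R225.LargeA
import Crest.Agent.R225.LargeIface2

/-!
# Row 225, Large: node `S_L4a` (the lattice), from `LargeA.lean`
-/

set_option autoImplicit false

open Finset
open scoped BigOperators

namespace Crest.Agent.R225

namespace Large

theorem L4a_aux : S_L4a := by
  intro m r b P _ a A ψ v
  have hP0 : (P : ℝ) ≠ 0 := Nat.cast_ne_zero.2 (NeZero.ne P)
  set Ψ : Fin b → Fin (m + r) → ℤ := fun j =>
    Fin.append (fun i => ((ψ j i).val : ℤ)) (fun l => ((v l j).val : ℤ)) with hΨ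
  refine ⟨latM A (fun j : Fin b => a j) P Ψ, latM_det _ _ _ _, fun g0 w κ hκ => ?_⟩
  have hΨ1 : ∀ j i, ((Ψ j (Fin.castAdd r i) : ℤ) : ZMod P) = ψ j i := by
    intro j i; simp [hΨ]
  have hΨ2 : ∀ j l, ((Ψ j (Fin.natAdd m l) : ℤ) : ZMod P) = v l j := by
    intro j l; simp [hΨ]
  set zb : Fin (m + r) → ℤ := Fin.append g0 w with hzb
  have hdvd : ∀ j, ((P : ℕ) : ℤ) ∣ κ j - ∑ i, Ψ j i * zb i := by
    intro j
    rw [← ZMod.intCast_zmod_eq_zero_iff_dvd]
    push_cast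
    rw [hκ j, Fin.sum_univ_add]
    simp only [hΨ1, hΨ2]
    simp [hzb]
  choose q hq using hdvd
  refine ⟨Fin.append zb q, ?_⟩
  have hcast : (fun i => ((Fin.append zb q i : ℤ) : ℝ)) =
      Fin.append (fun i => (zb i : ℝ)) (fun j => (q j : ℝ)) := by
    funext l
    refine Fin.addCases (fun i => ?_) (fun j => ?_) l <;> simp
  rw [hcast, latM_mulVec]
  have hzc : (fun i => (zb i : ℝ)) = Fin.append (fun k => (g0 k : ℝ)) (fun l => (w l : ℝ)) := by
    funext l
    refine Fin.addCases (fun i => ?_) (fun j => ?_) l <;> simp [hzb]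
  rw [← hzc]
  congr 1
  funext j
  have h1 : (κ j : ℝ) - ∑ i, (Ψ j i : ℝ) * (zb i : ℝ) = P * q j := by
    exact_mod_cast congrArg (Int.cast : ℤ → ℝ) (hq j)
  have h3 : (κ j : ℝ) = ∑ i, (Ψ j i : ℝ) * (zb i : ℝ) + P * q j := by linarith
  rw [h3]
  field_simp

end Large

end Crest.Agent.R225
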