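import Crest.Agent.R225.LargeIface2
import Crest.Agent.R225.EndA

/-! Row 225: assembly of `S_Large` (helper418): directions, shifts, density. -/

set_option autoImplicit false

open Finset MeasureTheory
open scoped BigOperators ENNReal

namespace Crest.Agent.R225

theorem snoc_lt {k : ℕ} (x : Fin k → ℝ) (s : ℝ) (i : Fin (k + 1)) (h : i.val < k) :
    (Fin.snoc x s : Fin (k + 1) → ℝ) i = x ⟨i.val, h⟩ := by
  have : i = Fin.castSucc ⟨i.val, h⟩ := Fin.ext rfl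
  conv_lhs => rw [this]
  rw [Fin.snoc_castSucc (α := fun _ => ℝ)]

theorem snoc_eq_last {k : ℕ} (x : Fin k → ℝ) (s : ℝ) (i : Fin (k + 1)) (h : i.val = k) :
    (Fin.snoc x s : Fin (k + 1) → ℝ) i = s := by
  have : i = Fin.last k := Fin.ext h
  rw [this, Fin.snoc_last (α := fun _ => ℝ)]

theorem Qf_pos {X α0 : ℝ} (h : 0 < α0) (I j : ℕ) : 0 < Qf X α0 I j := by
  unfold Qf al lam
  split_ifs <;> positivity

/-- the system of directions. -/
theorem dirs_of_chain (h6 : S_L6) {X : ℝ} {n m r I : ℕ} {α0 c1 D Crat Cr : ℝ}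
    {K : Set (Fin ((m + r) + (I + 1)) → ℝ)} {a : ℕ → ℝ}
    {U : ∀ j : ℕ, (Fin ((m + r) + j) → ℝ) → ℝ≥0∞} {t : Fin (m + r) → ℝ}
    {A : Matrix (Fin (m + r)) (Fin (m + r)) ℝ} {G : (Fin r → ℝ) → Finset (Pt m)}
    (hα0 : 0 < α0) (hn : 0 < n) (hch : Chain X (m + r) I α0 K a U)
    (hS : SliceData n m r c1 D Crat Cr (U 0) t A G) (P : ℕ) (ρ : Fin (I + 1) → ℕ)
    (hρ : ∀ j : Fin (I + 1), 8 * (n : ℝ) ^ 2 * Qf X α0 I j * ρ j ≤ P) :
    ∃ u v : Fin m ⊕ Fin r ⊕ Fin (I + 1) → (Fin ((m + r) + (I + 1)) → ℝ),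
      (∀ i, u i ∈ K) ∧ (∀ i, v i ∈ K) ∧
        Dirs n m r (I + 1) P a A ρ (fun i => v i - u i) := by
  have hn' : (0:ℝ) < n := by exact_mod_cast hn
  -- grid directions
  have hx : ∀ l : Fin m, ∃ p ∈ K, ∃ q ∈ K, ∀ i : Fin (m + r),
      (q - p) (Fin.castAdd (I + 1) i) = A.mulVec (Fin.append (Pi.single l ((n : ℝ) ^ 4)) 0) i := by
    intro l
    obtain ⟨p, q, hp, hq, hpq⟩ := hS.segx l
    obtain ⟨kp, hkp, hp'⟩ := h6 X (m + r) I α0 K a U hch 0 (by omega) p hp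
    obtain ⟨kq, hkq, hq'⟩ := h6 X (m + r) I α0 K a U hch 0 (by omega) q hq
    refine ⟨kp, hkp, kq, hkq, fun i => ?_⟩
    have h1 := hp' i
    have h2 := hq' i
    have e : (Fin.castLE (by omega) (i : Fin ((m + r) + 0)) : Fin ((m + r) + (I + 1))) =
        Fin.castAdd (I + 1) i := Fin.ext rfl
    rw [e] at h1 h2
    rw [Pi.sub_apply, h1, h2, ← hpq, Pi.sub_apply]
  have hy : ∀ l : Fin r, ∃ p ∈ K, ∃ q ∈ K, ∃ vv : Fin m → ℝ, ∀ i : Fin (m + r),
      (q - p) (Fin.castAdd (I + 1) i) = A.mulVec (Fin.append vv (Pi.single l 1)) i := by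
    intro l
    obtain ⟨p, q, vv, hp, hq, hpq⟩ := hS.segy l
    obtain ⟨kp, hkp, hp'⟩ := h6 X (m + r) I α0 K a U hch 0 (by omega) p hp
    obtain ⟨kq, hkq, hq'⟩ := h6 X (m + r) I α0 K a U hch 0 (by omega) q hq
    refine ⟨kp, hkp, kq, hkq, vv, fun i => ?_⟩
    have h1 := hp' i
    have h2 := hq' i
    have e : (Fin.castLE (by omega) (i : Fin ((m + r) + 0)) : Fin ((m + r) + (I + 1))) =
        Fin.castAdd (I + 1) i := Fin.ext rfl
    rw [e] at h1 h2
    rw [Pi.sub_apply, h1, h2, ← hpq, Pi.sub_apply]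
  have hf : ∀ j : Fin (I + 1), ∃ p ∈ K, ∃ q ∈ K,
      (∀ i : Fin (m + r), (q - p) (Fin.castAdd (I + 1) i) = 0) ∧
      (∀ i : Fin (I + 1), i < j → (q - p) (Fin.natAdd (m + r) i) = 0) ∧
      0 < (q - p) (Fin.natAdd (m + r) j) ∧
      a j ≤ 2 * Qf X α0 I j * (q - p) (Fin.natAdd (m + r) j) := by
    intro j
    obtain ⟨x, s1, s2, hs1, hs2, hs⟩ := hch.seg j (by omega)
    obtain ⟨kp, hkp, hp'⟩ := h6 X (m + r) I α0 K a U hch (j + 1) (by omega) _ hs1
    obtain ⟨kq, hkq, hq'⟩ := h6 X (m + r) I α0 K a U hch (j + 1) (by omega) _ hs2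
    have hval : ∀ (i : Fin ((m + r) + (I + 1))) (h : i.val < (m + r) + j),
        kq i - kp i = 0 := by
      intro i h
      have h1 := hp' ⟨i.val, by omega⟩
      have h2 := hq' ⟨i.val, by omega⟩
      have e : (Fin.castLE (by omega) (⟨i.val, by omega⟩ : Fin ((m + r) + (↑j + 1))) :
          Fin ((m + r) + (I + 1))) = i := Fin.ext rfl
      rw [e] at h1 h2
      rw [h1, h2, snoc_lt (k := m + r + j) x s1 ⟨i.val, by omega⟩ h,
        snoc_lt (k := m + r + j) x s2 ⟨i.val, by omega⟩ h, sub_self]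
    have hlast : kq (Fin.natAdd (m + r) j) - kp (Fin.natAdd (m + r) j) = s2 - s1 := by
      have h1 := hp' ⟨m + r + j, by omega⟩
      have h2 := hq' ⟨m + r + j, by omega⟩
      have e : (Fin.castLE (by omega) (⟨m + r + j, by omega⟩ : Fin ((m + r) + (↑j + 1))) :
          Fin ((m + r) + (I + 1))) = Fin.natAdd (m + r) j := Fin.ext rfl
      rw [e] at h1 h2
      rw [h1, h2, snoc_eq_last (k := m + r + j) x s1 ⟨m + r + j, by omega⟩ rfl,
        snoc_eq_last (k := m + r + j) x s2 ⟨m + r + j, by omega⟩ rfl]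
    have ha := hch.pos j
    have hQ := Qf_pos (X := X) hα0 I j
    have hpos : 0 < s2 - s1 := by
      by_contra hcon
      push Not at hcon
      have : 2 * Qf X α0 I j * (s2 - s1) ≤ 0 :=
        mul_nonpos_of_nonneg_of_nonpos (by positivity) hcon
      linarith
    refine ⟨kp, hkp, kq, hkq, fun i => ?_, fun i hij => ?_, ?_, ?_⟩
    · rw [Pi.sub_apply]
      exact hval _ (by simp; omega)
    · rw [Pi.sub_apply]
      refine hval _ ?_
      have : i.val < j.val := hij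
      simp; omega
    · rw [Pi.sub_apply, hlast]; exact hpos
    · rw [Pi.sub_apply, hlast]; exact hs
  choose px hpx qx hqx hx using hx
  choose py hpy qy hqy hy using hy
  choose pf hpf qf hqf hf1 hf2 hf3 hf4 using hf
  refine ⟨Sum.elim px (Sum.elim py pf), Sum.elim qx (Sum.elim qy qf), ?_, ?_, ?_⟩
  · rintro (i | i | i)
    · exact hpx i
    · exact hpy i
    · exact hpf i
  · rintro (i | i | i)
    · exact hqx i
    · exact hqy i
    · exact hqf i
  · refine ⟨fun l i => hx l i, fun l => hy l, fun j => ⟨hf1 j, hf2 j, hf3 j, ?_⟩⟩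
    simp only [Sum.elim_inr]
    have hσ := hf3 j
    set σ := (qf j - pf j) (Fin.natAdd (m + r) j) with hσd
    have h4 := hf4 j
    have hr := hρ j
    have hQ := Qf_pos (X := X) hα0 I j
    have hρ0 : (0:ℝ) ≤ ρ j := Nat.cast_nonneg _
    calc a j * ρ j ≤ (2 * Qf X α0 I j * σ) * ρ j := mul_le_mul_of_nonneg_right h4 hρ0
      _ = (8 * (n : ℝ) ^ 2 * Qf X α0 I j * ρ j) * (σ * (1 / (4 * (n:ℝ) ^ 2))) := by
          field_simp; ring
      _ ≤ P * (σ * (1 / (4 * (n:ℝ) ^ 2))) :=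
          mul_le_mul_of_nonneg_right hr (by positivity)
      _ ≤ P * (σ * (1 / (2 * (n:ℝ) ^ 2))) := by
          refine mul_le_mul_of_nonneg_left (mul_le_mul_of_nonneg_left ?_ hσ.le)
            (Nat.cast_nonneg _)
          exact one_div_le_one_div_of_le (by positivity) (by nlinarith [sq_nonneg (n:ℝ)])

open scoped Classical in
/-- good `ψ` and shifts. -/
theorem exists_shifts (hAmp : S_Amp) (hL2 : S_L2) {m r b n P : ℕ} [NeZero P]
    {a : ℕ → ℝ} {t : Fin (m + r) → ℝ} {A : Matrix (Fin (m + r)) (Fin (m + r)) ℝ}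
    {K : Set (Fin ((m + r) + b) → ℝ)} (q : ℝ) (hq : 0 ≤ q) (hn : 0 < n)
    (havg : ∀ k : Fin r → Fin (4 * n ^ 2 + 1), 𝔼 ρ : Fin b → Row P m,
      (if ¬ HitR P a t A K (fun j => (ρ j).2) (fun l => ((k l : ℕ) : ℝ) / (2 * (n : ℝ) ^ 2))
        (fun j => (ρ j).1) then (1 : ℝ) else 0) ≤ q)
    (B : ℝ) (hB : (((2 ^ r * (2 * n ^ 2) ^ r + 1 : ℕ) : ℝ) *
        (((4 * n ^ 2 + 1) ^ r : ℕ) * q)) ^ (2 ^ r) * (P : ℝ) ^ b < B) :
    ∃ (ψ : Fin b → Fin m → ZMod P) (v : Fin r → Fin b → ZMod P),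
      ∀ τ : Fin r → Fin (2 * n ^ 2), (((univ : Finset (Fin b → ZMod P)).filter fun c =>
        ∀ J : Finset (Fin r), ¬ HitR P a t A K ψ
          (fun l => ((τ l : ℕ) : ℝ) / (2 * (n : ℝ) ^ 2) + if l ∈ J then 1 else 0)
          (c - ∑ i ∈ J, v i)).card : ℝ) < B := by
  obtain ⟨ψ, hψ⟩ := hL2 P m b (Fin r → Fin (4 * n ^ 2 + 1)) q
    (fun k ψ c => ¬ HitR P a t A K ψ (fun l => ((k l : ℕ) : ℝ) / (2 * (n : ℝ) ^ 2)) c)
    (fun k => by convert havg k)
  have hn' : (0:ℝ) < n := by exact_mod_cast hn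
  have hcardT : Fintype.card (Fin b → ZMod P) = P ^ b := by
    rw [Fintype.card_fun, ZMod.card, Fintype.card_fin]
  obtain ⟨v, hv⟩ := hAmp r (2 ^ r * (2 * n ^ 2) ^ r + 1) (Fin b → ZMod P)
    (Fin r → Fin (2 * n ^ 2))
    (fun τ J => (univ : Finset (Fin b → ZMod P)).filter fun c => ¬ HitR P a t A K ψ
          (fun l => ((τ l : ℕ) : ℝ) / (2 * (n : ℝ) ^ 2) + if l ∈ J then 1 else 0) c)
    (((4 * n ^ 2 + 1) ^ r : ℕ) * q) (by positivity)
    (by rw [Fintype.card_fun, Fintype.card_fin, Fintype.card_fin]; omega)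
    (by
      intro τ J
      have hk := hψ (fun l => ⟨(τ l : ℕ) + (if l ∈ J then 2 * n ^ 2 else 0), by
        have := (τ l).2
        split_ifs <;> omega⟩)
      have e : (fun l => ((((⟨(τ l : ℕ) + (if l ∈ J then 2 * n ^ 2 else 0), by
        have := (τ l).2
        split_ifs <;> omega⟩ : Fin (4 * n ^ 2 + 1)) : ℕ) : ℝ) / (2 * (n : ℝ) ^ 2))) =
          (fun l => ((τ l : ℕ) : ℝ) / (2 * (n : ℝ) ^ 2) + if l ∈ J then 1 else 0) := by
        ext l
        simp only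
        split_ifs with h
        · push_cast
          field_simp
        · simp
      rw [e] at hk
      rw [Fintype.card_fun, Fintype.card_fin, Fintype.card_fin] at hk
      rw [hcardT]
      push_cast at hk ⊢
      convert hk)
  refine ⟨ψ, v, fun τ => lt_of_le_of_lt ?_ hB⟩
  have h := hv τ
  rw [hcardT] at h
  push_cast at h ⊢
  refine le_trans (le_of_eq ?_) h
  congr 2
  ext c
  simp only [mem_filter, mem_univ, true_and]

end Crest.Agent.R225
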