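import Crest.Agent.R225.Num

/-!
Row 225 (S0347), node Multi: numerics of the energy recursion over the levels.
-/

set_option autoImplicit false

open Finset MeasureTheory Filter Asymptotics
open scoped BigOperators ENNReal

namespace Crest.Agent.R225

namespace MultiN

open NumL

/-- `NN n` dominates `n^{9/10}` -/
lemma ev_NN (K : ℝ) : ∀ᶠ n : ℕ in atTop, K * (n : ℝ) ^ (9 / 10 : ℝ) ≤ NN n := by
  have h1 : ∀ᶠ n : ℕ in atTop, |K| ≤ Real.log n :=
    (Real.tendsto_log_atTop.comp tendsto_natCast_atTop_atTop).eventually_ge_atTop |K|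
  filter_upwards [h1, eventually_ge_atTop 1] with n hn hn1
  have hn1' : (1 : ℝ) ≤ n := by exact_mod_cast hn1
  have h2 : (n : ℝ) ^ (9 / 10 : ℝ) ≤ n := by
    calc (n : ℝ) ^ (9 / 10 : ℝ) ≤ (n : ℝ) ^ (1 : ℝ) :=
          Real.rpow_le_rpow_of_exponent_le hn1' (by norm_num)
      _ = n := Real.rpow_one _
  have h3 : 0 ≤ (n : ℝ) ^ (9 / 10 : ℝ) := by positivity
  unfold NN
  calc K * (n : ℝ) ^ (9 / 10 : ℝ) ≤ |K| * (n : ℝ) ^ (9 / 10 : ℝ) :=
        mul_le_mul_of_nonneg_right (le_abs_self K) h3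
    _ ≤ Real.log n * n := mul_le_mul hn h2 h3 ((abs_nonneg K).trans hn)
    _ = n * Real.log n := mul_comm _ _

lemma sum_xl {X : ℝ} (hX : 0 ≤ X) (i : ℕ) :
    ∑ j ∈ range i, xl X (j + 1) ≤ 200001 * xl X i := by
  have h3 : ∀ j, xl X (j + 1) = 200001 * xl X (j + 1) - 200001 * xl X j := by
    intro j
    rw [xl_succ]
    unfold theta
    ring
  calc ∑ j ∈ range i, xl X (j + 1) = ∑ j ∈ range i, (200001 * xl X (j + 1) - 200001 * xl X j) :=
        sum_congr rfl fun j _ => h3 j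
    _ = 200001 * xl X i - 200001 * xl X 0 := Finset.sum_range_sub (fun j => 200001 * xl X j) i
    _ ≤ 200001 * xl X i := by
        rw [xl_zero]; linarith

lemma quarter_pow {a : ℝ} (ha : 0 ≤ a) : (a ^ (4 : ℕ)) ^ (1 / 4 : ℝ) = a := by
  rw [← Real.rpow_natCast, ← Real.rpow_mul ha]; norm_num

lemma sum_quarter {X : ℝ} (hX : 0 < X) (i : ℕ) :
    ∑ j ∈ range i, 1 / (xl X j) ^ (1 / 4 : ℝ) ≤ 1000001 / X ^ (1 / 4 : ℝ) := by
  have h1 : (1 + 1 / 10 ^ 6 : ℝ) ≤ (1 + theta) ^ (1 / 4 : ℝ) := by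
    have h2 : ((1 + 1 / 10 ^ 6 : ℝ) ^ (4 : ℕ)) ≤ 1 + theta := by
      unfold theta; norm_num
    calc (1 + 1 / 10 ^ 6 : ℝ) = ((1 + 1 / 10 ^ 6 : ℝ) ^ (4 : ℕ)) ^ (1 / 4 : ℝ) :=
          (quarter_pow (by positivity)).symm
      _ ≤ (1 + theta) ^ (1 / 4 : ℝ) := Real.rpow_le_rpow (by positivity) h2 (by norm_num)
  have h3 : ∀ j, 1 / (xl X j) ^ (1 / 4 : ℝ) ≤
      1000001 / (xl X j) ^ (1 / 4 : ℝ) - 1000001 / (xl X (j + 1)) ^ (1 / 4 : ℝ) := by
    intro j
    have hx := xl_pos hX j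
    have hp : 0 < (xl X j) ^ (1 / 4 : ℝ) := Real.rpow_pos_of_pos hx _
    rw [xl_succ, Real.mul_rpow hx.le (by have := theta_pos; linarith)]
    set p := (xl X j) ^ (1 / 4 : ℝ) with hpdef
    set q := (1 + theta) ^ (1 / 4 : ℝ) with hq
    have hq0 : 0 < q := by linarith
    have h4 : 1000001 / (p * q) ≤ 1000000 / p := by
      rw [div_le_div_iff₀ (by positivity) hp]
      nlinarith [mul_le_mul_of_nonneg_left h1 hp.le]
    have h5 : 1000001 / p - 1000000 / p = 1 / p := by ring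
    linarith
  calc ∑ j ∈ range i, 1 / (xl X j) ^ (1 / 4 : ℝ)
      ≤ ∑ j ∈ range i, (1000001 / (xl X j) ^ (1 / 4 : ℝ) -
          1000001 / (xl X (j + 1)) ^ (1 / 4 : ℝ)) := sum_le_sum fun j _ => h3 j
    _ = 1000001 / (xl X 0) ^ (1 / 4 : ℝ) - 1000001 / (xl X i) ^ (1 / 4 : ℝ) :=
        Finset.sum_range_sub' (fun j => 1000001 / (xl X j) ^ (1 / 4 : ℝ)) i
    _ ≤ 1000001 / X ^ (1 / 4 : ℝ) := by
        rw [xl_zero]
        have : 0 ≤ 1000001 / (xl X i) ^ (1 / 4 : ℝ) :=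
          div_nonneg (by norm_num) (Real.rpow_nonneg (xl_pos hX i).le _)
        linarith

/-- the number of levels is small -/
lemma card_levels_le {X : ℝ} (hX : 1 ≤ X) (I : ℕ) : (I : ℝ) ≤ 200000 * xl X I := by
  have h1 : (1 : ℝ) + I * theta ≤ (1 + theta) ^ I :=
    one_add_mul_le_pow (by have := theta_pos; linarith) I
  have h2 : (1 + theta) ^ I ≤ xl X I := by
    unfold xl
    have : (0 : ℝ) ≤ (1 + theta) ^ I := by have := theta_pos; positivity
    nlinarith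
  have h3 : (I : ℝ) * theta = I / 200000 := by unfold theta; ring
  linarith

/-- the recursion -/
lemma rec_bound (I : ℕ) (a s : ℕ → ℝ) (A E : ℝ) (hA : 0 ≤ A) (hEA : E ≤ A)
    (hs : ∀ i, 0 ≤ s i) (ha : a I ≤ A)
    (hrec : ∀ i < I, a i ≤ Real.exp (s i) * a (i + 1) + E) (k : ℕ) (hk : k ≤ I) :
    a (I - k) ≤ Real.exp (∑ j ∈ Ico (I - k) I, s j) * ((k + 1) * A) := by
  induction k with
  | zero => simpa using ha
  | succ k ih =>
    have ih := ih (by omega)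
    have h1 := hrec (I - (k + 1)) (by omega)
    have h2 : I - (k + 1) + 1 = I - k := by omega
    rw [h2] at h1
    have h3 : ∑ j ∈ Ico (I - (k + 1)) I, s j = s (I - (k + 1)) + ∑ j ∈ Ico (I - k) I, s j := by
      rw [Finset.sum_eq_sum_Ico_succ_bot (by omega), h2]
    have h4 : (1 : ℝ) ≤ Real.exp (∑ j ∈ Ico (I - (k + 1)) I, s j) :=
      Real.one_le_exp (Finset.sum_nonneg fun j _ => hs j)
    calc a (I - (k + 1)) ≤ Real.exp (s (I - (k + 1))) * a (I - k) + E := h1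
      _ ≤ Real.exp (s (I - (k + 1))) *
            (Real.exp (∑ j ∈ Ico (I - k) I, s j) * ((k + 1) * A)) + E := by
          gcongr
      _ = Real.exp (∑ j ∈ Ico (I - (k + 1)) I, s j) * ((k + 1) * A) + E := by
          rw [h3, Real.exp_add]; ring
      _ ≤ Real.exp (∑ j ∈ Ico (I - (k + 1)) I, s j) * ((k + 1) * A) +
            Real.exp (∑ j ∈ Ico (I - (k + 1)) I, s j) * A := by
          have : E ≤ Real.exp (∑ j ∈ Ico (I - (k + 1)) I, s j) * A := by nlinarith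
          linarith
      _ = Real.exp (∑ j ∈ Ico (I - (k + 1)) I, s j) * (((k + 1 : ℕ) + 1) * A) := by
          push_cast; ring

/-- **Numerics of Multi**: the averaged energies stay below `exp(-(8/10) c₀ N*)`, and the number of
levels is negligible. -/
theorem multi_num (c0 : ℝ) (hc0 : 0 < c0) : ∃ X0 : ℝ, 1 ≤ X0 ∧ ∀ X ≥ X0, ∃ n0 : ℕ, ∀ n ≥ n0,
    ∀ I : ℕ, xl X I ≤ 2 * (n : ℝ) ^ (9 / 10 : ℝ) →
    (∀ a : ℕ → ℝ, a I ≤ Real.exp (-(9 / 10 * c0 * NN n)) →
      (∀ i < I, a i ≤ Real.exp (c0 * NN n / (xl X i) ^ (1 / 4 : ℝ) + 16 * xl X (i + 1)) * a (i + 1)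
        + Real.exp (-(95 / 100 * c0 * NN n))) →
      ∀ i ≤ I, a i ≤ Real.exp (-(8 / 10 * c0 * NN n))) ∧
    5 * ((I : ℝ) + 2) * Real.exp (-(c0 / 200 * NN n)) ≤ Real.exp (-(c0 / 400 * NN n)) := by
  refine ⟨50000000 ^ 4, by norm_num, fun X hX => ?_⟩
  have hX1 : (1 : ℝ) ≤ X := le_trans (by norm_num) hX
  have hX0 : 0 < X := by linarith
  have hX4 : (50000000 : ℝ) ≤ X ^ (1 / 4 : ℝ) := by
    calc (50000000 : ℝ) = ((50000000 : ℝ) ^ (4 : ℕ)) ^ (1 / 4 : ℝ) := by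
          rw [← Real.rpow_natCast, ← Real.rpow_mul (by norm_num)]; norm_num
      _ ≤ X ^ (1 / 4 : ℝ) := Real.rpow_le_rpow (by positivity) hX (by norm_num)
  obtain ⟨n0, hn0⟩ := eventually_atTop.mp
    ((ev_NN (10 ^ 10 / c0)).and (eventually_ge_atTop 1))
  refine ⟨n0, fun n hn I hI => ?_⟩
  obtain ⟨h1, hn1⟩ := hn0 n hn
  have hn1' : (1 : ℝ) ≤ n := by exact_mod_cast hn1
  have hp1 : (1 : ℝ) ≤ (n : ℝ) ^ (9 / 10 : ℝ) := Real.one_le_rpow hn1' (by norm_num)
  have h2 : 10 ^ 10 * (n : ℝ) ^ (9 / 10 : ℝ) ≤ c0 * NN n := by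
    have := mul_le_mul_of_nonneg_left h1 hc0.le
    calc 10 ^ 10 * (n : ℝ) ^ (9 / 10 : ℝ) = c0 * (10 ^ 10 / c0 * (n : ℝ) ^ (9 / 10 : ℝ)) := by
          field_simp
      _ ≤ _ := this
  have hNN : 0 ≤ c0 * NN n := le_trans (by positivity) h2
  have hI2 : (I : ℝ) ≤ 400000 * (n : ℝ) ^ (9 / 10 : ℝ) := by
    have := card_levels_le hX1 I
    linarith
  constructor
  · intro a haI hrec i hi
    set s : ℕ → ℝ := fun i => c0 * NN n / (xl X i) ^ (1 / 4 : ℝ) + 16 * xl X (i + 1) with hs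
    have hs0 : ∀ i, 0 ≤ s i := by
      intro i
      have h3 := xl_pos hX0 i
      have h4 := xl_pos hX0 (i + 1)
      have h5 : 0 ≤ c0 * NN n / (xl X i) ^ (1 / 4 : ℝ) :=
        div_nonneg hNN (Real.rpow_nonneg h3.le _)
      simp only [hs]
      linarith
    have hEA : Real.exp (-(95 / 100 * c0 * NN n)) ≤ Real.exp (-(9 / 10 * c0 * NN n)) := by
      rw [Real.exp_le_exp]; linarith
    have h3 := rec_bound I a s _ _ (Real.exp_pos _).le hEA hs0 haI hrec
      (I - i) (Nat.sub_le _ _)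
    have h4 : I - (I - i) = i := by omega
    rw [h4] at h3
    have h5 : ∑ j ∈ Ico i I, s j ≤ ∑ j ∈ range I, s j := by
      rw [Finset.range_eq_Ico]
      exact Finset.sum_le_sum_of_subset_of_nonneg (Finset.Ico_subset_Ico_left (Nat.zero_le _))
        fun j _ _ => hs0 j
    have h6 : ∑ j ∈ range I, s j ≤ 3 / 100 * (c0 * NN n) := by
      have h7 : ∑ j ∈ range I, s j = (c0 * NN n) * ∑ j ∈ range I, 1 / (xl X j) ^ (1 / 4 : ℝ) +
          16 * ∑ j ∈ range I, xl X (j + 1) := by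
        simp only [hs]
        rw [Finset.sum_add_distrib, Finset.mul_sum, Finset.mul_sum]
        congr 1
        refine Finset.sum_congr rfl fun j _ => ?_
        ring
      have h8 := sum_quarter hX0 I
      have h9 := sum_xl hX0.le I
      have h10 : 1000001 / X ^ (1 / 4 : ℝ) ≤ 21 / 1000 := by
        rw [div_le_iff₀ (by linarith)]
        linarith
      rw [h7]
      have h11 : (c0 * NN n) * ∑ j ∈ range I, 1 / (xl X j) ^ (1 / 4 : ℝ) ≤
          (c0 * NN n) * (21 / 1000) := mul_le_mul_of_nonneg_left (h8.trans h10) hNN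
      linarith
    have h7 : ((I - i : ℕ) : ℝ) + 1 ≤ Real.exp (1 / 100 * (c0 * NN n)) := by
      have h8 : ((I - i : ℕ) : ℝ) ≤ I := by exact_mod_cast Nat.sub_le _ _
      have h9 := Real.add_one_le_exp (1 / 100 * (c0 * NN n))
      linarith
    calc a i ≤ Real.exp (∑ j ∈ Ico i I, s j) *
          ((((I - i : ℕ) : ℝ) + 1) * Real.exp (-(9 / 10 * c0 * NN n))) := h3
      _ ≤ Real.exp (3 / 100 * (c0 * NN n)) *
          (Real.exp (1 / 100 * (c0 * NN n)) * Real.exp (-(9 / 10 * c0 * NN n))) := by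
          have h8 := Real.exp_le_exp.mpr (h5.trans h6)
          gcongr
      _ = Real.exp (3 / 100 * (c0 * NN n) + (1 / 100 * (c0 * NN n) + -(9 / 10 * c0 * NN n))) := by
          rw [Real.exp_add, Real.exp_add]
      _ ≤ Real.exp (-(8 / 10 * c0 * NN n)) := by
          rw [Real.exp_le_exp]; linarith
  · have h3 : 5 * ((I : ℝ) + 2) ≤ Real.exp (c0 / 400 * NN n) := by
      have h9 := Real.add_one_le_exp (c0 / 400 * NN n)
      linarith
    calc 5 * ((I : ℝ) + 2) * Real.exp (-(c0 / 200 * NN n))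
        ≤ Real.exp (c0 / 400 * NN n) * Real.exp (-(c0 / 200 * NN n)) :=
          mul_le_mul_of_nonneg_right h3 (Real.exp_pos _).le
      _ = Real.exp (-(c0 / 400 * NN n)) := by
          rw [← Real.exp_add]; congr 1; ring

end MultiN

end Crest.Agent.R225
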